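import Vale.Agent.P272.B0
import Vale.Agent.P271A.Brid

/-! P272, part B: the Dolbeault lemma for a closed (0,1)-form near a point. -/

open MeasureTheory Set Metric Filter Topology
open scoped ContDiff Real

noncomputable section

namespace Vale.Agent.P272

open Vale.Agent.P271 Vale.Agent.P271A

variable {n : ℕ}

theorem B1_bb {F : Cn n → ℂ} {z : Cn n} (h : ContDiffAt ℝ ∞ F z) (j k : Fin n) :
    dzb (Pi.single j 1) (dzb (Pi.single k 1) F) z =
      dzb (Pi.single k 1) (dzb (Pi.single j 1) F) z := by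
  have e : ∀ l : Fin n, dzb (Pi.single l 1) F = eX (bv l) F := fun l =>
    funext fun w => (Brid_bv l).symm
  rw [e, e, ← Brid_bv, ← Brid_bv, eX_comm h]

theorem B1_zb {F : Cn n → ℂ} {z : Cn n} (h : ContDiffAt ℝ ∞ F z) (j k : Fin n) :
    dz (Pi.single j 1) (dzb (Pi.single k 1) F) z =
      dzb (Pi.single k 1) (dz (Pi.single j 1) F) z := by
  have e : dzb (Pi.single k 1) F = eX (bv k) F := funext fun w => (Brid_bv k).symm
  have e' : dz (Pi.single j 1) F = eX (zv j) F := funext fun w => (Brid_zv j).symm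
  rw [e, e', ← Brid_bv, ← Brid_zv, eX_comm h]

theorem B1_sm_dzb {F : Cn n → ℂ} (h : ContDiff ℝ ∞ F) (ξ : Cn n) : ContDiff ℝ ∞ (dzb ξ F) :=
  contDiff_iff_contDiffAt.2 fun _ => Brid_contDiffAt_dzb h.contDiffAt

theorem B1_dzb_sub {F G : Cn n → ℂ} {z : Cn n} (ξ : Cn n) (hF : DifferentiableAt ℝ F z)
    (hG : DifferentiableAt ℝ G z) : dzb ξ (fun w => F w - G w) z = dzb ξ F z - dzb ξ G z := by
  unfold dzb
  rw [fderiv_fun_sub hF hG]
  simp only [sub_apply]
  ring

theorem B1_locInt : LocallyIntegrable (fun t : ℂ => t⁻¹) volume :=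
  locallyIntegrable_of_norm_le_rpow (C := 1) (α := 1) (by simp) (by simp)
    (Eventually.of_forall fun t => by rw [norm_inv, one_mul, Real.rpow_neg_one])
    measurable_inv.aestronglyMeasurable

/-- The shift along the coordinate `m`. -/
def B1S (m : Fin n) : Cn n × ℂ →L[ℝ] Cn n :=
  ContinuousLinearMap.fst ℝ (Cn n) ℂ +
    (ContinuousLinearMap.single ℝ (fun _ : Fin n => ℂ) m).comp (ContinuousLinearMap.snd ℝ (Cn n) ℂ)

theorem B1S_apply (m : Fin n) (z : Cn n) (t : ℂ) : B1S m (z, t) = z + Pi.single m t := rfl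

/-- The Cauchy transform in one variable. -/
theorem B1_cauchy (m : Fin n) {K : Cn n → ℂ} (hK : ContDiff ℝ ∞ K) {ρ : ℝ}
    (h0 : ∀ w : Cn n, ρ ≤ ‖w m‖ → K w = 0) :
    ∃ g : Cn n → ℂ, ContDiff ℝ ∞ g ∧ (∀ z, dzb (Pi.single m 1) g z = K z) ∧
      ∀ ξ z, (∀ t : ℂ, dzb ξ K (z + Pi.single m t) = 0) → dzb ξ g z = 0 := by
  have hG : ContDiff ℝ ∞ fun q : Cn n × ℂ => K (B1S m q) := hK.comp (B1S m).contDiff
  have hs : ∀ R : ℝ, ∃ R' : ℝ, ∀ (p : Cn n) (t : ℂ), ‖p‖ < R → R' < ‖t‖ →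
      (fun q : Cn n × ℂ => K (B1S m q)) (p, t) = 0 := by
    refine fun R => ⟨R + ρ, fun p t hp ht => h0 _ ?_⟩
    have h1 : ‖p m‖ ≤ ‖p‖ := norm_le_pi_norm p m
    have h2 : ‖t‖ ≤ ‖p m + t‖ + ‖p m‖ := by simpa using norm_sub_le (p m + t) (p m)
    rw [B1S_apply, Pi.add_apply, Pi.single_eq_same]
    linarith
  have hd : ∀ q v : Cn n × ℂ, fderiv ℝ (fun q : Cn n × ℂ => K (B1S m q)) q v =
      fderiv ℝ K (B1S m q) (B1S m v) := fun q v => by
    have := ((hK.differentiable (by simp) (B1S m q)).hasFDerivAt.comp q (B1S m).hasFDerivAt).fderiv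
    exact congrArg (fun L => L v) this
  have hI : ∀ (z v : Cn n), Integrable fun t : ℂ => t⁻¹ * fderiv ℝ K (z + Pi.single m t) v := by
    intro z v
    obtain ⟨R', hR⟩ := B0_supp (g := fun q : Cn n × ℂ => K (B1S m q)) hs (‖z‖ + 1)
    refine B0_int B1_locInt (R := R') (((hK.continuous_fderiv (by simp)).comp
      ((B1S m).continuous.comp (Continuous.prodMk_right z))).clm_apply continuous_const)
      fun t ht => ?_
    have h1 := hd (z, t) (v, 0)
    rw [hR z t (lt_add_one _) ht, B1S_apply, B1S_apply, Pi.single_zero, add_zero] at h1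
    exact h1.symm
  have hsm := B0_smooth B1_locInt hG hs
  have key : ∀ ξ z, dzb ξ (fun p => ∫ t : ℂ, t⁻¹ * K (B1S m (p, t))) z =
      ∫ t : ℂ, t⁻¹ * dzb ξ K (z + Pi.single m t) := by
    intro ξ z
    unfold dzb
    rw [B0_fderiv B1_locInt hG hs, B0_fderiv B1_locInt hG hs]
    simp only [hd, B1S_apply, Pi.single_zero, add_zero]
    rw [← integral_const_mul, ← integral_add (hI _ _) ((hI _ _).const_mul _), ← integral_div]
    refine integral_congr_ae (Eventually.of_forall fun t => ?_)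
    ring
  have hm : ∀ ξ z, dzb ξ (fun p => (-(π : ℂ)⁻¹) * ∫ t : ℂ, t⁻¹ * K (B1S m (p, t))) z =
      (-(π : ℂ)⁻¹) * ∫ t : ℂ, t⁻¹ * dzb ξ K (z + Pi.single m t) := by
    intro ξ z
    rw [dzb_mul (differentiableAt_const _) (hsm.differentiable (by simp) z), dzb_const, key,
      zero_mul, zero_add]
  refine ⟨fun p => (-(π : ℂ)⁻¹) * ∫ t : ℂ, t⁻¹ * K (B1S m (p, t)), contDiff_const.mul hsm,
    fun z => ?_, fun ξ z h => ?_⟩
  · rw [hm]
    have h1 : ContDiff ℝ ∞ fun t : ℂ => K (B1S m (z, t)) := hG.comp (contDiff_prodMk_right z)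
    obtain ⟨R', hR⟩ := hs (‖z‖ + 1)
    have h2 := B0_pomp (h1.of_le (by simp))
      (HasCompactSupport.intro (isCompact_closedBall (0 : ℂ) R') fun x hx =>
        hR z x (lt_add_one _) (not_le.1 fun h => hx (mem_closedBall_zero_iff.2 h)))
    have h3 : ∀ u v : ℂ, fderiv ℝ (fun t : ℂ => K (B1S m (z, t))) u v =
        fderiv ℝ K (z + Pi.single m u) (Pi.single m v) := by
      intro u v
      have h4 := (HasFDerivAt.comp (f := fun t : ℂ => (z, t)) u
        (hG.differentiable (by simp) (z, u)).hasFDerivAt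
        (hasFDerivAt_prodMk_right (𝕜 := ℝ) z u)).fderiv
      refine (congrArg (fun L => L v) h4).trans ?_
      simp only [ContinuousLinearMap.comp_apply, ContinuousLinearMap.inr_apply, hd, B1S_apply,
        zero_add]
    have h5 : ∫ t : ℂ, t⁻¹ * dzb (Pi.single m 1) K (z + Pi.single m t) = -π * K z := by
      simp only [h3] at h2
      simp only [smul_eq_mul, B1S_apply, Pi.single_zero, add_zero] at h2
      have h6 : ∀ t : ℂ, t⁻¹ * dzb (Pi.single m 1) K (z + Pi.single m t) =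
          t⁻¹ * (fderiv ℝ K (z + Pi.single m t) (Pi.single m 1) +
            Complex.I * fderiv ℝ K (z + Pi.single m t) (Pi.single m Complex.I)) / 2 := by
        intro t
        rw [dzb, Brid_single m Complex.I]
        ring
      simp only [h6]
      rw [integral_div, h2]
      ring
    have hπ : (π : ℂ) ≠ 0 := Complex.ofReal_ne_zero.2 Real.pi_ne_zero
    rw [h5]
    field_simp
  · rw [hm]
    simp only [h, mul_zero, integral_zero]

theorem B1_step (m : Fin n) {a : Cn n → ℂ} (ha : ContDiff ℝ ∞ a) {r : ℝ} (hr : 0 < r) :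
    ∃ g : Cn n → ℂ, ContDiff ℝ ∞ g ∧ (∀ z ∈ ball (0 : Cn n) (r / 2), dzb (Pi.single m 1) g z = a z) ∧
      ∀ l, l ≠ m → (∀ z ∈ ball (0 : Cn n) r, dzb (Pi.single l 1) a z = 0) →
        ∀ z ∈ ball (0 : Cn n) r, dzb (Pi.single l 1) g z = 0 := by
  let χ : ContDiffBump (0 : ℂ) := ⟨r / 2, r, half_pos hr, half_lt_self hr⟩
  let P : Cn n →L[ℝ] ℂ := ContinuousLinearMap.proj m
  have hc : ContDiff ℝ ∞ fun t : ℂ => (χ t : ℂ) := Complex.ofRealCLM.contDiff.comp χ.contDiff
  have hχ : ContDiff ℝ ∞ fun w : Cn n => (χ (P w) : ℂ) := hc.comp P.contDiff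
  have h0 : ∀ w : Cn n, r ≤ ‖w m‖ → χ (P w) = 0 := fun w hw =>
    χ.zero_of_le_dist (by rw [dist_zero_right]; exact hw)
  obtain ⟨g, hg, h1, h2⟩ := B1_cauchy m (hχ.mul ha) (ρ := r) fun w hw => by
    rw [h0 w hw, Complex.ofReal_zero, zero_mul]
  refine ⟨g, hg, fun z hz => ?_, fun l hl hz z hzr => h2 _ z fun t => ?_⟩
  · have h3 : χ (P z) = 1 := χ.one_of_mem_closedBall (mem_closedBall_zero_iff.2
      ((norm_le_pi_norm z m).trans (mem_ball_zero_iff.1 hz).le))
    rw [h1, h3, Complex.ofReal_one, one_mul]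
  · have h3 : ∀ w v : Cn n, v m = 0 → fderiv ℝ (fun w : Cn n => (χ (P w) : ℂ)) w v = 0 := by
      intro w v hv
      have h4 := ((hc.differentiable (by simp) (P w)).hasFDerivAt.comp w P.hasFDerivAt).fderiv
      refine (congrArg (fun L => L v) h4).trans ?_
      have h5 : P v = 0 := hv
      simp only [ContinuousLinearMap.comp_apply, h5, map_zero]
    have h4 : ∀ w, dzb (Pi.single l 1) (fun w : Cn n => (χ (P w) : ℂ)) w = 0 := by
      intro w
      rw [dzb, h3 _ _ (Pi.single_eq_of_ne hl.symm _), h3 _ _ (by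
        rw [Pi.smul_apply, Pi.single_eq_of_ne hl.symm, smul_zero])]
      simp
    rw [dzb_mul (hχ.differentiable (by simp) _) (ha.differentiable (by simp) _), h4, zero_mul,
      zero_add]
    by_cases h5 : r ≤ ‖(z + Pi.single m t : Cn n) m‖
    · rw [h0 _ h5, Complex.ofReal_zero, zero_mul]
    · rw [hz _ (mem_ball_zero_iff.2 ((pi_norm_lt_iff hr).2 fun i => ?_)), mul_zero]
      by_cases hi : i = m
      · rw [hi]
        exact not_le.1 h5
      · rw [Pi.add_apply, Pi.single_eq_of_ne hi, add_zero]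
        exact (norm_le_pi_norm z i).trans_lt (mem_ball_zero_iff.1 hzr)

theorem B1_ind (m : ℕ) : ∀ (α : Fin n → Cn n → ℂ) (r : ℝ), 0 < r → (∀ j, ContDiff ℝ ∞ (α j)) →
    (∀ j k, ∀ z ∈ ball (0 : Cn n) r,
      dzb (Pi.single j 1) (α k) z = dzb (Pi.single k 1) (α j) z) →
    (∀ j : Fin n, m ≤ j → ∀ z ∈ ball (0 : Cn n) r, α j z = 0) →
    ∃ (u : Cn n → ℂ) (r' : ℝ), 0 < r' ∧ ContDiff ℝ ∞ u ∧
      ∀ j, ∀ z ∈ ball (0 : Cn n) r', dzb (Pi.single j 1) u z = α j z := by
  induction m with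
  | zero =>
    intro α r hr _ _ h0
    exact ⟨fun _ => 0, r, hr, contDiff_const, fun j z hz => by
      rw [dzb_const, h0 j (Nat.zero_le _) z hz]⟩
  | succ m ih =>
    intro α r hr hα hc h0
    by_cases hm : m < n
    · obtain ⟨g, hg, h1, h2⟩ := B1_step ⟨m, hm⟩ (hα ⟨m, hm⟩) hr
      have hb : ball (0 : Cn n) (r / 2) ⊆ ball 0 r := ball_subset_ball (half_le_self hr.le)
      have hd := fun j : Fin n => B1_sm_dzb hg (Pi.single j 1)
      obtain ⟨u, r', hr', hu, h3⟩ := ih (fun j z => α j z - dzb (Pi.single j 1) g z) (r / 2)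
        (half_pos hr) (fun j => (hα j).sub (hd j))
        (fun j k z hz => by
          rw [B1_dzb_sub _ ((hα k).differentiable (by simp) z) ((hd k).differentiable (by simp) z),
            B1_dzb_sub _ ((hα j).differentiable (by simp) z) ((hd j).differentiable (by simp) z),
            hc j k z (hb hz), B1_bb hg.contDiffAt])
        (fun j hj z hz => by
          rcases hj.eq_or_lt with h | h
          · have e : j = ⟨m, hm⟩ := Fin.ext h.symm
            rw [e, h1 z hz, sub_self]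
          · rw [h0 j h z (hb hz), h2 j (fun e => by rw [e] at h; exact lt_irrefl _ h)
              (fun w hw => ?_) z (hb hz), sub_zero]
            rw [hc _ _ w hw, dzb_congr (G := fun _ => 0), dzb_const]
            filter_upwards [isOpen_ball.mem_nhds hw] with y hy using h0 j h y hy)
      refine ⟨fun z => u z + g z, r', hr', hu.add hg, fun j z hz => ?_⟩
      rw [dzb_add (hu.differentiable (by simp) z) (hg.differentiable (by simp) z), h3 j z hz,
        sub_add_cancel]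
    · exact ih α r hr hα hc fun j hj => absurd (hj.trans_lt j.2) hm

/-- The Dolbeault lemma. -/
theorem B1_dolb {α : Fin n → Cn n → ℂ} {r : ℝ} (hr : 0 < r) (hα : ∀ j, ContDiff ℝ ∞ (α j))
    (hc : ∀ j k, ∀ z ∈ ball (0 : Cn n) r,
      dzb (Pi.single j 1) (α k) z = dzb (Pi.single k 1) (α j) z) :
    ∃ (u : Cn n → ℂ) (r' : ℝ), 0 < r' ∧ ContDiff ℝ ∞ u ∧
      ∀ j, ∀ z ∈ ball (0 : Cn n) r', dzb (Pi.single j 1) u z = α j z :=
  B1_ind n α r hr hα hc fun j hj => absurd j.2 (not_lt.2 hj)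

end Vale.Agent.P272
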