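import Vale.Agent.P272.ALPq

/-! P272, part A1: local regularity.
`reg_loc`: `Lop A 0 (θ V) = θ g + 2 ∑ A i j * pd i θ * pd j V + V * ct A (hs θ) - eu (θ V)` (`ct_hs_mul`) and
`eu (θ V) = ∑ i, (x i * pd i θ) * V + (x i * θ) * pd i V` (`Tf.coord`, `Tf.pd`), all in `Hk k`; apply
`reg_lin` (`Hk.mk`), then `hk_of_hs`. `reg_high`: with `B = G + Pq J (hs W)`, differentiate the equation
near a point with `θ x ≠ 0` (`logdet_diff`, `pd_congr`, `pd_Pq_hs`, `ct_Pq`):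
`ct (Pq Jᵀ B⁻¹) (hs (pd e W)) = pd e f - ct B⁻¹ (pd e G)`; `Hk.inv`, `ell_inv`, `Pq_ell`, `reg_loc` at level `k + 1`
for `V = pd e W`; finally `pd e (θ W) = pd e θ * W + θ * pd e W`. -/

set_option linter.unusedSectionVars false

open MeasureTheory Set Filter Topology Metric Matrix
open scoped ContDiff ComplexConjugate ComplexOrder

noncomputable section

namespace Vale.Agent.P272.AL

open Vale.Agent.P271 Vale.Agent.P227

variable {m k : ℕ} {f g θ V W : E m → ℝ} {A B G : E m → Mat m} {J : Mat m} {a b c K N M : ℝ}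

theorem ALReg_c2 (h : Hk 2 f) : C2 f := ⟨h.2.1, fun i => (h.2.2 i).2.1⟩

theorem reg_loc (hc : 0 < c) (hA : Ell A c) (hk : ∀ i j, Hk k fun x => A x i j) (hθ : Tf θ)
    (hV : Hk (k + 1) V) (hV2 : Hk 2 V) (hg : Hk k g)
    (he : ∀ x, θ x ≠ 0 → ct (A x) (hs V x) = g x) : Hk (k + 2) fun x => θ x * V x := by
  have h2 : Hk 2 fun x => θ x * V x := (hθ.hk 2).mul hV2
  obtain ⟨M, -, hM⟩ := exists_HM fun i j => (hk_hs (k := 0) h2 i j).hn
  have h3 : Hk k fun x => θ x * g x + 2 * ∑ i, ∑ j, A x i j * pd i θ x * pd j V x +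
      V x * ct (A x) (hs θ x) - ∑ i, (x i * pd i θ x * V x + x i * θ x * pd i V x) :=
    ((((hθ.hk k).mul hg).add ((Hk.sum _ fun i _ => Hk.sum _ fun j _ =>
      ((hk i j).mul ((hθ.pd i).hk k)).mul (hV.2.2 j)).const_mul 2)).add
      (hV.of_succ.mul (hk_ct hk (hk_hs (hθ.hk _))))).sub (Hk.sum _ fun i _ =>
        ((((hθ.pd i).coord i).hk k).mul hV.of_succ).add (((hθ.coord i).hk k).mul (hV.2.2 i)))
  refine hk_of_hs h2.one (ALReg_c2 h2)
    (reg_lin k (κ := 0) hc hA hk h3.mk (ALReg_c2 h2) ⟨M, hM⟩ fun x => ?_)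
  have h4 := ct_hs_mul (hA x).1 (ALReg_c2 (hθ.hk 2)) (ALReg_c2 hV2) x
  have h5 : θ x * ct (A x) (hs V x) = θ x * g x := by
    by_cases h : θ x = 0
    · rw [h, zero_mul, zero_mul]
    · rw [he x h]
  rw [← h5, ← h4, Lop, zero_mul, add_zero, eu]
  refine congrArg (_ - ·) (Finset.sum_congr rfl fun i _ => ?_)
  rw [pd_mul (hθ.hk 1).2.1 hV.2.1]
  ring

theorem reg_high {S : Set (E m)} (hc : 0 < c) (hθ : Tf θ) (hS : Near θ S)
    (hG : ∀ i j, Hk (k + 2) fun x => G x i j) (hW : Hk (k + 3) W)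
    (hE : Ell (fun x => G x + Pq J (hs W x)) c) (hf : Hk (k + 2) f)
    (he : ∀ x ∈ S, Real.log (G x + Pq J (hs W x)).det = f x) :
    Hk (k + 4) fun x => θ x * W x := by
  have hP := Pq_hk J (hk_hs (k := k + 1) hW)
  have hB : ∀ i j, Hk (k + 1) fun x => (G x + Pq J (hs W x)) i j := fun i j =>
    (hG i j).of_succ.add (hP i j)
  have hI := Hk.inv hE hc hB
  obtain ⟨K, -, hK⟩ := exists_HM fun i j => (hB i j).hn
  obtain ⟨c', K', hc', hE', -⟩ := hE.inv hc hK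
  obtain ⟨δ, hδ, hS⟩ := hS
  have h0 := (hθ.hk _).mul hW
  refine ⟨h0.1, h0.2.1, fun e => ?_⟩
  rw [pd_mul (hθ.hk 1).2.1 hW.2.1]
  refine (((hθ.pd e).hk _).mul hW).add (reg_loc (k := k + 1) (div_pos hc' four_pos)
    (Pq_ell Jᵀ hc'.le hE') (Pq_hk Jᵀ hI) hθ (hW.2.2 e) (hk_of_le (hW.2.2 e) (by omega))
    ((hf.2.2 e).sub (hk_ct (B := fun x => Matrix.of fun i j => pd e (fun y => G y i j) x) hI
      fun i j => (hG i j).2.2 e)) fun x hx => ?_)
  have h1 : (fun y => Real.log (G y + Pq J (hs W y)).det) =ᶠ[𝓝 x] f :=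
    Filter.mem_of_superset (closedBall_mem_nhds x hδ) fun y hy => he y (by
      simpa using hS x hx (y - x) (mem_closedBall_iff_norm.1 hy))
  have h2 := (pd_congr h1 e).eq_of_nhds
  rw [(logdet_diff (hE.posDef hc) fun i j => (hB i j).2.1).2 e] at h2
  rw [← h2, ← ct_Pq, eq_sub_iff_add_eq', ← ct_add]
  refine Finset.sum_congr rfl fun i _ => Finset.sum_congr rfl fun j _ => ?_
  rw [Matrix.add_apply, ← pd_Pq_hs J (hk_of_le hW (by omega))]
  exact congrArg _ (congrFun (pd_add (hG i j).2.1 (hP i j).2.1) x).symm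

end Vale.Agent.P272.AL
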