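import Vale.Agent.P272.ALPar
import Vale.Agent.P272.ALReg

/-! P272, part A1: the linear equation on `X`.
`op_reg`: induction on `k` for `∀ b, Hk (k + 2) (lz (ρ b) b u)`; `lz (ρ a) a u = ρ' * lz (ψ a) a u` (`lz_mul`),
`reg_loc` with right side `lam * lz (ψ a) a u + lz (ψ a) a g` (`hk_lz`, `lz_ne`, `lz_ra`); `sm_of_hk`.
`op_lim`: `nk_lim`, `Op.eq` for each `W j`, `tendsto_nhds_unique`, `UF_le`, `op_reg`.
`op_solve_lam`: iterate `op_param` (`g₀ = g`, `g (j + 1) = -(D u j - lam u j - g j)`), partial sums of the `u j`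
have norm at most `2 C₀ N` and residual at most `N / 2 ^ j`. `op_max`: a maximum and a minimum point.
`op_solve`: `W 0 = 0`, `D W (j + 1) - lam W (j + 1) = g - (lam - 1) W j`; `|W j| ≤ N` and
`|W (j + 1) - W j| ≤ 2 N ((lam - 1) / lam) ^ j` by `op_max`; `Nk C 2 (W j) (C₁ N)` by induction with `nk_interp`
(`ε = 1 / (2 C₀ lam)`). -/

set_option linter.unusedSectionVars false

open MeasureTheory Set Filter Topology Metric Matrix
open scoped ContDiff ComplexConjugate ComplexOrder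

noncomputable section

namespace Vale.Agent.P272.AL

open Vale.Agent.P271 Vale.Agent.P227

variable {n : ℕ} {X : Type} [TopologicalSpace X] [T2Space X] [CompactSpace X]
  [MeasurableSpace X] {M : Model n X} {C : Cut M} {a b : M.ι} {θ θ' u v w g : X → ℝ} {p : X}
  {k : ℕ} {c K N s : ℝ} {A G : M.ι → E (n + n) → Mat (n + n)} {D : (X → ℝ) → X → ℝ}
  {η : Frm M.toAtl}

theorem op_reg {lam : ℝ} (hc : 0 < c) (h : Op C c K A D) (hu : Nk C 2 u N) (hg : M.Sm g)
    (he : ∀ a, ∀ p ∈ tsupport (C.χ a),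
      ct (A a (ra M a p)) (hz C a u (ra M a p)) = lam * u p + g p) : M.Sm u := by
  have h1 : ∀ b p, M.ρ b p ≠ 0 → C.ψ b p = 1 := fun b p hp =>
    C.psi_one (by rw [C.chi_one hp]; exact one_ne_zero)
  have key : ∀ k b, Hk (k + 2) (lz M (M.ρ b) b u) := by
    intro k
    induction k with
    | zero => exact fun b => hu.hk (bump_rho M b)
    | succ k ih =>
      intro b
      have hV := hk_lz C ih (C.bψ b)
      obtain ⟨N1, g1⟩ := hk_iff.1 (hk_of_le hV (by omega : k + 1 ≤ k + 2))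
      obtain ⟨N2, g2⟩ := hk_iff.1 ((lz_tf (C.bψ b) hg).hk (k + 1))
      rw [lz_mul (h1 b) b u]
      refine reg_loc hc (h.ell b) (h.hk b _) (lz_tf (bump_rho M b) (sm_const M 1)) hV
        (hk_of_le hV (by omega)) ((g1.const_mul lam).add g2).hk fun x hx => ?_
      obtain ⟨p, hp, h2, rfl⟩ := lz_ne hx
      rw [lz_ra hp, lz_ra hp, h1 b p h2, one_mul, one_mul]
      exact he b p (C.rho_sub b (subset_tsupport _ h2))
  exact sm_of_hk C fun k b => hk_of_le (key k b) (by omega)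

theorem op_lim {lam : ℝ} {W : ℕ → X → ℝ} (hc : 0 < c) (h : Op C c K A D) (hW : ∀ j, M.Sm (W j))
    (hN : ∀ j, Nk C 2 (W j) N) (hg : M.Sm g)
    (hl : ∀ p, Tendsto (fun j => D (W j) p - lam * W j p) atTop (𝓝 (g p))) :
    ∃ u, M.Sm u ∧ Nk C 2 u N ∧ ∀ p, D u p - lam * u p = g p := by
  obtain ⟨u, hu, h1, h2⟩ := nk_lim hN
  have he : ∀ a, ∀ p ∈ tsupport (C.χ a),
      ct (A a (ra M a p)) (hz C a u (ra M a p)) = lam * u p + g p := fun a p hp => by
    have t1 : Tendsto (fun j => ct (A a (ra M a p)) (hz C a (W j) (ra M a p))) UF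
        (𝓝 (ct (A a (ra M a p)) (hz C a u (ra M a p)))) :=
      tendsto_finsetSum _ fun i _ => tendsto_finsetSum _ fun l _ => (h2 a _ i l).const_mul _
    have t2 := (hl p).mono_left UF_le
    simp only [fun j => h.eq (W j) (hW j) a p hp] at t2
    have := tendsto_nhds_unique (t1.sub ((h1 p).const_mul lam)) t2
    linarith
  have hs := op_reg hc h hu hg he
  refine ⟨u, hs, hu, fun p => ?_⟩
  obtain ⟨a, ha⟩ := exists_rho M p
  rw [h.eq u hs a p (C.rho_sub a ha), he a p (C.rho_sub a ha)]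
  ring

theorem ALLin_tendsto {F : ℕ → ℝ} {y q B : ℝ} (h0 : 0 ≤ q) (h1 : q < 1)
    (h : ∀ j, |F j - y| ≤ B * q ^ j) : Tendsto F atTop (𝓝 y) := by
  have t := (tendsto_pow_atTop_nhds_zero_of_lt_one h0 h1).const_mul B
  rw [mul_zero] at t
  exact tendsto_iff_norm_sub_tendsto_zero.2 (squeeze_zero (fun _ => norm_nonneg _) h t)

theorem op_solve_lam (hn : 0 < n) (C : Cut M) (hc : 0 < c) (hK : 0 ≤ K) :
    ∃ lam C₀ : ℝ, 1 ≤ lam ∧ 0 < C₀ ∧ ∀ A D, Op C c K A D → ∀ (g : X → ℝ) (N : ℝ), 0 ≤ N → M.Sm g →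
      Nk C 0 g N → ∃ u, M.Sm u ∧ Nk C 2 u (C₀ * N) ∧ ∀ p, D u p - lam * u p = g p := by
  obtain ⟨lam, C₀, hl, hC, H⟩ := op_param hn C hc hK
  refine ⟨lam, 2 * C₀, hl, by positivity, fun A D h g N hN hg hgN => ?_⟩
  have key : ∀ j : ℕ, ∃ W, M.Sm W ∧ Nk C 2 W (2 * C₀ * N * (1 - (1 / 2) ^ j)) ∧
      Nk C 0 (fun p => D W p - lam * W p - g p) (N * (1 / 2) ^ j) := by
    intro j
    induction j with
    | zero =>
      refine ⟨fun _ => 0, sm_const M 0, nk_zero C 2 (by simp), ?_⟩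
      have e : (fun p => D (fun _ => 0) p - lam * 0 - g p) = fun p => -1 * g p := by
        funext p
        rw [h.zero (sm_const M 0) EventuallyEq.rfl]
        ring
      rw [e]
      exact (hgN.const_mul (-1)).mono (by simp)
    | succ j ih =>
      obtain ⟨W, h1, h2, h3⟩ := ih
      obtain ⟨u, g1, g2, g3⟩ := H A D h (fun p => -1 * (D W p - lam * W p - g p))
        (N * (1 / 2) ^ j) (by positivity)
        (sm_mul (sm_const M _) (sm_sub (sm_sub (h.sm W h1) (sm_mul (sm_const M _) h1)) hg))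
        ((h3.const_mul (-1)).mono (by simp))
      refine ⟨fun p => W p + u p, sm_add h1 g1, (h2.add g2).mono (le_of_eq (by ring)), ?_⟩
      have e : (fun p => D (fun p => W p + u p) p - lam * (W p + u p) - g p) =
          fun p => D u p - lam * u p - -1 * (D W p - lam * W p - g p) := by
        funext p
        rw [h.add h1 g1]
        ring
      rw [e]
      exact g3.mono (le_of_eq (by ring))
  choose W h1 h2 h3 using key
  refine op_lim hc h h1 (fun j => (h2 j).mono ?_) hg fun p =>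
    ALLin_tendsto (by norm_num) (by norm_num) fun j => (h3 j).abs_le p
  have : 0 ≤ 2 * C₀ * N * (1 / 2) ^ j := by positivity
  linarith

theorem ALLin_max {lam : ℝ} (h : Op C c K A D) (hl : 0 < lam) (hu : M.Sm u)
    (he : ∀ p, -s ≤ D u p - lam * u p) (p : X) : u p ≤ s / lam := by
  obtain ⟨q, -, hq⟩ := isCompact_univ.exists_isMaxOn ⟨p, mem_univ p⟩ hu.continuous.continuousOn
  have h1 := h.max u hu q fun y => hq (mem_univ y)
  have h2 : u p ≤ u q := hq (mem_univ p)
  refine h2.trans ?_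
  rw [le_div_iff₀ hl]
  linarith [he q]

theorem op_max {lam : ℝ} (h : Op C c K A D) (hl : 0 < lam) (hu : M.Sm u)
    (he : ∀ p, |D u p - lam * u p| ≤ s) (p : X) : |u p| ≤ s / lam := by
  have h1 := ALLin_max h hl hu (fun q => (abs_le.1 (he q)).1) p
  have h2 := ALLin_max (s := s) h hl (sm_mul (sm_const M (-1)) hu) (fun q => by
    rw [h.const_mul hu]
    linarith [(abs_le.1 (he q)).2]) p
  exact abs_le.2 ⟨by linarith, h1⟩

theorem op_solve (hn : 0 < n) (C : Cut M) (hc : 0 < c) (hK : 0 ≤ K) :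
    ∃ C₀ : ℝ, 0 < C₀ ∧ ∀ A D, Op C c K A D → ∀ (g : X → ℝ) (N : ℝ), 0 ≤ N → M.Sm g →
      Nk C 0 g N → ∃ u, M.Sm u ∧ Nk C 2 u (C₀ * N) ∧ ∀ p, D u p - u p = g p := by
  obtain ⟨lam, C₀, hl, hC, H⟩ := op_solve_lam hn C hc hK
  have l0 : 0 < lam := by linarith
  have l1 : 0 ≤ lam - 1 := by linarith
  obtain ⟨C₂, hC₂, hI⟩ := nk_interp C (ε := 1 / (2 * C₀ * lam)) (by positivity)
  refine ⟨2 * C₀ * (1 + lam * C₂), by positivity, fun A D h g N hN hg hgN => ?_⟩
  have key : ∀ j : ℕ, ∃ W, M.Sm W ∧ Nk C 2 W (2 * C₀ * (1 + lam * C₂) * N) ∧ (∀ p, |W p| ≤ N) ∧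
      ∀ p, |D W p - 1 * W p - g p| ≤ N * ((lam - 1) / lam) ^ j := by
    intro j
    induction j with
    | zero =>
      refine ⟨fun _ => 0, sm_const M 0, nk_zero C 2 (by positivity), fun _ => by simpa using hN,
        fun p => ?_⟩
      rw [h.zero (sm_const M 0) EventuallyEq.rfl]
      simpa using hgN.abs_le p
    | succ j ih =>
      obtain ⟨W, h1, h2, h3, h4⟩ := ih
      have h5 := hgN.sub ((hI W _ N (by positivity) hN h2 h3).const_mul (lam - 1))
      rw [abs_of_nonneg l1] at h5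
      obtain ⟨u, g1, g2, g3⟩ := H A D h _ _ (by positivity)
        (sm_sub hg (sm_mul (sm_const M _) h1)) h5
      refine ⟨u, g1, g2.mono ?_, fun p => ?_, fun p => ?_⟩
      · have e : C₀ * (N + (lam - 1) * (1 / (2 * C₀ * lam) * (2 * C₀ * (1 + lam * C₂) * N) +
            C₂ * N)) = 2 * C₀ * (1 + lam * C₂) * N - C₀ * (1 / lam + 2 * C₂) * N := by
          field_simp
          ring
        have : 0 ≤ C₀ * (1 / lam + 2 * C₂) * N := by positivity
        linarith
      · refine (op_max (s := lam * N) h l0 g1 (fun q => ?_) p).trans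
          (le_of_eq (mul_div_cancel_left₀ N l0.ne'))
        rw [g3]
        refine (abs_sub _ _).trans ?_
        rw [abs_mul, abs_of_nonneg l1]
        linarith [hgN.abs_le q, mul_le_mul_of_nonneg_left (h3 q) l1]
      · have h6 := op_max (s := N * ((lam - 1) / lam) ^ j) h l0 (sm_sub g1 h1) (fun q => by
          rw [h.sub g1 h1, ← abs_neg]
          refine le_trans (le_of_eq ?_) (h4 q)
          congr 1
          linarith [g3 q]) p
        have e : D u p - 1 * u p - g p = (lam - 1) * (u p - W p) := by linarith [g3 p]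
        rw [e, abs_mul, abs_of_nonneg l1]
        refine (mul_le_mul_of_nonneg_left h6 l1).trans (le_of_eq ?_)
        ring
  choose W h1 h2 _ h4 using key
  obtain ⟨u, g1, g2, g3⟩ := op_lim (lam := 1) hc h h1 h2 hg fun p =>
    ALLin_tendsto (by positivity) ((div_lt_one l0).2 (by linarith)) fun j => h4 j p
  exact ⟨u, g1, g2, fun p => by rw [← g3 p, one_mul]⟩

end Vale.Agent.P272.AL
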