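import Vale.Agent.P272.Defs

/-! P272: inequalities for Hermitian matrices. -/

open MeasureTheory Set Filter Topology Metric Matrix
open scoped ContDiff ComplexConjugate ComplexOrder

noncomputable section

namespace Vale.Agent.P272

open Vale.Agent.P271

variable {n : ℕ} {A B C : Mx n}

theorem Mat_det_conj (A D : Mx n) : (Dᴴ * A * D).det = (‖D.det‖ ^ 2 : ℝ) * A.det := by
  rw [det_mul, det_mul, det_conjTranspose, Complex.star_def, mul_right_comm, Complex.conj_mul']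
  push_cast
  rfl

theorem Mat_trace_conj {D : Mx n} (hD : D.det ≠ 0) (A B : Mx n) :
    ((Dᴴ * A * D)⁻¹ * (Dᴴ * B * D)).trace = (A⁻¹ * B).trace := by
  have h1 : IsUnit D.det := isUnit_iff_ne_zero.2 hD
  have h2 : IsUnit Dᴴ.det := by
    rw [det_conjTranspose]; exact h1.star
  rw [Matrix.mul_inv_rev, Matrix.mul_inv_rev]
  have e : D⁻¹ * (A⁻¹ * Dᴴ⁻¹) * (Dᴴ * B * D) = D⁻¹ * (A⁻¹ * B) * D := by
    simp only [Matrix.mul_assoc]
    rw [Matrix.nonsing_inv_mul_cancel_left _ _ h2]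
  rw [e, trace_mul_cycle, Matrix.mul_nonsing_inv _ h1, Matrix.one_mul]

/-- Real diagonal matrices. -/
def MatDg (l : Fin n → ℝ) : Mx n := diagonal fun i => (l i : ℂ)

theorem Mat_psd {D : Mx n} (hD : D.det ≠ 0) (l : Fin n → ℝ) :
    (Dᴴ * MatDg l * D).PosSemidef ↔ ∀ i, 0 ≤ l i := by
  have h : IsUnit D := (isUnit_iff_isUnit_det D).2 (isUnit_iff_ne_zero.2 hD)
  rw [← star_eq_conjTranspose, h.posSemidef_star_left_conjugate_iff, MatDg,
    posSemidef_diagonal_iff]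
  simp

theorem Mat_pd {D : Mx n} (hD : D.det ≠ 0) (l : Fin n → ℝ) :
    (Dᴴ * MatDg l * D).PosDef ↔ ∀ i, 0 < l i := by
  have h : IsUnit D := (isUnit_iff_isUnit_det D).2 (isUnit_iff_ne_zero.2 hD)
  rw [← star_eq_conjTranspose, h.posDef_star_left_conjugate_iff, MatDg, posDef_diagonal_iff]
  simp

theorem Mat_det (D : Mx n) (l : Fin n → ℝ) :
    (Dᴴ * MatDg l * D).det.re = ‖D.det‖ ^ 2 * ∏ i, l i := by
  rw [Mat_det_conj, MatDg, det_diagonal, ← Complex.ofReal_prod, ← Complex.ofReal_mul,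
    Complex.ofReal_re]

theorem Mat_trace {D : Mx n} (hD : D.det ≠ 0) {k : Fin n → ℝ} (hk : ∀ i, 0 < k i)
    (l : Fin n → ℝ) :
    ((Dᴴ * MatDg k * D)⁻¹ * (Dᴴ * MatDg l * D)).trace.re = ∑ i, l i / k i := by
  have e : (MatDg k)⁻¹ = MatDg fun i => (k i)⁻¹ := by
    refine Matrix.inv_eq_left_inv ?_
    rw [MatDg, MatDg, diagonal_mul_diagonal, ← diagonal_one]
    congr 1
    funext i
    rw [← Complex.ofReal_mul, inv_mul_cancel₀ (hk i).ne', Complex.ofReal_one]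
  rw [Mat_trace_conj hD, e, MatDg, MatDg, diagonal_mul_diagonal, trace_diagonal, Complex.re_sum]
  refine Finset.sum_congr rfl fun i _ => ?_
  rw [← Complex.ofReal_mul, Complex.ofReal_re, div_eq_inv_mul]

theorem Mat_comb (D : Mx n) (k l : Fin n → ℝ) (s t : ℝ) :
    (s : ℂ) • (Dᴴ * MatDg k * D) + (t : ℂ) • (Dᴴ * MatDg l * D) =
      Dᴴ * MatDg (fun i => s * k i + t * l i) * D := by
  have e : MatDg (fun i => s * k i + t * l i) = (s : ℂ) • MatDg k + (t : ℂ) • MatDg l := by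
    rw [MatDg, MatDg, MatDg, ← diagonal_smul, ← diagonal_smul, diagonal_add]
    congr 1
    funext i
    simp
  rw [e]
  simp only [Matrix.mul_add, Matrix.add_mul, Matrix.mul_smul, Matrix.smul_mul]

open scoped MatrixOrder in
theorem Mat_root (hA : A.PosSemidef) : ∃ y : Mx n, A = yᴴ * y :=
  CStarAlgebra.nonneg_iff_eq_star_mul_self.mp hA.nonneg

theorem Mat_simul (hA : A.PosDef) (hB : B.IsHermitian) : ∃ (D : Mx n) (l : Fin n → ℝ),
    D.det ≠ 0 ∧ A = Dᴴ * MatDg (fun _ => 1) * D ∧ B = Dᴴ * MatDg l * D := by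
  obtain ⟨y, rfl⟩ := Mat_root hA.posSemidef
  have h1 : IsUnit y.det := by
    have := hA.det_pos.ne'
    rw [det_mul] at this
    exact isUnit_iff_ne_zero.2 (right_ne_zero_of_mul this)
  have hC : ((y⁻¹)ᴴ * B * y⁻¹).IsHermitian := isHermitian_conjTranspose_mul_mul _ hB
  obtain ⟨U, l, hU, hU', hs⟩ : ∃ (U : Mx n) (l : Fin n → ℝ), U * Uᴴ = 1 ∧ Uᴴ * U = 1 ∧
      (y⁻¹)ᴴ * B * y⁻¹ = U * MatDg l * Uᴴ :=
    ⟨hC.eigenvectorUnitary, hC.eigenvalues, hC.eigenvectorUnitary.2.2, hC.eigenvectorUnitary.2.1,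
      hC.spectral_theorem⟩
  have e1 : MatDg (fun _ : Fin n => (1 : ℝ)) = 1 := by simp [MatDg]
  refine ⟨Uᴴ * y, l, ?_, ?_, ?_⟩
  · rw [det_mul]
    refine mul_ne_zero (right_ne_zero_of_mul (a := U.det) ?_) h1.ne_zero
    rw [← det_mul, hU, det_one]
    exact one_ne_zero
  · rw [e1, conjTranspose_mul, conjTranspose_conjTranspose, Matrix.mul_one, Matrix.mul_assoc,
      ← Matrix.mul_assoc U, hU, Matrix.one_mul]
  · have e2 : (Uᴴ * y)ᴴ * MatDg l * (Uᴴ * y) = yᴴ * (U * MatDg l * Uᴴ) * y := by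
      rw [conjTranspose_mul, conjTranspose_conjTranspose]
      simp only [Matrix.mul_assoc]
    have e3 : yᴴ * ((y⁻¹)ᴴ * B * y⁻¹) * y = (y⁻¹ * y)ᴴ * B * (y⁻¹ * y) := by
      rw [conjTranspose_mul]
      simp only [Matrix.mul_assoc]
    rw [e2, ← hs, e3, Matrix.nonsing_inv_mul _ h1]
    simp

theorem det_re_pos (hA : A.PosDef) : 0 < A.det.re := by
  exact (Complex.pos_iff.1 hA.det_pos).1

theorem det_re_nonneg (hA : A.PosSemidef) : 0 ≤ A.det.re := by
  exact (Complex.nonneg_iff.1 hA.det_nonneg).1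

theorem det_eq_re (hA : A.IsHermitian) : A.det = (A.det.re : ℂ) := by
  have h : star A.det = A.det := by rw [← det_conjTranspose, hA.eq]
  exact (Complex.conj_eq_iff_re.1 h).symm

theorem det_mono (hA : A.PosSemidef) (hB : (B - A).PosSemidef) : A.det.re ≤ B.det.re := by
  by_cases h0 : A.det = 0
  · have h : B.PosSemidef := by simpa using hA.add hB
    rw [h0]
    exact det_re_nonneg h
  obtain ⟨D, l, hD, e1, e2⟩ := Mat_simul (hA.posDef_iff_det_ne_zero.2 h0) hB.1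
  have hl : ∀ i, 0 ≤ l i := (Mat_psd hD l).1 (e2 ▸ hB)
  have e3 : B = Dᴴ * MatDg (fun i => 1 * 1 + 1 * l i) * D := by
    rw [← Mat_comb, ← e1, ← e2]
    simp
  rw [e3, e1, Mat_det, Mat_det]
  refine mul_le_mul_of_nonneg_left (Finset.prod_le_prod (fun _ _ => zero_le_one) fun i _ => ?_)
    (by positivity)
  linarith [hl i]

theorem trace_mul_nonneg (hA : A.PosSemidef) (hB : B.PosSemidef) : 0 ≤ (A * B).trace.re := by
  obtain ⟨y, rfl⟩ := Mat_root hA
  rw [Matrix.mul_assoc, trace_mul_comm]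
  exact (Complex.nonneg_iff.1 (hB.mul_mul_conjTranspose_same y).trace_nonneg).1

theorem trace_inv_mul_pos (hn : 0 < n) (hA : A.PosDef) (hB : B.PosDef) :
    0 < (A⁻¹ * B).trace.re := by
  obtain ⟨D, l, hD, e1, e2⟩ := Mat_simul hA hB.1
  have hl : ∀ i, 0 < l i := (Mat_pd hD l).1 (e2 ▸ hB)
  have : Nonempty (Fin n) := ⟨⟨0, hn⟩⟩
  rw [e1, e2, Mat_trace hD fun _ => one_pos]
  exact Finset.sum_pos (fun i _ => div_pos (hl i) one_pos) Finset.univ_nonempty

/-- The inequality of the arithmetic and geometric means, in logarithmic form. -/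
theorem log_det_le (hB : B.PosDef) (t : ℝ) :
    n * Real.exp t * (1 + (Real.log B.det.re / n - t)) ≤ B.trace.re := by
  obtain ⟨l, hl, e1, e2⟩ : ∃ l : Fin n → ℝ, (∀ i, 0 < l i) ∧ B.det.re = ∏ i, l i ∧
      B.trace.re = ∑ i, l i := by
    refine ⟨hB.1.eigenvalues, hB.eigenvalues_pos, ?_, ?_⟩
    · rw [hB.1.det_eq_prod_eigenvalues]
      exact (congrArg Complex.re (Complex.ofReal_prod _ _).symm).trans (Complex.ofReal_re _)
    · rw [hB.1.trace_eq_sum_eigenvalues]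
      exact (congrArg Complex.re (Complex.ofReal_sum _ _).symm).trans (Complex.ofReal_re _)
  rw [e1, e2, Real.log_prod fun i _ => (hl i).ne']
  rcases Nat.eq_zero_or_pos n with rfl | hn
  · simp
  have hn' : (n : ℝ) ≠ 0 := by positivity
  have e3 : n * Real.exp t * (1 + ((∑ i, Real.log (l i)) / n - t)) =
      ∑ i, Real.exp t * (Real.log (l i) - t + 1) := by
    rw [← Finset.mul_sum, Finset.sum_add_distrib, Finset.sum_sub_distrib]
    simp only [Finset.sum_const, Finset.card_univ, Fintype.card_fin, nsmul_eq_mul]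
    field_simp
    ring
  rw [e3]
  refine Finset.sum_le_sum fun i _ => ?_
  refine (mul_le_mul_of_nonneg_left (Real.add_one_le_exp _) (Real.exp_pos t).le).trans_eq ?_
  rw [← Real.exp_add, add_sub_cancel, Real.exp_log (hl i)]

theorem sq_le_trace_mul (hA : A.PosDef) (hB : B.PosDef) :
    (n : ℝ) ^ 2 ≤ (A⁻¹ * B).trace.re * (B⁻¹ * A).trace.re := by
  obtain ⟨D, l, hD, e1, e2⟩ := Mat_simul hA hB.1
  have hl : ∀ i, 0 < l i := (Mat_pd hD l).1 (e2 ▸ hB)
  rw [e1, e2, Mat_trace hD fun _ => one_pos, Mat_trace hD hl]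
  rcases Nat.eq_zero_or_pos n with rfl | hn
  · simp
  have : Nonempty (Fin n) := ⟨⟨0, hn⟩⟩
  have h1 := Finset.sq_sum_div_le_sum_sq_div Finset.univ (fun _ : Fin n => (1 : ℝ))
    fun i _ => hl i
  have h2 : 0 < ∑ i, l i := Finset.sum_pos (fun i _ => hl i) Finset.univ_nonempty
  rw [div_le_iff₀ h2] at h1
  simpa [mul_comm] using h1

theorem trace_le_pow (hA : A.PosDef) (hB : B.PosDef) :
    (A⁻¹ * B).trace.re ≤ n * ((B⁻¹ * A).trace.re ^ (n - 1) * (B.det.re / A.det.re)) := by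
  obtain ⟨D, l, hD, e1, e2⟩ := Mat_simul hA hB.1
  have hl : ∀ i, 0 < l i := (Mat_pd hD l).1 (e2 ▸ hB)
  have hd : ‖D.det‖ ^ 2 ≠ 0 := pow_ne_zero _ (norm_ne_zero_iff.2 hD)
  rw [e1, e2, Mat_trace hD fun _ => one_pos, Mat_trace hD hl, Mat_det, Mat_det,
    Finset.prod_const_one, mul_one, mul_div_cancel_left₀ _ hd]
  obtain ⟨S, hS⟩ : ∃ S, S = ∑ i, 1 / l i := ⟨_, rfl⟩
  rw [← hS]
  have h1 : ∀ j, 1 ≤ S * l j := by
    intro j
    have : 1 / l j ≤ S := hS ▸ Finset.single_le_sum (f := fun i => 1 / l i)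
      (fun i _ => (one_div_pos.2 (hl i)).le) (Finset.mem_univ j)
    rwa [div_le_iff₀ (hl j)] at this
  have h2 : ∀ i, l i / 1 ≤ S ^ (n - 1) * ∏ j, l j := by
    intro i
    have h3 : 1 ≤ ∏ j ∈ Finset.univ.erase i, S * l j := by
      have := Finset.prod_le_prod (s := Finset.univ.erase i) (f := fun _ => (1 : ℝ))
        (fun _ _ => zero_le_one) fun j _ => h1 j
      rwa [Finset.prod_const_one] at this
    rw [Finset.prod_mul_distrib, Finset.prod_const, Finset.card_erase_of_mem (Finset.mem_univ i),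
      Finset.card_univ, Fintype.card_fin] at h3
    rw [div_one, ← Finset.mul_prod_erase _ _ (Finset.mem_univ i), mul_left_comm]
    exact le_mul_of_one_le_right (hl i).le h3
  refine (Finset.sum_le_sum fun i _ => h2 i).trans_eq ?_
  simp

/-- The least eigenvalue of `B` relative to `A` is at least `det B / det (B + A)`. -/
theorem psd_sub_ratio (hA : A.PosDef) (hB : B.PosDef) :
    (B - ((B.det.re / (B + A).det.re : ℝ) : ℂ) • A).PosSemidef := by
  obtain ⟨D, l, hD, e1, e2⟩ := Mat_simul hA hB.1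
  have hl : ∀ i, 0 < l i := (Mat_pd hD l).1 (e2 ▸ hB)
  have hd : ‖D.det‖ ^ 2 ≠ 0 := pow_ne_zero _ (norm_ne_zero_iff.2 hD)
  have e3 : B + A = Dᴴ * MatDg (fun i => 1 * l i + 1 * 1) * D := by
    rw [← Mat_comb, ← e1, ← e2]
    simp
  have e4 : B.det.re / (B + A).det.re = ∏ i, l i / (1 * l i + 1 * 1) := by
    rw [e3, e2, Mat_det, Mat_det, mul_div_mul_left _ _ hd, Finset.prod_div_distrib]
  rw [e4]
  obtain ⟨r, hr⟩ : ∃ r, r = ∏ i, l i / (1 * l i + 1 * 1) := ⟨_, rfl⟩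
  rw [← hr]
  have e5 : B - (r : ℂ) • A = Dᴴ * MatDg (fun i => 1 * l i + (-r) * 1) * D := by
    rw [← Mat_comb, ← e1, ← e2]
    simp [sub_eq_add_neg]
  rw [e5, Mat_psd hD]
  intro i
  have h1 : ∀ j, 0 < 1 * l j + 1 * 1 := fun j => by linarith [hl j]
  have h2 : ∏ j ∈ Finset.univ.erase i, l j / (1 * l j + 1 * 1) ≤ 1 :=
    Finset.prod_le_one (fun j _ => (div_pos (hl j) (h1 j)).le) fun j _ =>
      (div_le_one (h1 j)).2 (by linarith)
  have h3 : l i / (1 * l i + 1 * 1) ≤ l i := div_le_self (hl i).le (by linarith [hl i])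
  rw [← Finset.mul_prod_erase _ _ (Finset.mem_univ i)] at hr
  have h4 := mul_le_of_le_one_right (div_pos (hl i) (h1 i)).le h2
  linarith

theorem psd_trace_sub (hA : A.PosDef) (hB : B.PosSemidef) :
    ((((A⁻¹ * B).trace.re : ℝ) : ℂ) • A - B).PosSemidef := by
  obtain ⟨D, l, hD, e1, e2⟩ := Mat_simul hA hB.1
  have hl : ∀ i, 0 ≤ l i := (Mat_psd hD l).1 (e2 ▸ hB)
  have e3 : (A⁻¹ * B).trace.re = ∑ i, l i / 1 := by
    rw [e1, e2, Mat_trace hD fun _ => one_pos]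
  rw [e3]
  obtain ⟨r, hr⟩ : ∃ r, r = ∑ i, l i / 1 := ⟨_, rfl⟩
  rw [← hr]
  have e5 : (r : ℂ) • A - B = Dᴴ * MatDg (fun i => r * 1 + (-1) * l i) * D := by
    rw [← Mat_comb, ← e1, ← e2]
    simp [sub_eq_add_neg]
  rw [e5, Mat_psd hD]
  intro i
  have h1 : l i / 1 ≤ r := hr ▸ Finset.single_le_sum (f := fun i => l i / 1)
    (fun j _ => div_nonneg (hl j) zero_le_one) (Finset.mem_univ i)
  linarith

theorem det_conj (A D : Mx n) : (Dᴴ * A * D).det = (‖D.det‖ ^ 2 : ℝ) * A.det := by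
  exact Mat_det_conj A D

theorem trace_conj {D : Mx n} (hD : D.det ≠ 0) (A B : Mx n) :
    ((Dᴴ * A * D)⁻¹ * (Dᴴ * B * D)).trace = (A⁻¹ * B).trace := by
  exact Mat_trace_conj hD A B

end Vale.Agent.P272
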