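import Vale.Agent.P272.Defs
import Vale.Agent.P271A.Brid

/-! P272: the Levi matrix in one chart. -/

open MeasureTheory Set Filter Topology Metric Matrix
open scoped ContDiff ComplexConjugate ComplexOrder

noncomputable section

namespace Vale.Agent.P272

open Vale.Agent.P271

variable {n : ℕ} {φ ψ : Cn n → ℝ} {z : Cn n}

open Vale.Agent.P271A

theorem Loc_fderiv_ofReal (h : DifferentiableAt ℝ φ z) (v : Cn n) :
    fderiv ℝ (fun w => (φ w : ℂ)) z v = (fderiv ℝ φ z v : ℝ) := by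
  have := (Complex.ofRealCLM.hasFDerivAt.comp z h.hasFDerivAt).fderiv
  exact congrArg (fun L : Cn n →L[ℝ] ℂ => L v) this

theorem Loc_lev (hφ : ContDiffAt ℝ ∞ φ z) (ξ η : Cn n) :
    lev φ z η ξ = ((fderiv ℝ (fderiv ℝ φ) z η ξ : ℝ) +
      (fderiv ℝ (fderiv ℝ φ) z (Complex.I • η) (Complex.I • ξ) : ℝ) +
      Complex.I * ((fderiv ℝ (fderiv ℝ φ) z η (Complex.I • ξ) : ℝ) -
        (fderiv ℝ (fderiv ℝ φ) z (Complex.I • η) ξ : ℝ))) / 4 := by
  have h1 : HasFDerivAt (fderiv ℝ φ) (fderiv ℝ (fderiv ℝ φ) z) z :=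
    ((hφ.fderiv_right (m := ∞) (by simp)).differentiableAt (by simp)).hasFDerivAt
  have h2 : ∀ v : Cn n, HasFDerivAt (fun w => ((fderiv ℝ φ w v : ℝ) : ℂ))
      (Complex.ofRealCLM ∘L (ContinuousLinearMap.apply ℝ ℝ v ∘L fderiv ℝ (fderiv ℝ φ) z)) z :=
    fun v => Complex.ofRealCLM.hasFDerivAt.comp z
      ((ContinuousLinearMap.apply ℝ ℝ v).hasFDerivAt.comp z h1)
  have h3 : (dzb ξ fun w => (φ w : ℂ)) =ᶠ[𝓝 z] fun w => (((fderiv ℝ φ w ξ : ℝ) : ℂ) +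
      Complex.I * ((fderiv ℝ φ w (Complex.I • ξ) : ℝ) : ℂ)) * (1 / 2) := by
    filter_upwards [Brid_ev hφ] with w hw
    rw [dzb, Loc_fderiv_ofReal hw, Loc_fderiv_ofReal hw]
    ring
  have h4 := (((h2 ξ).add ((h2 (Complex.I • ξ)).const_mul Complex.I)).mul_const (1 / 2)).fderiv
  have h5 : ∀ v, fderiv ℝ (dzb ξ fun w => (φ w : ℂ)) z v =
      (((fderiv ℝ (fderiv ℝ φ) z v ξ : ℝ) : ℂ) +
        Complex.I * ((fderiv ℝ (fderiv ℝ φ) z v (Complex.I • ξ) : ℝ) : ℂ)) * (1 / 2) := by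
    intro v
    rw [h3.fderiv_eq]
    refine (congrArg (fun L : Cn n →L[ℝ] ℂ => L v) h4).trans ?_
    simp
    ring
  rw [lev, dz, h5, h5]
  linear_combination (-(fderiv ℝ (fderiv ℝ φ) z (Complex.I • η) (Complex.I • ξ) : ℝ) / 4 : ℂ) *
    Complex.I_mul_I

theorem Loc_conj (hφ : ContDiffAt ℝ ∞ φ z) (ξ η : Cn n) :
    conj (lev φ z η ξ) = lev φ z ξ η := by
  have hs : IsSymmSndFDerivAt ℝ φ z := hφ.isSymmSndFDerivAt (by
    rw [minSmoothness_of_isRCLikeNormedField]; exact WithTop.coe_le_coe.2 le_top)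
  rw [Loc_lev hφ, Loc_lev hφ, hs.eq η ξ, hs.eq (Complex.I • η) (Complex.I • ξ),
    hs.eq η (Complex.I • ξ), hs.eq (Complex.I • η) ξ]
  simp only [map_div₀, map_add, map_mul, map_sub, Complex.conj_ofReal, Complex.conj_I, map_ofNat]
  ring

theorem Loc_im {M : Mx n} (hM : M.IsHermitian) (ξ : Cn n) : (star ξ ⬝ᵥ M *ᵥ ξ).im = 0 := by
  have h : star (star ξ ⬝ᵥ M *ᵥ ξ) = star ξ ⬝ᵥ M *ᵥ ξ := by
    rw [← star_dotProduct, star_mulVec, ← dotProduct_mulVec, hM.eq]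
  exact Complex.conj_eq_iff_im.1 h

theorem Loc_psd {M : Mx n} (hM : M.IsHermitian) (h : ∀ ξ, 0 ≤ (star ξ ⬝ᵥ M *ᵥ ξ).re) :
    M.PosSemidef :=
  PosSemidef.of_dotProduct_mulVec_nonneg hM fun ξ =>
    Complex.nonneg_iff.2 ⟨h ξ, (Loc_im hM ξ).symm⟩

open scoped MatrixOrder in
theorem Loc_ext {M N : Mx n} (hM : M.IsHermitian) (hN : N.IsHermitian)
    (h : ∀ ξ, (star ξ ⬝ᵥ M *ᵥ ξ).re = (star ξ ⬝ᵥ N *ᵥ ξ).re) : M = N := by
  refine le_antisymm (Loc_psd (hN.sub hM) fun ξ => ?_) (Loc_psd (hM.sub hN) fun ξ => ?_)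
  · rw [sub_mulVec, dotProduct_sub, Complex.sub_re, h, sub_self]
  · rw [sub_mulVec, dotProduct_sub, Complex.sub_re, h, sub_self]

theorem lev_eq_LM (hφ : ContDiffAt ℝ ∞ φ z) (ξ η : Cn n) :
    lev φ z η ξ = star ξ ⬝ᵥ LM φ z *ᵥ η := by
  have hd : ∀ k, DifferentiableAt ℝ (dzb (Pi.single k 1) fun w => (φ w : ℂ)) z := fun k =>
    Brid_dzb_diff hφ
  have e : (dzb ξ fun w => (φ w : ℂ)) =
      fun x => ∑ k, dzb (Pi.single k 1) (fun w => (φ w : ℂ)) x * conj (ξ k) := by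
    funext x
    rw [dzb_eq_sum]
    simp only [Brid_bv]
  unfold lev
  rw [e, Brid_dz_sum _ fun k _ => (hd k).mul_const _, dotProduct]
  refine Finset.sum_congr rfl fun k _ => ?_
  rw [Brid_dz_mul_const (hd k), dz_eq_sum, mul_comm]
  simp only [Brid_zv]
  rfl

theorem Lev_eq_LM (hφ : ContDiffAt ℝ ∞ φ z) (ξ : Cn n) :
    Lev φ z ξ = (star ξ ⬝ᵥ LM φ z *ᵥ ξ).re := by
  rw [Lev, lev_eq_LM hφ]

theorem LM_herm (hφ : ContDiffAt ℝ ∞ φ z) : (LM φ z).IsHermitian := by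
  ext j k
  exact Loc_conj hφ _ _

theorem LM_congr (h : φ =ᶠ[𝓝 z] ψ) : LM φ z = LM ψ z := by
  have h1 : (fun w => (φ w : ℂ)) =ᶠ[𝓝 z] fun w => (ψ w : ℂ) :=
    h.mono fun w hw => congrArg _ hw
  ext j k
  exact dz_congr (h1.eventually_nhds.mono fun w hw => dzb_congr hw)

theorem LM_const (c : ℝ) : LM (fun _ : Cn n => c) z = 0 := by
  refine Loc_ext (LM_herm contDiffAt_const) isHermitian_zero fun ξ => ?_
  rw [← Lev_eq_LM contDiffAt_const, Lev_const]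
  simp

theorem LM_add (hφ : ContDiffAt ℝ ∞ φ z) (hψ : ContDiffAt ℝ ∞ ψ z) :
    LM (φ + ψ) z = LM φ z + LM ψ z := by
  have h : ContDiffAt ℝ ∞ (φ + ψ) z := hφ.add hψ
  refine Loc_ext (LM_herm h) ((LM_herm hφ).add (LM_herm hψ)) fun ξ => ?_
  rw [← Lev_eq_LM h, add_mulVec, dotProduct_add, Complex.add_re, ← Lev_eq_LM hφ, ← Lev_eq_LM hψ]
  exact Lev_add hφ hψ

theorem LM_smul (hφ : ContDiffAt ℝ ∞ φ z) (c : ℝ) : LM (c • φ) z = (c : ℂ) • LM φ z := by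
  have h : ContDiffAt ℝ ∞ (c • φ) z := hφ.const_smul c
  have hh : ((c : ℂ) • LM φ z).IsHermitian := by
    rw [IsHermitian, conjTranspose_smul, (LM_herm hφ).eq]
    simp
  refine Loc_ext (LM_herm h) hh fun ξ => ?_
  rw [← Lev_eq_LM h, smul_mulVec, dotProduct_smul, smul_eq_mul, Complex.re_ofReal_mul,
    ← Lev_eq_LM hφ]
  exact Lev_const_mul hφ c

theorem LM_neg (hφ : ContDiffAt ℝ ∞ φ z) : LM (-φ) z = -LM φ z := by
  have h := LM_smul hφ (-1)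
  simpa using h

theorem LM_sub (hφ : ContDiffAt ℝ ∞ φ z) (hψ : ContDiffAt ℝ ∞ ψ z) :
    LM (φ - ψ) z = LM φ z - LM ψ z := by
  have h : ContDiffAt ℝ ∞ (-ψ) z := hψ.neg
  rw [sub_eq_add_neg, LM_add hφ h, LM_neg hψ, sub_eq_add_neg]

theorem contDiffAt_LM (hφ : ContDiffAt ℝ ∞ φ z) (j k : Fin n) :
    ContDiffAt ℝ ∞ (fun w => LM φ w j k) z := by
  have h1 : ContDiffAt ℝ ∞ (dzb (Pi.single j 1) fun w => (φ w : ℂ)) z :=
    Brid_contDiffAt_dzb (Brid_ofReal hφ)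
  have h2 := contDiffAt_eX (ξ := zv k) h1
  have e : (fun w => LM φ w j k) = eX (zv k) (dzb (Pi.single j 1) fun w => (φ w : ℂ)) :=
    funext fun w => (Brid_zv k).symm
  rw [e]
  exact h2

theorem DM_mulVec (S : Cn n → Cn n) (z ξ : Cn n) : DM S z *ᵥ ξ = fderiv ℂ S z ξ := by
  funext j
  conv_rhs => rw [Brid_expand ξ, map_sum]
  simp only [map_smul, Finset.sum_apply, Pi.smul_apply, smul_eq_mul, mulVec, dotProduct, DM,
    of_apply]
  exact Finset.sum_congr rfl fun k _ => mul_comm _ _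

theorem DM_det (S : Cn n → Cn n) (z : Cn n) : (DM S z).det = (fderiv ℂ S z).det := by
  have e : DM S z = LinearMap.toMatrix' (fderiv ℂ S z : Cn n →ₗ[ℂ] Cn n) := by
    ext j k
    simp [DM, LinearMap.toMatrix'_apply]
  rw [e, LinearMap.det_toMatrix']

theorem LM_comp_hol {S : Cn n → Cn n} (hφ : ContDiffAt ℝ ∞ φ (S z)) (hS : AnalyticAt ℂ S z) :
    LM (φ ∘ S) z = (DM S z)ᴴ * LM φ (S z) * DM S z := by
  have h : ContDiffAt ℝ ∞ (φ ∘ S) z := hφ.comp z (hS.contDiffAt.restrict_scalars ℝ)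
  refine Loc_ext (LM_herm h) (isHermitian_conjTranspose_mul_mul _ (LM_herm hφ)) fun ξ => ?_
  rw [← Lev_eq_LM h, ← mulVec_mulVec, ← mulVec_mulVec, dotProduct_mulVec, ← star_mulVec,
    DM_mulVec, ← Lev_eq_LM hφ]
  exact Lev_comp_hol hφ hS

/-- The logarithm of the modulus of a nonvanishing holomorphic function is pluriharmonic. -/
theorem LM_log_normSq {F : Cn n → ℂ} (hF : AnalyticAt ℂ F z) (h0 : F z ≠ 0) :
    LM (fun w => Real.log (‖F w‖ ^ 2)) z = 0 := by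
  have h : ContDiffAt ℝ ∞ (fun w => Real.log (‖F w‖ ^ 2)) z :=
    (contDiffAt_normSq hF).log (pow_ne_zero _ (norm_ne_zero_iff.2 h0))
  refine Loc_ext (LM_herm h) isHermitian_zero fun ξ => ?_
  rw [← Lev_eq_LM h, Lev_log_normSq hF h0]
  simp

theorem LM_normSq (z c : Cn n) : LM (fun w : Cn n => ∑ j, ‖w j - c j‖ ^ 2) z = 1 := by
  have ha : ∀ j, AnalyticAt ℂ (fun w : Cn n => w j - c j) z := fun j =>
    ((ContinuousLinearMap.proj (R := ℂ) (φ := fun _ : Fin n => ℂ) j).analyticAt z).sub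
      analyticAt_const
  have hd : ∀ j, fderiv ℂ (fun w : Cn n => w j - c j) z =
      ContinuousLinearMap.proj (R := ℂ) (φ := fun _ : Fin n => ℂ) j := fun j =>
    ((ContinuousLinearMap.proj (R := ℂ) (φ := fun _ : Fin n => ℂ) j).hasFDerivAt.sub_const
      (c j)).fderiv
  have h : ContDiffAt ℝ ∞ (fun w : Cn n => ∑ j, ‖w j - c j‖ ^ 2) z :=
    ContDiffAt.sum fun j _ => contDiffAt_normSq (ha j)
  refine Loc_ext (LM_herm h) isHermitian_one fun ξ => ?_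
  rw [← Lev_eq_LM h, Lev_sum _ fun j _ => contDiffAt_normSq (ha j), one_mulVec, dotProduct,
    Complex.re_sum]
  refine Finset.sum_congr rfl fun j _ => ?_
  rw [Lev_normSq (ha j), hd, Pi.star_apply, Complex.star_def, Complex.conj_mul']
  norm_cast

theorem posDef_LM_iff (hφ : ContDiffAt ℝ ∞ φ z) :
    (LM φ z).PosDef ↔ ∀ ξ, ξ ≠ 0 → 0 < Lev φ z ξ := by
  rw [posDef_iff_dotProduct_mulVec]
  refine ⟨fun h ξ hξ => ?_, fun h => ⟨LM_herm hφ, fun ξ hξ => ?_⟩⟩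
  · rw [Lev_eq_LM hφ]
    exact (Complex.pos_iff.1 (h.2 hξ)).1
  · exact Complex.pos_iff.2 ⟨Lev_eq_LM hφ ξ ▸ h ξ hξ, (Loc_im (LM_herm hφ) ξ).symm⟩

theorem posSemidef_LM_iff (hφ : ContDiffAt ℝ ∞ φ z) :
    (LM φ z).PosSemidef ↔ ∀ ξ, 0 ≤ Lev φ z ξ := by
  refine ⟨fun h ξ => ?_, fun h => Loc_psd (LM_herm hφ) fun ξ => Lev_eq_LM hφ ξ ▸ h ξ⟩
  rw [Lev_eq_LM hφ]
  exact (Complex.nonneg_iff.1 (h.dotProduct_mulVec_nonneg ξ)).1

/-- The Levi form in terms of the real second derivative. -/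
theorem Lev_eq_fderiv (hφ : ContDiffAt ℝ ∞ φ z) (ξ : Cn n) :
    Lev φ z ξ = (fderiv ℝ (fderiv ℝ φ) z ξ ξ +
      fderiv ℝ (fderiv ℝ φ) z (Complex.I • ξ) (Complex.I • ξ)) / 4 := by
  rw [Lev, Loc_lev hφ]
  simp

theorem Loc_max (hφ : ContDiffAt ℝ ∞ φ z) (h : IsLocalMax φ z) (v : Cn n) :
    fderiv ℝ (fderiv ℝ φ) z v v ≤ 0 := by
  by_contra hc
  push Not at hc
  have hl : ∀ t : ℝ, HasDerivAt (fun s : ℝ => z + s • v) v t := fun t => by
    simpa using ((hasDerivAt_id t).smul_const v).const_add z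
  have hz : z + (0 : ℝ) • v = z := by simp
  have ht : Tendsto (fun s : ℝ => z + s • v) (𝓝 0) (𝓝 z) := by
    have := (hl 0).continuousAt.tendsto
    rwa [hz] at this
  have h1 : HasFDerivAt (fderiv ℝ φ) (fderiv ℝ (fderiv ℝ φ) z) (z + (0 : ℝ) • v) := by
    rw [hz]
    exact ((hφ.fderiv_right (m := ∞) (by simp)).differentiableAt (by simp)).hasFDerivAt
  have h2 : deriv (fun s : ℝ => φ (z + s • v)) =ᶠ[𝓝 0]
      fun s : ℝ => fderiv ℝ φ (z + s • v) v := by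
    filter_upwards [ht.eventually (Brid_ev hφ)] with s hs
    exact (hs.hasFDerivAt.comp_hasDerivAt s (hl s)).deriv
  have h3 : HasDerivAt (fun s : ℝ => fderiv ℝ φ (z + s • v) v) (fderiv ℝ (fderiv ℝ φ) z v v) 0 :=
    (ContinuousLinearMap.apply ℝ ℝ v).hasFDerivAt.comp_hasDerivAt 0
      (h1.comp_hasDerivAt 0 (hl 0))
  have h4 : IsLocalMax (fun s : ℝ => φ (z + s • v)) 0 := by
    have := ht.eventually h
    filter_upwards [this] with s hs
    rwa [hz]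
  have h5 : ContinuousAt (fun s : ℝ => φ (z + s • v)) 0 :=
    ContinuousAt.comp (f := fun s : ℝ => z + s • v) (hz.symm ▸ hφ.continuousAt)
      (hl 0).continuousAt
  have h6 : deriv (deriv fun s : ℝ => φ (z + s • v)) 0 = fderiv ℝ (fderiv ℝ φ) z v v := by
    rw [h2.deriv_eq, h3.deriv]
  have h7 := isLocalMin_of_deriv_deriv_pos (h6 ▸ hc) h4.deriv_eq_zero h5
  have h8 : (fun s : ℝ => φ (z + s • v)) =ᶠ[𝓝 0] fun _ => φ (z + (0 : ℝ) • v) := by
    filter_upwards [h4, h7] with s h h' using le_antisymm h h'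
  rw [h8.deriv.deriv_eq] at h6
  simp only [deriv_const', deriv_const] at h6
  exact hc.ne h6

theorem LM_of_isLocalMax (hφ : ContDiffAt ℝ ∞ φ z) (h : IsLocalMax φ z) :
    (-LM φ z).PosSemidef := by
  have h0 : ContDiffAt ℝ ∞ (-φ) z := hφ.neg
  rw [← LM_neg hφ, posSemidef_LM_iff h0]
  intro ξ
  have h1 := Lev_const_mul (ξ := ξ) hφ (-1)
  have h2 : (fun w => -1 * φ w) = -φ := by funext w; simp
  rw [← h2, h1, Lev_eq_fderiv hφ]
  linarith [Loc_max hφ h ξ, Loc_max hφ h (Complex.I • ξ)]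

/-- The Laplacian of the composition with a holomorphic curve. -/
theorem laplacian_comp {g : ℂ → Cn n} {ζ : ℂ} (hφ : ContDiffAt ℝ ∞ φ (g ζ))
    (hg : AnalyticAt ℂ g ζ) :
    Laplacian.laplacian (fun w => φ (g w)) ζ = 4 * Lev φ (g ζ) (deriv g ζ) := by
  have h1 : HasFDerivAt (fderiv ℝ φ) (fderiv ℝ (fderiv ℝ φ) (g ζ)) (g ζ) :=
    ((hφ.fderiv_right (m := ∞) (by simp)).differentiableAt (by simp)).hasFDerivAt
  have hgr : ∀ {k : ℂ → Cn n} {w : ℂ}, DifferentiableAt ℂ k w → HasFDerivAt k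
      ((ContinuousLinearMap.toSpanSingleton ℂ (deriv k w)).restrictScalars ℝ) w := fun hk =>
    hk.hasDerivAt.hasFDerivAt.restrictScalars ℝ
  have hu : ContDiffAt ℝ ∞ (fun w => φ (g w)) ζ :=
    hφ.comp ζ (hg.contDiffAt.restrict_scalars ℝ)
  have h2 : HasFDerivAt (fderiv ℝ fun w => φ (g w))
      (fderiv ℝ (fderiv ℝ fun w => φ (g w)) ζ) ζ :=
    ((hu.fderiv_right (m := ∞) (by simp)).differentiableAt (by simp)).hasFDerivAt
  have key : ∀ v : ℂ, fderiv ℝ (fderiv ℝ fun w => φ (g w)) ζ v v =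
      fderiv ℝ (fderiv ℝ φ) (g ζ) (v • deriv g ζ) (v • deriv g ζ) +
        fderiv ℝ φ (g ζ) (v • v • deriv (deriv g) ζ) := by
    intro v
    have k1 := (ContinuousLinearMap.apply ℝ ℝ v).hasFDerivAt.comp ζ h2
    have k2 := (h1.comp ζ (hgr hg.differentiableAt)).clm_apply
      ((hgr hg.deriv.differentiableAt).const_smul v)
    have k3 : (ContinuousLinearMap.apply ℝ ℝ v) ∘ (fderiv ℝ fun w => φ (g w)) =ᶠ[𝓝 ζ]
        fun w => (fderiv ℝ φ ∘ g) w ((v • deriv g) w) := by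
      filter_upwards [hg.continuousAt.eventually (Brid_ev hφ), hg.eventually_analyticAt]
        with w hw hw'
      exact congrArg (fun L : ℂ →L[ℝ] ℝ => L v)
        (hw.hasFDerivAt.comp w (hgr hw'.differentiableAt)).fderiv
    have k4 := congrArg (fun L : ℂ →L[ℝ] ℝ => L v) (k1.unique (k2.congr_of_eventuallyEq k3))
    simpa [add_comm] using k4
  rw [InnerProductSpace.laplacian_eq_iteratedFDeriv_complexPlane, Lev_eq_fderiv hφ]
  simp only [iteratedFDeriv_two_apply, Matrix.cons_val_zero, Matrix.cons_val_one, key, one_smul,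
    smul_smul, Complex.I_mul_I, neg_smul, map_neg]
  ring

end Vale.Agent.P272
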