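import Vale.Agent.P272.Loc
import Vale.Agent.P272.Mat
import Vale.Agent.P271.Api

/-! P272: compactness arguments and measures in charts. -/

open MeasureTheory Set Filter Topology Metric Matrix
open scoped ContDiff ComplexConjugate ComplexOrder

noncomputable section

namespace Vale.Agent.P272

open Vale.Agent.P271

variable {n : ℕ} {X : Type} [TopologicalSpace X] {A : Atl n X} {φ w : Frm A}

/-- Positivity is an open condition. -/
theorem ApiX2_open {Y : Type*} [TopologicalSpace Y] {N : Y → Mx n} {y : Y}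
    (hc : ∀ j k, ContinuousAt (fun x => N x j k) y) (hh : ∀ᶠ x in 𝓝 y, (N x).IsHermitian)
    (h : (N y).PosDef) : ∀ᶠ x in 𝓝 y, (N x).PosDef := by
  have h1 : ∀ᶠ x in 𝓝 y, ∀ ξ ∈ sphere (0 : Cn n) 1, 0 < (star ξ ⬝ᵥ N x *ᵥ ξ).re := by
    refine (isCompact_sphere _ _).eventually_forall_of_forall_eventually fun ξ hξ => ?_
    have h0 : ξ ≠ 0 := by
      rintro rfl
      simp at hξ
    have h2 : ContinuousAt (fun q : Y × Cn n => (star q.2 ⬝ᵥ N q.1 *ᵥ q.2).re) (y, ξ) := by
      refine Complex.continuous_re.continuousAt.comp ?_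
      simp only [dotProduct, mulVec]
      refine tendsto_finsetSum _ fun j _ => ContinuousAt.mul (by fun_prop) ?_
      refine tendsto_finsetSum _ fun k _ => ContinuousAt.mul ?_ (by fun_prop)
      exact (hc j k).comp_of_eq continuousAt_fst rfl
    exact h2.eventually (lt_mem_nhds (Complex.pos_iff.1 (h.dotProduct_mulVec_pos h0)).1)
  filter_upwards [h1, hh] with x h1 hh
  refine PosDef.of_dotProduct_mulVec_pos hh fun ξ h0 => ?_
  have hn : 0 < ‖ξ‖ := norm_pos_iff.2 h0
  have h2 := h1 (((‖ξ‖⁻¹ : ℝ) : ℂ) • ξ) (by simp [norm_smul, hn.ne'])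
  rw [star_smul, mulVec_smul, smul_dotProduct, dotProduct_smul, smul_eq_mul, smul_eq_mul,
    Complex.star_def, Complex.conj_ofReal, Complex.re_ofReal_mul, Complex.re_ofReal_mul] at h2
  refine Complex.pos_iff.2 ⟨?_, (hh.im_star_dotProduct_mulVec_self ξ).symm⟩
  exact (mul_pos_iff_of_pos_left (inv_pos.2 hn)).1 ((mul_pos_iff_of_pos_left (inv_pos.2 hn)).1 h2)

/-- Small perturbations of positive matrices. -/
theorem ApiX2_pert {Y : Type*} [TopologicalSpace Y] {N P : Y → Mx n} {y : Y}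
    (hN : ∀ j k, ContinuousAt (fun x => N x j k) y) (hP : ∀ j k, ContinuousAt (fun x => P x j k) y)
    (hh : ∀ᶠ x in 𝓝 y, (N x).IsHermitian ∧ (P x).IsHermitian) (h : (N y).PosDef) :
    ∀ᶠ q : ℝ × Y in 𝓝 (0, y), (N q.2 - (q.1 : ℂ) • P q.2).PosDef := by
  refine ApiX2_open (fun j k => ?_) ?_ (by simpa using h)
  · exact ((hN j k).comp_of_eq continuousAt_snd rfl).sub
      (ContinuousAt.mul (by fun_prop) ((hP j k).comp_of_eq continuousAt_snd rfl))
  · filter_upwards [continuousAt_snd.eventually hh] with q hq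
    exact hq.1.sub (IsSelfAdjoint.smul (Complex.conj_ofReal q.1) hq.2)

theorem ApiX2_herm (h : IsF A φ) {a : A.ι} {z : Cn n} (hz : z ∈ (A.e a).target) :
    (∀ j k, ContinuousAt (fun x => LM (φ a) x j k) z) ∧ ∀ᶠ x in 𝓝 z, (LM (φ a) x).IsHermitian := by
  refine ⟨fun j k => (contDiffAt_LM
    ((h.sm a).contDiffAt ((A.e a).open_target.mem_nhds hz)) j k).continuousAt, ?_⟩
  filter_upwards [(A.e a).open_target.mem_nhds hz] with x hx
  exact LM_herm ((h.sm a).contDiffAt ((A.e a).open_target.mem_nhds hx))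

theorem ApiX2_posF (h : IsF A φ)
    (hp : ∀ p, ∃ a, p ∈ (A.e a).source ∧ (LM (φ a) (A.e a p)).PosDef) : PosF A φ := by
  intro b z hz
  obtain ⟨a, ha, h1⟩ := hp ((A.e b).symm z)
  rw [h.compat b a z ⟨hz, ha⟩]
  refine PosDef.conjTranspose_mul_mul_same h1 (mulVec_injective_iff_isUnit.2 ?_)
  rw [isUnit_iff_isUnit_det, DM_det]
  exact (A.det_tr_ne b a ⟨hz, ha⟩).isUnit

theorem ApiX2_small [CompactSpace X] (hw : Kae A w) (h : IsF A φ) :
    ∀ᶠ t : ℝ in 𝓝 0, ∀ p, ∃ a, p ∈ (A.e a).source ∧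
      (LM (w a) (A.e a p) - (t : ℂ) • LM (φ a) (A.e a p)).PosDef := by
  have h1 : ∀ᶠ t : ℝ in 𝓝 0, ∀ p ∈ univ, ∃ a, p ∈ (A.e a).source ∧
      (LM (w a) (A.e a p) - (t : ℂ) • LM (φ a) (A.e a p)).PosDef := by
    refine isCompact_univ.eventually_forall_of_forall_eventually fun p _ => ?_
    obtain ⟨a, ha⟩ := A.cover p
    have hz := (A.e a).map_source ha
    have h2 := ApiX2_pert (ApiX2_herm hw.1 hz).1 (ApiX2_herm h hz).1
      ((ApiX2_herm hw.1 hz).2.and (ApiX2_herm h hz).2) (hw.2 a _ hz)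
    have h3 : ContinuousAt (fun q : ℝ × X => (q.1, A.e a q.2)) (0, p) :=
      continuousAt_fst.prodMk (((A.e a).continuousAt ha).comp_of_eq continuousAt_snd rfl)
    filter_upwards [h3.eventually h2,
      continuousAt_snd.eventually ((A.e a).open_source.mem_nhds ha)] with q h4 h5
    exact ⟨a, h5, h4⟩
  exact h1.mono fun t ht p => ht p (mem_univ p)

theorem ApiX2_cover [CompactSpace X] (A : Atl n X) :
    ∃ R : ℝ, 0 < R ∧ ∃ K : A.ι → Set (Cn n), (∀ a, IsCompact (K a)) ∧
      (∀ a, K a ⊆ (A.e a).target) ∧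
      ∀ p, ∃ a, p ∈ (A.e a).source ∧ closedBall (A.e a p) R ⊆ K a := by
  classical
  choose c hc using A.cover
  have h1 : ∀ p, ∃ r, 0 < r ∧ closedBall (A.e (c p) p) (2 * r) ⊆ (A.e (c p)).target := fun p => by
    obtain ⟨R, hR, hb⟩ := Metric.nhds_basis_closedBall.mem_iff.1
      ((A.e (c p)).open_target.mem_nhds ((A.e (c p)).map_source (hc p)))
    exact ⟨R / 2, half_pos hR, by rwa [mul_div_cancel₀ _ two_ne_zero]⟩
  choose r hr hb using h1
  obtain ⟨T, -, hT⟩ := isCompact_univ.elim_nhds_subcover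
    (fun p => (A.e (c p)).source ∩ A.e (c p) ⁻¹' ball (A.e (c p) p) (r p)) fun p _ =>
      inter_mem ((A.e (c p)).open_source.mem_nhds (hc p))
        ((A.e (c p)).continuousAt (hc p) (ball_mem_nhds _ (hr p)))
  have h2 : ∀ᶠ R in 𝓝[>] (0 : ℝ), ∀ p ∈ T, R ≤ r p :=
    (eventually_all_finset T).2 fun p _ => nhdsWithin_le_nhds (Iic_mem_nhds (hr p))
  obtain ⟨R, h3, hR⟩ := (h2.and self_mem_nhdsWithin).exists
  refine ⟨R, hR, fun a => ⋃ p ∈ T.filter fun p => c p = a, closedBall (A.e a p) (2 * r p),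
    fun a => Finset.isCompact_biUnion _ fun p _ => isCompact_closedBall _ _, fun a => ?_,
    fun q => ?_⟩
  · refine iUnion₂_subset fun p hp => ?_
    rw [← (Finset.mem_filter.1 hp).2]
    exact hb p
  · obtain ⟨p, hp, hq⟩ := mem_iUnion₂.1 (hT (mem_univ q))
    refine ⟨c p, hq.1, subset_trans ?_ (subset_iUnion₂ (s := fun p' (_ : p' ∈ T.filter
      fun p' => c p' = c p) => closedBall (A.e (c p) p') (2 * r p')) p
      (Finset.mem_filter.2 ⟨hp, rfl⟩))⟩
    refine closedBall_subset_closedBall' ?_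
    have h4 := h3 p hp
    have h5 : dist (A.e (c p) q) (A.e (c p) p) < r p := hq.2
    linarith

theorem ApiX2_ell (hw : Kae A w) {K : A.ι → Set (Cn n)} (hK : ∀ a, IsCompact (K a))
    (hs : ∀ a, K a ⊆ (A.e a).target) : ∃ c : ℝ, 0 < c ∧ ∀ a, ∀ z ∈ K a,
      (LM (w a) z - (c : ℂ) • 1).PosSemidef ∧ (((c⁻¹ : ℝ) : ℂ) • 1 - LM (w a) z).PosSemidef := by
  have h1 : ∀ᶠ t : ℝ in 𝓝 0, ∀ a, ∀ z ∈ K a, (LM (w a) z - (t : ℂ) • 1).PosDef ∧
      ((1 : Mx n) - (t : ℂ) • LM (w a) z).PosDef := by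
    refine eventually_all.2 fun a => (hK a).eventually_forall_of_forall_eventually fun z hz => ?_
    obtain ⟨h2, h3⟩ := ApiX2_herm hw.1 (hs a hz)
    exact (ApiX2_pert (P := fun _ => 1) h2 (fun _ _ => continuousAt_const)
      (h3.mono fun x hx => ⟨hx, isHermitian_one⟩) (hw.2 a z (hs a hz))).and
      (ApiX2_pert (N := fun _ => 1) (fun _ _ => continuousAt_const) h2
        (h3.mono fun x hx => ⟨isHermitian_one, hx⟩) PosDef.one)
  obtain ⟨c, h2, hc⟩ := ((h1.filter_mono (nhdsWithin_le_nhds (s := Ioi 0))).and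
    self_mem_nhdsWithin).exists
  have hc : 0 < c := hc
  refine ⟨c, hc, fun a z hz => ⟨(h2 a z hz).1.posSemidef, ?_⟩⟩
  have h3 := (h2 a z hz).2.posSemidef.smul (Complex.zero_le_real.2 (inv_pos.2 hc).le)
  rwa [smul_sub, smul_smul, ← Complex.ofReal_mul, inv_mul_cancel₀ hc.ne', Complex.ofReal_one,
    one_smul] at h3

theorem ApiX2_det {N : Cn n → Mx n} {z : Cn n} (h : ∀ j k, ContDiffAt ℝ ∞ (fun x => N x j k) z) :
    ContDiffAt ℝ ∞ (fun x => (N x).det.re) z := by
  refine Complex.reCLM.contDiff.contDiffAt.comp z ?_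
  simp only [det_apply']
  exact ContDiffAt.sum fun σ _ => contDiffAt_const.mul (contDiffAt_prod fun i _ => h _ _)

/-- A smooth bump at `p` supported in a given neighbourhood. -/
theorem ApiX2_bump [T2Space X] (A : Atl n X) (p : X) {V : Set X} (hV : V ∈ 𝓝 p) :
    ∃ β : X → ℝ, A.Sm β ∧ (∀ q, 0 ≤ β q) ∧ 0 < β p ∧ ∀ q, q ∉ V → β q = 0 := by
  classical
  obtain ⟨a, ha⟩ := A.cover p
  obtain ⟨R, hR, hb⟩ := Metric.nhds_basis_closedBall.mem_iff.1 (inter_mem
    ((A.e a).open_target.mem_nhds ((A.e a).map_source ha)) ((A.e a).tendsto_symm ha hV))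
  let b : ContDiffBump (A.e a p) := ⟨R / 2, R, half_pos hR, half_lt_self hR⟩
  have hK : IsClosed ((A.e a).symm '' Metric.closedBall (A.e a p) R) :=
    ((isCompact_closedBall _ _).image_of_continuousOn
      ((A.e a).continuousOn_symm.mono fun z hz => (hb hz).1)).isClosed
  have hKs : (A.e a).symm '' Metric.closedBall (A.e a p) R ⊆ (A.e a).source ∩ V := by
    rintro _ ⟨z, hz, rfl⟩
    exact ⟨(A.e a).map_target (hb hz).1, (hb hz).2⟩
  have h0 : ∀ q, q ∉ (A.e a).symm '' Metric.closedBall (A.e a p) R →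
      (A.e a).source.indicator (fun q => b (A.e a q)) q = 0 := by
    intro q hq
    by_cases hs : q ∈ (A.e a).source
    · rw [indicator_of_mem hs]
      refine b.zero_of_le_dist (le_of_lt (not_le.1 fun h => hq ⟨_, h, (A.e a).left_inv hs⟩))
    · exact indicator_of_notMem hs _
  refine ⟨(A.e a).source.indicator fun q => b (A.e a q), Atl.sm_of_local fun q => ?_,
    fun q => indicator_nonneg (fun _ _ => b.nonneg) q, ?_, fun q hq => h0 q fun h => hq (hKs h).2⟩
  · by_cases hs : q ∈ (A.e a).source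
    · refine ⟨a, hs, (b.contDiff.contDiffAt).congr_of_eventuallyEq ?_⟩
      filter_upwards [(A.e a).open_target.mem_nhds ((A.e a).map_source hs)] with z hz
      simp only [Atl.loc]
      rw [indicator_of_mem ((A.e a).map_target hz), (A.e a).right_inv hz]
    · obtain ⟨c, hc⟩ := A.cover q
      refine ⟨c, hc, (contDiffAt_const (c := (0 : ℝ))).congr_of_eventuallyEq ?_⟩
      have h1 : Tendsto (A.e c).symm (𝓝 (A.e c q)) (𝓝 q) := (A.e c).tendsto_symm hc
      filter_upwards [h1.eventually (hK.isOpen_compl.mem_nhds fun h => hs (hKs h).1)] with z hz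
      exact h0 _ hz
  · rw [indicator_of_mem ha]
    exact b.pos_of_mem_ball (Metric.mem_ball_self hR)

theorem ApiX2_approx [T2Space X] [CompactSpace X] (A : Atl n X) {g : X → ℝ}
    (hg : Continuous g) {ε : ℝ} (hε : 0 < ε) : ∃ u, A.Sm u ∧ ∀ p, |u p - g p| ≤ ε := by
  choose β hsm h0 hpos hβ using fun p =>
    ApiX2_bump A p (hg.continuousAt (closedBall_mem_nhds (g p) hε))
  obtain ⟨T, -, hT⟩ := isCompact_univ.elim_nhds_subcover (fun p => {q | 0 < β p q}) fun p _ =>
    (isOpen_lt continuous_const (hsm p).continuous).mem_nhds (hpos p)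
  have hσ : ∀ q, 0 < ∑ p ∈ T, β p q := by
    intro q
    obtain ⟨p, hp, hq⟩ := mem_iUnion₂.1 (hT (mem_univ q))
    exact Finset.sum_pos' (fun p _ => h0 p q) ⟨p, hp, hq⟩
  refine ⟨fun q => (∑ p ∈ T, g p * β p q) / ∑ p ∈ T, β p q, fun a => ?_, fun q => ?_⟩
  · exact ContDiffOn.div
      (ContDiffOn.sum (f := fun p z => g p * A.loc a (β p) z) fun p _ =>
        contDiffOn_const.mul (hsm p a))
      (ContDiffOn.sum (f := fun p => A.loc a (β p)) fun p _ => hsm p a) fun z _ => (hσ _).ne'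
  · rw [div_sub' (hσ q).ne', abs_div, abs_of_pos (hσ q), div_le_iff₀ (hσ q), Finset.sum_mul,
      ← Finset.sum_sub_distrib, Finset.mul_sum]
    refine (Finset.abs_sum_le_sum_abs _ _).trans (Finset.sum_le_sum fun p _ => ?_)
    by_cases h : g q ∈ closedBall (g p) ε
    · rw [mul_comm (β p q), ← sub_mul, abs_mul, abs_of_nonneg (h0 p q), abs_sub_comm]
      exact mul_le_mul_of_nonneg_right h (h0 p q)
    · rw [hβ p q h]
      simp

section Model
variable [MeasurableSpace X] [BorelSpace X]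

omit [BorelSpace X] in
theorem ApiX2_k (M : Model n X) (a : M.ι) :
    AEMeasurable (fun z => ENNReal.ofReal (‖M.k a ((M.e a).symm z)‖ ^ 2))
      (volume.restrict (M.e a).target) :=
  ((M.k_gauge.sm a).continuousOn.aemeasurable (M.e a).open_target.measurableSet).ennreal_ofReal

theorem ApiX2_symm (M : Model n X) (a : M.ι) (f : Cn n → ENNReal) :
    AEMeasurable (M.e a).symm ((volume.restrict (M.e a).target).withDensity f) :=
  ((M.e a).continuousOn_symm.aemeasurable (M.e a).open_target.measurableSet).mono_ac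
    (withDensity_absolutelyContinuous _ _)

theorem ApiX2_integral (M : Model n X) (a : M.ι) {g : X → ℝ}
    (hm : AEStronglyMeasurable g M.μ) (hg : ∀ p, p ∉ (M.e a).source → g p = 0) :
    ∫ p, g p ∂M.μ = ∫ z in (M.e a).target, g ((M.e a).symm z) * ‖M.k a ((M.e a).symm z)‖ ^ 2 := by
  have h1 := hm.restrict (s := (M.e a).source)
  rw [← setIntegral_eq_integral_of_forall_compl_eq_zero hg]
  rw [M.μ_chart a] at h1 ⊢
  rw [integral_map (ApiX2_symm M a _) h1, integral_withDensity_eq_integral_toReal_smul₀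
    (ApiX2_k M a) (Eventually.of_forall fun _ => ENNReal.ofReal_lt_top)]
  refine integral_congr_ae (Eventually.of_forall fun z => ?_)
  simp only [ENNReal.toReal_ofReal (sq_nonneg _), smul_eq_mul, mul_comm]

theorem ApiX2_null (M : Model n X) (a : M.ι) {S : Set X} (hS : S ⊆ (M.e a).source) :
    M.μ S = 0 ↔ volume (M.e a '' S) = 0 := by
  classical
  have ht := (M.e a).open_target.measurableSet
  have hs := (M.e a).open_source.measurableSet
  rw [← Measure.restrict_eq_self M.μ hS, M.μ_chart a]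
  constructor
  · intro h
    have h1 := nonpos_iff_eq_zero.1 ((Measure.le_map_apply (ApiX2_symm M a _) S).trans h.le)
    rw [withDensity_apply_eq_zero' (ApiX2_k M a), Measure.restrict_apply' ht] at h1
    refine measure_mono_null ?_ h1
    rintro _ ⟨p, hp, rfl⟩
    refine ⟨⟨?_, ?_⟩, (M.e a).map_source (hS hp)⟩
    · change ENNReal.ofReal _ ≠ 0
      rw [(M.e a).left_inv (hS hp), ENNReal.ofReal_ne_zero_iff]
      exact pow_pos (norm_pos_iff.2 (M.k_gauge.ne a p (hS hp))) 2
    · change (M.e a).symm _ ∈ S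
      rwa [(M.e a).left_inv (hS hp)]
  · intro h
    obtain ⟨N, h1, h2, h3⟩ := exists_measurable_superset_of_null h
    have h4 : Measurable ((M.e a).source.piecewise (M.e a) fun _ => 0) :=
      ContinuousOn.measurable_piecewise (M.e a).continuousOn continuousOn_const hs
    refine measure_mono_null (t := (M.e a).source ∩
      (M.e a).source.piecewise (M.e a) (fun _ => 0) ⁻¹' N) (fun p hp => ⟨hS hp, ?_⟩) ?_
    · rw [mem_preimage, piecewise_eq_of_mem _ _ _ (hS hp)]
      exact h1 ⟨p, hp, rfl⟩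
    · rw [Measure.map_apply_of_aemeasurable (ApiX2_symm M a _) (hs.inter (h4 h2))]
      refine withDensity_absolutelyContinuous _ _ ?_
      rw [Measure.restrict_apply' ht]
      refine measure_mono_null (fun z hz => ?_) h3
      have h5 := hz.1.2
      rwa [mem_preimage, piecewise_eq_of_mem _ _ _ hz.1.1, (M.e a).right_inv hz.2] at h5

end Model

end Vale.Agent.P272
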