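import Vale.Agent.P272.Loc
import Vale.Agent.P272.Mat
import Vale.Agent.P271.Api
import Vale.Agent.P272.ApiX2

/-! P272: forms on the manifold. -/

open MeasureTheory Set Filter Topology Metric Matrix
open scoped ContDiff ComplexConjugate ComplexOrder

noncomputable section

namespace Vale.Agent.P272

open Vale.Agent.P271

variable {n : ℕ} {X : Type} [TopologicalSpace X] {A : Atl n X} {φ ψ η ζ w : Frm A} {u v : X → ℝ}

theorem ch_mem (A : Atl n X) (p : X) : p ∈ (A.e (ch A p)).source := (A.cover p).choose_spec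

theorem IsF.smAt (h : IsF A φ) {a : A.ι} {z : Cn n} (hz : z ∈ (A.e a).target) :
    ContDiffAt ℝ ∞ (φ a) z := (h.sm a).contDiffAt ((A.e a).open_target.mem_nhds hz)

theorem ApiA_tgt {a b : A.ι} {z : Cn n} (hz : z ∈ A.ov a b) : A.tr a b z ∈ (A.e b).target :=
  (A.mapsTo_tr a b hz).1

theorem ApiA_ch (A : Atl n X) (p : X) : A.e (ch A p) p ∈ (A.e (ch A p)).target :=
  (A.e _).map_source (ch_mem A p)

theorem ApiA_ov {a : A.ι} {p : X} (hp : p ∈ (A.e a).source) : A.e a p ∈ A.ov a (ch A p) :=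
  ⟨(A.e a).map_source hp, by
    rw [mem_preimage, (A.e a).left_inv hp]
    exact ch_mem A p⟩

theorem ApiA_det_ne {a : A.ι} {p : X} (hp : p ∈ (A.e a).source) :
    (DM (A.tr a (ch A p)) (A.e a p)).det ≠ 0 := by
  rw [DM_det]
  exact A.det_tr_ne _ _ (ApiA_ov hp)

theorem ApiA_rep (h : IsF A φ) {a : A.ι} {p : X} (hp : p ∈ (A.e a).source) :
    LM (φ a) (A.e a p) =
      (DM (A.tr a (ch A p)) (A.e a p))ᴴ * GM A φ p * DM (A.tr a (ch A p)) (A.e a p) := by
  rw [h.compat a _ _ (ApiA_ov hp), GM]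
  have e : A.tr a (ch A p) (A.e a p) = A.e (ch A p) p := by
    rw [Atl.tr, (A.e a).left_inv hp]
  rw [e]

theorem ApiA_det {M : Cn n → Mx n} {z : Cn n} (h : ∀ j k, ContDiffAt ℝ ∞ (fun y => M y j k) z) :
    ContDiffAt ℝ ∞ (fun y => (M y).det) z := by
  simp only [det_apply']
  exact ContDiffAt.sum fun σ _ => contDiffAt_const.mul (contDiffAt_prod fun i _ => h _ _)

theorem ApiA_inv {M : Cn n → Mx n} {z : Cn n} (h : ∀ j k, ContDiffAt ℝ ∞ (fun y => M y j k) z)
    (h0 : (M z).det ≠ 0) (j k : Fin n) : ContDiffAt ℝ ∞ (fun y => (M y)⁻¹ j k) z := by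
  simp only [inv_def, Ring.inverse_eq_inv', Matrix.smul_apply, smul_eq_mul, adjugate_apply]
  refine ((ApiA_det h).inv h0).mul (ApiA_det fun i l => ?_)
  simp only [updateRow_apply]
  split_ifs
  · exact contDiffAt_const
  · exact h _ _

theorem isF_zero : IsF A 0 := by
  refine ⟨fun a => contDiffOn_const, fun a b z _ => ?_⟩
  have e : ∀ (c : A.ι) (y : Cn n), LM ((0 : Frm A) c) y = 0 := fun c y => LM_const 0
  rw [e, e, Matrix.mul_zero, Matrix.zero_mul]

theorem IsF.add (h : IsF A φ) (h' : IsF A ψ) : IsF A (φ + ψ) := by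
  refine ⟨fun a => (h.sm a).add (h'.sm a), fun a b z hz => ?_⟩
  rw [Pi.add_apply, Pi.add_apply, LM_add (h.smAt hz.1) (h'.smAt hz.1),
    LM_add (h.smAt (ApiA_tgt hz)) (h'.smAt (ApiA_tgt hz)), h.compat a b z hz, h'.compat a b z hz,
    Matrix.mul_add, Matrix.add_mul]

theorem IsF.smul (h : IsF A φ) (c : ℝ) : IsF A (c • φ) := by
  refine ⟨fun a => (h.sm a).const_smul c, fun a b z hz => ?_⟩
  rw [Pi.smul_apply, Pi.smul_apply, LM_smul (h.smAt hz.1), LM_smul (h.smAt (ApiA_tgt hz)),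
    h.compat a b z hz, Matrix.mul_smul, Matrix.smul_mul]

theorem IsF.neg (h : IsF A φ) : IsF A (-φ) := by
  rw [← neg_one_smul ℝ φ]
  exact h.smul _

theorem IsF.sub (h : IsF A φ) (h' : IsF A ψ) : IsF A (φ - ψ) := by
  rw [sub_eq_add_neg]
  exact h.add h'.neg

theorem isF_ddc (hu : A.Sm u) : IsF A (ddc A u) := by
  refine ⟨hu, fun a b z hz => ?_⟩
  rw [ddc, ddc, LM_congr (A.api_loc_ev a b u hz)]
  exact LM_comp_hol ((hu b).contDiffAt ((A.e b).open_target.mem_nhds (ApiA_tgt hz)))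
    (A.analyticOnNhd_tr a b z hz)

theorem ddc_add (u v : X → ℝ) : ddc A (u + v) = ddc A u + ddc A v := rfl

theorem ddc_sub (u v : X → ℝ) : ddc A (u - v) = ddc A u - ddc A v := rfl

theorem ddc_smul (c : ℝ) (u : X → ℝ) : ddc A (c • u) = c • ddc A u := rfl

theorem GM_herm (h : IsF A φ) (p : X) : (GM A φ p).IsHermitian := by
  exact LM_herm (h.smAt (ApiA_ch A p))

theorem GM_add (h : IsF A φ) (h' : IsF A ψ) (p : X) :
    GM A (φ + ψ) p = GM A φ p + GM A ψ p := by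
  exact LM_add (h.smAt (ApiA_ch A p)) (h'.smAt (ApiA_ch A p))

theorem GM_sub (h : IsF A φ) (h' : IsF A ψ) (p : X) :
    GM A (φ - ψ) p = GM A φ p - GM A ψ p := by
  exact LM_sub (h.smAt (ApiA_ch A p)) (h'.smAt (ApiA_ch A p))

theorem GM_smul (h : IsF A φ) (c : ℝ) (p : X) : GM A (c • φ) p = (c : ℂ) • GM A φ p := by
  exact LM_smul (h.smAt (ApiA_ch A p)) c

theorem GM_ddc_const (c : ℝ) (p : X) : GM A (ddc A fun _ => c) p = 0 := by
  exact LM_const c

theorem posF_iff (h : IsF A φ) : PosF A φ ↔ ∀ p, (GM A φ p).PosDef := by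
  refine ⟨fun H p => H _ _ (ApiA_ch A p), fun H a z hz => ?_⟩
  have hp := (A.e a).map_target hz
  have hD := (isUnit_iff_isUnit_det _).2 (isUnit_iff_ne_zero.2 (ApiA_det_ne hp))
  rw [← (A.e a).right_inv hz, ApiA_rep h hp, ← star_eq_conjTranspose,
    hD.posDef_star_left_conjugate_iff]
  exact H _

theorem nnF_iff (h : IsF A φ) : NnF A φ ↔ ∀ p, (GM A φ p).PosSemidef := by
  refine ⟨fun H p => H _ _ (ApiA_ch A p), fun H a z hz => ?_⟩
  have hp := (A.e a).map_target hz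
  rw [← (A.e a).right_inv hz, ApiA_rep h hp]
  exact (H _).conjTranspose_mul_mul_same _

theorem PosF.nn (h : PosF A φ) : NnF A φ := fun a z hz => (h a z hz).posSemidef

theorem nnF_zero : NnF A 0 := by
  intro a z _
  have e : LM ((0 : Frm A) a) z = 0 := LM_const 0
  rw [e]
  exact PosSemidef.zero

theorem NnF.add (hφ : IsF A φ) (hψ : IsF A ψ) (h : NnF A φ) (h' : NnF A ψ) : NnF A (φ + ψ) := by
  intro a z hz
  rw [Pi.add_apply, LM_add (hφ.smAt hz) (hψ.smAt hz)]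
  exact (h a z hz).add (h' a z hz)

theorem NnF.smul (hφ : IsF A φ) (h : NnF A φ) {c : ℝ} (hc : 0 ≤ c) : NnF A (c • φ) := by
  intro a z hz
  rw [Pi.smul_apply, LM_smul (hφ.smAt hz)]
  exact (h a z hz).smul (Complex.zero_le_real.2 hc)

theorem Kae.add_nn (h : Kae A φ) (hψ : IsF A ψ) (h' : NnF A ψ) : Kae A (φ + ψ) := by
  refine ⟨h.1.add hψ, fun a z hz => ?_⟩
  rw [Pi.add_apply, LM_add (h.1.smAt hz) (hψ.smAt hz)]
  exact (h.2 a z hz).add_posSemidef (h' a z hz)

theorem Kae.smul (h : Kae A φ) {c : ℝ} (hc : 0 < c) : Kae A (c • φ) := by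
  refine ⟨h.1.smul c, fun a z hz => ?_⟩
  rw [Pi.smul_apply, LM_smul (h.1.smAt hz)]
  exact (h.2 a z hz).smul (Complex.zero_lt_real.2 hc)

theorem trF_eq (hη : Kae A η) (hζ : IsF A ζ) {a : A.ι} {p : X} (hp : p ∈ (A.e a).source) :
    trF A η ζ p = ((LM (η a) (A.e a p))⁻¹ * LM (ζ a) (A.e a p)).trace.re := by
  rw [ApiA_rep hη.1 hp, ApiA_rep hζ hp, trace_conj (ApiA_det_ne hp), trF]

theorem sm_trF (hη : Kae A η) (hζ : IsF A ζ) : A.Sm (trF A η ζ) := by
  refine Atl.sm_of_local fun p => ⟨ch A p, ch_mem A p, ?_⟩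
  have hz := ApiA_ch A p
  have h1 : ContDiffAt ℝ ∞ (fun y => ((LM (η (ch A p)) y)⁻¹ * LM (ζ (ch A p)) y).trace)
      (A.e (ch A p) p) := by
    simp only [trace, diag_apply, mul_apply]
    exact ContDiffAt.sum fun i _ => ContDiffAt.sum fun j _ =>
      (ApiA_inv (contDiffAt_LM (hη.1.smAt hz)) (hη.2 _ _ hz).det_pos.ne' i j).mul
        (contDiffAt_LM (hζ.smAt hz) j i)
  refine (Complex.reCLM.contDiff.contDiffAt.comp _ h1).congr_of_eventuallyEq ?_
  filter_upwards [(A.e (ch A p)).open_target.mem_nhds hz] with y hy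
  rw [Atl.loc, trF_eq hη hζ ((A.e _).map_target hy), (A.e _).right_inv hy]
  rfl

theorem trF_add (η : Frm A) (h : IsF A φ) (h' : IsF A ψ) (p : X) :
    trF A η (φ + ψ) p = trF A η φ p + trF A η ψ p := by
  rw [trF, GM_add h h', Matrix.mul_add, trace_add, Complex.add_re, trF, trF]

theorem trF_sub (η : Frm A) (h : IsF A φ) (h' : IsF A ψ) (p : X) :
    trF A η (φ - ψ) p = trF A η φ p - trF A η ψ p := by
  rw [trF, GM_sub h h', Matrix.mul_sub, trace_sub, Complex.sub_re, trF, trF]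

theorem trF_smul (η : Frm A) (h : IsF A φ) (c : ℝ) (p : X) :
    trF A η (c • φ) p = c * trF A η φ p := by
  rw [trF, GM_smul h, Matrix.mul_smul, trace_smul, smul_eq_mul, Complex.re_ofReal_mul, trF]

theorem trF_self (hη : Kae A η) (p : X) : trF A η η p = n := by
  rw [trF, Matrix.nonsing_inv_mul _
    (isUnit_iff_ne_zero.2 ((posF_iff hη.1).1 hη.2 p).det_pos.ne')]
  simp

theorem trF_nonneg (hη : Kae A η) (hζ : IsF A ζ) (h : NnF A ζ) (p : X) : 0 ≤ trF A η ζ p := by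
  exact trace_mul_nonneg ((posF_iff hη.1).1 hη.2 p).inv.posSemidef ((nnF_iff hζ).1 h p)

theorem trF_pos (hn : 0 < n) (hη : Kae A η) (hζ : Kae A ζ) (p : X) : 0 < trF A η ζ p := by
  exact trace_inv_mul_pos hn ((posF_iff hη.1).1 hη.2 p) ((posF_iff hζ.1).1 hζ.2 p)

/-- The maximum principle. -/
theorem GM_of_max (hu : A.Sm u) {p : X} (h : ∀ q, u q ≤ u p) :
    (-GM A (ddc A u) p).PosSemidef := by
  refine LM_of_isLocalMax ((isF_ddc hu).smAt (ApiA_ch A p)) (Eventually.of_forall fun y => ?_)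
  rw [ddc, A.loc_e _ u (ch_mem A p)]
  exact h _

/-- Every form is bounded by a multiple of a Kaehler form. -/
theorem exists_le [CompactSpace X] (hw : Kae A w) (h : IsF A φ) :
    ∃ C : ℝ, 0 < C ∧ PosF A (C • w - φ) ∧ PosF A (C • w + φ) := by
  have h1 := ApiX2_small hw h
  have h2 := (continuous_neg.tendsto' (0 : ℝ) 0 neg_zero).eventually h1
  obtain ⟨t, ⟨h3, h4⟩, ht⟩ := (((h1.and h2).filter_mono (nhdsWithin_le_nhds (s := Ioi 0))).and
    self_mem_nhdsWithin).exists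
  have ht : 0 < t := ht
  have e : ((t⁻¹ : ℝ) : ℂ) * t = 1 := by
    rw [← Complex.ofReal_mul, inv_mul_cancel₀ ht.ne', Complex.ofReal_one]
  refine ⟨t⁻¹, inv_pos.2 ht, ApiX2_posF ((hw.1.smul _).sub h) fun p => ?_,
    ApiX2_posF ((hw.1.smul _).add h) fun p => ?_⟩
  · obtain ⟨a, ha, h5⟩ := h3 p
    have hz := (A.e a).map_source ha
    have h6 := h5.smul (Complex.zero_lt_real.2 (inv_pos.2 ht))
    rw [smul_sub, smul_smul, e, one_smul, ← LM_smul (hw.1.smAt hz),
      ← LM_sub (φ := t⁻¹ • w a) ((hw.1.smul _).smAt hz) (h.smAt hz)] at h6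
    exact ⟨a, ha, h6⟩
  · obtain ⟨a, ha, h5⟩ := h4 p
    have hz := (A.e a).map_source ha
    have h6 := h5.smul (Complex.zero_lt_real.2 (inv_pos.2 ht))
    rw [Complex.ofReal_neg, neg_smul, sub_neg_eq_add, smul_add, smul_smul, e, one_smul,
      ← LM_smul (hw.1.smAt hz),
      ← LM_add (φ := t⁻¹ • w a) ((hw.1.smul _).smAt hz) (h.smAt hz)] at h6
    exact ⟨a, ha, h6⟩

/-- Compact sets in the charts whose interiors cover, with a uniform margin and uniform
ellipticity of a Kaehler form. -/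
theorem exists_margin [T2Space X] [CompactSpace X] (hw : Kae A w) :
    ∃ R c : ℝ, 0 < R ∧ 0 < c ∧ ∃ K : A.ι → Set (Cn n), (∀ a, IsCompact (K a)) ∧
      (∀ a, K a ⊆ (A.e a).target) ∧
      (∀ p, ∃ a, p ∈ (A.e a).source ∧ closedBall (A.e a p) R ⊆ K a) ∧
      ∀ a, ∀ z ∈ K a, (LM (w a) z - (c : ℂ) • 1).PosSemidef ∧
        (((c⁻¹ : ℝ) : ℂ) • 1 - LM (w a) z).PosSemidef := by
  obtain ⟨R, hR, K, h1, h2, h3⟩ := ApiX2_cover A
  obtain ⟨c, hc, h4⟩ := ApiX2_ell hw h1 h2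
  exact ⟨R, c, hR, hc, K, h1, h2, h3, h4⟩

section Model
variable [MeasurableSpace X] {M : Model n X} {φ ψ η : Frm M.toAtl}

theorem Api_k_pos (M : Model n X) {a : M.ι} {p : X} (hp : p ∈ (M.e a).source) :
    0 < ‖M.k a p‖ ^ 2 := pow_pos (norm_pos_iff.2 (M.k_gauge.ne a p hp)) 2

theorem isF_th (M : Model n X) : IsF M.toAtl (th M) := by
  have hs : ∀ a, ContDiffOn ℝ ∞ (th M a) (M.e a).target := fun a =>
    (M.k_gauge.sm a).log fun z hz => (Api_k_pos M ((M.e a).map_target hz)).ne'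
  refine ⟨hs, fun a b z hz => ?_⟩
  have hb : ContDiffAt ℝ ∞ (th M b) (M.tr a b z) :=
    (hs b).contDiffAt ((M.e b).open_target.mem_nhds (M.mapsTo_tr a b hz).1)
  have hF := M.k_gauge.hol a b z hz
  have h0 : M.loc a (fun p => M.k a p / M.k b p) z ≠ 0 :=
    div_ne_zero (M.k_gauge.ne a _ ((M.e a).map_target hz.1)) (M.k_gauge.ne b _ hz.2)
  have e : th M a =ᶠ[𝓝 z] (fun y => Real.log (‖M.loc a (fun p => M.k a p / M.k b p) y‖ ^ 2)) +
      th M b ∘ M.tr a b := by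
    filter_upwards [(M.isOpen_ov a b).mem_nhds hz] with y hy
    have h1 := Api_k_pos M ((M.e a).map_target hy.1)
    have h2 := Api_k_pos M hy.2
    simp only [th, Pi.add_apply, Function.comp_apply, M.loc_tr a b _ hy]
    simp only [Atl.loc, norm_div, div_pow]
    rw [Real.log_div h1.ne' h2.ne', sub_add_cancel]
  rw [LM_congr e, LM_add _ (hb.comp z (M.api_contDiffAt_tr a b hz)), LM_log_normSq hF h0,
    zero_add, LM_comp_hol hb (M.analyticOnNhd_tr a b z hz)]
  exact (((hF.contDiffAt (n := ∞)).restrict_scalars ℝ).norm_sq ℂ).log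
    (pow_pos (norm_pos_iff.2 h0) 2).ne'

theorem dt_eq (h : IsF M.toAtl φ) {a : M.ι} {p : X} (hp : p ∈ (M.e a).source) :
    dt M φ p = (LM (φ a) (M.e a p)).det.re / ‖M.k a p‖ ^ 2 := by
  have hb := ch_mem M.toAtl p
  have hz : M.e a p ∈ M.ov a (ch M.toAtl p) :=
    ⟨(M.e a).map_source hp, by rw [mem_preimage, (M.e a).left_inv hp]; exact hb⟩
  have e1 := M.k_tr _ _ _ hz
  have e2 : M.tr a (ch M.toAtl p) (M.e a p) = M.e (ch M.toAtl p) p := by
    rw [Atl.tr, (M.e a).left_inv hp]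
  rw [(M.e a).left_inv hp] at e1
  rw [h.compat _ _ _ hz, det_conj, Complex.re_ofReal_mul, e1, e2, norm_mul, mul_pow, DM_det,
    mul_div_mul_left _ _ (pow_pos (norm_pos_iff.2 (M.det_tr_ne _ _ hz)) 2).ne']
  rfl

theorem sm_dt (h : IsF M.toAtl φ) : M.Sm (dt M φ) := by
  intro a
  have h1 : ContDiffOn ℝ ∞ (fun z => (LM (φ a) z).det.re) (M.e a).target := fun z hz =>
    (ApiX2_det (contDiffAt_LM (h.smAt hz))).contDiffWithinAt
  refine (h1.div (M.k_gauge.sm a) fun z hz =>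
    (Api_k_pos M ((M.e a).map_target hz)).ne').congr fun z hz => ?_
  have h2 := dt_eq h ((M.e a).map_target hz)
  rw [(M.e a).right_inv hz] at h2
  exact h2

theorem dt_pos (h : Kae M.toAtl φ) (p : X) : 0 < dt M φ p :=
  div_pos (det_re_pos ((posF_iff h.1).1 h.2 p)) (Api_k_pos M (ch_mem _ p))

theorem sm_log_dt (h : Kae M.toAtl φ) : M.Sm fun p => Real.log (dt M φ p) := fun a =>
  (sm_dt h.1 a).log fun _ _ => (dt_pos h _).ne'

theorem dt_mono {p : X} (h : (GM M.toAtl φ p).PosSemidef)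
    (h' : (GM M.toAtl ψ p - GM M.toAtl φ p).PosSemidef) : dt M φ p ≤ dt M ψ p :=
  div_le_div_of_nonneg_right (det_mono h h') (sq_nonneg _)

theorem dt_smul (h : IsF M.toAtl φ) (c : ℝ) (p : X) : dt M (c • φ) p = c ^ n * dt M φ p := by
  rw [dt, dt, GM_smul h, det_smul, Fintype.card_fin, ← Complex.ofReal_pow, Complex.re_ofReal_mul,
    mul_div_assoc]

/-- Minus the Ricci form has the potential `log det` in every chart. -/
theorem LM_ricci (h : Kae M.toAtl η) {a : M.ι} {z : Cn n} (hz : z ∈ (M.e a).target) :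
    LM ((th M + ddc M.toAtl fun p => Real.log (dt M η p)) a) z =
      LM (fun y => Real.log (LM (η a) y).det.re) z := by
  refine LM_congr ?_
  filter_upwards [(M.e a).open_target.mem_nhds hz] with y hy
  have h1 := dt_eq h.1 ((M.e a).map_target hy)
  rw [(M.e a).right_inv hy] at h1
  change Real.log (‖M.k a ((M.e a).symm y)‖ ^ 2) + Real.log (dt M η ((M.e a).symm y)) = _
  rw [h1, Real.log_div (det_re_pos (h.2 a y hy)).ne' (Api_k_pos M ((M.e a).map_target hy)).ne',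
    add_sub_cancel]

theorem integral_chart [BorelSpace X] (M : Model n X) (a : M.ι) {g : X → ℝ}
    (hm : AEStronglyMeasurable g M.μ) (hg : ∀ p, p ∉ (M.e a).source → g p = 0) :
    ∫ p, g p ∂M.μ = ∫ z in (M.e a).target, g ((M.e a).symm z) * ‖M.k a ((M.e a).symm z)‖ ^ 2 :=
  ApiX2_integral M a hm hg

theorem isOpenPos [BorelSpace X] (M : Model n X) : M.μ.IsOpenPosMeasure := by
  refine ⟨fun U hU ⟨p, hp⟩ h => ?_⟩
  obtain ⟨a, ha⟩ := M.cover p
  have h1 := (ApiX2_null M a inter_subset_right).1 (measure_mono_null inter_subset_left h)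
  exact ((M.e a).isOpen_image_of_subset_source (hU.inter (M.e a).open_source)
    inter_subset_right).measure_ne_zero volume ⟨_, p, ⟨hp, ha⟩, rfl⟩ h1

/-- Null sets are the sets that are null in the charts. -/
theorem null_iff [BorelSpace X] (M : Model n X) (a : M.ι) {S : Set X}
    (hS : S ⊆ (M.e a).source) : M.μ S = 0 ↔ volume (M.e a '' S) = 0 :=
  ApiX2_null M a hS

/-- Continuous functions are uniform limits of smooth functions. -/
theorem exists_sm_approx [T2Space X] [CompactSpace X] (M : Model n X) {g : X → ℝ}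
    (hg : Continuous g) {ε : ℝ} (hε : 0 < ε) : ∃ u, M.Sm u ∧ ∀ p, |u p - g p| ≤ ε :=
  ApiX2_approx M.toAtl hg hε

end Model

end Vale.Agent.P272
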