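import Vale.Agent.P271.Defs

/-! P272: closed real (1,1)-forms given by local potentials, holomorphic discs and their
Nevanlinna characteristics. -/

open MeasureTheory Set Filter Topology Metric Matrix
open scoped ContDiff ComplexConjugate ComplexOrder

noncomputable section

namespace Vale.Agent.P272

open Vale.Agent.P271

variable {n : ℕ} {X : Type} [TopologicalSpace X]

/-- Square complex matrices. -/
abbrev Mx (n : ℕ) : Type := Matrix (Fin n) (Fin n) ℂ

/-- The Levi matrix: `star ξ ⬝ᵥ LM φ z *ᵥ η = lev φ z η ξ`. -/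
def LM (φ : Cn n → ℝ) (z : Cn n) : Mx n :=
  Matrix.of fun j k => lev φ z (Pi.single k 1) (Pi.single j 1)

/-- The matrix of the complex derivative. -/
def DM (T : Cn n → Cn n) (z : Cn n) : Mx n :=
  Matrix.of fun j k => fderiv ℂ T z (Pi.single k 1) j

/-- Families of local potentials. -/
abbrev Frm (A : Atl n X) : Type := A.ι → Cn n → ℝ

/-- The potentials define a closed real (1,1)-form. -/
structure IsF (A : Atl n X) (φ : Frm A) : Prop where
  sm : ∀ a, ContDiffOn ℝ ∞ (φ a) (A.e a).target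
  compat : ∀ a b, ∀ z ∈ A.ov a b,
    LM (φ a) z = (DM (A.tr a b) z)ᴴ * LM (φ b) (A.tr a b z) * DM (A.tr a b) z

/-- Positive definite forms. -/
def PosF (A : Atl n X) (φ : Frm A) : Prop := ∀ a, ∀ z ∈ (A.e a).target, (LM (φ a) z).PosDef

/-- Nonnegative forms. -/
def NnF (A : Atl n X) (φ : Frm A) : Prop := ∀ a, ∀ z ∈ (A.e a).target, (LM (φ a) z).PosSemidef

/-- Kaehler forms. -/
def Kae (A : Atl n X) (φ : Frm A) : Prop := IsF A φ ∧ PosF A φ

/-- The exact form of a function. -/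
def ddc (A : Atl n X) (u : X → ℝ) : Frm A := fun a => A.loc a u

/-- A chart at each point. -/
def ch (A : Atl n X) (p : X) : A.ι := (A.cover p).choose

/-- The matrix of a form at a point, in the chosen chart. -/
def GM (A : Atl n X) (φ : Frm A) (p : X) : Mx n := LM (φ (ch A p)) (A.e (ch A p) p)

/-- The trace of `ζ` with respect to `η`. -/
def trF (A : Atl n X) (η ζ : Frm A) (p : X) : ℝ := ((GM A η p)⁻¹ * GM A ζ p).trace.re

section Model
variable [MeasurableSpace X]

/-- The curvature form of the canonical bundle for the metric given by the volume `M.μ`. -/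
def th (M : Model n X) : Frm M.toAtl := fun a => M.loc a fun p => Real.log (‖M.k a p‖ ^ 2)

/-- The Monge-Ampere density of a form with respect to `M.μ`. -/
def dt (M : Model n X) (φ : Frm M.toAtl) (p : X) : ℝ :=
  (GM M.toAtl φ p).det.re / ‖M.k (ch M.toAtl p) p‖ ^ 2

end Model

/-- `f` is holomorphic on `U`. -/
def IsD (A : Atl n X) (f : ℂ → X) (U : Set ℂ) : Prop :=
  ContinuousOn f U ∧ ∀ a, DifferentiableOn ℂ (fun ζ => A.e a (f ζ)) (U ∩ f ⁻¹' (A.e a).source)

/-- The density of the pull-back of a form by a disc. -/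
def den (A : Atl n X) (φ : Frm A) (f : ℂ → X) (ζ : ℂ) : ℝ :=
  Lev (φ (ch A (f ζ))) (A.e (ch A (f ζ)) (f ζ)) (deriv (fun w => A.e (ch A (f ζ)) (f w)) ζ)

/-- The Nevanlinna characteristic. -/
def T (A : Atl n X) (φ : Frm A) (f : ℂ → X) (r : ℝ) : ℝ :=
  2 / Real.pi * ∫ ζ in ball (0 : ℂ) r, Real.log (r / ‖ζ‖) * den A φ f ζ

/-- The mean of `u ∘ f` over the circle of radius `r`. -/
def av (u : X → ℝ) (f : ℂ → X) (r : ℝ) : ℝ := Real.circleAverage (fun ζ => u (f ζ)) 0 r

/-- Discs centred at `x` with finite characteristic. -/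
def Adm (A : Atl n X) (w : Frm A) (x : X) (f : ℂ → X) : Prop :=
  IsD A f (ball 0 1) ∧ f 0 = x ∧
    IntegrableOn (fun ζ => Real.log (1 / ‖ζ‖) * den A w f ζ) (ball (0 : ℂ) 1)

/-- Such discs that are continuous up to the boundary. -/
def AdmC (A : Atl n X) (w : Frm A) (x : X) (f : ℂ → X) : Prop :=
  Adm A w x f ∧ ContinuousOn f (closedBall 0 1)

/-- Every entire curve is constant. -/
def Hyp (A : Atl n X) : Prop := ∀ f, IsD A f univ → ∀ ζ, f ζ = f 0

/-- The derivative bound for discs. -/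
def Brody (A : Atl n X) (w : Frm A) (K : ℝ) : Prop := ∀ f, IsD A f (ball 0 1) → den A w f 0 ≤ K

/-- The functional. -/
def Phi (A : Atl n X) (η₀ η₁ η₂ : Frm A) (r : ℝ) (f : ℂ → X) : ℝ :=
  T A η₀ f 1 - T A η₁ f r - T A η₂ f (1 / 2)

/-- `f` minimises the functional among the discs centred at `x`. -/
def IsMin (A : Atl n X) (w η₀ η₁ η₂ : Frm A) (r : ℝ) (x : X) (f : ℂ → X) : Prop :=
  Adm A w x f ∧ ∀ g, Adm A w x g → Phi A η₀ η₁ η₂ r f ≤ Phi A η₀ η₁ η₂ r g

/-- The value function. -/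
def val (A : Atl n X) (w η₀ η₁ η₂ : Frm A) (r : ℝ) (x : X) : ℝ :=
  sInf (Phi A η₀ η₁ η₂ r '' {g | Adm A w x g})

/-- A family of discs with moving centre `y ∈ O`. -/
structure Fam [MeasurableSpace X] (M : Model n X) (w : Frm M.toAtl) (O : Set X)
    (F : X → ℂ → X) : Prop where
  isOpen : IsOpen O
  adm : ∀ y ∈ O, Adm M.toAtl w y (F y)
  cont : ContinuousOn (fun q : X × ℂ => F q.1 q.2) (O ×ˢ ball 0 1)
  cont_den : ContinuousOn (fun q : X × ℂ => den M.toAtl w (F q.1) q.2) (O ×ˢ ball 0 1)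
  bdd : ∃ C, ∀ y ∈ O, T M.toAtl w (F y) 1 ≤ C
  null : ∀ ζ ∈ ball (0 : ℂ) 1, ∀ N, M.μ N = 0 → M.μ (O ∩ (fun y => F y ζ) ⁻¹' N) = 0

end Vale.Agent.P272
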