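import Vale.Agent.P272.B2
import Vale.Agent.P272.Loc
import Vale.Agent.P271.BrP
import Vale.Agent.P278.Stmt

/-! P272, part B: a Kaehler metric gives an atlas with local potentials. -/

open Set Filter Topology Matrix
open scoped Manifold ContDiff ComplexConjugate ComplexOrder

noncomputable section

namespace Vale.Agent.P272

open Vale.Agent.P271 Vale.Agent.P271A Complex
open Vale.Agent.P278S (FormField inChart IsKaehler)

variable {n : ℕ}

theorem B3_alg {V : Type} [AddCommGroup V] [Module ℂ V] (L : V → V → V → ℂ)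
    (h1 : ∀ u v w, L u (I • v) w = I * L u v w) (h2 : ∀ u v w, L (I • u) v w = -I * L u v w)
    (h3 : ∀ u v w, L u v w = conj (L v u w))
    (hc : ∀ u v w, (L v w u).im + (L w u v).im + (L u v w).im = 0) (s x y : V) :
    L s y x - I * L s y (I • x) = L s x y - I * L s x (I • y) := by
  have a1 := hc x s y
  have a2 := hc (I • x) s (I • y)
  have a3 := hc x (I • s) y
  have a4 := hc (I • x) (I • s) (I • y)
  simp only [h1, h2, h3 x s] at a1 a2 a3 a4
  simp only [mul_im, mul_re, neg_re, neg_im, I_re, I_im, conj_re, conj_im] at a1 a2 a3 a4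
  apply Complex.ext <;> simp only [mul_im, mul_re, sub_re, sub_im, I_re, I_im] <;> linarith

variable {X : Type} [TopologicalSpace X] [ChartedSpace (Fin n → ℂ) X]
  {h : FormField (Fin n → ℂ) X}

theorem B3_rep (h : FormField (Fin n → ℂ) X) (q : X) (p : Cn n) :
    ∃ (B : Cn n →ₗ⋆[ℂ] Cn n →ₗ[ℂ] ℂ) (D : Cn n →L[ℂ] Cn n),
      ∀ u v, inChart h q p u v = B (D u) (D v) :=
  ⟨h _, mfderiv 𝓘(ℂ, Fin n → ℂ) 𝓘(ℂ, Fin n → ℂ) (chartAt (Fin n → ℂ) q).symm p, fun _ _ => rfl⟩

theorem B3_smul_right (q : X) (p u v : Cn n) (c : ℂ) :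
    inChart h q p u (c • v) = c * inChart h q p u v := by
  obtain ⟨B, D, e⟩ := B3_rep h q p
  rw [e, e, map_smul, map_smul, smul_eq_mul]

theorem B3_smul_left (q : X) (p u v : Cn n) (c : ℂ) :
    inChart h q p (c • u) v = conj c * inChart h q p u v := by
  obtain ⟨B, D, e⟩ := B3_rep h q p
  rw [e, e, map_smul, map_smulₛₗ, LinearMap.smul_apply, smul_eq_mul]

theorem B3_expand (q : X) (p u v : Cn n) : inChart h q p u v =
    star u ⬝ᵥ (Matrix.of fun j k => inChart h q p (Pi.single j 1) (Pi.single k 1)) *ᵥ v := by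
  obtain ⟨B, D, e⟩ := B3_rep h q p
  have e1 : ∀ w, inChart h q p w v = ∑ k, inChart h q p w (Pi.single k 1) * v k := by
    intro w
    conv_lhs => rw [Brid_expand v]
    simp only [mul_comm _ (v _), ← B3_smul_right]
    simp only [e, map_sum]
  have e2 : inChart h q p u v = ∑ j, conj (u j) * inChart h q p (Pi.single j 1) v := by
    conv_lhs => rw [Brid_expand u]
    simp only [← B3_smul_left]
    simp only [e, map_sum, LinearMap.sum_apply]
  rw [e2]
  exact Finset.sum_congr rfl fun j _ => by rw [e1]; rfl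

theorem B3_pot (hK : IsKaehler h) (q : X) :
    ∃ φ : Cn n → ℝ, ContDiff ℝ ∞ φ ∧ ∀ᶠ z in 𝓝 (chartAt (Fin n → ℂ) q q),
      ∀ j k, LM φ z j k = inChart h q z (Pi.single j 1) (Pi.single k 1) := by
  refine B2_pot (chartAt (Fin n → ℂ) q).open_target (mem_chart_target _ q)
    (fun j k => hK.smooth q _ _) (fun j k z _ => hK.herm _ _ _) fun j k l z hz => ?_
  have hd : ∀ u v, DifferentiableAt ℝ (fun p => inChart h q p u v) z := fun u v =>
    ((hK.smooth q u v).contDiffAt ((chartAt (Fin n → ℂ) q).open_target.mem_nhds hz)).differentiableAt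
      (by simp)
  have him : ∀ u v w, fderiv ℝ (fun p => (inChart h q p u v).im) z w =
      (fderiv ℝ (fun p => inChart h q p u v) z w).im := fun u v w =>
    congrArg (fun L => L w) (imCLM.hasFDerivAt.comp z (hd u v).hasFDerivAt).fderiv
  have := B3_alg (fun u v w => fderiv ℝ (fun p => inChart h q p u v) z w)
    (fun u v w => by
      simp only [B3_smul_right]
      rw [fderiv_const_mul (hd u v)]
      rfl)
    (fun u v w => by
      simp only [B3_smul_left]
      rw [fderiv_const_mul (hd u v), conj_I]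
      rfl)
    (fun u v w => by
      have e : (fun p => inChart h q p u v) = conjCLE ∘ fun p => inChart h q p v u :=
        funext fun p => hK.herm _ _ _
      rw [e, (conjCLE.hasFDerivAt.comp z (hd v u).hasFDerivAt).fderiv]
      rfl)
    (fun u v w => by
      simp only [← him]
      exact hK.closed q z hz u v w) (Pi.single j 1) (Pi.single l 1) (Pi.single k 1)
  unfold dz
  rw [this]

variable [IsManifold 𝓘(ℂ, Fin n → ℂ) ω X]

theorem B3_pos (hK : IsKaehler h) (q : X) {z : Cn n} (hz : z ∈ (chartAt (Fin n → ℂ) q).target)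
    {ξ : Cn n} (hξ : ξ ≠ 0) : 0 < (inChart h q z ξ ξ).re :=
  hK.pos _ _ fun h0 => hξ ((mdifferentiable_chart (I := 𝓘(ℂ, Fin n → ℂ)) q).symm.mfderiv_injective
    hz (h0.trans (map_zero _).symm))

theorem B3_tr (a b : X) {z : Cn n} (hz : z ∈ (chartAt (Fin n → ℂ) a).target)
    (hb : (chartAt (Fin n → ℂ) a).symm z ∈ (chartAt (Fin n → ℂ) b).source) (u v : Cn n) :
    inChart h a z u v =
      inChart h b ((chartAt (Fin n → ℂ) b ∘ (chartAt (Fin n → ℂ) a).symm) z)
        (fderiv ℂ (chartAt (Fin n → ℂ) b ∘ (chartAt (Fin n → ℂ) a).symm) z u)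
        (fderiv ℂ (chartAt (Fin n → ℂ) b ∘ (chartAt (Fin n → ℂ) a).symm) z v) := by
  set T := chartAt (Fin n → ℂ) b ∘ (chartAt (Fin n → ℂ) a).symm with hT
  have h1 : DifferentiableAt ℂ T z := by
    have := (analyticAt_trans (n := n) a b ((chartAt (Fin n → ℂ) a).map_target hz) hb)
    rw [(chartAt (Fin n → ℂ) a).right_inv hz] at this
    exact this.differentiableAt
  have h2 : ((chartAt (Fin n → ℂ) a).symm : Cn n → X) =ᶠ[𝓝 z] (chartAt (Fin n → ℂ) b).symm ∘ T := by
    filter_upwards [((chartAt (Fin n → ℂ) a).continuousAt_symm hz).eventually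
      ((chartAt (Fin n → ℂ) b).open_source.mem_nhds hb)] with w hw
    exact ((chartAt (Fin n → ℂ) b).left_inv hw).symm
  have h3 : ∀ w : Cn n, (mfderiv 𝓘(ℂ, Fin n → ℂ) 𝓘(ℂ, Fin n → ℂ) (chartAt (Fin n → ℂ) a).symm z w :
      Cn n) = mfderiv 𝓘(ℂ, Fin n → ℂ) 𝓘(ℂ, Fin n → ℂ) (chartAt (Fin n → ℂ) b).symm (T z)
        (fderiv ℂ T z w) := by
    intro w
    rw [h2.mfderiv_eq]
    refine (mfderiv_comp_apply z (mdifferentiableAt_atlas_symm (chart_mem_atlas _ b)
      ((chartAt (Fin n → ℂ) b).map_source hb)) (mdifferentiableAt_iff_differentiableAt.2 h1)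
      w).trans ?_
    rw [mfderiv_eq_fderiv]
    rfl
  have key : ∀ (x y : X) (u v u' v' : Cn n), x = y → u = u' → v = v' → h x u v = h y u' v' := by
    rintro x _ u v _ _ rfl rfl rfl
    rfl
  exact key _ _ _ _ _ _ h2.eq_of_nhds (h3 u) (h3 v)

theorem B3_atl [CompactSpace X] (U : X → Set X) (hU : ∀ p, IsOpen (U p)) (hp : ∀ p, p ∈ U p) :
    ∃ (A : Atl n X) (q : A.ι → X), Adapted A ⟨X, U, fun _ _ _ => 1⟩ q q := by
  let e : X → OpenPartialHomeomorph X (Cn n) := fun p =>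
    (chartAt (Fin n → ℂ) p).restrOpen (U p) (hU p)
  obtain ⟨T, -, hT⟩ := isCompact_univ.elim_nhds_subcover (fun p => (e p).source) fun p _ =>
    (e p).open_source.mem_nhds ⟨mem_chart_source _ p, hp p⟩
  refine ⟨⟨T, fun a => e a, fun p => ?_, fun a b z hz => ?_⟩, fun a => a.1,
    fun a => subset_rfl, fun a => rfl, fun a => rfl⟩
  · obtain ⟨q, hq, hp⟩ := mem_iUnion₂.1 (hT (mem_univ p))
    exact ⟨⟨q, hq⟩, hp⟩
  · have h := analyticAt_trans a.1 b.1 ((e a).map_target hz.1).1 hz.2.1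
    have h1 : chartAt (Fin n → ℂ) a.1 ((e a).symm z) = z := (e a).right_inv hz.1
    rw [h1] at h
    exact h

theorem B3_form [CompactSpace X] (hK : IsKaehler h) :
    ∃ (A : Atl n X) (L : Stmt.Cocycle X) (q : A.ι → X) (i : A.ι → L.ι) (w : Frm A),
      Adapted A L q i ∧ Kae A w := by
  choose φ hφ hev using B3_pot hK
  choose W hW hWo hWm using fun q => eventually_nhds_iff.1 (hev q)
  obtain ⟨A, q, hA⟩ := B3_atl (n := n)
    (fun p => (chartAt (Fin n → ℂ) p).source ∩ chartAt (Fin n → ℂ) p ⁻¹' W p)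
    (fun p => (chartAt (Fin n → ℂ) p).isOpen_inter_preimage (hWo p))
    fun p => ⟨mem_chart_source _ p, hWm p⟩
  have ht : ∀ a, ∀ z ∈ (A.e a).target, z ∈ (chartAt (Fin n → ℂ) (q a)).target ∧ z ∈ W (q a) := by
    intro a z hz
    have h1 := hA.sub a ((A.e a).map_target hz)
    have h2 : chartAt (Fin n → ℂ) (q a) ((A.e a).symm z) = z := by
      rw [← hA.coe a, (A.e a).right_inv hz]
    exact ⟨h2 ▸ (chartAt (Fin n → ℂ) (q a)).map_source h1.1, h2 ▸ h1.2.2⟩
  have hL : ∀ a, ∀ z ∈ (A.e a).target, ∀ u v,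
      star u ⬝ᵥ LM (φ (q a)) z *ᵥ v = inChart h (q a) z u v := by
    intro a z hz u v
    rw [B3_expand]
    congr 2
    ext j k
    exact hW (q a) z (ht a z hz).2 j k
  refine ⟨A, ⟨X, _, fun _ _ _ => 1⟩, q, q, fun a => φ (q a), hA, ⟨fun a => (hφ _).contDiffOn, fun a b z hz => ?_⟩,
    fun a z hz => (posDef_LM_iff (hφ _).contDiffAt).2 fun ξ hξ => ?_⟩
  · have e : A.tr a b = chartAt (Fin n → ℂ) (q b) ∘ (chartAt (Fin n → ℂ) (q a)).symm := by
      funext z
      unfold Atl.tr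
      rw [hA.coe_symm a, hA.coe b]
      rfl
    have hb : (chartAt (Fin n → ℂ) (q a)).symm z ∈ (chartAt (Fin n → ℂ) (q b)).source := by
      rw [← hA.coe_symm a]
      exact (hA.sub b hz.2).1
    ext j k
    have h1 := hL b _ (A.mapsTo_tr a b hz).1 (DM (A.tr a b) z *ᵥ Pi.single j 1)
      (DM (A.tr a b) z *ᵥ Pi.single k 1)
    rw [star_mulVec, ← dotProduct_mulVec, mulVec_mulVec, mulVec_mulVec, DM_mulVec, DM_mulVec, e,
      ← B3_tr (q a) (q b) (ht a z hz.1).1 hb, ← hW (q a) z (ht a z hz.1).2 j k, ← e] at h1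
    rw [← h1]
    simp
  · rw [Lev_eq_LM (hφ _).contDiffAt, hL a z hz]
    exact B3_pos hK _ (ht a z hz).1 hξ

theorem B3_hyp {A : Atl n X} {L : Stmt.Cocycle X} {q : A.ι → X} {i : A.ι → L.ι}
    (hA : Adapted A L q i)
    (hB : ∀ f : ℂ → X, MDifferentiable 𝓘(ℂ, ℂ) 𝓘(ℂ, Fin n → ℂ) f → ∃ c, ∀ z, f z = c) :
    Hyp A := by
  intro f hf
  obtain ⟨c, hc⟩ := hB f fun ζ => by
    obtain ⟨a, ha⟩ := A.cover (f ζ)
    have h1 : ∀ᶠ w in 𝓝 ζ, f w ∈ (A.e a).source :=
      (continuousOn_univ.1 hf.1).continuousAt.eventually ((A.e a).open_source.mem_nhds ha)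
    have h2 : DifferentiableAt ℂ (fun w => A.e a (f w)) ζ :=
      (hf.2 a).differentiableAt (h1.mono fun w hw => ⟨mem_univ _, hw⟩)
    have h3 : A.e a (f ζ) ∈ (chartAt (Fin n → ℂ) (q a)).target := by
      rw [hA.coe a]
      exact (chartAt (Fin n → ℂ) (q a)).map_source (hA.sub a ha).1
    refine ((mdifferentiableAt_atlas_symm (I := 𝓘(ℂ, Fin n → ℂ)) (chart_mem_atlas _ (q a)) h3).comp ζ
      (mdifferentiableAt_iff_differentiableAt.2 h2)).congr_of_eventuallyEq ?_
    filter_upwards [h1] with w hw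
    rw [Function.comp_apply, ← hA.coe_symm a, (A.e a).left_inv hw]
  intro ζ
  rw [hc, hc]

end Vale.Agent.P272
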