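import Vale.Agent.P271.BrP

/-! P272, part B: from the sections of the model to very ampleness. -/

open Set Filter Topology
open scoped Manifold ContDiff

noncomputable section

namespace Vale.Agent.P272

open Vale.Agent.P271 Vale.Agent.P271.Stmt

variable {n : ℕ} {X : Type} [TopologicalSpace X] [ChartedSpace (Fin n → ℂ) X]
  [IsManifold 𝓘(ℂ, Fin n → ℂ) ω X] {L : Cocycle X}

theorem B4_surj {T : (Fin n → ℂ) →L[ℂ] (Fin n → ℂ)} (hT : T.det ≠ 0) (v : Fin n → ℂ) :
    ∃ ξ, T ξ = v := by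
  have h : Function.Injective (T : (Fin n → ℂ) →ₗ[ℂ] (Fin n → ℂ)) :=
    (injective_iff_map_eq_zero _).2 fun ξ h => by_contra fun h' => BrP_exists_ne hT h' h
  exact LinearMap.injective_iff_surjective.1 h v

theorem B4_ample [MeasurableSpace X] (M : Model n X) {q : M.ι → X} {i : M.ι → L.ι}
    (h : Adapted M.toAtl L q i) {m N : ℕ} {s : Fin N → X → ℂ} (hs : M.Imm (M.k ^ m) s)
    (hsep : ∀ p p', p ≠ p' → ∃ k l, s k p * s l p' ≠ s l p * s k p') :
    VeryAmple n (power (canonical n X) m) := by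
  choose c hc using M.cover
  have hQ : ∀ a, ∀ p ∈ (M.e a).source, p ∈ (chartAt (Fin n → ℂ) (q a)).source :=
    fun a p hp => (h.sub a hp).1
  have hk : ∀ a b, ∀ p ∈ (M.e a).source, p ∈ (M.e b).source →
      M.k a p = (canonical n X).g (q a) (q b) p * M.k b p := by
    intro a b p ha hb
    have h1 := M.k_tr a b (M.e a p) ⟨(M.e a).map_source ha, by
      change (M.e a).symm (M.e a p) ∈ (M.e b).source
      rwa [(M.e a).left_inv ha]⟩
    rw [(M.e a).left_inv ha] at h1
    have e : M.toAtl.tr a b = chartAt (Fin n → ℂ) (q b) ∘ (chartAt (Fin n → ℂ) (q a)).symm := by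
      funext z
      unfold Atl.tr
      rw [h.coe_symm a, h.coe b]
      rfl
    rw [h1, e, h.coe a]
    rfl
  set u : X → X → ℂ := fun j p => ((canonical n X).g j (q (c p)) p * M.k (c p) p) ^ m with hu
  have hu0 : ∀ j, ∀ p ∈ (chartAt (Fin n → ℂ) j).source, u j p ≠ 0 := fun j p hp =>
    pow_ne_zero _ (mul_ne_zero (canonical_ne _ _ hp (hQ _ p (hc p))) (M.k_gauge.ne _ p (hc p)))
  set t : Fin N → X → X → ℂ := fun k j p => u j p * s k p with ht
  have hloc : ∀ k (j : X) a, ∀ p ∈ (chartAt (Fin n → ℂ) j).source, p ∈ (M.e a).source →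
      t k j p = (canonical n X).g j (q a) p ^ m * ((M.k ^ m) a p * s k p) := by
    intro k j a p hp ha
    simp only [ht, hu, Pi.pow_apply]
    rw [hk a (c p) p ha (hc p),
      ← canonical_cocycle (n := n) j (q a) (q (c p)) hp (hQ a p ha) (hQ _ p (hc p))]
    ring
  have hev : ∀ k (j : X), ∀ p ∈ (chartAt (Fin n → ℂ) j).source,
      t k j ∘ (chartAt (Fin n → ℂ) (q (c p))).symm =ᶠ[𝓝 (chartAt (Fin n → ℂ) (q (c p)) p)]
        fun w => ((canonical n X).g j (q (c p)) ∘ (chartAt (Fin n → ℂ) (q (c p))).symm) w ^ m *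
          M.loc (c p) (fun p' => (M.k ^ m) (c p) p' * s k p') w := by
    intro k j p hp
    have h4 := (chartAt (Fin n → ℂ) (q (c p))).continuousAt_symm
      ((chartAt (Fin n → ℂ) (q (c p))).map_source (hQ _ p (hc p)))
    rw [ContinuousAt, (chartAt (Fin n → ℂ) (q (c p))).left_inv (hQ _ p (hc p))] at h4
    filter_upwards [h4.eventually ((chartAt (Fin n → ℂ) j).open_source.mem_nhds hp),
      h4.eventually ((M.e (c p)).open_source.mem_nhds (hc p))] with w hw1 hw2
    rw [BrP_loc h]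
    exact hloc k j (c p) _ hw1 hw2
  have hG : ∀ (j : X), ∀ p ∈ (chartAt (Fin n → ℂ) j).source, AnalyticAt ℂ
      (fun w => ((canonical n X).g j (q (c p)) ∘ (chartAt (Fin n → ℂ) (q (c p))).symm) w ^ m)
      (chartAt (Fin n → ℂ) (q (c p)) p) := fun j p hp =>
    (BrP_analyticAt_canonical (n := n) j (q (c p)) (q (c p)) hp (hQ _ p (hc p))
      (hQ _ p (hc p))).pow m
  have hσ : ∀ k p, AnalyticAt ℂ (M.loc (c p) fun p' => (M.k ^ m) (c p) p' * s k p')
      (chartAt (Fin n → ℂ) (q (c p)) p) := fun k p => by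
    rw [← h.coe (c p)]
    exact hs.mem k (c p) _ ((M.e (c p)).map_source (hc p))
  have hhol : ∀ k (j : X), Hol n (t k j) (chartAt (Fin n → ℂ) j).source := fun k j =>
    hol_of_chart fun p hp =>
      ⟨q (c p), hQ _ p (hc p), ((hG j p hp).mul (hσ k p)).congr (hev k j p hp).symm⟩
  refine ⟨N, t, fun k => ⟨hhol k, fun (j j' : X) p hp => ?_⟩, fun (j : X) p hp => ?_,
    fun (j j' : X) p hp p' hp' hne => ?_, fun (j : X) p hp v hv => ?_⟩
  · change t k j p = (canonical n X).g j j' p ^ m * t k j' p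
    simp only [ht, hu]
    rw [← canonical_cocycle (n := n) j j' (q (c p)) hp.1 hp.2 (hQ _ p (hc p))]
    ring
  · obtain ⟨k, hk⟩ := hs.bpf p
    exact ⟨k, mul_ne_zero (hu0 j p hp) hk⟩
  · obtain ⟨k, l, hkl⟩ := hsep p p' hne
    refine ⟨k, l, fun e => hkl (mul_left_cancel₀ (mul_ne_zero (hu0 j p hp) (hu0 j' p' hp')) ?_)⟩
    simp only [ht] at e
    linear_combination e
  · obtain ⟨ξ, hξ⟩ := B4_surj (canonical_ne (n := n) (q (c p)) p (hQ _ p (hc p))
      (mem_chart_source _ p)) v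
    have hξ0 : ξ ≠ 0 := fun e => hv (by rw [← hξ, e, map_zero])
    obtain ⟨k, l, hkl⟩ := hs.imm (c p) _ ((M.e (c p)).map_source (hc p)) ξ hξ0
    rw [h.coe (c p)] at hkl
    have hd : ∀ k, diff n (t k j) p v = _ := fun k => by
      rw [← hξ, ← BrP_diff (chartAt (Fin n → ℂ) j).open_source (hhol k j) (q (c p)) hp
        (hQ _ p (hc p)) ξ, (hev k j p hp).fderiv_eq,
        fderiv_fun_mul (hG j p hp).differentiableAt (hσ k p).differentiableAt]
    have he : ∀ k, t k j p = _ := fun k =>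
      (congrArg (t k j) ((chartAt (Fin n → ℂ) (q (c p))).left_inv (hQ _ p (hc p))).symm).trans
        (hev k j p hp).eq_of_nhds
    have h0 : ((canonical n X).g j (q (c p)) ∘ (chartAt (Fin n → ℂ) (q (c p))).symm)
        (chartAt (Fin n → ℂ) (q (c p)) p) ^ m ≠ 0 := by
      rw [Function.comp_apply, (chartAt (Fin n → ℂ) (q (c p))).left_inv (hQ _ p (hc p))]
      exact pow_ne_zero _ (canonical_ne _ _ hp (hQ _ p (hc p)))
    refine ⟨k, l, fun e => hkl (mul_left_cancel₀ (pow_ne_zero 2 h0) ?_)⟩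
    rw [hd, hd, he, he] at e
    simp only [add_apply, smul_apply, smul_eq_mul] at e
    linear_combination e

end Vale.Agent.P272
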