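import Vale.Agent.P272.KLoc

/-! P272, part K: compactness. -/

open MeasureTheory Set Filter Topology Metric
open scoped ContDiff ComplexConjugate Pointwise

noncomputable section

namespace Vale.Agent.P272

open Vale.Agent.P271

variable {n : ℕ} {X : Type} [TopologicalSpace X] [T2Space X] [CompactSpace X] {A : Atl n X}
  {u : A.ι → X → ℂ}

theorem KFin_bpf (hu : A.IsGauge u)
    (jet : ∀ a, ∀ x ∈ (A.e a).source, ∃ m₀ : ℕ, ∀ m, m₀ ≤ m → Jet A (u ^ m) a x) :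
    ∃ M, 0 < M ∧ ∃ T : Set (X → ℂ), T.Finite ∧ T ⊆ A.H0 (u ^ M) ∧
      ∀ p ∈ (univ : Set X), ∃ t ∈ T, t p ≠ 0 := by
  refine isCompact_univ.induction_on (p := fun K => ∃ M, 0 < M ∧ ∃ T : Set (X → ℂ), T.Finite ∧
    T ⊆ A.H0 (u ^ M) ∧ ∀ p ∈ K, ∃ t ∈ T, t p ≠ 0)
    ⟨1, one_pos, ∅, finite_empty, empty_subset _, fun _ h => h.elim⟩ ?_ ?_ fun x _ => ?_
  · rintro K K' hK ⟨M, h0, T, h1, h2, h3⟩
    exact ⟨M, h0, T, h1, h2, fun p hp => h3 p (hK hp)⟩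
  · rintro K K' ⟨M, h0, T, h1, h2, h3⟩ ⟨M', h0', T', h1', h2', h3'⟩
    refine ⟨M * M', mul_pos h0 h0', (· ^ M') '' T ∪ (· ^ M) '' T',
      (h1.image _).union (h1'.image _), union_subset ?_ ?_, fun p hp => ?_⟩
    · rintro _ ⟨t, ht, rfl⟩
      rw [pow_mul]
      exact Atl.pow_mem_H0 (h2 ht) _
    · rintro _ ⟨t, ht, rfl⟩
      rw [pow_mul']
      exact Atl.pow_mem_H0 (h2' ht) _
    · rcases hp with hp | hp
      · obtain ⟨t, ht, h⟩ := h3 p hp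
        exact ⟨_, Or.inl ⟨t, ht, rfl⟩, pow_ne_zero _ h⟩
      · obtain ⟨t, ht, h⟩ := h3' p hp
        exact ⟨_, Or.inr ⟨t, ht, rfl⟩, pow_ne_zero _ h⟩
  · obtain ⟨a, ha⟩ := A.cover x
    obtain ⟨m, hm⟩ := jet a x ha
    obtain ⟨s, hs, h1, -⟩ := hm (m + 1) m.le_succ 1 0
    rw [hl, A.loc_e a _ ha] at h1
    exact ⟨_, mem_nhdsWithin_of_mem_nhds ((Atl.isOpen_ne_zero (hu.pow _) (Atl.H0_le_Sec hs)).mem_nhds
      (right_ne_zero_of_mul_eq_one h1)), m + 1, m.succ_pos, {s}, finite_singleton s,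
      singleton_subset_iff.2 hs, fun p hp => ⟨s, rfl, hp⟩⟩

/-- First a base point free finite system `T` in some degree `M`; then `IsCompact.induction_on` in
`X × X` for: some finite system of degree `M j` is good on the set. -/
theorem kfin (hn : 0 < n) (hu : A.IsGauge u)
    (jet : ∀ a, ∀ x ∈ (A.e a).source, ∃ m₀ : ℕ, ∀ m, m₀ ≤ m → Jet A (u ^ m) a x)
    (sep : ∀ x y, x ≠ y → ∃ m₀ : ℕ, ∀ m, m₀ ≤ m → SpS (A.H0 (u ^ m) : Set (X → ℂ)) x y) :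
    ∃ (m N : ℕ) (s : Fin N → X → ℂ), 0 < m ∧ A.Imm (u ^ m) s ∧
      ∀ p q, p ≠ q → ∃ i j, s i p * s j q ≠ s j p * s i q := by
  obtain ⟨M, hM, T, hT, hT', hb⟩ := KFin_bpf hu jet
  have key : ∀ᶠ j in atTop, ∃ S : Set (X → ℂ), S.Finite ∧ S ⊆ A.H0 (u ^ (M * j)) ∧
      ∀ w ∈ (univ : Set (X × X)), KGd A (u ^ (M * j)) S w := by
    refine isCompact_univ.induction_on (p := fun K => ∀ᶠ j in atTop, ∃ S : Set (X → ℂ),
      S.Finite ∧ S ⊆ A.H0 (u ^ (M * j)) ∧ ∀ w ∈ K, KGd A (u ^ (M * j)) S w)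
      (Eventually.of_forall fun _ => ⟨∅, finite_empty, empty_subset _, fun _ h => h.elim⟩)
      (fun K K' hK h => h.mono fun j ⟨S, h1, h2, h3⟩ => ⟨S, h1, h2, fun w hw => h3 w (hK hw)⟩)
      (fun K K' h h' => ?_) fun w _ => ?_
    · filter_upwards [h, h'] with j ⟨S, h1, h2, h3⟩ ⟨S', h1', h2', h3'⟩
      exact ⟨S ∪ S', h1.union h1', union_subset h2 h2', fun w hw =>
        hw.elim (fun hw => (h3 w hw).mono subset_union_left)
          fun hw => (h3' w hw).mono subset_union_right⟩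
    · obtain ⟨x, y⟩ := w
      obtain ⟨m, S, h1, h2, h3⟩ : ∃ (m : ℕ) (S : Set (X → ℂ)), S.Finite ∧
          S ⊆ A.H0 (u ^ (M * m)) ∧ ∀ᶠ w in 𝓝 (x, y), KGd A (u ^ (M * m)) S w := by
        rcases eq_or_ne x y with rfl | hxy
        · obtain ⟨a, ha⟩ := A.cover x
          obtain ⟨m, hm⟩ := jet a x ha
          exact ⟨m, loc_jet (hu.pow _) ha (hm _ (Nat.le_mul_of_pos_left m hM))⟩
        · obtain ⟨m, hm⟩ := sep x y hxy
          exact ⟨m, loc_sep (hu.pow _) hxy (hm _ (Nat.le_mul_of_pos_left m hM))⟩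
      refine ⟨_, mem_nhdsWithin_of_mem_nhds h3, eventually_atTop.2 ⟨m, fun j hj => ?_⟩⟩
      induction j, hj using Nat.le_induction with
      | base => exact ⟨S, h1, h2, fun w hw => hw⟩
      | succ j _ ih =>
        obtain ⟨S', k1, k2, k3⟩ := ih
        rw [mul_add, mul_one, pow_add]
        refine ⟨S' * T, k1.mul hT, ?_, fun w hw =>
          (k3 w hw).mul (hu.pow _) k2 hT' fun p => hb p trivial⟩
        rintro _ ⟨s, hs, t, ht, rfl⟩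
        exact Atl.mul_mem_H0 (k2 hs) (hT' ht)
  obtain ⟨j, ⟨S, h1, h2, h3⟩, hj⟩ := (key.and (eventually_gt_atTop 0)).exists
  obtain ⟨N, s, -, rfl⟩ := h1.fin_param
  refine ⟨M * j, N, s, mul_pos hM hj, ⟨fun i => h2 ⟨i, rfl⟩, fun p => ?_, fun a z hz ξ hξ => ?_⟩,
    fun p q hpq => ?_⟩
  · obtain ⟨a, ha⟩ := A.cover p
    obtain ⟨_, ⟨i, rfl⟩, _, ⟨k, rfl⟩, h⟩ := (h3 (p, p) trivial).1 rfl a ha 1
      fun h => one_ne_zero (congrFun h ⟨0, hn⟩)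
    by_contra hne
    push Not at hne
    simp [A.loc_e a _ ha, hne] at h
  · obtain ⟨_, ⟨i, rfl⟩, _, ⟨k, rfl⟩, h⟩ := (h3 ((A.e a).symm z, (A.e a).symm z) trivial).1
      rfl a ((A.e a).map_target hz) ξ hξ
    rw [(A.e a).right_inv hz] at h
    exact ⟨i, k, h⟩
  · obtain ⟨_, ⟨i, rfl⟩, _, ⟨k, rfl⟩, h⟩ := (h3 (p, q) trivial).2 hpq
    exact ⟨i, k, h⟩

end Vale.Agent.P272
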