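import Vale.Agent.P272.KPeak

/-! P272, part K: jets and pairs of points. -/

open MeasureTheory Set Filter Topology Metric
open scoped ContDiff ComplexConjugate Pointwise

noncomputable section

namespace Vale.Agent.P272

open Vale.Agent.P271

variable {n : ℕ} {X : Type} [TopologicalSpace X] [T2Space X] [CompactSpace X] {A : Atl n X}
  {u : A.ι → X → ℂ} {ψ : X → ℝ}

theorem kjet_top {F : Type} [NormedAddCommGroup F] [NormedSpace ℂ F] [FiniteDimensional ℂ F]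
    (W : Submodule ℂ F) (h : ∀ v : F, ‖v‖ ≤ 1 → ∃ w ∈ W, ‖w - v‖ ≤ 1 / 2) (v : F) : v ∈ W := by
  by_contra hv
  obtain ⟨x, hx, h1⟩ := riesz_lemma W.closed_of_finiteDimensional ⟨v, hv⟩ (r := 3 / 4) (by norm_num)
  have h0 : 0 < ‖x‖ := norm_pos_iff.2 fun h0 => hx (h0 ▸ W.zero_mem)
  have hc : (‖x‖ : ℂ) ≠ 0 := Complex.ofReal_ne_zero.2 h0.ne'
  obtain ⟨w, hw, h2⟩ := h ((‖x‖ : ℂ)⁻¹ • x) (by
    rw [norm_smul, norm_inv, Complex.norm_real, norm_norm, inv_mul_cancel₀ h0.ne'])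
  have h3 := h1 _ (W.smul_mem (‖x‖ : ℂ) hw)
  have e : x - (‖x‖ : ℂ) • w = -((‖x‖ : ℂ) • (w - (‖x‖ : ℂ)⁻¹ • x)) := by
    rw [smul_sub, smul_inv_smul₀ hc, neg_sub]
  rw [e, norm_neg, norm_smul, Complex.norm_real, norm_norm] at h3
  nlinarith

/-- The jets of `hl s * exp (-m P)` form a subspace that is dense up to `1 / 2` (`riesz_lemma`). -/
theorem kjet (hu : A.IsGauge u) (hψ : A.Pos u ψ) {a : A.ι} {x : X} (hx : x ∈ (A.e a).source) :
    ∃ m₀ : ℕ, ∀ m, m₀ ≤ m → Jet A (u ^ m) a x := by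
  obtain ⟨P, hP, -, m₀, h⟩ := peak hu hψ hx x (ε := 1 / 2) one_half_pos
  refine ⟨m₀, fun m hm α ℓ => ?_⟩
  have hz := (A.e a).map_source hx
  have hE : Differentiable ℂ fun z => Complex.exp (-(m * P z)) := by fun_prop
  have hd : ∀ s ∈ A.H0 (u ^ m), HasFDerivAt (hl A (u ^ m) a s) _ (A.e a x) := fun s hs =>
    (hs a _ hz).differentiableAt.hasFDerivAt
  let W : Submodule ℂ (ℂ × (Cn n →L[ℂ] ℂ)) :=
    { carrier := {v | ∃ s ∈ A.H0 (u ^ m), hl A (u ^ m) a s (A.e a x) = v.1 ∧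
        fderiv ℂ (hl A (u ^ m) a s) (A.e a x) = v.2}
      add_mem' := by
        rintro v w ⟨s, hs, h1, h2⟩ ⟨t, ht, h3, h4⟩
        have e : hl A (u ^ m) a (s + t) = hl A (u ^ m) a s + hl A (u ^ m) a t :=
          funext fun z => mul_add _ _ _
        exact ⟨s + t, add_mem hs ht, by rw [e, Pi.add_apply, h1, h3, Prod.fst_add],
          by rw [e, ((hd s hs).add (hd t ht)).fderiv, h2, h4, Prod.snd_add]⟩
      zero_mem' := by
        have e : hl A (u ^ m) a 0 = fun _ => 0 := funext fun z => mul_zero _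
        exact ⟨0, zero_mem _, by rw [e, Prod.fst_zero], by rw [e, fderiv_fun_const]; rfl⟩
      smul_mem' := by
        rintro c v ⟨s, hs, h1, h2⟩
        have e : hl A (u ^ m) a (c • s) = c • hl A (u ^ m) a s :=
          funext fun z => mul_left_comm _ c _
        exact ⟨c • s, Submodule.smul_mem _ c hs, by rw [e, Pi.smul_apply, h1, Prod.smul_fst],
          by rw [e, ((hd s hs).const_smul c).fderiv, h2, Prod.smul_snd]⟩ }
  set E : ℂ := Complex.exp (-(m * P (A.e a x))) with hE0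
  set D := fderiv ℂ (fun z => Complex.exp (-(m * P z))) (A.e a x) with hD
  let T : (ℂ × (Cn n →L[ℂ] ℂ)) →ₗ[ℂ] ℂ × (Cn n →L[ℂ] ℂ) :=
    { toFun := fun v => (v.1 * E, v.1 • D + E • v.2)
      map_add' := fun v w => Prod.ext (add_mul _ _ _) (by
        simp only [Prod.fst_add, Prod.snd_add]
        module)
      map_smul' := fun c v => Prod.ext (mul_assoc _ _ _) (by
        simp only [Prod.smul_fst, Prod.smul_snd, RingHom.id_apply, smul_add, smul_smul,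
          smul_eq_mul, mul_comm]) }
  obtain ⟨v, hv, hT⟩ := kjet_top (W.map T) (fun v hv => by
    obtain ⟨s, hs, h1, h2, -⟩ := h m hm v.1 v.2 ((norm_fst_le v).trans hv) ((norm_snd_le v).trans hv)
    rw [((hd s hs).fun_mul (hE _).hasFDerivAt).fderiv] at h2
    exact ⟨_, ⟨(_, _), ⟨s, hs, rfl, rfl⟩, rfl⟩, max_le h1 h2⟩) (T (α, ℓ))
  have hne : E ≠ 0 := Complex.exp_ne_zero _
  have h1 : v.1 = α := mul_right_cancel₀ hne (congrArg Prod.fst hT)
  have h2 : v.1 • D + E • v.2 = α • D + E • ℓ := congrArg Prod.snd hT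
  rw [h1, add_right_inj] at h2
  obtain ⟨s, hs, h3, h4⟩ := hv
  exact ⟨s, hs, h3.trans h1, h4.trans (smul_right_injective _ hne h2)⟩

theorem ksep_one (hu : A.IsGauge u) (hψ : A.Pos u ψ) {x y : X} (h : x ≠ y) :
    ∃ m₀ : ℕ, ∀ m, m₀ ≤ m → ∃ s ∈ A.H0 (u ^ m), 3 / 4 ≤ ‖s x‖ * Real.exp (-(m * ψ x) / 2) ∧
      ‖s y‖ * Real.exp (-(m * ψ y) / 2) ≤ 1 / 4 := by
  obtain ⟨a, hx⟩ := A.cover x
  obtain ⟨P, -, hP, m₀, h1⟩ := peak hu hψ hx y (ε := 1 / 4) (by norm_num)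
  refine ⟨m₀, fun m hm => ?_⟩
  obtain ⟨s, hs, h2, -, h3⟩ := h1 m hm 1 0 (by simp) (by simp)
  refine ⟨s, hs, ?_, h3 h.symm⟩
  rw [← norm_hl hu hx m s hP]
  have h4 := norm_sub_norm_le (1 : ℂ)
    (hl A (u ^ m) a s (A.e a x) * Complex.exp (-(m * P (A.e a x))))
  rw [norm_sub_rev, norm_one] at h4
  linarith

theorem ksep (hu : A.IsGauge u) (hψ : A.Pos u ψ) {x y : X} (h : x ≠ y) :
    ∃ m₀ : ℕ, ∀ m, m₀ ≤ m → SpS (A.H0 (u ^ m) : Set (X → ℂ)) x y := by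
  obtain ⟨m₁, h₁⟩ := ksep_one hu hψ h
  obtain ⟨m₂, h₂⟩ := ksep_one hu hψ h.symm
  refine ⟨max m₁ m₂, fun m hm => ?_⟩
  obtain ⟨s, hs, k1, k2⟩ := h₁ m (le_of_max_le_left hm)
  obtain ⟨t, ht, k3, k4⟩ := h₂ m (le_of_max_le_right hm)
  refine ⟨s, hs, t, ht, fun e => ?_⟩
  have e' := congrArg norm e
  rw [norm_mul, norm_mul] at e'
  have k5 := mul_le_mul k1 k3 (by norm_num) (by positivity)
  have k6 := mul_le_mul k4 k2 (by positivity) (by norm_num)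
  rw [mul_mul_mul_comm, e'] at k5
  rw [mul_mul_mul_comm] at k6
  linarith

end Vale.Agent.P272
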