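import Vale.Agent.P272.Api
import Vale.Agent.P272.KJet
import Vale.Agent.P272.KFin

/-! P272, part K: the Kodaira embedding theorem for the canonical bundle. -/

open MeasureTheory Set Filter Topology Metric Matrix
open scoped ContDiff ComplexConjugate ComplexOrder

noncomputable section

namespace Vale.Agent.P272

open Vale.Agent.P271

variable {n : ℕ} {X : Type} [TopologicalSpace X] [T2Space X] [CompactSpace X]
  [MeasurableSpace X] [BorelSpace X] {M : Model n X}

theorem kodaira (hn : 0 < n) {ψ : X → ℝ} (hψ : M.Sm ψ)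
    (h : PosF M.toAtl (th M + ddc M.toAtl ψ)) :
    ∃ (m N : ℕ) (s : Fin N → X → ℂ), 0 < m ∧ M.Imm (M.k ^ m) s ∧
      ∀ p q, p ≠ q → ∃ i j, s i p * s j q ≠ s j p * s i q := by
  have hp : M.Pos M.k ψ := ⟨hψ, fun a z hz => by
    have e : M.wt M.k ψ a = (th M + ddc M.toAtl ψ) a := funext fun w => add_comm _ _
    have hs := (sm_wt M.k_gauge hψ a).contDiffAt ((M.e a).open_target.mem_nhds hz)
    rw [e] at hs ⊢
    exact (posDef_LM_iff hs).1 (h a z hz)⟩
  exact kfin hn M.k_gauge (fun a x hx => kjet M.k_gauge hp hx) fun x y hxy => ksep M.k_gauge hp hxy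

end Vale.Agent.P272
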