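import Vale.Agent.P272.PartM
import Vale.Agent.P272.PartK
import Vale.Agent.P271.BrP
import Vale.Agent.P271.BrK
import Vale.Agent.P278.Stmt
import Vale.Agent.P272.B3
import Vale.Agent.P272.B4

/-! P272, part B: from the statement to the model and back. -/

open Set Filter Topology
open scoped Manifold ContDiff

noncomputable section

namespace Vale.Agent.P272

open Vale.Agent.P271

theorem main (n : ℕ) (hn : 1 ≤ n) (X : Type) [TopologicalSpace X] [T2Space X] [CompactSpace X]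
    [ConnectedSpace X] [ChartedSpace (Fin n → ℂ) X] [IsManifold 𝓘(ℂ, Fin n → ℂ) ω X]
    (h : P278S.FormField (Fin n → ℂ) X) (hK : P278S.IsKaehler h)
    (hB : ∀ f : ℂ → X, MDifferentiable 𝓘(ℂ, ℂ) 𝓘(ℂ, Fin n → ℂ) f → ∃ c, ∀ z, f z = c) :
    Stmt.Ample n (Stmt.canonical n X) := by
  borelize X
  obtain ⟨A, L, q, i, w, hA, hw⟩ := B3_form hK
  obtain ⟨M, rfl⟩ := exists_model A
  obtain ⟨ψ, hψ, hp⟩ := canonical_pos (M := M) hn hw (B3_hyp hA hB)
  obtain ⟨m, N, s, hm, hs, hsep⟩ := kodaira hn hψ hp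
  exact ⟨m, hm, B4_ample M hA hs hsep⟩

end Vale.Agent.P272
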