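import Vale.Agent.P272.ALHq

/-! P272, part A1: cutoff functions and localisation.
`exists_bump`: in the chart use `exists_contMDiff_zero_one`-type lemmas (for instance
`exists_contDiff_tsupport_subset`, `exists_contMDiff_support_eq`, or
`IsOpen.exists_contDiff_support_eq`, or `exists_smooth_zero_one_of_isClosed` with
`exists_compact_between` twice) and move back with an indicator as in `P271.brA_bump`
(`Atl.sm_of_local`). `lz_tf`: `tf_loc` with `g = loc a u`; off the compact set `ra a '' tsupport θ` the function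
vanishes near the point; on the target it is smooth. `near_rho`: the compact set `ra a '' tsupport ρ` lies in the
open set `ra a '' interior {χ = 1}`; `IsCompact.exists_cthickening_subset_open`. -/

set_option linter.unusedSectionVars false

open MeasureTheory Set Filter Topology Metric Matrix
open scoped ContDiff ComplexConjugate ComplexOrder

noncomputable section

namespace Vale.Agent.P272.AL

open Vale.Agent.P271 Vale.Agent.P227

variable {n : ℕ} {X : Type} [TopologicalSpace X] [T2Space X] [CompactSpace X]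
  [MeasurableSpace X] {M : Model n X} {C : Cut M} {a b : M.ι} {θ θ' u v w g : X → ℝ} {p : X}
  {k : ℕ} {c K N s : ℝ} {A G : M.ι → E (n + n) → Mat (n + n)} {D : (X → ℝ) → X → ℝ}
  {η : Frm M.toAtl}

theorem Lc_ra (M : Model n X) (a : M.ι) (p : X) : Lc n (ra M a p) = M.e a p :=
  (Lc n).apply_symm_apply _

theorem ALCut_sm (h : tsupport u ⊆ (M.e a).source) (hu : M.SmOn a u) : M.Sm u := by
  refine Atl.sm_of_local fun q => ?_
  by_cases hs : q ∈ (M.e a).source
  · exact ⟨a, hs, hu.contDiffAt ((M.e a).open_target.mem_nhds ((M.e a).map_source hs))⟩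
  · obtain ⟨c, hc⟩ := M.cover q
    exact ⟨c, hc, (contDiffAt_const (c := (0 : ℝ))).congr_of_eventuallyEq
      (((M.e c).tendsto_symm hc).eventually
        (notMem_tsupport_iff_eventuallyEq.1 fun e => hs (h e)))⟩

theorem ALCut_rep {x : E (n + n)} (hx : Lc n x ∈ (M.e a).target) :
    ∃ p ∈ (M.e a).source, x = ra M a p :=
  ⟨_, (M.e a).map_target hx, by rw [ra, (M.e a).right_inv hx, (Lc n).symm_apply_apply]⟩

theorem ALCut_out {x : E (n + n)} (hx : Lc n x ∉ (M.e a).target) (θ u : X → ℝ) :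
    lz M θ a u x = 0 := indicator_of_notMem hx _

theorem ALCut_cpt (h : Bump M a θ) : IsCompact (ra M a '' tsupport θ) :=
  (isClosed_tsupport θ).isCompact.image_of_continuousOn
    ((Lc n).symm.continuous.comp_continuousOn ((M.e a).continuousOn.mono h.2))

theorem ALCut_lc (M : Model n X) (a : M.ι) (p : X) :
    Tendsto (Lc n) (𝓝 (ra M a p)) (𝓝 (M.e a p)) :=
  Lc_ra M a p ▸ (Lc n).continuous.tendsto _

theorem ALCut_tend (hp : p ∈ (M.e a).source) :
    Tendsto (fun y => (M.e a).symm (Lc n y)) (𝓝 (ra M a p)) (𝓝 p) :=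
  ((M.e a).tendsto_symm hp).comp (ALCut_lc M a p)

theorem ALCut_tgt (hp : p ∈ (M.e a).source) : ∀ᶠ y in 𝓝 (ra M a p), Lc n y ∈ (M.e a).target :=
  (ALCut_lc M a p).eventually ((M.e a).open_target.mem_nhds ((M.e a).map_source hp))

theorem exists_bump {S : Set X} (hS : IsCompact S) (h : S ⊆ (M.e a).source) :
    ∃ θ, Bump M a θ ∧ (∀ p, 0 ≤ θ p ∧ θ p ≤ 1) ∧ ∀ p ∈ S, ∀ᶠ q in 𝓝 p, θ q = 1 := by
  classical
  obtain ⟨L, hL, h1, h2⟩ := exists_compact_between hS (M.e a).open_source h
  have h3 : IsClosed (M.e a '' S) := (hS.image_of_continuousOn ((M.e a).continuousOn.mono h)).isClosed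
  have h4 : M.e a '' S ⊆ interior (M.e a '' L) :=
    (image_mono h1).trans (interior_maximal (image_mono interior_subset)
      ((M.e a).isOpen_image_of_subset_source isOpen_interior (interior_subset.trans h2)))
  obtain ⟨f, f1, f0, f2⟩ := exists_contMDiffMap_one_nhds_of_subset_interior
    (modelWithCornersSelf ℝ (Cn n)) (n := ⊤) h3 h4
  have h5 : tsupport ((M.e a).source.indicator fun q => f (M.e a q)) ⊆ (M.e a).source := by
    refine (closure_minimal (fun q hq => ?_) hL.isClosed).trans h2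
    by_contra hn
    refine hq ?_
    by_cases hs : q ∈ (M.e a).source
    · rw [indicator_of_mem hs]
      refine f0 _ ?_
      rintro ⟨q', h6, h7⟩
      exact hn ((M.e a).injOn (h2 h6) hs h7 ▸ h6)
    · exact indicator_of_notMem hs _
  refine ⟨(M.e a).source.indicator fun q => f (M.e a q), ⟨ALCut_sm h5 ?_, h5⟩, fun p => ?_,
    fun p hp => ?_⟩
  · refine (f.contMDiff.contDiff.contDiffOn).congr fun z hz => ?_
    simp only [Atl.loc]
    rw [indicator_of_mem ((M.e a).map_target hz), (M.e a).right_inv hz]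
  · by_cases hs : p ∈ (M.e a).source
    · rw [indicator_of_mem hs]
      exact f2 _
    · rw [indicator_of_notMem hs]
      exact ⟨le_rfl, zero_le_one⟩
  · filter_upwards [((M.e a).continuousAt (h hp)).eventually
      (f1.filter_mono (nhds_le_nhdsSet (mem_image_of_mem _ hp))),
      (M.e a).open_source.mem_nhds (h hp)] with q h6 h7
    rw [indicator_of_mem h7, h6]

theorem exists_cut (M : Model n X) : Nonempty (Cut M) := by
  choose χ b1 m1 o1 using fun a => exists_bump (isClosed_tsupport (M.ρ a)).isCompact (M.ρ_supp a)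
  choose ψ b2 m2 o2 using fun a => exists_bump (isClosed_tsupport (χ a)).isCompact (b1 a).2
  exact ⟨⟨χ, ψ, b1, b2, fun a p => ⟨(m1 a p).1, (m1 a p).2, m2 a p⟩, o1, o2⟩⟩

theorem bump_rho (M : Model n X) (a : M.ι) : Bump M a (M.ρ a) := ⟨M.ρ_sm a, M.ρ_supp a⟩

theorem sm_const (M : Model n X) (t : ℝ) : M.Sm fun _ => t := by
  exact fun _ => contDiffOn_const (c := t)

theorem sm_add (hu : M.Sm u) (hv : M.Sm v) : M.Sm fun p => u p + v p := by
  exact fun a => ContDiffOn.add (hu a) (hv a)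

theorem sm_sub (hu : M.Sm u) (hv : M.Sm v) : M.Sm fun p => u p - v p := by
  exact fun a => ContDiffOn.sub (hu a) (hv a)

theorem sm_mul (hu : M.Sm u) (hv : M.Sm v) : M.Sm fun p => u p * v p := by
  exact fun a => ContDiffOn.mul (hu a) (hv a)

theorem sm_sum {ι : Type} (s : Finset ι) {F : ι → X → ℝ} (h : ∀ i ∈ s, M.Sm (F i)) :
    M.Sm fun p => ∑ i ∈ s, F i p := by
  exact fun a => ContDiffOn.sum (f := fun i => M.loc a (F i)) fun i hi => h i hi a

theorem Bump.mul (h : Bump M a θ) (hu : M.Sm u) : Bump M a fun p => θ p * u p := by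
  exact ⟨sm_mul h.1 hu, tsupport_mul_subset_left.trans h.2⟩

theorem exists_rho (M : Model n X) (p : X) : ∃ a, p ∈ tsupport (M.ρ a) := by
  obtain ⟨a, -, h⟩ := Finset.exists_ne_zero_of_sum_ne_zero ((M.ρ_sum p).trans_ne one_ne_zero)
  exact ⟨a, subset_tsupport _ h⟩

theorem Cut.rho_sub (C : Cut M) (a : M.ι) : tsupport (M.ρ a) ⊆ tsupport (C.χ a) := by
  exact fun p hp => subset_tsupport _ ((C.oneχ a p hp).self_of_nhds.trans_ne one_ne_zero)

theorem Cut.chi_sub (C : Cut M) (a : M.ι) : tsupport (C.χ a) ⊆ tsupport (C.ψ a) := by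
  exact fun p hp => subset_tsupport _ ((C.oneψ a p hp).self_of_nhds.trans_ne one_ne_zero)

theorem Cut.chi_one (C : Cut M) (h : M.ρ a p ≠ 0) : C.χ a p = 1 := by
  exact (C.oneχ a p (subset_tsupport _ h)).self_of_nhds

theorem Cut.psi_one (C : Cut M) (h : C.χ a p ≠ 0) : C.ψ a p = 1 := by
  exact (C.oneψ a p (subset_tsupport _ h)).self_of_nhds

theorem lz_ra (hp : p ∈ (M.e a).source) (θ u : X → ℝ) : lz M θ a u (ra M a p) = θ p * u p := by
  rw [lz, Lc_ra, indicator_of_mem ((M.e a).map_source hp), M.loc_e a _ hp]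

theorem lz_ne {x : E (n + n)} (h : lz M θ a u x ≠ 0) :
    ∃ p ∈ (M.e a).source, θ p ≠ 0 ∧ x = ra M a p := by
  by_cases hx : Lc n x ∈ (M.e a).target
  · obtain ⟨p, hp, rfl⟩ := ALCut_rep hx
    rw [lz_ra hp] at h
    exact ⟨p, hp, left_ne_zero_of_mul h, rfl⟩
  · exact absurd (ALCut_out hx θ u) h

/-- A criterion for identities between localised functions. -/
theorem lz_ext {F : E (n + n) → ℝ} (h1 : ∀ p ∈ (M.e a).source, F (ra M a p) = θ p * u p)
    (h2 : ∀ x, Lc n x ∉ (M.e a).target → F x = 0) : lz M θ a u = F := by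
  funext x
  by_cases hx : Lc n x ∈ (M.e a).target
  · obtain ⟨p, hp, rfl⟩ := ALCut_rep hx
    rw [lz_ra hp, h1 p hp]
  · rw [ALCut_out hx, h2 x hx]

theorem lz_add (θ : X → ℝ) (a : M.ι) (u v : X → ℝ) :
    lz M θ a (fun p => u p + v p) = fun x => lz M θ a u x + lz M θ a v x := by
  exact lz_ext (fun p hp => by rw [lz_ra hp, lz_ra hp, mul_add])
    fun x hx => by rw [ALCut_out hx, ALCut_out hx, add_zero]

theorem lz_sub (θ : X → ℝ) (a : M.ι) (u v : X → ℝ) :
    lz M θ a (fun p => u p - v p) = fun x => lz M θ a u x - lz M θ a v x := by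
  exact lz_ext (fun p hp => by rw [lz_ra hp, lz_ra hp, mul_sub])
    fun x hx => by rw [ALCut_out hx, ALCut_out hx, sub_zero]

theorem lz_const_mul (θ : X → ℝ) (a : M.ι) (t : ℝ) (u : X → ℝ) :
    lz M θ a (fun p => t * u p) = fun x => t * lz M θ a u x := by
  exact lz_ext (fun p hp => by rw [lz_ra hp, mul_left_comm])
    fun x hx => by rw [ALCut_out hx, mul_zero]

theorem lz_sum {ι : Type} (s : Finset ι) (θ : X → ℝ) (a : M.ι) (F : ι → X → ℝ) :
    lz M θ a (fun p => ∑ i ∈ s, F i p) = fun x => ∑ i ∈ s, lz M θ a (F i) x := by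
  exact lz_ext (fun p hp => by simp only [lz_ra hp, Finset.mul_sum])
    fun x hx => Finset.sum_eq_zero fun i _ => ALCut_out hx _ _

theorem lz_mul (h : ∀ p, θ p ≠ 0 → θ' p = 1) (a : M.ι) (u : X → ℝ) :
    lz M θ a u = fun x => lz M θ a (fun _ => 1) x * lz M θ' a u x := by
  refine lz_ext (fun p hp => ?_) fun x hx => by rw [ALCut_out hx, zero_mul]
  rw [lz_ra hp, lz_ra hp, mul_one]
  by_cases e : θ p = 0
  · rw [e, zero_mul, zero_mul]
  · rw [h p e, one_mul]

theorem lz_up (h : ∀ p, θ' p ≠ 0 → θ p = 1) (a : M.ι) (F : E (n + n) → ℝ) :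
    lz M θ a (up M θ' a F) = fun x => lz M θ' a (fun _ => 1) x * F x := by
  refine lz_ext (fun p hp => ?_) fun x hx => by rw [ALCut_out hx, zero_mul]
  rw [lz_ra hp, mul_one, up]
  by_cases e : θ' p = 0
  · rw [e, zero_mul, mul_zero]
  · rw [h p e, one_mul]

/-- If `u` agrees with `F` on the support of `θ` then `θ u` is `θ F` in the chart. -/
theorem lz_eq_mul {F : E (n + n) → ℝ}
    (h : ∀ p ∈ (M.e a).source, θ p ≠ 0 → u p = F (ra M a p)) :
    lz M θ a u = fun x => lz M θ a (fun _ => 1) x * F x := by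
  refine lz_ext (fun p hp => ?_) fun x hx => by rw [ALCut_out hx, zero_mul]
  rw [lz_ra hp, mul_one]
  by_cases e : θ p = 0
  · rw [e, zero_mul, zero_mul]
  · rw [h p hp e]

theorem tf_loc (h : Bump M a θ) {φ : Cn n → ℝ} (hφ : ContDiffOn ℝ ∞ φ (M.e a).target) :
    Tf fun x => lz M θ a (fun _ => 1) x * φ (Lc n x) := by
  have hK := ALCut_cpt h
  have h0 : ∀ x, x ∉ ra M a '' tsupport θ → lz M θ a (fun _ => 1) x * φ (Lc n x) = 0 :=
    fun x hx => by
      by_contra e
      obtain ⟨p, -, h1, rfl⟩ := lz_ne (left_ne_zero_of_mul e)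
      exact hx ⟨p, subset_tsupport _ h1, rfl⟩
  refine ⟨contDiff_iff_contDiffAt.2 fun x => ?_, ?_⟩
  · by_cases hx : Lc n x ∈ (M.e a).target
    · have h1 := (M.e a).open_target.mem_nhds hx
      have h2 : ContDiffAt ℝ ∞ (fun y => M.loc a θ (Lc n y) * φ (Lc n y)) x :=
        (((h.1 a).mul hφ).contDiffAt h1).comp x (Lc n).contDiff.contDiffAt
      refine h2.congr_of_eventuallyEq ?_
      filter_upwards [(Lc n).continuous.continuousAt.eventually h1] with y hy
      simp only [lz, indicator_of_mem hy, Atl.loc, mul_one]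
    · refine (contDiffAt_const (c := (0 : ℝ))).congr_of_eventuallyEq ?_
      have h1 : x ∉ ra M a '' tsupport θ := by
        rintro ⟨p, hp, rfl⟩
        exact hx (Lc_ra M a p ▸ (M.e a).map_source (h.2 hp))
      filter_upwards [hK.isClosed.isOpen_compl.mem_nhds h1] with y hy
      exact h0 y hy
  · obtain ⟨R, hR⟩ := hK.isBounded.exists_norm_le
    exact ⟨R + 1, fun x hx => h0 x fun e => by linarith [hR x e]⟩

theorem lz_tf (h : Bump M a θ) (hu : M.Sm u) : Tf (lz M θ a u) := by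
  rw [lz_eq_mul (F := fun x => M.loc a u (Lc n x)) fun p hp _ => by
    rw [Lc_ra, M.loc_e a _ hp]]
  exact tf_loc h (hu a)

theorem sm_up (h : Bump M a θ) {F : E (n + n) → ℝ} (hF : ContDiff ℝ ∞ F) :
    M.Sm (up M θ a F) := by
  refine ALCut_sm (tsupport_mul_subset_left.trans h.2) ?_
  have h1 : ContDiffOn ℝ ∞ (fun z => M.loc a θ z * F ((Lc n).symm z)) (M.e a).target :=
    (h.1 a).mul (hF.comp (Lc n).symm.contDiff).contDiffOn
  refine h1.congr fun z hz => ?_
  simp only [Atl.loc, up, ra, (M.e a).right_inv hz]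

theorem sum_up (C : Cut M) (u : X → ℝ) (p : X) :
    u p = ∑ b, up M (M.ρ b) b (lz M (C.χ b) b u) p ∧
      u p = ∑ b, up M (C.χ b) b (lz M (M.ρ b) b u) p := by
  have h : u p = ∑ b, M.ρ b p * u p := by rw [← Finset.sum_mul, M.ρ_sum, one_mul]
  refine ⟨h.trans (Finset.sum_congr rfl fun b _ => ?_), h.trans (Finset.sum_congr rfl fun b _ => ?_)⟩
  · rw [up]
    by_cases e : M.ρ b p = 0
    · rw [e, zero_mul, zero_mul]
    · rw [lz_ra (M.ρ_supp b (subset_tsupport _ e)), C.chi_one e, one_mul]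
  · rw [up]
    by_cases e : M.ρ b p = 0
    · by_cases e' : C.χ b p = 0
      · rw [e, e', zero_mul, zero_mul]
      · rw [lz_ra ((C.bχ b).2 (subset_tsupport _ e')), e, zero_mul, mul_zero]
    · rw [lz_ra (M.ρ_supp b (subset_tsupport _ e)), C.chi_one e, one_mul]

theorem exists_radius (C : Cut M) :
    ∃ R : ℝ, ∀ a, ∀ p ∈ tsupport (C.ψ a), ‖ra M a p‖ ≤ R := by
  choose R hR using fun a => (ALCut_cpt (C.bψ a)).isBounded.exists_norm_le
  obtain ⟨B, hB⟩ := (finite_range R).bddAbove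
  exact ⟨B, fun a p hp => (hR a _ (mem_image_of_mem _ hp)).trans (hB (mem_range_self a))⟩

theorem near_rho (C : Cut M) (a : M.ι) :
    Near (lz M (M.ρ a) a fun _ => 1) (ra M a '' tsupport (C.χ a)) := by
  have h1 : ra M a '' tsupport (M.ρ a) ⊆ interior (ra M a '' tsupport (C.χ a)) := by
    rintro _ ⟨p, hp, rfl⟩
    refine mem_interior_iff_mem_nhds.2 ?_
    filter_upwards [(ALCut_tend (M.ρ_supp a hp)).eventually (C.oneχ a p hp),
      ALCut_tgt (M.ρ_supp a hp)] with y h2 h3
    refine ⟨_, subset_tsupport _ (h2.trans_ne one_ne_zero), ?_⟩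
    rw [ra, (M.e a).right_inv h3, (Lc n).symm_apply_apply]
  obtain ⟨δ, hδ, h2⟩ := (ALCut_cpt (bump_rho M a)).exists_cthickening_subset_open isOpen_interior h1
  refine ⟨δ, hδ, fun x hx v hv => interior_subset (h2 ?_)⟩
  obtain ⟨p, -, h3, rfl⟩ := lz_ne hx
  exact mem_cthickening_of_dist_le _ (ra M a p) _ _ ⟨p, subset_tsupport _ h3, rfl⟩
    (by rwa [dist_eq_norm, add_sub_cancel_left])

/-- Near the support of `χ` the cutoff `ψ` is invisible. -/
theorem lz_ev (C : Cut M) (hp : p ∈ tsupport (C.χ a)) (u : X → ℝ) :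
    lz M (C.ψ a) a u =ᶠ[𝓝 (ra M a p)] fun x => M.loc a u (Lc n x) := by
  have hs := (C.bχ a).2 hp
  filter_upwards [(ALCut_tend hs).eventually (C.oneψ a p hp), ALCut_tgt hs] with y h2 h3
  simp only [lz, indicator_of_mem h3, Atl.loc, h2, one_mul]

theorem lz_congr (hp : p ∈ (M.e a).source) (h : u =ᶠ[𝓝 p] v) (θ : X → ℝ) :
    lz M θ a u =ᶠ[𝓝 (ra M a p)] lz M θ a v := by
  filter_upwards [(ALCut_tend hp).eventually h, ALCut_tgt hp] with y h2 h3
  simp only [lz, indicator_of_mem h3, Atl.loc, h2]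

/-- Off the support of `θ` the localised function vanishes near the point. -/
theorem lz_zero_ev (hp : p ∈ (M.e a).source) (h : p ∉ tsupport θ) (u : X → ℝ) :
    lz M θ a u =ᶠ[𝓝 (ra M a p)] fun _ => 0 := by
  filter_upwards [(ALCut_tend hp).eventually (notMem_tsupport_iff_eventuallyEq.1 h),
    ALCut_tgt hp] with y h2 h3
  simp only [lz, indicator_of_mem h3, Atl.loc, h2, Pi.zero_apply, zero_mul]

end Vale.Agent.P272.AL
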