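import Vale.Agent.P272.ALPq

/-! P272, part A1: real forms of complex matrices.
`Lc (toLp v) = ∑ i, v i • cb i` (`eq_sum_ee`, `map_sum`). The entries are `rl G (castAdd j) (castAdd k) = re (G j k)`,
`rl G (castAdd j) (natAdd k) = - im (G j k)`, `rl G (natAdd j) (castAdd k) = im (G j k)`,
`rl G (natAdd j) (natAdd k) = re (G j k)`; sums over `Fin (n + n)` split with `Fin.sum_univ_add`.
`rl_det`: `rl G` is `reindex finSumFinEquiv finSumFinEquiv (fromBlocks S (-T) T S)`; map to `ℂ` and multiply by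
the unipotent block matrices `fromBlocks 1 (I • 1) 0 1`, `fromBlocks 1 (-I • 1) 0 1` to get a block triangular matrix with diagonal blocks
`G` and its conjugate (`det_fromBlocks_zero₁₂`, `det_fromBlocks_zero₂₁`), or use `LinearMap.det_restrictScalars`.
`rl_LM`: both sides are symmetric with the same quadratic form (`Lev_eq_LM`, `Lev_eq_fderiv`, `Pq_quad`,
`Lc_Jm`, `hs_quad`). -/

set_option linter.unusedSectionVars false

open MeasureTheory Set Filter Topology Metric Matrix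
open scoped ContDiff ComplexConjugate ComplexOrder

noncomputable section

namespace Vale.Agent.P272.AL

open Vale.Agent.P271 Vale.Agent.P227

variable {n : ℕ} {G H : Mx n} {c : ℝ}

theorem ALCx_c (j : Fin n) : cb (Fin.castAdd n j) = Pi.single j 1 := by
  funext k
  have h : Fin.natAdd n k ≠ Fin.castAdd n j := fun h => by
    have := congrArg Fin.val h
    simp only [Fin.val_natAdd, Fin.val_castAdd] at this
    omega
  rw [cb, Lc_apply, PiLp.single_apply, PiLp.single_apply, if_neg h]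
  by_cases e : k = j <;> simp [e, -Fin.natAdd_eq_addNat]

theorem ALCx_n (j : Fin n) : cb (Fin.natAdd n j) = Pi.single j Complex.I := by
  funext k
  have h : Fin.castAdd n k ≠ Fin.natAdd n j := fun h => by
    have := congrArg Fin.val h
    simp only [Fin.val_natAdd, Fin.val_castAdd] at this
    omega
  rw [cb, Lc_apply, PiLp.single_apply, PiLp.single_apply, if_neg h]
  by_cases e : k = j <;> simp [e, -Fin.natAdd_eq_addNat]

theorem ALCx_s (G : Mx n) (j k : Fin n) (a b : ℂ) :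
    star (Pi.single j a : Cn n) ⬝ᵥ G *ᵥ Pi.single k b = conj a * (G j k * b) := by
  rw [← Pi.single_star, single_dotProduct, mulVec_single]
  simp

theorem ALCx_cc (G : Mx n) (j k : Fin n) :
    rl G (Fin.castAdd n j) (Fin.castAdd n k) = (G j k).re := by
  rw [rl, of_apply, ALCx_c, ALCx_c, ALCx_s]
  simp

theorem ALCx_cn (G : Mx n) (j k : Fin n) :
    rl G (Fin.castAdd n j) (Fin.natAdd n k) = -(G j k).im := by
  rw [rl, of_apply, ALCx_c, ALCx_n, ALCx_s]
  simp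

theorem ALCx_nc (G : Mx n) (j k : Fin n) :
    rl G (Fin.natAdd n j) (Fin.castAdd n k) = (G j k).im := by
  rw [rl, of_apply, ALCx_c, ALCx_n, ALCx_s]
  simp

theorem ALCx_nn (G : Mx n) (j k : Fin n) :
    rl G (Fin.natAdd n j) (Fin.natAdd n k) = (G j k).re := by
  rw [rl, of_apply, ALCx_n, ALCx_n, ALCx_s]
  simp

theorem ALCx_dot (v w : E (n + n)) : v.ofLp ⬝ᵥ w.ofLp = (star (Lc n v) ⬝ᵥ Lc n w).re := by
  simp [dotProduct, Fin.sum_univ_add, Lc_apply, Finset.sum_add_distrib, -Fin.natAdd_eq_addNat]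

theorem ALCx_Lc (G : Mx n) (v : E (n + n)) :
    Lc n (WithLp.toLp 2 (rl G *ᵥ v.ofLp)) = G *ᵥ Lc n v := by
  funext j
  simp only [Lc_apply, mulVec, dotProduct, Fin.sum_univ_add, ALCx_cc, ALCx_cn, ALCx_nc, ALCx_nn,
    ← Finset.sum_add_distrib, Complex.ofReal_sum, Finset.sum_mul]
  refine Finset.sum_congr rfl fun k _ => Complex.ext ?_ ?_ <;> simp <;> ring

theorem ALCx_ext {P Q : Mat (n + n)} (h : ∀ v : E (n + n),
    Lc n (WithLp.toLp 2 (P *ᵥ v.ofLp)) = Lc n (WithLp.toLp 2 (Q *ᵥ v.ofLp))) : P = Q :=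
  ext_iff_mulVec.2 fun v => congrArg WithLp.ofLp ((Lc n).injective (h (WithLp.toLp 2 v)))

theorem ALCx_hs {m : ℕ} {f : E m → ℝ} {x : E m} (h : ContDiffAt ℝ ∞ f x) (i j : Fin m) :
    hs f x i j = fderiv ℝ (fderiv ℝ f) x (ee i) (ee j) := by
  have h1 := (((h.fderiv_right (m := ∞) (by simp)).differentiableAt
    (by simp)).hasFDerivAt.clm_apply (hasFDerivAt_const (ee j) x)).fderiv
  refine (DFunLike.congr_fun h1 (ee i)).trans ?_
  simp

theorem ALCx_bil {m : ℕ} {f : E m → ℝ} {x : E m} (h : ContDiffAt ℝ ∞ f x) (v w : E m) :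
    v.ofLp ⬝ᵥ hs f x *ᵥ w.ofLp = fderiv ℝ (fderiv ℝ f) x v w := by
  conv_rhs => rw [eq_sum_ee v, eq_sum_ee w]
  simp only [map_sum, map_smul, _root_.sum_apply, _root_.smul_apply, smul_eq_mul,
    dotProduct, mulVec, ALCx_hs h, Finset.mul_sum]
  rw [Finset.sum_comm]
  exact Finset.sum_congr rfl fun i _ => Finset.sum_congr rfl fun j _ => by ring

theorem ALCx_symm {F : Type} [NormedAddCommGroup F] [NormedSpace ℝ F] {f : F → ℝ} {x : F}
    (h : ContDiffAt ℝ ∞ f x) : IsSymmSndFDerivAt ℝ f x := h.isSymmSndFDerivAt (by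
  rw [minSmoothness_of_isRCLikeNormedField]; exact WithTop.coe_le_coe.2 le_top)

theorem rl_quad (G : Mx n) (v w : E (n + n)) :
    v.ofLp ⬝ᵥ rl G *ᵥ w.ofLp = (star (Lc n v) ⬝ᵥ G *ᵥ Lc n w).re := by
  rw [← ALCx_Lc, ← ALCx_dot]

theorem Lc_rl (G : Mx n) (v : E (n + n)) :
    Lc n (WithLp.toLp 2 (rl G *ᵥ v.ofLp)) = G *ᵥ Lc n v := ALCx_Lc G v

theorem Lc_Jm (v : E (n + n)) :
    Lc n (WithLp.toLp 2 (Jm n *ᵥ v.ofLp)) = Complex.I • Lc n v := by
  rw [Jm, Lc_rl, smul_mulVec, one_mulVec]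

theorem rl_add (G H : Mx n) : rl (G + H) = rl G + rl H := by
  ext i j
  simp only [rl, of_apply, add_mulVec, dotProduct_add, Complex.add_re, Matrix.add_apply]

theorem rl_one : rl (1 : Mx n) = 1 := ALCx_ext fun v => by rw [Lc_rl, one_mulVec, one_mulVec]

theorem rl_mul (G H : Mx n) : rl (G * H) = rl G * rl H := ALCx_ext fun v => by
  rw [Lc_rl, ← mulVec_mulVec, ← mulVec_mulVec, ← Lc_rl H, ← Lc_rl G]

theorem rl_inv (h : G.det ≠ 0) : rl G⁻¹ = (rl G)⁻¹ :=
  (inv_eq_left_inv (by rw [← rl_mul, nonsing_inv_mul _ h.isUnit, rl_one])).symm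

theorem rl_symm (h : G.IsHermitian) : (rl G).IsSymm := by
  refine IsSymm.ext fun i j => ?_
  refine Fin.addCases (fun i => ?_) (fun i => ?_) i <;>
    refine Fin.addCases (fun j => ?_) (fun j => ?_) j <;>
    simp only [ALCx_cc, ALCx_cn, ALCx_nc, ALCx_nn, ← h.apply i j, Complex.star_def, Complex.conj_re,
      Complex.conj_im, neg_neg]

theorem rl_det (G : Mx n) : (rl G).det = ‖G.det‖ ^ 2 := by
  let e : (Fin (n + n) → ℝ) ≃ₗ[ℝ] Cn n := (WithLp.linearEquiv 2 ℝ _).symm.trans (LcL n)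
  have h : (toLin' G).restrictScalars ℝ = e.toLinearMap ∘ₗ toLin' (rl G) ∘ₗ e.symm.toLinearMap := by
    refine LinearMap.ext fun z => ?_
    obtain ⟨v, rfl⟩ := e.surjective z
    simp only [LinearMap.comp_apply, LinearEquiv.coe_coe, LinearEquiv.symm_apply_apply]
    exact (Lc_rl G (WithLp.toLp 2 v)).symm
  rw [← LinearMap.det_toLin', ← LinearMap.det_conj _ e, ← h, LinearMap.det_restrictScalars,
    LinearMap.det_toLin', Algebra.norm_complex_apply, Complex.normSq_eq_norm_sq]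

theorem rl_logdet (h : G.PosDef) : Real.log (rl G).det = 2 * Real.log G.det.re := by
  rw [rl_det, det_eq_re h.1, Complex.norm_real, Real.norm_eq_abs, sq_abs, Real.log_pow,
    Complex.ofReal_re, Nat.cast_ofNat]

theorem rl_ct (h : G.IsHermitian) (H : Mx n) : ct (rl G) (rl H) = 2 * (G * H).trace.re := by
  have e : ct (rl G) (rl H) = ((rl G)ᵀ * rl H).trace := by
    simp only [ct, trace, diag_apply, mul_apply, transpose_apply]
    exact Finset.sum_comm
  rw [e, (rl_symm h).eq, ← rl_mul]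
  simp only [trace, diag_apply, Fin.sum_univ_add, ALCx_cc, ALCx_nn, Complex.re_sum, two_mul]

theorem rl_lower (h : (G - (c : ℂ) • 1).PosSemidef) (v : Fin (n + n) → ℝ) :
    c * (v ⬝ᵥ v) ≤ v ⬝ᵥ rl G *ᵥ v := by
  have h1 := (Complex.nonneg_iff.1 (h.dotProduct_mulVec_nonneg (Lc n (WithLp.toLp 2 v)))).1
  rw [sub_mulVec, dotProduct_sub, smul_mulVec, one_mulVec, dotProduct_smul, Complex.sub_re,
    smul_eq_mul, Complex.re_ofReal_mul, ← rl_quad, ← ALCx_dot] at h1
  exact sub_nonneg.1 h1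

theorem rl_entry (hG : G.PosSemidef) (h : ((c : ℂ) • 1 - G).PosSemidef) (i j : Fin (n + n)) :
    |rl G i j| ≤ c := by
  refine entry_le (PosSemidef.of_dotProduct_mulVec_nonneg
    (isHermitian_iff_isSymm.2 (rl_symm hG.1)) fun v => ?_) (fun v => ?_) i j
  · simpa using rl_lower (G := G) (c := 0) (by simpa using hG) v
  · have h1 := (Complex.nonneg_iff.1 (h.dotProduct_mulVec_nonneg (Lc n (WithLp.toLp 2 v)))).1
    rw [sub_mulVec, dotProduct_sub, smul_mulVec, one_mulVec, dotProduct_smul, Complex.sub_re,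
      smul_eq_mul, Complex.re_ofReal_mul, ← rl_quad, ← ALCx_dot] at h1
    exact sub_nonneg.1 h1

theorem posDef_of_rl (hG : G.IsHermitian) (hc : 0 < c)
    (h : ∀ v : Fin (n + n) → ℝ, c * (v ⬝ᵥ v) ≤ v ⬝ᵥ rl G *ᵥ v) : G.PosDef := by
  refine PosDef.of_dotProduct_mulVec_pos hG fun ξ hξ =>
    Complex.pos_iff.2 ⟨?_, (Loc_im hG ξ).symm⟩
  obtain ⟨v, rfl⟩ := (Lc n).surjective ξ
  rw [← rl_quad]
  refine (mul_pos hc ?_).trans_le (h _)
  rw [dot_self_eq]
  exact pow_pos (norm_pos_iff.2 fun e => hξ (by rw [e, map_zero])) 2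

theorem contDiffAt_rl {B : Cn n → Mx n} {z : Cn n}
    (h : ∀ j k, ContDiffAt ℝ ∞ (fun y => B y j k) z) (i l : Fin (n + n)) :
    ContDiffAt ℝ ∞ (fun y => rl (B y) i l) z := by
  refine Fin.addCases (fun i => ?_) (fun i => ?_) i <;>
    refine Fin.addCases (fun l => ?_) (fun l => ?_) l <;>
    simp only [ALCx_cc, ALCx_cn, ALCx_nc, ALCx_nn]
  · exact Complex.reCLM.contDiff.comp_contDiffAt z (h i l)
  · exact (Complex.imCLM.contDiff.comp_contDiffAt z (h i l)).neg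
  · exact Complex.imCLM.contDiff.comp_contDiffAt z (h i l)
  · exact Complex.reCLM.contDiff.comp_contDiffAt z (h i l)

/-- Each entry of `rl` is, up to sign, the real or imaginary part of an entry; `‖cb e‖ = 1`. -/
theorem pd_rl {B : Cn n → Mx n} {x : E (n + n)} {L : ℝ}
    (h : ∀ j k, DifferentiableAt ℝ (fun y => B y j k) (Lc n x))
    (hL : ∀ j k, ‖fderiv ℝ (fun y => B y j k) (Lc n x)‖ ≤ L) (e i l : Fin (n + n)) :
    |pd e (fun y => rl (B (Lc n y)) i l) x| ≤ L := by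
  have h1 : ‖cb e‖ = 1 := by
    refine Fin.addCases (fun e => ?_) (fun e => ?_) e <;>
      simp [ALCx_c, ALCx_n, Pi.norm_single, -Fin.natAdd_eq_addNat]
  have key : ∀ (T : ℂ →L[ℝ] ℝ), (∀ z, |T z| ≤ ‖z‖) → ∀ j k,
      |pd e (fun y => T (B (Lc n y) j k)) x| ≤ L := by
    intro T hT j k
    have h2 := (T.hasFDerivAt.comp x ((h j k).hasFDerivAt.comp x (Lc n).hasFDerivAt)).fderiv
    refine (congrArg abs (DFunLike.congr_fun h2 (ee e))).trans_le ((hT _).trans ?_)
    refine ((fderiv ℝ (fun y => B y j k) (Lc n x)).le_opNorm (cb e)).trans ?_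
    rw [h1, mul_one]
    exact hL j k
  refine Fin.addCases (fun i => ?_) (fun i => ?_) i <;>
    refine Fin.addCases (fun l => ?_) (fun l => ?_) l <;>
    simp only [ALCx_cc, ALCx_cn, ALCx_nc, ALCx_nn]
  · exact key Complex.reCLM Complex.abs_re_le_norm i l
  · exact key (-Complex.imCLM) (fun z => (abs_neg _).trans_le (Complex.abs_im_le_norm z)) i l
  · exact key Complex.imCLM Complex.abs_im_le_norm i l
  · exact key Complex.reCLM Complex.abs_re_le_norm i l

theorem hs_quad {m : ℕ} {f : E m → ℝ} {x : E m} (h : ContDiffAt ℝ ∞ f x) (v : E m) :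
    (hs f x).IsSymm ∧ v.ofLp ⬝ᵥ hs f x *ᵥ v.ofLp = fderiv ℝ (fderiv ℝ f) x v v :=
  ⟨IsSymm.ext fun i j => by rw [ALCx_hs h, ALCx_hs h, (ALCx_symm h).eq], ALCx_bil h v v⟩

theorem rl_LM {φ : Cn n → ℝ} {x : E (n + n)} (h : ContDiffAt ℝ ∞ φ (Lc n x)) :
    rl (LM φ (Lc n x)) = Pq (Jm n) (hs (fun y => φ (Lc n y)) x) := by
  have h0 : ContDiffAt ℝ ∞ (fun y => φ (Lc n y)) x := h.comp x (Lc n).contDiff.contDiffAt
  have h1 : fderiv ℝ (fun y => φ (Lc n y))
      = fun y => (fderiv ℝ φ (Lc n y)).comp (Lc n : E (n + n) →L[ℝ] Cn n) :=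
    funext fun y => (Lc n).comp_right_fderiv
  have h2 : ∀ v w, fderiv ℝ (fderiv ℝ fun y => φ (Lc n y)) x v w
      = fderiv ℝ (fderiv ℝ φ) (Lc n x) (Lc n v) (Lc n w) := by
    intro v w
    have h3 := ((((h.fderiv_right (m := ∞) (by simp)).differentiableAt (by simp)).hasFDerivAt.comp
      x (Lc n).hasFDerivAt).clm_comp (hasFDerivAt_const (Lc n : E (n + n) →L[ℝ] Cn n) x)).fderiv
    rw [h1]
    refine (DFunLike.congr_fun (DFunLike.congr_fun h3 v) w).trans ?_
    simp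
  have h3 : ∀ (P : Mat (n + n)) i j, P i j = (ee i).ofLp ⬝ᵥ P *ᵥ (ee j).ofLp := by
    intro P i j
    simp [ee]
  ext i j
  have h4 := ALCx_bil h0 (WithLp.toLp 2 (Jm n *ᵥ (ee i).ofLp)) (WithLp.toLp 2 (Jm n *ᵥ (ee j).ofLp))
  rw [h2, Lc_Jm, Lc_Jm, ← vecMul_transpose, ← dotProduct_mulVec, mulVec_mulVec, mulVec_mulVec,
    ← h3] at h4
  rw [Pq, Matrix.smul_apply, Matrix.add_apply, h4, ALCx_hs h0, h2, h3 (rl _), rl_quad,
    ← lev_eq_LM h, Loc_lev h, (ALCx_symm h).eq (Lc n (ee i)),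
    (ALCx_symm h).eq (Complex.I • Lc n (ee i))]
  simp
  ring

end Vale.Agent.P272.AL
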