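import Vale.Agent.P272.Api
import Vale.Agent.P227.Linear

/-! P272, part A1: definitions for the linear theory and the method of continuity. -/

open MeasureTheory Set Filter Topology Metric Matrix
open scoped ContDiff ComplexConjugate ComplexOrder

noncomputable section

namespace Vale.Agent.P272.AL

open Vale.Agent.P271 Vale.Agent.P227

section Real
variable {m : ℕ}

/-- `k` derivatives that are bounded and Hoelder, with constant `N`. -/
def Hq : ℕ → (E m → ℝ) → ℝ → Prop
  | 0, f, N => Hn f N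
  | k + 1, f, N => Hn f N ∧ Differentiable ℝ f ∧ ∀ i, Hq k (pd i f) N

/-- Contraction of two matrices. -/
def ct (A H : Mat m) : ℝ := ∑ i, ∑ j, A i j * H i j

/-- The averaging `H ↦ (H + Jᵀ H J) / 4`. -/
def Pq (J H : Mat m) : Mat m := (1 / 4 : ℝ) • (H + Jᵀ * H * J)

/-- Smooth with compact support. -/
def Tf (θ : E m → ℝ) : Prop := ContDiff ℝ ∞ θ ∧ ∃ R : ℝ, ∀ x, R ≤ ‖x‖ → θ x = 0

/-- `S` contains a uniform neighbourhood of the support of `θ`. -/
def Near (θ : E m → ℝ) (S : Set (E m)) : Prop :=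
  ∃ δ : ℝ, 0 < δ ∧ ∀ x, θ x ≠ 0 → ∀ v : E m, ‖v‖ ≤ δ → x + v ∈ S

end Real

variable {n : ℕ}

/-- Real coordinates, as a linear equivalence. -/
def LcL (n : ℕ) : E (n + n) ≃ₗ[ℝ] Cn n where
  toFun x := fun j => (x (Fin.castAdd n j) : ℂ) + x (Fin.natAdd n j) * Complex.I
  invFun z := WithLp.toLp 2 (Fin.addCases (fun j => (z j).re) fun j => (z j).im)
  map_add' x y := by
    funext j
    simp only [PiLp.add_apply, Pi.add_apply, Complex.ofReal_add]
    ring
  map_smul' c x := by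
    funext j
    simp only [PiLp.smul_apply, smul_eq_mul, Pi.smul_apply, Complex.ofReal_mul, RingHom.id_apply,
      Complex.real_smul]
    ring
  left_inv x := by
    ext i
    refine Fin.addCases (fun j => ?_) (fun j => ?_) i <;> simp
  right_inv z := by
    funext j
    simp

/-- Real coordinates. -/
def Lc (n : ℕ) : E (n + n) ≃L[ℝ] Cn n := (LcL n).toContinuousLinearEquiv

theorem Lc_apply (x : E (n + n)) (j : Fin n) :
    Lc n x j = (x (Fin.castAdd n j) : ℂ) + x (Fin.natAdd n j) * Complex.I := rfl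

/-- The real basis of `Cn n`. -/
def cb (i : Fin (n + n)) : Cn n := Lc n (EuclideanSpace.single i 1)

/-- The real form of a complex matrix. -/
def rl (G : Mx n) : Mat (n + n) := Matrix.of fun i j => (star (cb i) ⬝ᵥ G *ᵥ cb j).re

/-- The complex structure. -/
def Jm (n : ℕ) : Mat (n + n) := rl (Complex.I • (1 : Mx n))

variable {X : Type} [TopologicalSpace X] [MeasurableSpace X]

/-- The real chart. -/
def ra (M : Model n X) (a : M.ι) (p : X) : E (n + n) := (Lc n).symm (M.e a p)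

/-- Smooth functions supported in the chart `a`. -/
def Bump (M : Model n X) (a : M.ι) (θ : X → ℝ) : Prop := M.Sm θ ∧ tsupport θ ⊆ (M.e a).source

/-- The function `θ u` in the real chart `a`, extended by zero. -/
def lz (M : Model n X) (θ : X → ℝ) (a : M.ι) (u : X → ℝ) (x : E (n + n)) : ℝ :=
  (M.e a).target.indicator (M.loc a fun p => θ p * u p) (Lc n x)

/-- A function of the real chart `a`, cut off and moved to `X`. -/
def up (M : Model n X) (θ : X → ℝ) (a : M.ι) (G : E (n + n) → ℝ) (p : X) : ℝ :=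
  θ p * G (ra M a p)

/-- Two layers of cutoff functions around the partition of unity. -/
structure Cut (M : Model n X) where
  χ : M.ι → X → ℝ
  ψ : M.ι → X → ℝ
  bχ : ∀ a, Bump M a (χ a)
  bψ : ∀ a, Bump M a (ψ a)
  mem : ∀ a p, 0 ≤ χ a p ∧ χ a p ≤ 1 ∧ 0 ≤ ψ a p ∧ ψ a p ≤ 1
  oneχ : ∀ a, ∀ p ∈ tsupport (M.ρ a), ∀ᶠ q in 𝓝 p, χ a q = 1
  oneψ : ∀ a, ∀ p ∈ tsupport (χ a), ∀ᶠ q in 𝓝 p, ψ a q = 1

variable {M : Model n X}

/-- Hoelder norms on `X`. -/
def Nk (C : Cut M) (k : ℕ) (u : X → ℝ) (N : ℝ) : Prop := ∀ a, Hq k (lz M (C.χ a) a u) N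

/-- The Hessian of `u` in the chart `a`. -/
def hz (C : Cut M) (a : M.ι) (u : X → ℝ) : E (n + n) → Mat (n + n) := hs (lz M (C.ψ a) a u)

/-- An elliptic operator `D` on `X` with coefficients `A a` in the chart `a`. -/
structure Op (C : Cut M) (c K : ℝ) (A : M.ι → E (n + n) → Mat (n + n))
    (D : (X → ℝ) → X → ℝ) : Prop where
  ell : ∀ a, Ell (A a) c
  hm : ∀ a, HM (A a) K
  hk : ∀ a k i j, Hk k fun x => A a x i j
  eq : ∀ u, M.Sm u → ∀ a, ∀ p ∈ tsupport (C.χ a),
    D u p = ct (A a (ra M a p)) (hz C a u (ra M a p))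
  sm : ∀ u, M.Sm u → M.Sm (D u)
  max : ∀ u, M.Sm u → ∀ p, (∀ q, u q ≤ u p) → D u p ≤ 0

/-- Global extensions `G a` of the real matrices of the form `η`. -/
structure Ext (C : Cut M) (c K : ℝ) (η : Frm M.toAtl) (G : M.ι → E (n + n) → Mat (n + n)) :
    Prop where
  ell : ∀ a, Ell (G a) c
  hm : ∀ a, HM (G a) K
  hk : ∀ a k i j, Hk k fun x => G a x i j
  eq : ∀ a, ∀ p ∈ tsupport (C.χ a), G a (ra M a p) = rl (LM (η a) (M.e a p))

/-- The coefficients of the Laplacian. -/
def cf (G : M.ι → E (n + n) → Mat (n + n)) (a : M.ι) (x : E (n + n)) : Mat (n + n) :=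
  (1 / 2 : ℝ) • Pq (Jm n)ᵀ (G a x)⁻¹

/-- The Laplacian of a Kaehler form. -/
def Lap (η : Frm M.toAtl) (u : X → ℝ) : X → ℝ := trF M.toAtl η (ddc M.toAtl u)

/-- The quadratic remainder of the Monge-Ampere operator. -/
def Qr (η : Frm M.toAtl) (w : X → ℝ) (p : X) : ℝ :=
  Real.log (dt M (η + ddc M.toAtl w) p) - Real.log (dt M η p) - Lap η w p

end Vale.Agent.P272.AL
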