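import Vale.Agent.P272.ALHq

/-! P272, part A1: composition, limits and interpolation.
`Hq.comp`: `Y` is Lipschitz (`mvt`, `Tf.hk`), so `Hn (G ∘ Y) (N * max 1 √L)`; induction on `k` with the
chain rule `pd i (G ∘ Y) = ∑ l, (pd l G ∘ Y) * pd i (Y · l)` (`fderiv_eq_sum`), `Hq.mul`, `Hq.sum`.
Limits: as `compactness` in `P227/Calc2.lean`: `UF_lim` gives limits `q i x` of `pd i (W j) x`, pass to
the limit in `taylor1`, then `diff_of_bound`. `interp`: `|pd i f x| ≤ 2 s / t + M t` (mean value theorem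
twice on the line `x + t • ee i`, `hasDerivAt_ee`), and a function bounded by `β` with Lipschitz
constant `L` (`pd_lip`, `mvt`) satisfies `|φ x - φ y| ≤ (2 β / τ + L τ) √‖x - y‖` for every `τ > 0`
(cases `√‖x - y‖ ≤ τ` or not). -/

set_option linter.unusedSectionVars false

open MeasureTheory Set Filter Topology Metric Matrix
open scoped ContDiff ComplexConjugate ComplexOrder

noncomputable section

namespace Vale.Agent.P272.AL

open Vale.Agent.P271 Vale.Agent.P227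

variable {m k : ℕ} {f g θ V W : E m → ℝ} {A B G : E m → Mat m} {J : Mat m} {a b c K N M : ℝ}

theorem ALHq2_lip {Y : E m → E m} (hY : ∀ l, Tf fun x => Y x l) :
    ∃ L : ℝ, 0 ≤ L ∧ ∀ x y, ‖Y x - Y y‖ ≤ L * ‖x - y‖ := by
  choose β hβ using fun l => hk_iff.1 ((hY l).hk 1)
  refine ⟨∑ l, m * β l, Finset.sum_nonneg fun l _ =>
    mul_nonneg (Nat.cast_nonneg m) (hβ l).nonneg, fun x y => ?_⟩
  rw [eq_sum_ee (Y x - Y y), Finset.sum_mul]
  refine (norm_sum_le _ _).trans (Finset.sum_le_sum fun l _ => ?_)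
  rw [norm_smul, norm_ee, mul_one]
  have h := mvt (x := y) (y := x - y) (hβ l).2.1 fun i ξ _ => ((hβ l).2.2 i).1 _
  rwa [add_sub_cancel] at h

theorem ALHq2_hn {Y : E m → E m} (hY : ∀ l, Tf fun x => Y x l) : ∃ C : ℝ, 0 ≤ C ∧
    ∀ (f : E m → ℝ) (N : ℝ), Hn f N → Hn (fun x => f (Y x)) (C * N) := by
  obtain ⟨L, hL, h⟩ := ALHq2_lip hY
  refine ⟨1 + √L, by positivity, fun f N hf => ⟨fun x => ?_, fun x y => ?_⟩⟩
  · have := mul_nonneg (Real.sqrt_nonneg L) hf.nonneg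
    linarith [hf.1 (Y x)]
  · have h1 := Real.sqrt_le_sqrt (h x y)
    rw [Real.sqrt_mul hL] at h1
    have h2 := mul_le_mul_of_nonneg_left h1 hf.nonneg
    have h3 := mul_nonneg hf.nonneg (Real.sqrt_nonneg ‖x - y‖)
    linarith [hf.2 (Y x) (Y y)]

theorem ALHq2_pd {Y : E m → E m} (hY : Differentiable ℝ Y) (hf : Differentiable ℝ f) (i : Fin m) :
    pd i (fun x => f (Y x)) = fun x => ∑ l, pd l f (Y x) * pd i (fun y => Y y l) x := by
  funext x
  have h1 := ((hf (Y x)).hasFDerivAt.comp x (hY x).hasFDerivAt).fderiv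
  refine (congrArg (fun L : E m →L[ℝ] ℝ => L (EuclideanSpace.single i 1)) h1).trans ?_
  refine (fderiv_eq_sum f (Y x) _).trans (Finset.sum_congr rfl fun l _ => ?_)
  have h2 := ((EuclideanSpace.proj l : E m →L[ℝ] ℝ).hasFDerivAt.comp x (hY x).hasFDerivAt).fderiv
  rw [mul_comm]
  exact congrArg (pd l f (Y x) * ·)
    (congrArg (fun L : E m →L[ℝ] ℝ => L (EuclideanSpace.single i 1)) h2).symm

theorem Hq.comp {Y : E m → E m} (hY : ∀ l, Tf fun x => Y x l) (k : ℕ) : ∃ C : ℝ, 0 ≤ C ∧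
    ∀ (f : E m → ℝ) (N : ℝ), Hq k f N → Hq k (fun x => f (Y x)) (C * N) := by
  obtain ⟨C₀, hC₀, h₀⟩ := ALHq2_hn hY
  have hd : Differentiable ℝ Y := differentiable_euclidean.2 fun l => ((hY l).hk 1).2.1
  induction k with
  | zero => exact ⟨C₀, hC₀, h₀⟩
  | succ k ih =>
    obtain ⟨C, hC, h⟩ := ih
    choose β hβ using fun i l => hk_iff.1 (((hY l).pd i).hk k)
    have hβ0 : ∀ i, 0 ≤ ∑ l, β i l := fun i => Finset.sum_nonneg fun l _ => (hβ i l).nonneg
    have hS : 0 ≤ ∑ i, ∑ l, β i l := Finset.sum_nonneg fun i _ => hβ0 i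
    refine ⟨C₀ + 2 ^ (k + 1) * C * ∑ i, ∑ l, β i l, by positivity, fun f N hf => ?_⟩
    have hN := hf.nonneg
    refine ⟨(h₀ f N hf.1).mono (mul_le_mul_of_nonneg_right
      (le_add_of_nonneg_right (by positivity)) hN), hf.2.1.comp hd, fun i => ?_⟩
    rw [ALHq2_pd hd hf.2.1]
    refine (Hq.sum _ fun l _ => (h _ N (hf.2.2 l)).mul (hβ i l)).mono ?_
    have h1 : ∑ l, β i l ≤ ∑ i, ∑ l, β i l :=
      Finset.single_le_sum (f := fun i => ∑ l, β i l) (fun i _ => hβ0 i) (Finset.mem_univ i)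
    have h2 := mul_le_mul_of_nonneg_left h1 (show 0 ≤ 2 ^ (k + 1) * (C * N) by positivity)
    have h3 := mul_nonneg hC₀ hN
    rw [← Finset.mul_sum]
    linarith

theorem pd_lim {W : ℕ → E m → ℝ} {u : E m → ℝ} (h : ∀ j, Hq 1 (W j) M)
    (hu : ∀ x, Tendsto (fun j => W j x) UF (𝓝 (u x))) :
    Differentiable ℝ u ∧ ∀ i x, Tendsto (fun j => pd i (W j) x) UF (𝓝 (pd i u x)) := by
  choose p hp using fun i x => UF_lim (s := fun j => pd i (W j) x) fun j => ((h j).2.2 i).1 x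
  have h1 : ∀ x, DifferentiableAt ℝ u x ∧ ∀ i, pd i u x = p i x := by
    intro x
    refine diff_of_bound (C := m * M) one_pos fun y _ => ?_
    have h2 := (((hu (x + y)).sub (hu x)).sub
      (tendsto_finsetSum Finset.univ fun i _ => (hp i x).const_mul (y i))).abs
    exact le_of_tendsto' h2 fun j => taylor1 (h j).2.1 (fun i a b => ((h j).2.2 i).2 a b) x y
  exact ⟨fun x => (h1 x).1, fun i x => (h1 x).2 i ▸ hp i x⟩

theorem hq_lim {W : ℕ → E m → ℝ} {u : E m → ℝ} (h : ∀ j, Hq k (W j) M)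
    (hu : ∀ x, Tendsto (fun j => W j x) UF (𝓝 (u x))) : Hq k u M := by
  have h0 : ∀ {W : ℕ → E m → ℝ} {u : E m → ℝ}, (∀ j, Hn (W j) M) →
      (∀ x, Tendsto (fun j => W j x) UF (𝓝 (u x))) → Hn u M := fun h hu =>
    ⟨fun x => le_of_tendsto' (hu x).abs fun j => (h j).1 x,
      fun x y => le_of_tendsto' ((hu x).sub (hu y)).abs fun j => (h j).2 x y⟩
  induction k generalizing W u with
  | zero => exact h0 h hu
  | succ k ih =>
    obtain ⟨h1, h2⟩ := pd_lim (fun j => (h j).of_le (Nat.le_add_left 1 k)) hu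
    exact ⟨h0 (fun j => (h j).1) hu, h1, fun i => ih (fun j => (h j).2.2 i) (h2 i)⟩

theorem hs_lim {W : ℕ → E m → ℝ} {u : E m → ℝ} (h : ∀ j, Hq 2 (W j) M)
    (hu : ∀ x, Tendsto (fun j => W j x) UF (𝓝 (u x))) (x : E m) (i l : Fin m) :
    Tendsto (fun j => hs (W j) x i l) UF (𝓝 (hs u x i l)) := by
  exact (pd_lim (fun j => (h j).2.2 l) ((pd_lim (fun j => (h j).of_succ) hu).2 l)).2 i x

theorem ALHq2_hold {β L τ : ℝ} (hτ : 0 < τ) (hL : 0 ≤ L) (hb : ∀ x, |f x| ≤ β)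
    (h : ∀ x y, |f x - f y| ≤ L * ‖x - y‖) (x y : E m) :
    |f x - f y| ≤ (2 * β / τ + L * τ) * √‖x - y‖ := by
  have hβ : 0 ≤ β := (abs_nonneg _).trans (hb x)
  have h0 := Real.sqrt_nonneg ‖x - y‖
  have h1 := Real.mul_self_sqrt (norm_nonneg (x - y))
  rw [add_mul]
  rcases le_total √‖x - y‖ τ with k | k
  · refine (h x y).trans (le_add_of_nonneg_of_le (by positivity) ?_)
    rw [mul_assoc]
    exact mul_le_mul_of_nonneg_left (h1.symm.le.trans (mul_le_mul_of_nonneg_right k h0)) hL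
  · refine (abs_sub _ _).trans (le_add_of_le_of_nonneg ?_ (by positivity))
    have h2 : 2 * β / τ * τ ≤ 2 * β / τ * √‖x - y‖ := mul_le_mul_of_nonneg_left k (by positivity)
    rw [div_mul_cancel₀ _ hτ.ne'] at h2
    linarith [hb x, hb y]

theorem ALHq2_grad {s t : ℝ} (ht : 0 < t) (hM : 0 ≤ M) (hf : C2 f) (hs0 : ∀ x, |f x| ≤ s)
    (h : ∀ x i j, |hs f x i j| ≤ M) (i : Fin m) (x : E m) :
    |pd i f x| ≤ 2 * s / t + m ^ 2 * t * M := by
  have h1 := taylor_seg (x := x) (y := t • ee i) (b := m * M * t) hf.1 (c := fun l => pd l f x)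
    fun l r h0 h1 => by
      have h4 := pd_lip hf h l (x + r • t • ee i) x
      rw [add_sub_cancel_left] at h4
      refine h4.trans (mul_le_mul_of_nonneg_left ?_ (by positivity))
      exact (norm_smul_le01 _ h0 h1).trans (norm_smul_ee ht.le i).le
  have h2 : ∑ l, (t • ee i : E m) l * pd l f x = t * pd i f x := by
    rw [← fderiv_eq_sum, map_smul]
    rfl
  rw [h2, norm_smul_ee ht.le] at h1
  have h3 : t * |pd i f x| ≤ 2 * s + m * (m * M * t) * t := by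
    rw [← abs_of_pos ht, ← abs_mul, abs_of_pos ht]
    have k1 := abs_le.1 h1
    have k2 := abs_le.1 (hs0 x)
    have k3 := abs_le.1 (hs0 (x + t • ee i))
    exact abs_le.2 ⟨by linarith, by linarith⟩
  refine le_of_mul_le_mul_left (h3.trans (le_of_eq ?_)) ht
  field_simp

theorem interp (m : ℕ) {ε : ℝ} (hε : 0 < ε) : ∃ C : ℝ, 0 < C ∧ ∀ (f : E m → ℝ) (s M : ℝ), 0 ≤ M →
    C2 f → (∀ x, |f x| ≤ s) → (∀ x i j, |hs f x i j| ≤ M) → Hq 1 f (ε * M + C * s) := by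
  obtain ⟨τ, hτ, h1⟩ := exists_pos_mul_lt (half_pos hε) (m : ℝ)
  obtain ⟨t, ht, h2⟩ := exists_pos_mul_lt (half_pos hε) ((m : ℝ) ^ 2 + m ^ 3 + 2 * m ^ 2 / τ)
  have a1 : 0 ≤ (m : ℝ) ^ 2 * t := by positivity
  have a2 : 0 ≤ (m : ℝ) ^ 3 * t := by positivity
  have a3 : 0 ≤ 2 * (m : ℝ) ^ 2 / τ * t := by positivity
  refine ⟨2 + 2 / t + 2 * m / t + 4 / (t * τ), by positivity, fun f s M hM hf h0 h => ?_⟩
  have hs0 : 0 ≤ s := (abs_nonneg _).trans (h0 0)
  have b1 : 0 ≤ 2 / t * s := by positivity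
  have b2 : 0 ≤ 2 * m / t * s := by positivity
  have b3 : 0 ≤ 4 / (t * τ) * s := by positivity
  have hg := ALHq2_grad ht hM hf h0 h
  refine ⟨(Hn.of_lip (b := m * (2 * s / t + m ^ 2 * t * M)) h0 (fun x y => ?_)
    (by positivity)).mono ?_, hf.1, fun i => ⟨fun x => (hg i x).trans ?_, fun x y => ?_⟩⟩
  · have k := mvt (x := y) (y := x - y) hf.1 fun i ξ _ => hg i _
    rwa [add_sub_cancel] at k
  · have k1 : (m : ℝ) ^ 3 * t * M ≤ ε * M := mul_le_mul_of_nonneg_right (by linarith) hM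
    have k2 : m * (2 * s / t + m ^ 2 * t * M) = 2 * m / t * s + m ^ 3 * t * M := by ring
    linarith
  · have k1 : (m : ℝ) ^ 2 * t * M ≤ ε * M := mul_le_mul_of_nonneg_right (by linarith) hM
    have k2 : 2 * s / t = 2 / t * s := by ring
    linarith
  · refine (ALHq2_hold hτ (by positivity) (hg i) (pd_lip hf h i) x y).trans
      (mul_le_mul_of_nonneg_right ?_ (Real.sqrt_nonneg _))
    have k1 : (2 * (m : ℝ) ^ 2 / τ * t + m * τ) * M ≤ ε * M :=
      mul_le_mul_of_nonneg_right (by linarith) hM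
    have k2 : 2 * (2 * s / t + m ^ 2 * t * M) / τ + m * M * τ =
        4 / (t * τ) * s + (2 * (m : ℝ) ^ 2 / τ * t + m * τ) * M := by
      field_simp
      ring
    linarith

end Vale.Agent.P272.AL
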