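import Vale.Agent.P272.ALCut
import Vale.Agent.P272.ALHq2

/-! P272, part A1: change of charts and the norms `Nk`.
`tr_up`: take bumps `σ` (chart `a`, equal to `1` on `tsupport θ`) and `σ'` (chart `b`, equal to `1` on `tsupport θ'`)
from `exists_bump`; `y l = up σ' b (fun x => x l)` is smooth (`sm_up`), `Y x = toLp fun l => lz σ a (y l) x` has
components in `Tf` (`lz_tf`), and `lz θ a (up θ' b F) = fun x => lz θ a θ' x * F (Y x)` (`lz_ext`); use `Hq.comp`,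
`Hq.mul`. `nk_lz`, `hk_lz`: write `u` with `sum_up`, `lz_sum`. Constants: sums over the finite index type.
`nk_lim`: `UF_lim` with `Nk.abs_le`; `lz θ a (W j) x` converges to `lz θ a u x`; `hq_lim`, `hs_lim`, `nk_lz`. -/

set_option linter.unusedSectionVars false

open MeasureTheory Set Filter Topology Metric Matrix
open scoped ContDiff ComplexConjugate ComplexOrder

noncomputable section

namespace Vale.Agent.P272.AL

open Vale.Agent.P271 Vale.Agent.P227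

variable {n : ℕ} {X : Type} [TopologicalSpace X] [T2Space X] [CompactSpace X]
  [MeasurableSpace X] {M : Model n X} {C : Cut M} {a b : M.ι} {θ θ' u v w g : X → ℝ} {p : X}
  {k : ℕ} {c K N s : ℝ} {A G : M.ι → E (n + n) → Mat (n + n)} {D : (X → ℝ) → X → ℝ}
  {η : Frm M.toAtl}

theorem tr_up (h : Bump M a θ) (h' : Bump M b θ') (k : ℕ) : ∃ C₀ : ℝ, 0 ≤ C₀ ∧
    ∀ (F : E (n + n) → ℝ) (N : ℝ), Hq k F N → Hq k (lz M θ a (up M θ' b F)) (C₀ * N) := by
  obtain ⟨σ, hσ, -, h1⟩ := exists_bump (isClosed_tsupport θ).isCompact h.2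
  obtain ⟨σ', hσ', -, h1'⟩ := exists_bump (isClosed_tsupport θ').isCompact h'.2
  obtain ⟨C₁, hC, hY⟩ := Hq.comp (Y := fun x => WithLp.toLp 2 fun l =>
    lz M σ a (up M σ' b fun x => x l) x) (fun l => lz_tf hσ (sm_up hσ' (by fun_prop))) k
  obtain ⟨N₀, hN⟩ := hk_iff.1 ((lz_tf h h'.1).hk k)
  have := hN.nonneg
  refine ⟨2 ^ (k + 1) * N₀ * C₁, by positivity, fun F N hF => ?_⟩
  rw [mul_assoc, lz_ext (F := fun x => lz M θ a θ' x * F (WithLp.toLp 2 fun l =>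
    lz M σ a (up M σ' b fun x => x l) x)) (fun p hp => ?_) fun x hx => ?_]
  · exact hN.mul (hY F N hF)
  · simp only [lz_ra hp, up]
    by_cases h2 : θ p = 0
    · rw [h2, zero_mul, zero_mul, zero_mul]
    by_cases h3 : θ' p = 0
    · rw [h3, mul_zero, zero_mul, zero_mul, mul_zero]
    simp only [(h1 p (subset_tsupport _ h2)).self_of_nhds,
      (h1' p (subset_tsupport _ h3)).self_of_nhds, one_mul, mul_assoc]
  · rw [lz, indicator_of_notMem hx, zero_mul]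

theorem ALTr_bound {ι : Type} [Fintype ι] {c : ι → ι → ℝ} (hc : ∀ a b, 0 ≤ c a b) :
    ∃ C₀ : ℝ, 0 < C₀ ∧ ∀ a, ∑ b, c a b ≤ C₀ := by
  have h : ∀ a, 0 ≤ ∑ b, c a b := fun a => Finset.sum_nonneg fun b _ => hc a b
  exact ⟨∑ a, ∑ b, c a b + 1, add_pos_of_nonneg_of_pos (Finset.sum_nonneg fun a _ => h a) one_pos,
    fun a => (Finset.single_le_sum (fun a _ => h a) (Finset.mem_univ a)).trans
      (le_add_of_nonneg_right zero_le_one)⟩

theorem nk_lz (C : Cut M) {θ : M.ι → X → ℝ} (h : ∀ a, Bump M a (θ a)) (k : ℕ) :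
    ∃ C₀ : ℝ, 0 < C₀ ∧ ∀ (u : X → ℝ) (N : ℝ), Nk C k u N →
      ∀ a, Hq k (lz M (θ a) a u) (C₀ * N) := by
  choose c hc hq using fun a b => tr_up (h a) (bump_rho M b) k
  obtain ⟨C₀, h0, h1⟩ := ALTr_bound hc
  refine ⟨C₀, h0, fun u N hu a => ?_⟩
  rw [funext fun p => (sum_up C u p).1, lz_sum]
  refine (Hq.sum _ fun b _ => hq a b _ N (hu b)).mono ?_
  rw [← Finset.sum_mul]
  exact mul_le_mul_of_nonneg_right (h1 a) (hu a).nonneg

theorem nk_up (C : Cut M) {θ : M.ι → X → ℝ} (h : ∀ a, Bump M a (θ a)) (k : ℕ) :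
    ∃ C₀ : ℝ, 0 < C₀ ∧ ∀ (a : M.ι) (F : E (n + n) → ℝ) (N : ℝ), Hq k F N →
      Nk C k (up M (θ a) a F) (C₀ * N) := by
  choose c hc hq using fun a b => tr_up (C.bχ b) (h a) k
  obtain ⟨C₀, h0, h1⟩ := ALTr_bound hc
  exact ⟨C₀, h0, fun a F N hF b => (hq a b F N hF).mono (mul_le_mul_of_nonneg_right
    ((Finset.single_le_sum (fun b _ => hc a b) (Finset.mem_univ b)).trans (h1 a)) hF.nonneg)⟩

theorem Nk.mono {N' : ℝ} (h : Nk C k u N) (hN : N ≤ N') : Nk C k u N' := fun a => (h a).mono hN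

theorem Nk.add {N' : ℝ} (h : Nk C k u N) (h' : Nk C k v N') :
    Nk C k (fun p => u p + v p) (N + N') := fun a => by
  rw [lz_add]
  exact (h a).add (h' a)

theorem Nk.sub {N' : ℝ} (h : Nk C k u N) (h' : Nk C k v N') :
    Nk C k (fun p => u p - v p) (N + N') := fun a => by
  rw [lz_sub]
  exact (h a).sub (h' a)

theorem Nk.const_mul (h : Nk C k u N) (t : ℝ) : Nk C k (fun p => t * u p) (|t| * N) :=
  fun a => by
    rw [lz_const_mul]
    exact (h a).const_mul t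

theorem nk_zero (C : Cut M) (k : ℕ) (hN : 0 ≤ N) : Nk C k (fun _ => 0) N := fun a => by
  rw [lz_ext (F := fun _ => 0) (fun _ _ => (mul_zero _).symm) fun _ _ => rfl]
  exact (Hq.const k 0).mono (abs_zero.trans_le hN)

theorem Nk.sum {ι : Type} (s : Finset ι) {F : ι → X → ℝ} {N : ι → ℝ}
    (h : ∀ i ∈ s, Nk C k (F i) (N i)) : Nk C k (fun p => ∑ i ∈ s, F i p) (∑ i ∈ s, N i) :=
  fun a => by
    rw [lz_sum]
    exact Hq.sum s fun i hi => h i hi a

theorem Nk.abs_le (h : Nk C k u N) (p : X) : |u p| ≤ N := by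
  obtain ⟨a, ha⟩ := exists_rho M p
  have h1 := (h a).hn.1 (ra M a p)
  rwa [lz_ra (M.ρ_supp a ha), (C.oneχ a p ha).self_of_nhds, one_mul] at h1

theorem nk_of_sm (C : Cut M) (k : ℕ) (hu : M.Sm u) : ∃ N, 0 ≤ N ∧ Nk C k u N := by
  choose N hN using fun a => hk_iff.1 ((lz_tf (C.bχ a) hu).hk k)
  exact ⟨∑ a, N a, Finset.sum_nonneg fun a _ => (hN a).nonneg, fun a => (hN a).mono
    (Finset.single_le_sum (fun b _ => (hN b).nonneg) (Finset.mem_univ a))⟩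

theorem nk_interp (C : Cut M) {ε : ℝ} (hε : 0 < ε) : ∃ C₀ : ℝ, 0 < C₀ ∧
    ∀ (u : X → ℝ) (N s : ℝ), 0 ≤ N → 0 ≤ s → Nk C 2 u N → (∀ p, |u p| ≤ s) →
      Nk C 0 u (ε * N + C₀ * s) := by
  obtain ⟨C₀, h0, h1⟩ := interp (n + n) hε
  refine ⟨C₀, h0, fun u N s hN hs hu hb a =>
    (h1 _ s N hN (hu a).c2 (fun x => ?_) fun x i j => ((hu a).hm i j).1 x).of_succ⟩
  by_cases hx : lz M (C.χ a) a u x = 0
  · rwa [hx, abs_zero]
  · obtain ⟨p, hp, -, rfl⟩ := lz_ne hx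
    rw [lz_ra hp, abs_mul, abs_of_nonneg (C.mem a p).1]
    exact (mul_le_of_le_one_left (abs_nonneg _) (C.mem a p).2.1).trans (hb p)

theorem ALTr_hk (hθ : Bump M a θ) {σ : M.ι → X → ℝ} (hσ : ∀ b, Bump M b (σ b))
    {F : M.ι → E (n + n) → ℝ} (hF : ∀ b, Hk k (F b))
    (hu : ∀ p, u p = ∑ b, up M (σ b) b (F b) p) : Hk k (lz M θ a u) := by
  rw [funext hu, lz_sum]
  refine Hk.sum _ fun b _ => ?_
  obtain ⟨c, -, hc⟩ := tr_up hθ (hσ b) k
  obtain ⟨N, hN⟩ := hk_iff.1 (hF b)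
  exact (hc _ N hN).hk

theorem hk_lz (C : Cut M) (h : ∀ b, Hk k (lz M (M.ρ b) b u)) (hθ : Bump M a θ) :
    Hk k (lz M θ a u) :=
  ALTr_hk hθ C.bχ h fun p => (sum_up C u p).2

theorem Nk.hk (h : Nk C k u N) (hθ : Bump M a θ) : Hk k (lz M θ a u) :=
  ALTr_hk hθ (bump_rho M) (fun b => (h b).hk) fun p => (sum_up C u p).1

theorem sm_of_hk (C : Cut M) (h : ∀ k b, Hk k (lz M (M.ρ b) b u)) : M.Sm u := by
  rw [funext fun p => (sum_up C u p).2]
  exact sm_sum _ fun b _ => sm_up (C.bχ b) (contDiff_of_hk fun k => h k b)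

theorem nk_lim {W : ℕ → X → ℝ} (h : ∀ j, Nk C 2 (W j) N) :
    ∃ u, Nk C 2 u N ∧ (∀ p, Tendsto (fun j => W j p) UF (𝓝 (u p))) ∧
      ∀ a x i l, Tendsto (fun j => hz C a (W j) x i l) UF (𝓝 (hz C a u x i l)) := by
  choose u hu using fun p => UF_lim (s := fun j => W j p) fun j => (h j).abs_le p
  have h1 : ∀ (θ : X → ℝ) a x, Tendsto (fun j => lz M θ a (W j) x) UF (𝓝 (lz M θ a u x)) := by
    intro θ a x
    by_cases hx : Lc n x ∈ (M.e a).target
    · simp only [lz, indicator_of_mem hx]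
      exact (hu _).const_mul _
    · simp only [lz, indicator_of_notMem hx]
      exact tendsto_const_nhds
  obtain ⟨C₀, -, h2⟩ := nk_lz C C.bψ 2
  exact ⟨u, fun a => hq_lim (fun j => h j a) (h1 _ a), hu,
    fun a => hs_lim (fun j => h2 _ N (h j) a) (h1 _ a)⟩

end Vale.Agent.P272.AL
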