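import Vale.Agent.P272.ALCx
import Vale.Agent.P272.ALTr

/-! P272, part A1: the Monge-Ampere operator in real charts.
`exists_ext`: with `ψ' = lz (ψ a) a 1` put `G a x i j = ψ' x * rl (LM (η a) (Lc x)) i j + (1 - ψ' x) * 1 i j`.
Smooth: `tf_loc`, `contDiffAt_rl`, `contDiffAt_LM`. If `ψ' x ≠ 0` then `x = ra a p` with `p ∈ tsupport (ψ a)` (`lz_ne`).
Ellipticity with `min c 1` (`rl_lower`, `rl_symm`). The first term is bounded by `c⁻¹` (`rl_entry`), its derivatives by
`B c⁻¹ + L` on `ra a '' tsupport (ψ a)` (`pd_rl`; `B` bounds the derivatives of all `ψ'`) and vanish off this closed set;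
`mvt`, `Hn.of_lip`. `Ext.chart`: `LM_add`, `rl_add`, `rl_LM`, `lz_ev`, `hs_congr`.
`Ext.lap`: `trF_eq`, `rl_ct`, `rl_inv`, `ct_Pq`. `Ext.op`: `ell_inv`, `Pq_ell`, `Pq_hm`, `Pq_hk`, `Hk.inv`, `sm_trF`,
`GM_of_max`, `trace_mul_nonneg`. `Ext.pos`: `posF_iff` and the change of chart in `IsF.compat`
(or `posF_iff` after transporting `PosDef` from the chart `a` to `ch p`; `det_tr_ne`, `DM_det`,
`PosDef.conjTranspose_mul_mul_same`). `Ext.logdt`: `dt_eq`, `rl_logdet`. -/

set_option linter.unusedSectionVars false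

open MeasureTheory Set Filter Topology Metric Matrix
open scoped ContDiff ComplexConjugate ComplexOrder

noncomputable section

namespace Vale.Agent.P272.AL

open Vale.Agent.P271 Vale.Agent.P227

variable {n : ℕ} {X : Type} [TopologicalSpace X] [T2Space X] [CompactSpace X]
  [MeasurableSpace X] {M : Model n X} {C : Cut M} {a b : M.ι} {θ θ' u v w g : X → ℝ} {p : X}
  {k : ℕ} {c K N s : ℝ} {A G : M.ι → E (n + n) → Mat (n + n)} {D : (X → ℝ) → X → ℝ}
  {η : Frm M.toAtl}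

theorem alext_hn {m : ℕ} {f : E m → ℝ} {α β : ℝ} (hf : Differentiable ℝ f) (h0 : ∀ x, |f x| ≤ α)
    (h1 : ∀ e x, |pd e f x| ≤ β) (hβ : 0 ≤ β) : Hn f (2 * α + m * β) :=
  Hn.of_lip h0 (fun x y => by
    have := mvt (x := y) (y := x - y) (b := β) hf fun j ξ _ => h1 j _
    rwa [add_sub_cancel] at this) (by positivity)

theorem alext_mem (C : Cut M) {x : E (n + n)} (h : lz M (C.ψ a) a (fun _ => 1) x ≠ 0) :
    x ∈ ra M a '' tsupport (C.ψ a) := by
  obtain ⟨p, -, h1, rfl⟩ := lz_ne h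
  exact ⟨p, subset_tsupport _ h1, rfl⟩

theorem alext_01 (C : Cut M) (a : M.ι) (x : E (n + n)) :
    0 ≤ lz M (C.ψ a) a (fun _ => 1) x ∧ lz M (C.ψ a) a (fun _ => 1) x ≤ 1 := by
  by_cases h : lz M (C.ψ a) a (fun _ => 1) x = 0
  · rw [h]
    exact ⟨le_rfl, zero_le_one⟩
  · obtain ⟨p, hp, -, rfl⟩ := lz_ne h
    rw [lz_ra hp, mul_one]
    exact (C.mem a p).2.2

theorem alext_closed (C : Cut M) (a : M.ι) : IsClosed (ra M a '' tsupport (C.ψ a)) :=
  ((isClosed_tsupport _).isCompact.image_of_continuousOn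
    ((Lc n).symm.continuous.comp_continuousOn
      ((M.e a).continuousOn.mono (C.bψ a).2))).isClosed

theorem alext_src (C : Cut M) (hp : p ∈ tsupport (C.χ a)) : p ∈ (M.e a).source := (C.bχ a).2 hp

theorem exists_ext (C : Cut M) {L : ℝ} (hc : 0 < c) (hL : 0 ≤ L) :
    ∃ c' K' : ℝ, 0 < c' ∧ 0 ≤ K' ∧ ∀ η : Frm M.toAtl, Kae M.toAtl η →
      (∀ a, ∀ z ∈ M.e a '' tsupport (C.ψ a), (LM (η a) z - (c : ℂ) • 1).PosSemidef ∧
        (((c⁻¹ : ℝ) : ℂ) • 1 - LM (η a) z).PosSemidef ∧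
        ∀ j k, ‖fderiv ℝ (fun y => LM (η a) y j k) z‖ ≤ L) →
      ∃ G, Ext C c' K' η G := by
  have hT : ∀ a, Tf (lz M (C.ψ a) a fun _ => 1) := fun a => lz_tf (C.bψ a) (sm_const M 1)
  choose N₁ hN using fun a e => ((hT a).hk 1).2.2 e
  obtain ⟨B, hB0, hB⟩ : ∃ B, 0 ≤ B ∧ ∀ a e x, |pd e (lz M (C.ψ a) a fun _ => 1) x| ≤ B := by
    refine ⟨∑ q : M.ι × Fin (n + n), N₁ q.1 q.2,
      Finset.sum_nonneg fun q _ => Hn.nonneg (hN q.1 q.2), fun a e x => ((hN a e).1 x).trans ?_⟩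
    exact Finset.single_le_sum (f := fun q : M.ι × Fin (n + n) => N₁ q.1 q.2)
      (fun q _ => Hn.nonneg (hN q.1 q.2)) (Finset.mem_univ (a, e))
  have hd : ∀ a, Differentiable ℝ (lz M (C.ψ a) a fun _ => 1) := fun a => ((hT a).hk 1).2.1
  have h1 : ∀ a x, |lz M (C.ψ a) a (fun _ => 1) x| ≤ 1 := fun a x => by
    rw [abs_of_nonneg (alext_01 C a x).1]
    exact (alext_01 C a x).2
  refine ⟨min c 1, 2 * c⁻¹ + ((n + n : ℕ) : ℝ) * (L + c⁻¹ * B) + (|1| + (2 * 1 + ((n + n : ℕ) : ℝ) * B)),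
    lt_min hc one_pos, by positivity, fun η hη H => ?_⟩
  have hz : ∀ a, ∀ p ∈ tsupport (C.ψ a), M.e a p ∈ (M.e a).target := fun a p hp =>
    (M.e a).map_source ((C.bψ a).2 hp)
  have hF : ∀ a i j, Tf fun x => lz M (C.ψ a) a (fun _ => 1) x * rl (LM (η a) (Lc n x)) i j :=
    fun a i j => tf_loc (C.bψ a) (φ := fun z => rl (LM (η a) z) i j) fun z hz =>
      (contDiffAt_rl (contDiffAt_LM (hη.1.smAt hz)) i j).contDiffWithinAt
  have hR : ∀ a i j, ∀ p ∈ tsupport (C.ψ a), |rl (LM (η a) (Lc n (ra M a p))) i j| ≤ c⁻¹ :=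
    fun a i j p hp => by
      rw [Lc_ra]
      exact rl_entry (hη.2 a _ (hz a p hp)).posSemidef (H a _ ⟨p, hp, rfl⟩).2.1 i j
  refine ⟨fun a x => lz M (C.ψ a) a (fun _ => 1) x • rl (LM (η a) (Lc n x)) +
    (1 - lz M (C.ψ a) a (fun _ => 1) x) • 1, fun a x => ?_, fun a i j => ?_, fun a k i j => ?_,
    fun a p hp => ?_⟩
  · have v0 : ∀ v : Fin (n + n) → ℝ, 0 ≤ v ⬝ᵥ v := fun v =>
      Finset.sum_nonneg fun i _ => mul_self_nonneg (v i)
    by_cases h : lz M (C.ψ a) a (fun _ => 1) x = 0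
    · simp only [h, zero_smul, sub_zero, one_smul, zero_add, one_mulVec]
      exact ⟨isSymm_one, fun v => mul_le_of_le_one_left (v0 v) (min_le_right _ _)⟩
    · obtain ⟨p, hp, rfl⟩ := alext_mem C h
      simp only [Lc_ra]
      refine ⟨((rl_symm (LM_herm (hη.1.smAt (hz a p hp)))).smul _).add (isSymm_one.smul _),
        fun v => ?_⟩
      simp only [add_mulVec, smul_mulVec, dotProduct_add, dotProduct_smul, smul_eq_mul, one_mulVec]
      have e1 := (mul_le_mul_of_nonneg_right (min_le_left c 1) (v0 v)).trans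
        (rl_lower (H a _ ⟨p, hp, rfl⟩).1 v)
      have e2 := mul_le_of_le_one_left (v0 v) (min_le_right c 1)
      nlinarith [mul_le_mul_of_nonneg_left e1 (alext_01 C a (ra M a p)).1,
        mul_le_mul_of_nonneg_left e2 (sub_nonneg.2 (alext_01 C a (ra M a p)).2)]
  · have a1 : Hn (fun x => lz M (C.ψ a) a (fun _ => 1) x * rl (LM (η a) (Lc n x)) i j)
        (2 * c⁻¹ + ((n + n : ℕ) : ℝ) * (L + c⁻¹ * B)) := by
      refine alext_hn ((hF a i j).hk 1).2.1 (fun x => ?_) (fun e x => ?_) (by positivity)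
      · by_cases h : lz M (C.ψ a) a (fun _ => 1) x = 0
        · rw [h, zero_mul, abs_zero]
          positivity
        · obtain ⟨p, hp, rfl⟩ := alext_mem C h
          rw [abs_mul]
          exact (mul_le_of_le_one_left (abs_nonneg _) (h1 a _)).trans (hR a i j p hp)
      · by_cases h : x ∈ ra M a '' tsupport (C.ψ a)
        · obtain ⟨p, hp, rfl⟩ := h
          have c1 : ∀ j k, ContDiffAt ℝ ∞ (fun y => LM (η a) y j k) (Lc n (ra M a p)) := by
            rw [Lc_ra]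
            exact contDiffAt_LM (hη.1.smAt (hz a p hp))
          have c2 : DifferentiableAt ℝ (fun x => rl (LM (η a) (Lc n x)) i j) (ra M a p) :=
            DifferentiableAt.comp (g := fun z => rl (LM (η a) z) i j) _
              ((contDiffAt_rl c1 i j).differentiableAt (by simp)) (Lc n).differentiableAt
          have c3 := pd_rl (B := LM (η a)) (L := L)
            (fun j k => (c1 j k).differentiableAt (by simp))
            (by rw [Lc_ra]; exact (H a _ ⟨p, hp, rfl⟩).2.2) e i j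
          rw [pd, fderiv_fun_mul (hd a _) c2]
          simp only [_root_.add_apply, _root_.smul_apply, smul_eq_mul]
          refine (abs_add_le _ _).trans (add_le_add ?_ ?_)
          · rw [abs_mul]
            exact (mul_le_of_le_one_left (abs_nonneg _) (h1 a _)).trans c3
          · rw [abs_mul]
            exact mul_le_mul (hR a i j p hp) (hB a e _) (abs_nonneg _) (by positivity)
        · have e0 : (fun x => lz M (C.ψ a) a (fun _ => 1) x * rl (LM (η a) (Lc n x)) i j) =ᶠ[𝓝 x]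
              fun _ => 0 := by
            filter_upwards [(alext_closed C a).isOpen_compl.mem_nhds h] with y hy
            rw [not_not.1 fun h' => hy (alext_mem C h'), zero_mul]
          rw [(pd_congr e0 e).self_of_nhds, pd_const, abs_zero]
          positivity
    have a2 := ((Hn.const 1).sub (alext_hn (hd a) (h1 a) (hB a) hB0)).const_mul
      ((1 : Mat (n + n)) i j)
    have a3 : |(1 : Mat (n + n)) i j| ≤ 1 := by
      rw [Matrix.one_apply]
      split_ifs <;> simp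
    have a4 := a1.add (a2.mono (mul_le_of_le_one_left (by positivity) a3))
    simpa only [Matrix.add_apply, Matrix.smul_apply, smul_eq_mul, mul_comm ((1 : Mat (n + n)) i j)]
      using a4
  · exact ((hF a i j).hk k).add (((Hk.const k 1).sub ((hT a).hk k)).mul (Hk.const k _))
  · simp only [lz_ra (alext_src C hp), (C.oneψ a p hp).self_of_nhds, Lc_ra, mul_one, one_smul,
      sub_self, zero_smul, add_zero]

theorem rl_ddc (C : Cut M) (hw : M.Sm w) (hp : p ∈ tsupport (C.χ a)) :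
    rl (LM (ddc M.toAtl w a) (M.e a p)) = Pq (Jm n) (hz C a w (ra M a p)) := by
  have h := (isF_ddc hw).smAt ((M.e a).map_source (alext_src C hp))
  rw [← Lc_ra] at h ⊢
  rw [rl_LM h, hz, hs_congr (lz_ev C hp w)]
  rfl

theorem Ext.chart (h : Ext C c K η G) (hη : IsF M.toAtl η) (hw : M.Sm w)
    (hp : p ∈ tsupport (C.χ a)) : rl (LM ((η + ddc M.toAtl w) a) (M.e a p)) =
      G a (ra M a p) + Pq (Jm n) (hz C a w (ra M a p)) := by
  have hz := (M.e a).map_source (alext_src C hp)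
  rw [Pi.add_apply, LM_add (hη.smAt hz) ((isF_ddc hw).smAt hz), rl_add, rl_ddc C hw hp,
    h.eq a p hp]

theorem Ext.lap (h : Ext C c K η G) (hη : Kae M.toAtl η) (hw : M.Sm w)
    (hp : p ∈ tsupport (C.χ a)) :
    Lap η w p = ct (cf G a (ra M a p)) (hz C a w (ra M a p)) := by
  have h1 := hη.2 a _ ((M.e a).map_source (alext_src C hp))
  rw [Lap, trF_eq hη (isF_ddc hw) (alext_src C hp), cf, smul_ct, ← ct_Pq, ← rl_ddc C hw hp,
    h.eq a p hp, ← rl_inv h1.det_pos.ne', rl_ct h1.inv.1]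
  ring

theorem Ext.op (C : Cut M) (hc : 0 < c) (hK : 0 ≤ K) : ∃ c' K' : ℝ, 0 < c' ∧ 0 ≤ K' ∧
    ∀ η G, Kae M.toAtl η → Ext C c K η G → Op C c' K' (cf G) (Lap η) := by
  obtain ⟨c', K', h1, h2, H⟩ := ell_inv (n + n) hc hK
  obtain ⟨C₀, h3, H'⟩ := Pq_hm (Jm n)ᵀ
  refine ⟨1 / 2 * (c' / 4), |1 / 2| * (C₀ * K'), by positivity, by positivity,
    fun η G hη h => ⟨fun a x => ?_, fun a i j => ?_, fun a k i j => ?_,
      fun u hu a p hp => h.lap hη hu hp, fun u hu => sm_trF hη (isF_ddc hu), fun u hu p hp => ?_⟩⟩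
  · have e := Pq_ell (Jm n)ᵀ h1.le (H _ (h.ell a) (h.hm a)).1 x
    refine ⟨e.1.smul _, fun v => ?_⟩
    rw [cf, smul_mulVec, dotProduct_smul, smul_eq_mul, mul_assoc]
    exact mul_le_mul_of_nonneg_left (e.2 v) (by norm_num)
  · exact (H' _ _ h2 (H _ (h.ell a) (h.hm a)).2 i j).const_mul (1 / 2)
  · exact (Pq_hk (Jm n)ᵀ (Hk.inv (h.ell a) hc (h.hk a k)) i j).const_mul (1 / 2)
  · have e := trace_mul_nonneg ((posF_iff hη.1).1 hη.2 p).inv.posSemidef (GM_of_max hu hp)
    rw [Matrix.mul_neg, trace_neg, Complex.neg_re] at e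
    exact neg_nonneg.1 e

theorem Ext.pos {c' : ℝ} (h : Ext C c K η G) (hη : IsF M.toAtl η) (hw : M.Sm w) (hc : 0 < c')
    (hE : ∀ a, Ell (fun x => G a x + Pq (Jm n) (hz C a w x)) c') :
    Kae M.toAtl (η + ddc M.toAtl w) := by
  have hF := hη.add (isF_ddc hw)
  refine ⟨hF, (posF_iff hF).2 fun p => ?_⟩
  obtain ⟨a, ha⟩ := exists_rho M p
  have hp := C.rho_sub a ha
  have hs := alext_src C hp
  have h1 : (LM ((η + ddc M.toAtl w) a) (M.e a p)).PosDef :=
    posDef_of_rl (LM_herm (hF.smAt ((M.e a).map_source hs))) hc fun v => by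
      rw [h.chart hη hw hp]
      exact (hE a _).2 v
  have hD := (isUnit_iff_isUnit_det _).2 (isUnit_iff_ne_zero.2 (ApiA_det_ne hs))
  rwa [ApiA_rep hF hs, ← star_eq_conjTranspose, hD.posDef_star_left_conjugate_iff] at h1

theorem Ext.logdt (h : Ext C c K η G) (hη : Kae M.toAtl η) (hw : M.Sm w)
    (hw' : Kae M.toAtl (η + ddc M.toAtl w)) (hp : p ∈ tsupport (C.χ a)) :
    2 * (Real.log (dt M (η + ddc M.toAtl w) p) - Real.log (dt M η p)) =
      Real.log (G a (ra M a p) + Pq (Jm n) (hz C a w (ra M a p))).det -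
        Real.log (G a (ra M a p)).det := by
  have hs := alext_src C hp
  have h1 := hη.2 a _ ((M.e a).map_source hs)
  have h2 := hw'.2 a _ ((M.e a).map_source hs)
  have h3 := (Api_k_pos M hs).ne'
  rw [← h.chart hη.1 hw hp, h.eq a p hp, rl_logdet h1, rl_logdet h2, dt_eq hw'.1 hs,
    dt_eq hη.1 hs, Real.log_div (det_re_pos h1).ne' h3, Real.log_div (det_re_pos h2).ne' h3]
  ring

end Vale.Agent.P272.AL
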