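import Vale.Agent.P272.ALDefs

/-! P272, part A1: algebra of the norms `Hq`.
All proofs are inductions on `k` as in `P227/Smooth.lean` (`Hk.add`, `Hk.mul`) with the constants of
`Hn.add`, `Hn.mul`, `Hn.const_mul`, `Hn.shift`, `Hn_diffquot`; use `pd_add`, `pd_mul`, `pd_shift`,
`pd_comp_neg`. `Tf.hk` is `Hk_of_far`. `contDiff_of_hk`: `contDiff_infty`, induction with
`contDiff_succ_iff_fderiv` and `fderiv_eq_sum'`. `exists_tf`: `ContDiffBump`. -/

set_option linter.unusedSectionVars false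

open MeasureTheory Set Filter Topology Metric Matrix
open scoped ContDiff ComplexConjugate ComplexOrder

noncomputable section

namespace Vale.Agent.P272.AL

open Vale.Agent.P271 Vale.Agent.P227

variable {m k : ℕ} {f g θ V W : E m → ℝ} {A B G : E m → Mat m} {J : Mat m} {a b c K N M : ℝ}

theorem Hq.hn (h : Hq k f N) : Hn f N := by
  cases k with
  | zero => exact h
  | succ k => exact h.1

theorem Hq.nonneg (h : Hq k f N) : 0 ≤ N := h.hn.nonneg

theorem Hq.mono (h : Hq k f N) (hN : N ≤ M) : Hq k f M := by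
  induction k generalizing f with
  | zero => exact Hn.mono h hN
  | succ k ih => exact ⟨h.1.mono hN, h.2.1, fun i => ih (h.2.2 i)⟩

theorem Hq.of_succ (h : Hq (k + 1) f N) : Hq k f N := by
  induction k generalizing f with
  | zero => exact h.1
  | succ k ih => exact ⟨h.1, h.2.1, fun i => ih (h.2.2 i)⟩

theorem Hq.of_le {j : ℕ} (h : Hq k f N) (hj : j ≤ k) : Hq j f N := by
  induction hj with
  | refl => exact h
  | step _ ih => exact ih h.of_succ

theorem Hq.const (k : ℕ) (a : ℝ) : Hq k (fun _ : E m => a) |a| := by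
  induction k generalizing a with
  | zero => exact Hn.const a
  | succ k ih =>
    refine ⟨Hn.const a, differentiable_const a, fun i => ?_⟩
    rw [pd_const]
    exact (ih 0).mono (by simp)

theorem Hq.add (hf : Hq k f a) (hg : Hq k g b) : Hq k (fun x => f x + g x) (a + b) := by
  induction k generalizing f g with
  | zero => exact Hn.add hf hg
  | succ k ih =>
    refine ⟨hf.1.add hg.1, hf.2.1.add hg.2.1, fun i => ?_⟩
    rw [pd_add hf.2.1 hg.2.1]
    exact ih (hf.2.2 i) (hg.2.2 i)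

theorem Hq.const_mul (hf : Hq k f a) (t : ℝ) : Hq k (fun x => t * f x) (|t| * a) := by
  induction k generalizing f with
  | zero => exact Hn.const_mul hf t
  | succ k ih =>
    refine ⟨hf.1.const_mul t, hf.2.1.const_mul t, fun i => ?_⟩
    rw [pd_const_mul]
    exact ih (hf.2.2 i)

theorem Hq.sub (hf : Hq k f a) (hg : Hq k g b) : Hq k (fun x => f x - g x) (a + b) := by
  have := hf.add (hg.const_mul (-1))
  simpa only [neg_mul, one_mul, ← sub_eq_add_neg, abs_neg, abs_one] using this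

theorem Hq.sum {ι : Type} (s : Finset ι) {F : ι → E m → ℝ} {N : ι → ℝ}
    (h : ∀ i ∈ s, Hq k (F i) (N i)) : Hq k (fun x => ∑ i ∈ s, F i x) (∑ i ∈ s, N i) := by
  classical
  induction s using Finset.induction_on with
  | empty => simpa using Hq.const k 0
  | insert a s ha ih =>
    simp only [Finset.sum_insert ha]
    exact (h a (Finset.mem_insert_self _ _)).add
      (ih fun i hi => h i (Finset.mem_insert_of_mem hi))

theorem Hq.mul (hf : Hq k f a) (hg : Hq k g b) :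
    Hq k (fun x => f x * g x) (2 ^ (k + 1) * a * b) := by
  induction k generalizing f g with
  | zero => exact (Hn.mul hf hg).mono (by norm_num)
  | succ k ih =>
    refine ⟨(hf.1.mul hg.1).mono ?_, hf.2.1.mul hg.2.1, fun i => ?_⟩
    · have h1 : (1 : ℝ) ≤ 2 ^ (k + 1) := one_le_pow₀ one_le_two
      have h2 := mul_nonneg hf.nonneg hg.nonneg
      rw [pow_succ (2 : ℝ) (k + 1)]
      nlinarith
    · rw [pd_mul hf.2.1 hg.2.1]
      exact ((ih (hf.2.2 i) hg.of_succ).add (ih hf.of_succ (hg.2.2 i))).mono (le_of_eq (by ring))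

theorem Hq.shift (hf : Hq k f a) (d : E m) : Hq k (fun x => f (x + d)) a := by
  induction k generalizing f with
  | zero => exact Hn.shift hf d
  | succ k ih =>
    refine ⟨hf.1.shift d, differentiable_shift hf.2.1 d, fun i => ?_⟩
    rw [pd_shift]
    exact ih (hf.2.2 i)

theorem Hq.neg_arg (hf : Hq k f a) : Hq k (fun x => f (-x)) a := by
  have h0 : ∀ {f : E m → ℝ}, Hn f a → Hn (fun x => f (-x)) a := fun h =>
    ⟨fun x => h.1 _, fun x y => by
      have := h.2 (-x) (-y)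
      rwa [neg_sub_neg, norm_sub_rev] at this⟩
  induction k generalizing f with
  | zero => exact h0 hf
  | succ k ih =>
    refine ⟨h0 hf.1, hf.2.1.comp differentiable_id.neg, fun i => ?_⟩
    have e : pd i (fun y => f (-y)) = fun x => -1 * pd i f (-x) :=
      funext fun x => by rw [pd_comp_neg, neg_one_mul]
    rw [e]
    exact ((ih (hf.2.2 i)).const_mul (-1)).mono (by simp)

theorem Hq.diffquot (hf : Hq (k + 1) f a) (v : E m) :
    Hq k (fun x => f (x + v) - f x) (m * a * ‖v‖) := by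
  induction k generalizing f with
  | zero => exact Hn_diffquot hf.2.1 hf.2.2 v
  | succ k ih =>
    refine ⟨Hn_diffquot hf.2.1 (fun i => (hf.2.2 i).hn) v,
      (differentiable_shift hf.2.1 v).sub hf.2.1, fun i => ?_⟩
    rw [pd_sub (differentiable_shift hf.2.1 v) hf.2.1, pd_shift]
    exact ih (hf.2.2 i)

theorem hk_iff : Hk k f ↔ ∃ N, Hq k f N := by
  induction k generalizing f with
  | zero => exact Iff.rfl
  | succ k ih =>
    refine ⟨fun ⟨⟨N, hN⟩, hd, hp⟩ => ?_, fun ⟨N, h⟩ => ⟨⟨N, h.1⟩, h.2.1, fun i => ih.2 ⟨N, h.2.2 i⟩⟩⟩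
    choose P hP using fun i => ih.1 (hp i)
    have h0 : 0 ≤ ∑ i, P i := Finset.sum_nonneg fun i _ => (hP i).nonneg
    refine ⟨N + ∑ i, P i, hN.mono (le_add_of_nonneg_right h0), hd, fun i => (hP i).mono ?_⟩
    exact (Finset.single_le_sum (fun i _ => (hP i).nonneg) (Finset.mem_univ i)).trans
      (le_add_of_nonneg_left hN.nonneg)

theorem Hq.hk (h : Hq k f N) : Hk k f := hk_iff.2 ⟨N, h⟩

theorem hk_of_le {j : ℕ} (h : Hk k f) (hj : j ≤ k) : Hk j f := by
  obtain ⟨N, hN⟩ := hk_iff.1 h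
  exact (hN.of_le hj).hk

theorem Hq.c2 (h : Hq 2 f N) : C2 f := ⟨h.2.1, fun i => (h.2.2 i).2.1⟩

theorem Hq.hm (h : Hq 2 f N) : HM (hs f) N := fun i j => (h.2.2 j).2.2 i

theorem hq_two (h1 : Hq 1 f N) (h : C2 f) (h2 : HM (hs f) N) : Hq 2 f N :=
  ⟨h1.1, h.1, fun j => ⟨h1.2.2 j, h.2 j, fun i => h2 i j⟩⟩

theorem hk_hs (h : Hk (k + 2) f) (i j : Fin m) : Hk k fun x => hs f x i j := (h.2.2 j).2.2 i

theorem hk_of_hs (h1 : Hk 1 f) (h : C2 f) (h2 : ∀ i j, Hk k fun x => hs f x i j) :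
    Hk (k + 2) f := ⟨h1.1, h.1, fun j => ⟨h1.2.2 j, h.2 j, fun i => h2 i j⟩⟩

theorem contDiff_of_hk (h : ∀ k, Hk k f) : ContDiff ℝ ∞ f := by
  rw [contDiff_infty]
  intro n
  induction n generalizing f with
  | zero => exact contDiff_zero.2 (h 1).2.1.continuous
  | succ n ih =>
    rw [Nat.cast_succ, contDiff_succ_iff_fderiv]
    refine ⟨(h 1).2.1, fun h => absurd h (by simp), ?_⟩
    rw [fderiv_eq_sum']
    exact ContDiff.sum fun i _ => (ih fun k => (h (k + 1)).2.2 i).smul contDiff_const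

theorem Tf.hk (h : Tf θ) (k : ℕ) : Hk k θ := by
  obtain ⟨R, hR⟩ := h.2
  exact Hk_of_far h.1 hR k

theorem Tf.pd (h : Tf θ) (i : Fin m) : Tf (pd i θ) := by
  obtain ⟨R, hR⟩ := h.2
  exact ⟨contDiff_pd h.1 i, R + 1, pd_eq_zero_far hR i⟩

theorem Tf.mul (h : Tf θ) (hg : ContDiff ℝ ∞ g) : Tf fun x => θ x * g x := by
  obtain ⟨R, hR⟩ := h.2
  exact ⟨h.1.mul hg, R, fun x hx => mul_eq_zero_of_left (hR x hx) _⟩

theorem Tf.coord (h : Tf θ) (i : Fin m) : Tf fun x => x i * θ x := by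
  obtain ⟨R, hR⟩ := h.2
  exact ⟨(EuclideanSpace.proj i : E m →L[ℝ] ℝ).contDiff.mul h.1, R,
    fun x hx => mul_eq_zero_of_right _ (hR x hx)⟩

theorem exists_tf (m : ℕ) (R : ℝ) : ∃ θ : E m → ℝ, Tf θ ∧ (∀ x, 0 ≤ θ x ∧ θ x ≤ 1) ∧
    (∀ x, ‖x‖ ≤ R → θ x = 1) ∧ ∀ x, |R| + 1 ≤ ‖x‖ → θ x = 0 := by
  let φ : ContDiffBump (0 : E m) := ⟨|R| + 1 / 2, |R| + 1, by positivity, by linarith⟩
  have h0 : ∀ x, |R| + 1 ≤ ‖x‖ → φ x = 0 := fun x hx =>
    φ.zero_of_le_dist (by rwa [dist_zero_right])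
  refine ⟨φ, ⟨φ.contDiff, _, h0⟩, fun x => ⟨φ.nonneg, φ.le_one⟩, fun x hx => ?_, h0⟩
  refine φ.one_of_mem_closedBall (mem_closedBall_zero_iff.2 ?_)
  change ‖x‖ ≤ |R| + 1 / 2
  linarith [le_abs_self R]

theorem c2_mul (hf : C2 f) (hg : C2 g) : C2 fun x => f x * g x := by
  refine ⟨hf.1.mul hg.1, fun i => ?_⟩
  rw [pd_mul hf.1 hg.1]
  exact ((hf.2 i).mul hg.1).add (hf.1.mul (hg.2 i))

theorem hs_mul (hf : C2 f) (hg : C2 g) (x : E m) (i j : Fin m) :
    hs (fun x => f x * g x) x i j =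
      f x * hs g x i j + pd i f x * pd j g x + pd j f x * pd i g x + g x * hs f x i j := by
  simp only [hs_apply]
  rw [pd_mul hf.1 hg.1, pd_add ((hf.2 j).fun_mul hg.1) (hf.1.fun_mul (hg.2 j)),
    pd_mul (hf.2 j) hg.1, pd_mul hf.1 (hg.2 j)]
  ring

theorem ct_hs_mul {T : Mat m} (hT : T.IsSymm) (hf : C2 f) (hg : C2 g) (x : E m) :
    ct T (hs (fun x => f x * g x) x) = f x * ct T (hs g x) +
      2 * ∑ i, ∑ j, T i j * pd i f x * pd j g x + g x * ct T (hs f x) := by
  have e : ∑ i, ∑ j, T i j * pd j f x * pd i g x = ∑ i, ∑ j, T i j * pd i f x * pd j g x := by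
    rw [Finset.sum_comm]
    exact Finset.sum_congr rfl fun i _ => Finset.sum_congr rfl fun j _ => by rw [hT.apply i j]
  rw [two_mul]
  nth_rw 2 [← e]
  simp only [ct, hs_mul hf hg, Finset.mul_sum, ← Finset.sum_add_distrib]
  exact Finset.sum_congr rfl fun i _ => Finset.sum_congr rfl fun j _ => by ring

theorem pd_congr {x : E m} (h : f =ᶠ[𝓝 x] g) (i : Fin m) : pd i f =ᶠ[𝓝 x] pd i g :=
  (h.fderiv (𝕜 := ℝ)).mono fun y hy => by simp only [pd, hy]

theorem hs_congr {x : E m} (h : f =ᶠ[𝓝 x] g) : hs f x = hs g x :=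
  Matrix.ext fun i j => (pd_congr (pd_congr h j) i).eq_of_nhds

end Vale.Agent.P272.AL
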