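import Vale.Agent.P272.ALHq

/-! P272, part A1: the averaging `Pq`, inverse matrices, and the increment of `log det`.
`Pq J H i j = (H i j + ∑ k l, J k i * H k l * J l j) / 4`. `ell_inv`: `Ell.m2_inv`, `M2.hm`, `inv_lower`,
`quad_le` (see the proof of `Ell.inv`; the constants depend on `c`, `K` only).
`logdet_sub`: `A x i j = ∫ t in 0..1, ((1 - t) • B₀ x + t • B₁ x)⁻¹ i j`; the matrices on the segment are
elliptic and Hoelder (`Ell.comb`, `HM.comb`), apply `ell_inv` for each `t` and integrate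
(`intervalIntegral.norm_integral_le_of_norm_le_const`, `intervalIntegral.integral_mono_on`);
`hasDerivAt_logdet` and `intervalIntegral.integral_eq_sub_of_hasDerivAt`. Continuity in `t` of the
inverse: the Lipschitz bound `P⁻¹ - Q⁻¹ = P⁻¹ (Q - P) Q⁻¹` or `Matrix.inv_def` with continuity of `det`
and `adjugate`. -/

set_option linter.unusedSectionVars false

open MeasureTheory Set Filter Topology Metric Matrix
open scoped ContDiff ComplexConjugate ComplexOrder

noncomputable section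

namespace Vale.Agent.P272.AL

open Vale.Agent.P271 Vale.Agent.P227

variable {m k : ℕ} {f g θ V W : E m → ℝ} {A B G : E m → Mat m} {J : Mat m} {a b c K N M : ℝ}

theorem ALPq_tr (T P : Mat m) : ct T P = (Tᵀ * P).trace := by
  simp only [ct, trace, diag_apply, mul_apply, transpose_apply]
  exact Finset.sum_comm

theorem ALPq_apply (J H : Mat m) (i j : Fin m) :
    Pq J H i j = 1 / 4 * (H i j + ∑ l, ∑ k, J k i * J l j * H k l) := by
  simp only [Pq, Matrix.smul_apply, Matrix.add_apply, mul_apply, transpose_apply, smul_eq_mul,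
    Finset.sum_mul]
  congr 2
  exact Finset.sum_congr rfl fun l _ => Finset.sum_congr rfl fun k _ => by ring

theorem ALPq_quad (T : Mat m) (v : Fin m → ℝ) : v ⬝ᵥ T *ᵥ v = ct T (vecMulVec v v) := by
  simp only [ct, dotProduct, mulVec, vecMulVec_apply, Finset.mul_sum]
  exact Finset.sum_congr rfl fun l _ => Finset.sum_congr rfl fun k _ => by ring

theorem ct_add (T P Q : Mat m) : ct T (P + Q) = ct T P + ct T Q := by
  simp only [ct, Matrix.add_apply, mul_add, Finset.sum_add_distrib]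

theorem ct_sub (T P Q : Mat m) : ct T (P - Q) = ct T P - ct T Q := by
  simp only [ct, Matrix.sub_apply, mul_sub, Finset.sum_sub_distrib]

theorem ct_smul (T P : Mat m) (t : ℝ) : ct T (t • P) = t * ct T P := by
  simp only [ALPq_tr, Matrix.mul_smul, trace_smul, smul_eq_mul]

theorem smul_ct (T P : Mat m) (t : ℝ) : ct (t • T) P = t * ct T P := by
  simp only [ALPq_tr, transpose_smul, Matrix.smul_mul, trace_smul, smul_eq_mul]

theorem ct_Pq (J T H : Mat m) : ct T (Pq J H) = ct (Pq Jᵀ T) H := by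
  have e : (Tᵀ * (Jᵀ * H * J)).trace = ((J * T * Jᵀ)ᵀ * H).trace := by
    rw [← Matrix.mul_assoc, trace_mul_comm]
    simp only [transpose_mul, transpose_transpose, Matrix.mul_assoc]
  rw [Pq, Pq, ct_smul, smul_ct, ct_add, transpose_transpose, ALPq_tr, ALPq_tr, ALPq_tr,
    transpose_add, Matrix.add_mul, trace_add, e]

theorem Pq_add (J P Q : Mat m) : Pq J (P + Q) = Pq J P + Pq J Q := by
  simp only [Pq, Matrix.mul_add, Matrix.add_mul, ← smul_add]
  congr 1
  abel

theorem Pq_sub (J P Q : Mat m) : Pq J (P - Q) = Pq J P - Pq J Q := by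
  simp only [Pq, Matrix.mul_sub, Matrix.sub_mul, ← smul_sub]
  congr 1
  abel

theorem Pq_symm (J : Mat m) {P : Mat m} (h : P.IsSymm) : (Pq J P).IsSymm := by
  refine (h.add ?_).smul _
  rw [IsSymm, transpose_mul, transpose_mul, transpose_transpose, h.eq, Matrix.mul_assoc]

theorem Pq_quad (J P : Mat m) (v : Fin m → ℝ) :
    v ⬝ᵥ Pq J P *ᵥ v = (v ⬝ᵥ P *ᵥ v + (J *ᵥ v) ⬝ᵥ P *ᵥ (J *ᵥ v)) / 4 := by
  rw [Pq, smul_mulVec, dotProduct_smul, add_mulVec, dotProduct_add, ← mulVec_mulVec,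
    ← mulVec_mulVec, dotProduct_mulVec v Jᵀ, vecMul_transpose, smul_eq_mul]
  ring

theorem Pq_ell (J : Mat m) (hc : 0 ≤ c) (h : Ell B c) : Ell (fun x => Pq J (B x)) (c / 4) := by
  refine fun x => ⟨Pq_symm J (h x).1, fun v => ?_⟩
  rw [Pq_quad]
  linarith [(h x).2 v, (h x).2 (J *ᵥ v), mul_nonneg hc (dot_self_nonneg (J *ᵥ v))]

theorem Pq_hm (J : Mat m) : ∃ C : ℝ, 0 < C ∧ ∀ (B : E m → Mat m) (K : ℝ), 0 ≤ K → HM B K →
    HM (fun x => Pq J (B x)) (C * K) := by
  obtain ⟨β, hβ0, hβ⟩ : ∃ β : ℝ, 0 ≤ β ∧ ∀ i j, |J i j| ≤ β :=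
    ⟨∑ i, ∑ j, |J i j|, by positivity, fun i j =>
      (Finset.single_le_sum (f := fun j => |J i j|) (fun _ _ => abs_nonneg _)
        (Finset.mem_univ j)).trans (Finset.single_le_sum (f := fun i => ∑ j, |J i j|)
          (fun _ _ => by positivity) (Finset.mem_univ i))⟩
  refine ⟨1 / 4 * (1 + m * (m * (β * β))), by positivity, fun B K hK hB i j => ?_⟩
  simp only [ALPq_apply]
  have h1 : ∀ l k, Hn (fun x => J k i * J l j * B x k l) (β * β * K) := fun l k =>
    ((hB k l).const_mul _).mono (mul_le_mul_of_nonneg_right (by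
      rw [abs_mul]; exact mul_le_mul (hβ _ _) (hβ _ _) (abs_nonneg _) hβ0) hK)
  refine (((hB i j).add (Hn.sum _ (by positivity) fun l _ =>
    Hn.sum _ (by positivity) fun k _ => h1 l k)).const_mul _).mono (le_of_eq ?_)
  rw [Finset.card_univ, Fintype.card_fin, abs_of_pos (by norm_num)]
  ring

theorem Pq_hk (J : Mat m) (h : ∀ i j, Hk k fun x => B x i j) (i j : Fin m) :
    Hk k fun x => Pq J (B x) i j := by
  simp only [ALPq_apply]
  exact ((h i j).add (Hk.sum _ fun l _ => Hk.sum _ fun k _ => (h k l).const_mul _)).const_mul _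

theorem Pq_cont (J : Mat m) : Continuous (Pq J) := by
  exact (continuous_id.add ((continuous_const.matrix_mul continuous_id).matrix_mul
    continuous_const)).const_smul (1 / 4 : ℝ)

/-- The derivative of `Pq J (hs W ·)`. -/
theorem pd_Pq_hs (J : Mat m) (hW : Hk 3 W) (e : Fin m) (x : E m) (i j : Fin m) :
    pd e (fun y => Pq J (hs W y) i j) x = Pq J (hs (pd e W) x) i j := by
  have hd : ∀ a b, Differentiable ℝ fun y => hs W y a b := fun a b => (hk_hs (k := 1) hW a b).2.1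
  have hc : C2 W := ⟨hW.2.1, fun a => (hW.2.2 a).2.1⟩
  have he : ∀ a b, pd e (fun y => hs W y a b) x = hs (pd e W) x a b := by
    intro a b
    have h1 : C2 (pd b W) := ⟨(hW.2.2 b).2.1, fun l => ((hW.2.2 b).2.2 l).2.1⟩
    have h2 : (fun y => hs W y a b) = pd a (pd b W) := rfl
    rw [h2, pd_comm h1, pd_comm hc e b, hs_apply]
  simp only [ALPq_apply]
  rw [pd_const_mul, pd_add (hd i j) (Differentiable.fun_sum fun l _ =>
      Differentiable.fun_sum fun k _ => (hd k l).const_mul _),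
    pd_sum _ fun l _ => Differentiable.fun_sum fun k _ => (hd k l).const_mul _]
  simp only [pd_sum _ fun k (_ : k ∈ Finset.univ) => (hd k _).const_mul (J k i * J _ j),
    pd_const_mul, he]

theorem hk_ct (hA : ∀ i j, Hk k fun x => A x i j) (hB : ∀ i j, Hk k fun x => B x i j) :
    Hk k fun x => ct (A x) (B x) := by
  exact Hk.sum _ fun i _ => Hk.sum _ fun j _ => (hA i j).mul (hB i j)

theorem ell_inv (m : ℕ) (hc : 0 < c) (hK : 0 ≤ K) : ∃ c' K' : ℝ, 0 < c' ∧ 0 ≤ K' ∧
    ∀ B : E m → Mat m, Ell B c → HM B K →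
      Ell (fun x => (B x)⁻¹) c' ∧ HM (fun x => (B x)⁻¹) K' := by
  have h0 : 0 < m * K + 1 := by positivity
  refine ⟨(m * K + 1)⁻¹, max c⁻¹ (m ^ 2 * c⁻¹ ^ 2 * K), by positivity, by positivity,
    fun B h hB => ⟨fun x => ⟨(h x).1.inv, ?_⟩, (h.m2_inv hc hB.m2.2).hm⟩⟩
  refine inv_lower (h.posDef hc x) h0 fun v => ?_
  have h1 := quad_le (fun i j => (hB i j).1 x) v
  have h2 := le_abs_self (v ⬝ᵥ B x *ᵥ v)
  nlinarith [dot_self_nonneg v]

theorem ALPq_int {F : ℝ → Mat m}
    (hF : ∀ i j, IntervalIntegrable (fun t => F t i j) volume 0 1) (D : Mat m) :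
    IntervalIntegrable (fun t => ct (F t) D) volume 0 1 ∧
      ct (Matrix.of fun i j => ∫ t in (0 : ℝ)..1, F t i j) D = ∫ t in (0 : ℝ)..1, ct (F t) D := by
  have h0 : ∀ {H : Fin m → ℝ → ℝ}, (∀ i, IntervalIntegrable (H i) volume 0 1) →
      IntervalIntegrable (fun t => ∑ j, H j t) volume 0 1 := fun h =>
    ⟨integrable_finsetSum _ fun i _ => (h i).1, integrable_finsetSum _ fun i _ => (h i).2⟩
  have h1 : ∀ i, IntervalIntegrable (fun t => ∑ j, F t i j * D i j) volume 0 1 := fun i =>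
    h0 fun j => (hF i j).mul_const _
  refine ⟨h0 h1, ?_⟩
  simp only [ct, of_apply]
  rw [intervalIntegral.integral_finsetSum fun i _ => h1 i]
  refine Finset.sum_congr rfl fun i _ => ?_
  rw [intervalIntegral.integral_finsetSum fun j _ => (hF i j).mul_const _]
  exact Finset.sum_congr rfl fun j _ => (intervalIntegral.integral_mul_const _ _).symm

theorem logdet_sub (m : ℕ) (hc : 0 < c) (hK : 0 ≤ K) : ∃ c' K' : ℝ, 0 < c' ∧ 0 ≤ K' ∧
    ∀ B₀ B₁ : E m → Mat m, Ell B₀ c → Ell B₁ c → HM B₀ K → HM B₁ K →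
      ∃ A : E m → Mat m, Ell A c' ∧ HM A K' ∧
        ∀ x, Real.log (B₁ x).det - Real.log (B₀ x).det = ct (A x) (B₁ x - B₀ x) := by
  obtain ⟨c', K', hc', hK', h⟩ := ell_inv m hc hK
  refine ⟨c', K', hc', hK', fun B₀ B₁ e0 e1 k0 k1 => ?_⟩
  have hP : ∀ t ∈ uIcc (0 : ℝ) 1, ∀ x, ((1 - t) • B₀ x + t • B₁ x).PosDef := fun t ht x => by
    rw [uIcc_of_le zero_le_one] at ht
    exact (e0.comb e1 ht.1 ht.2).posDef hc x
  have hI : ∀ t ∈ Icc (0 : ℝ) 1, Ell (fun x => ((1 - t) • B₀ x + t • B₁ x)⁻¹) c' ∧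
      HM (fun x => ((1 - t) • B₀ x + t • B₁ x)⁻¹) K' := fun t ht =>
    h _ (e0.comb e1 ht.1 ht.2) (k0.comb k1 ht.1 ht.2)
  have hI' : ∀ t ∈ uIoc (0 : ℝ) 1, HM (fun x => ((1 - t) • B₀ x + t • B₁ x)⁻¹) K' :=
    fun t ht => by
      rw [uIoc_of_le zero_le_one] at ht
      exact (hI t (Ioc_subset_Icc_self ht)).2
  have hint : ∀ x i j, IntervalIntegrable (fun t : ℝ => ((1 - t) • B₀ x + t • B₁ x)⁻¹ i j)
      volume 0 1 := by
    intro x i j
    refine ContinuousOn.intervalIntegrable fun t ht => ContinuousAt.continuousWithinAt ?_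
    have h1 : ContinuousAt (fun s : ℝ => (1 - s) • B₀ x + s • B₁ x) t := by fun_prop
    have h2 : ContinuousAt (fun T : Mat m => T⁻¹) ((1 - t) • B₀ x + t • B₁ x) := by
      refine continuousAt_matrix_inv _ ?_
      rw [Ring.inverse_eq_inv']
      exact continuousAt_inv₀ (hP t ht x).det_pos.ne'
    exact (continuous_apply_apply i j).continuousAt.comp
      (ContinuousAt.comp (f := fun s : ℝ => (1 - s) • B₀ x + s • B₁ x) h2 h1)
  refine ⟨fun x => Matrix.of fun i j => ∫ t in (0 : ℝ)..1, ((1 - t) • B₀ x + t • B₁ x)⁻¹ i j,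
    fun x => ⟨IsSymm.ext fun i j => intervalIntegral.integral_congr fun t ht => ?_, fun v => ?_⟩,
    fun i j => ⟨fun x => ?_, fun x y => ?_⟩, fun x => ?_⟩
  · rw [uIcc_of_le zero_le_one] at ht
    exact ((hI t ht).1 x).1.apply i j
  · obtain ⟨h1, h2⟩ := ALPq_int (hint x) (vecMulVec v v)
    rw [ALPq_quad, h2]
    refine le_trans (le_of_eq ?_) (intervalIntegral.integral_mono_on zero_le_one
      (intervalIntegrable_const (c := c' * (v ⬝ᵥ v))) h1 fun t ht => ?_)
    · simp
    · rw [← ALPq_quad]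
      exact ((hI t ht).1 x).2 v
  · simpa using intervalIntegral.norm_integral_le_of_norm_le_const
      (f := fun t : ℝ => ((1 - t) • B₀ x + t • B₁ x)⁻¹ i j) fun t ht => (hI' t ht i j).1 x
  · simp only [of_apply]
    rw [← intervalIntegral.integral_sub (hint x i j) (hint y i j)]
    simpa using intervalIntegral.norm_integral_le_of_norm_le_const
      (f := fun t : ℝ => ((1 - t) • B₀ x + t • B₁ x)⁻¹ i j - ((1 - t) • B₀ y + t • B₁ y)⁻¹ i j)
      fun t ht => (hI' t ht i j).2 x y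
  · obtain ⟨h1, h2⟩ := ALPq_int (hint x) (B₁ x - B₀ x)
    rw [h2, intervalIntegral.integral_eq_sub_of_hasDerivAt
      (f := fun s : ℝ => Real.log ((1 - s) • B₀ x + s • B₁ x).det) (fun t ht => ?_) h1]
    · simp
    · refine hasDerivAt_logdet (A := fun s : ℝ => (1 - s) • B₀ x + s • B₁ x) (hP t ht x)
        fun i j => ?_
      have h3 := (((hasDerivAt_id t).const_sub 1).mul_const (B₀ x i j)).add
        ((hasDerivAt_id t).mul_const (B₁ x i j))
      refine h3.congr_deriv ?_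
      simp only [Matrix.sub_apply]
      ring

theorem contDiff_logdet (hc : 0 < c) (h : Ell G c) (hk : ∀ k i j, Hk k fun x => G x i j) :
    ContDiff ℝ ∞ fun x => Real.log (G x).det := by
  refine ContDiff.log ?_ fun x => (h.posDef hc x).det_pos.ne'
  simp only [det_apply']
  exact ContDiff.sum fun σ _ => contDiff_const.mul
    (contDiff_prod fun i _ => contDiff_of_hk fun k => hk k _ _)

end Vale.Agent.P272.AL
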