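import Vale.Agent.P272.ALHq2

/-! P272, part A1: local solvability with small lower order norms.
Let `θ` be a cutoff (`exists_tf m R`), `v = (|R| + 2) • ee i₀`, `θ₁ x = θ (x - v)`, `θ₂ x = θ (-x - v)` (they
have disjoint supports, so `θ₁ + θ₂ ≤ 1`). Put `A' x = θ₁ x • A (x - v) + θ₂ x • A (-x - v) + (1 - θ₁ x - θ₂ x) • 1`
(even, `Ell` with `min c 1`, `HM` with a constant depending on `K`, `θ`; all `Hk`) and
`g' x = θ₁ x * g (x - v) + θ₂ x * g (-x - v)`. For every `lam ≥ lam₀` of `schauder_neg`, `Solv A' (-lam)` holds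
(copy `h0` in the proof of `solv_main`), giving `W`, `b` with `Xn W`, `HM (hs W) (C₀ N)` (`schauder_neg`,
`Yn.add_const`), smooth by `reg_lin`. From the equation and `Xn.growth`,
`lam * |W x + b / lam| ≤ C₁ N (1 + ‖x‖ ^ 2)`. Let `W' x = W (x + v) + b / lam`, cutoffs `θ` and `θ'` with
`θ' = 1` on the ball of radius `|R| + 2`; `θ' W'` has Hessian bounded by `C N` (`hs_mul`) and sup at most `C N / lam`, so
`interp` makes `Hq 1 (θ' W')` small for large `lam`. Take `w = θ'' * (θ' W')` where `θ'' = 1` on the ball of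
radius `|R| + 1 / 2` or use `exists_tf` with larger radii, `h x = ∑ i, (θ x * (x + v) i) * pd i (θ' W') x`.
Smoothness of `w`: `hk_of_hs`, `contDiff_of_hk`. -/

set_option linter.unusedSectionVars false

open MeasureTheory Set Filter Topology Metric Matrix
open scoped ContDiff ComplexConjugate ComplexOrder

noncomputable section

namespace Vale.Agent.P272.AL

open Vale.Agent.P271 Vale.Agent.P227

variable {m k : ℕ} {f g θ V W : E m → ℝ} {A B G : E m → Mat m} {J : Mat m} {a b c K N M : ℝ}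

theorem ALSolve_smooth (hf : Differentiable ℝ f) (h : ∀ i, ContDiff ℝ ∞ (pd i f)) :
    ContDiff ℝ ∞ f := by
  refine contDiff_infty_iff_fderiv.2 ⟨hf, ?_⟩
  rw [fderiv_eq_sum']
  exact ContDiff.sum fun i _ => (h i).smul contDiff_const

theorem ALSolve_glob (m : ℕ) (hc : 0 < c) (hc1 : c ≤ 1) (hK : 1 ≤ K) : ∃ l₀ C : ℝ, 0 < C ∧
    ∀ lam, l₀ ≤ lam → ∀ (A : E m → Mat m) (g : E m → ℝ) (N : ℝ), Ell A c → HM A K →
      (∀ x, A (-x) = A x) → (∀ k i j, Hk k fun x => A x i j) → Hn g N → Ev g → (∀ k, Hk k g) →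
      ∃ W b, Xn W (C * N) ∧ ContDiff ℝ ∞ W ∧ ∀ x, Lop A (-lam) W x = g x + b := by
  have hK0 := zero_le_one.trans hK
  obtain ⟨l₀, C, hl, hC, hS⟩ := schauder_neg m hc hK0
  refine ⟨l₀, C, hC, fun lam hlam A g N hA hH eA hk hg eg gk => ?_⟩
  have hE1 : Ell (fun _ : E m => (1 : Mat m)) c := Ell_one.mono hc1
  have hH1 : HM (fun _ : E m => (1 : Mat m)) K := HM_one.mono hK
  have h0 : Solv A (-lam) := solv_of_path hC hK0 hH1 hH (fun _ => rfl) eA
    (fun θ h0 h1 w M N hX hY => hS _ w _ N (hE1.comb hA h0 h1)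
      (hH1.comb hH h0 h1) (by linarith) hX.1 ⟨M, hX.2.2.2⟩ hY)
    (solv_base (hl.trans_le hlam) fun w M N hX hY =>
      hS _ w _ N hE1 hH1 (neg_le_neg hlam) hX.1 ⟨M, hX.2.2.2⟩ hY)
  have hY := hg.mo.yn hg.nonneg
  obtain ⟨W, M, b, hX, he⟩ := h0 g N hY eg
  refine ⟨W, b, ⟨hX.1, hX.2.1, hX.2.2.1, hS A W _ N hA hH (neg_le_neg hlam) hX.1 ⟨M, hX.2.2.2⟩ ?_⟩,
    ALSolve_smooth hX.1.1 fun j => ALSolve_smooth (hX.1.2 j) fun i => contDiff_of_hk fun k =>
      reg_lin k hc hA (hk k) ((gk k).add (Hk.const k b)).mk hX.1 ⟨M, hX.2.2.2⟩ he i j, he⟩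
  rw [funext he]
  exact hY.add_const b

theorem ALSolve_cut (m : ℕ) {r : ℝ} (hr : 0 ≤ r) : ∃ C : ℝ, 0 < C ∧ ∀ ε : ℝ, 0 < ε →
    ∃ δ : ℝ, 0 < δ ∧ ∀ (W : E m → ℝ) (M : ℝ), 0 ≤ M → ContDiff ℝ ∞ W → HM (hs W) M →
      (∀ x, ‖x‖ ≤ r + 4 → |W x| ≤ δ * M ∧ ∀ i, |pd i W x| ≤ M) →
      ∃ w : E m → ℝ, ContDiff ℝ ∞ w ∧ Hq 2 w (C * M) ∧ Hq 1 w (ε * M) ∧
        ∀ x, ‖x‖ ≤ r → w =ᶠ[𝓝 x] W := by
  obtain ⟨θ₁, t1, -, o1, z1⟩ := exists_tf m (r + 3)
  obtain ⟨θ₂, t2, -, o2, z2⟩ := exists_tf m (r + 1)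
  rw [abs_of_nonneg (by linarith)] at z1 z2
  obtain ⟨a, ha⟩ := hk_iff.1 (t1.hk 2)
  obtain ⟨b, hb⟩ := hk_iff.1 (t2.hk 2)
  have a0 := ha.nonneg
  have b0 := hb.nonneg
  refine ⟨8 * b + 1, by positivity, fun ε hε => ?_⟩
  obtain ⟨η, η0, η1, η2⟩ : ∃ η : ℝ, 0 < η ∧ η ≤ 1 ∧ 4 * b * η ≤ ε :=
    ⟨min 1 (ε / (4 * b + 1)), by positivity, min_le_left _ _, by
      have := (le_div_iff₀ (by positivity)).1 (min_le_right 1 (ε / (4 * b + 1)))
      have : 0 < min 1 (ε / (4 * b + 1)) := by positivity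
      linarith⟩
  obtain ⟨C, C0, hC⟩ := interp m (ε := η / 2 / (4 * a + 1)) (by positivity)
  refine ⟨min 1 (η / 2 / (C * (a + 1))), by positivity, fun W M M0 hW hH hl => ?_⟩
  have cW := c2_of_contDiff hW
  have c1 := c2_mul ha.c2 cW
  have near : ∀ {θ : E m → ℝ} {s t : ℝ}, (∀ x, ‖x‖ ≤ s → θ x = t) → ∀ x : E m, ‖x‖ < s →
      ∀ᶠ y in 𝓝 x, θ y = t := fun h x hx =>
    (continuous_norm.continuousAt.eventually (Iio_mem_nhds hx)).mono fun y hy => h y (le_of_lt hy)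
  have e1 : ∀ x : E m, ‖x‖ < r + 3 → (fun x => θ₁ x * W x) =ᶠ[𝓝 x] W := fun x hx =>
    (near o1 x hx).mono fun y hy => by simp only [hy, one_mul]
  have h1 : Hq 1 (fun x => θ₁ x * W x) (η * M) := by
    refine (hC _ ((a + 1) * (η / 2 / (C * (a + 1)) * M)) ((4 * a + 1) * M) (by positivity) c1
      (fun x => ?_) fun x i j => ?_).mono (le_of_eq (by field_simp; ring))
    · by_cases hx : ‖x‖ ≤ r + 4
      · rw [abs_mul]
        exact mul_le_mul ((ha.hn.1 x).trans (lt_add_one a).le) ((hl x hx).1.trans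
          (mul_le_mul_of_nonneg_right (min_le_right _ _) M0)) (abs_nonneg _) (by positivity)
      · rw [z1 x (by linarith), zero_mul, abs_zero]
        positivity
    · by_cases hx : ‖x‖ ≤ r + 4
      · have d1 := mul_le_mul (ha.hn.1 x) ((hH i j).1 x) (abs_nonneg _) a0
        have d2 := fun i j => mul_le_mul ((ha.2.2 i).hn.1 x) ((hl x hx).2 j) (abs_nonneg _) a0
        have d3 := mul_le_mul ((hl x hx).1.trans (mul_le_of_le_one_left M0 (min_le_left _ _)))
          ((ha.hm i j).1 x) (abs_nonneg _) M0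
        simp only [← abs_mul, abs_le] at d1 d2 d3
        rw [hs_mul ha.c2 cW, abs_le]
        constructor <;> linarith [d1.1, d1.2, (d2 i j).1, (d2 i j).2, (d2 j i).1, (d2 j i).2, d3.1,
          d3.2]
      · have e : (fun x => θ₁ x * W x) =ᶠ[𝓝 x] fun _ => 0 :=
          (continuous_norm.continuousAt.eventually (Ioi_mem_nhds (not_le.1 hx))).mono
            fun y hy => by simp only [z1 y (by linarith [show r + 4 < ‖y‖ from hy]), zero_mul]
        rw [hs_congr e, hs_const]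
        exact abs_zero.trans_le (by positivity)
  have h2 := ((hb.of_succ).mul h1).mono (M := 4 * b * (η * M)) (le_of_eq (by norm_num))
  have ηM : η * M ≤ M := mul_le_of_le_one_left M0 η1
  have bM := mul_le_mul_of_nonneg_left ηM b0
  refine ⟨fun x => θ₂ x * (θ₁ x * W x), t2.1.mul (t1.1.mul hW), hq_two (h2.mono ?_)
    (c2_mul hb.c2 c1) fun i j => ?_, h2.mono ?_, fun x hx => ?_⟩
  · linarith [mul_nonneg b0 M0]
  · have e : (fun x => hs (fun x => θ₂ x * (θ₁ x * W x)) x i j) = fun x =>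
        θ₂ x * hs W x i j + pd i θ₂ x * pd j (fun x => θ₁ x * W x) x +
          pd j θ₂ x * pd i (fun x => θ₁ x * W x) x + θ₁ x * W x * hs θ₂ x i j := by
      funext x
      rw [hs_mul hb.c2 c1]
      by_cases hx : ‖x‖ < r + 3
      · rw [hs_congr (e1 x hx)]
      · rw [z2 x (by linarith), zero_mul, zero_mul]
    rw [e]
    have d := fun i j => (hb.2.2 i).hn.mul (h1.2.2 j).hn
    exact ((((hb.hn.mul (hH i j)).add (d i j)).add (d j i)).add (h1.hn.mul (hb.hm i j))).mono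
      (by linarith)
  · linarith [mul_le_mul_of_nonneg_right η2 M0]
  · filter_upwards [near o2 x (by linarith), e1 x (by linarith)] with y h3 h4
    rw [h3, one_mul, h4]

theorem ALSolve_sym (hf : Hq k f a) (u : E m) :
    Hq k (fun x => f (x + u) + f (-x + u)) (a + a) := (hf.shift u).add (hf.shift u).neg_arg

theorem al_solve (hm : 0 < m) (hc : 0 < c) (hK : 0 ≤ K) (R : ℝ) : ∃ C : ℝ, 0 < C ∧
    ∀ ε : ℝ, 0 < ε → ∃ lam : ℝ, 1 ≤ lam ∧ ∀ (A : E m → Mat m) (g : E m → ℝ) (N : ℝ),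
      Ell A c → HM A K → (∀ k i j, Hk k fun x => A x i j) → Hn g N → (∀ k, Hk k g) →
      ∃ w h : E m → ℝ, ContDiff ℝ ∞ w ∧ Hq 2 w (C * N) ∧ Hq 1 w (ε * N) ∧ Hn h (ε * N) ∧
        ∀ x, ‖x‖ ≤ R → ct (A x) (hs w x) - lam * w x = g x + h x := by
  obtain ⟨θ, t, t01, o, z⟩ := exists_tf m R
  obtain ⟨v, hv⟩ : ∃ v : E m, ‖v‖ = |R| + 1 := ⟨_, norm_smul_ee (by positivity) ⟨0, hm⟩⟩
  choose a ha using fun k => hk_iff.1 (t.hk k)
  have a0 : 0 ≤ a 0 := (ha 0).nonneg
  have hB : ∀ (A : E m → Mat m) k L i j, Hq k (fun x => A x i j) L → Hq k (fun x =>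
      ((1 - θ (x + -v)) • (1 : Mat m) + θ (x + -v) • A (x + -v) +
        ((1 - θ (-x + -v)) • (1 : Mat m) + θ (-x + -v) • A (-x + -v)) - 1) i j)
      (2 * (1 + a k + 2 ^ (k + 1) * a k * L) + 1) := by
    intro A k L i j h
    have h1 : |(1 : Mat m) i j| ≤ 1 := (HM_one (n := m) i j).1 0
    have h2 := (((Hq.const k 1).sub (ha k)).const_mul ((1 : Mat m) i j)).add ((ha k).mul h)
    refine (congrArg (Hq k · _) (funext fun x => ?_)).mp
      (((ALSolve_sym h2 (-v)).sub (Hq.const k ((1 : Mat m) i j))).mono ?_)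
    · rw [mul_comm _ (1 - _), mul_comm _ (1 - _)]
      rfl
    · rw [abs_one]
      nlinarith [(ha k).nonneg]
  obtain ⟨K', hK'⟩ : ∃ K', K' = 2 * (1 + a 0 + 2 ^ (0 + 1) * a 0 * K) + 1 := ⟨_, rfl⟩
  have K1 : 1 ≤ K' := hK' ▸ le_add_of_nonneg_left (by positivity)
  obtain ⟨l₀, C₀, C0, hS⟩ := ALSolve_glob m (lt_min hc one_pos) (min_le_right _ _) K1
  obtain ⟨C₁, C1, hT⟩ := ALSolve_cut m (abs_nonneg R)
  have hφ : ∀ i, Tf fun x : E m => θ x * (x + v) i := fun i => t.mul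
    ((EuclideanSpace.proj i : E m →L[ℝ] ℝ).contDiff.comp (contDiff_id.add contDiff_const))
  choose d hd using fun i => hk_iff.1 ((hφ i).hk 0)
  have d0 : 0 ≤ ∑ i, 2 * d i := Finset.sum_nonneg fun i _ => by linarith [(hd i).nonneg]
  obtain ⟨S, hS'⟩ : ∃ S, S = 2 * |R| + 5 := ⟨_, rfl⟩
  have S0 : 0 ≤ S := hS' ▸ by positivity
  obtain ⟨D, hD⟩ : ∃ D, D = (2 * m ^ 2 * K' + m * (m * S) * S + m * S + 1) * C₀ + 1 := ⟨_, rfl⟩
  have K0 := zero_le_one.trans K1
  have D0 : 0 < D := hD ▸ by positivity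
  refine ⟨C₁ * (D * (4 * a 0 + 1)), by positivity, fun ε hε => ?_⟩
  obtain ⟨δ, δ0, hT⟩ := hT (ε / (D * (4 * a 0 + 1) * (∑ i, 2 * d i + 1))) (by positivity)
  refine ⟨max (max 1 l₀) δ⁻¹, le_max_of_le_left (le_max_left _ _), fun A g N hA hH hk hg gk => ?_⟩
  obtain ⟨lam, hlam⟩ : ∃ lam, lam = max (max 1 l₀) δ⁻¹ := ⟨_, rfl⟩
  rw [← hlam]
  have l1 : δ⁻¹ ≤ lam := hlam ▸ le_max_right _ _
  have l0 : 0 < lam := (inv_pos.2 δ0).trans_le l1
  have N0 := hg.nonneg
  have hg' : Hn (fun x => θ (x + -v) * g (x + -v) + θ (-x + -v) * g (-x + -v))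
      ((4 * a 0 + 1) * N) := (ALSolve_sym ((ha 0).mul (k := 0) hg) (-v)).mono
        (by norm_num; linarith)
  have hE := fun y => (Ell_one.mono (min_le_right c 1)).comb (hA.mono (min_le_left _ _))
    (t01 y).1 (t01 y).2 y
  have hH' := fun i j => (hK' ▸ hB A 0 K i j (hH i j) :)
  obtain ⟨W, b, hX, hW, he⟩ := hS lam (hlam ▸ le_max_of_le_left (le_max_right _ _)) _ _ _
    (fun x => by
      by_cases h1 : θ (x + -v) = 0
      · simpa only [h1, sub_zero, one_smul, zero_smul, add_zero, add_sub_cancel_left] using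
          hE (-x + -v)
      · have h2 : θ (-x + -v) = 0 := z _ (by
          have h3 : ‖x + -v‖ < |R| + 1 := not_le.1 fun h => h1 (z _ h)
          have h4 := norm_add_le (x + -v) (-x + -v)
          rw [show x + -v + (-x + -v) = (-2 : ℝ) • v by module, norm_smul, hv] at h4
          norm_num at h4
          linarith)
        simpa only [h2, sub_zero, one_smul, zero_smul, add_zero, add_sub_cancel_right] using
          hE (x + -v)) hH' (fun x => by rw [neg_neg, add_comm])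
    (fun k i j => (hk_iff.1 (hk k i j)).elim fun L h => (hB A k L i j h).hk) hg'
    (fun x => by rw [neg_neg, add_comm])
    fun k => (hk_iff.1 (gk k)).elim fun L h => (ALSolve_sym ((ha k).mul h) (-v)).hk
  obtain ⟨N', hN'⟩ : ∃ N', N' = (4 * a 0 + 1) * N := ⟨_, rfl⟩
  rw [← hN'] at hX hg'
  have N1 := hg'.nonneg
  have e1 : ∀ i, pd i (fun x => W (x + v) + b / lam) = fun x => pd i W (x + v) := fun i => by
    rw [pd_add (differentiable_shift hX.1.1 v) (differentiable_const _), pd_const, pd_shift]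
    exact funext fun x => add_zero _
  have e2 : hs (fun x => W (x + v) + b / lam) = fun x => hs W (x + v) := by
    rw [hs_add (hX.1.shift v) (C2.const _), hs_const, hs_shift]
    exact funext fun x => add_zero _
  have p1 : 0 ≤ 2 * m ^ 2 * K' * C₀ * N' := by positivity
  have p2 : 0 ≤ m * (m * S) * S * C₀ * N' := by positivity
  have p3 : 0 ≤ m * S * C₀ * N' := by positivity
  have p4 : 0 ≤ C₀ * N' := by positivity
  obtain ⟨w, w1, w2, w3, w4⟩ := hT (fun x => W (x + v) + b / lam) (D * N') (by positivity)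
    ((hW.comp (contDiff_id.add contDiff_const)).add contDiff_const)
    (fun i j => by
      rw [e2]
      exact ((hX.2.2.2 i j).shift v).mono (by rw [hD]; linarith)) fun x hx => by
      have n1 : ‖x + v‖ ≤ S := (norm_add_le _ _).trans (by linarith)
      have n2 : ∀ i, |pd i W (x + v)| ≤ m * S * C₀ * N' := fun i =>
        ((hX.growth _).2 i).trans ((mul_le_mul_of_nonneg_left n1 (by positivity)).trans_eq
          (by ring))
      refine ⟨?_, fun i => by rw [e1]; exact (n2 i).trans (by rw [hD]; linarith)⟩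
      have n3 := abs_le.1 ((HM.contract (zero_le_one.trans K1) p4 hH' hX.2.2.2).1 (x + v))
      have n4 := abs_le.1 ((abs_sum_coord_le (x + v) n2).trans
        (mul_le_mul_of_nonneg_left n1 (by positivity)))
      have n5 := abs_le.1 (hg'.1 (x + v))
      have n6 := he (x + v)
      have n7 : |lam * (W (x + v) + b / lam)| ≤ D * N' := by
        rw [mul_add, mul_div_cancel₀ _ l0.ne', abs_le, hD]
        unfold Lop eu at n6
        constructor <;> linarith [n3.1, n3.2, n4.1, n4.2, n5.1, n5.2]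
      rw [abs_mul, abs_of_pos l0] at n7
      rw [← inv_mul_le_iff₀ δ0]
      exact (mul_le_mul_of_nonneg_right l1 (abs_nonneg _)).trans n7
  have e3 : ε / (D * (4 * a 0 + 1) * (∑ i, 2 * d i + 1)) * (D * N') * (∑ i, 2 * d i + 1) =
      ε * N := by
    rw [hN']
    field_simp
  have q0 := w3.nonneg
  refine ⟨w, fun x => ∑ i, θ x * (x + v) i * pd i w x, w1, w2.mono (le_of_eq (by rw [hN']; ring)),
    w3.mono (by nlinarith), (Hq.sum (k := 0) Finset.univ fun i _ => (hd i).mul (w3.2.2 i)).mono ?_,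
    fun x hx => ?_⟩
  · rw [← Finset.sum_mul, ← e3]
    simp only [zero_add, pow_one]
    linarith
  · have hx' := hx.trans (le_abs_self R)
    have h1 := he (x + v)
    have h2 : θ (-(x + v) + -v) = 0 := z _ (by
      have h4 := norm_add_le (-(x + v) + -v) x
      rw [show -(x + v) + -v + x = (-2 : ℝ) • v by module, norm_smul, hv] at h4
      norm_num at h4 ⊢
      linarith)
    simp only [Lop, eu, add_neg_cancel_right, h2, o x hx, sub_self, sub_zero, zero_smul, one_smul,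
      zero_add, add_zero, add_sub_cancel_right, one_mul, zero_mul] at h1
    simp only [hs_congr (w4 x hx'), e2, fun i => (pd_congr (w4 x hx') i).self_of_nhds, e1,
      (w4 x hx').self_of_nhds, o x hx, one_mul, ct]
    rw [mul_add, mul_div_cancel₀ _ l0.ne']
    linarith

end Vale.Agent.P272.AL
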