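import Vale.Agent.P272.ALTr
import Vale.Agent.P272.ALSolve
import Vale.Agent.P272.ALPq

/-! P272, part A1: the parametrix.
Linearity: choose `a` with `p ∈ tsupport (ρ a)` (`exists_rho`, `Cut.rho_sub`), use `Op.eq`, `lz_add`, `hs_add`,
`lz_tf`, `c2_of_contDiff`. `op_param`: `R` from `exists_radius`; `w a`, `h a` from `al_solve` for `g a = lz (ρ a) a g`
(`nk_lz`, `lz_tf`, `Tf.hk`); `u = ∑ a, up (χ a) a (w a)` (`sm_up`, `nk_up`). With `χ' = lz (χ a) a 1` and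
`e a = χ' * h a + 2 ∑ A i j * pd i χ' * pd j (w a) + w a * ct A (hs χ')`, one has
`D (up (χ a) a (w a)) - lam * up (χ a) a (w a) = ρ a * g + up (ψ a) a (e a)`: on `tsupport (χ a)` by `Op.eq`, `lz_up`,
`ct_hs_mul`; elsewhere both sides vanish (`Op.zero`, `lz_zero_ev`, `pd_congr`, `hs_congr`).
`Hn (e a) (C' ε N)` with `C'` depending on `K` and the cutoffs only; choose `ε` such that the sum is `N / 2`. -/

set_option linter.unusedSectionVars false

open MeasureTheory Set Filter Topology Metric Matrix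
open scoped ContDiff ComplexConjugate ComplexOrder

noncomputable section

namespace Vale.Agent.P272.AL

open Vale.Agent.P271 Vale.Agent.P227

variable {n : ℕ} {X : Type} [TopologicalSpace X] [T2Space X] [CompactSpace X]
  [MeasurableSpace X] {M : Model n X} {C : Cut M} {a b : M.ι} {θ θ' u v w g : X → ℝ} {p : X}
  {k : ℕ} {c K N s : ℝ} {A G : M.ι → E (n + n) → Mat (n + n)} {D : (X → ℝ) → X → ℝ}
  {η : Frm M.toAtl}

theorem ALPar_pt (C : Cut M) (p : X) : ∃ a, p ∈ tsupport (C.χ a) :=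
  (exists_rho M p).imp fun a h => C.rho_sub a h

theorem ALPar_c2 (C : Cut M) (a : M.ι) (hu : M.Sm u) : C2 (lz M (C.ψ a) a u) :=
  c2_of_contDiff (lz_tf (C.bψ a) hu).1

theorem Op.add (h : Op C c K A D) (hu : M.Sm u) (hv : M.Sm v) (p : X) :
    D (fun q => u q + v q) p = D u p + D v p := by
  obtain ⟨a, ha⟩ := ALPar_pt C p
  rw [h.eq _ (sm_add hu hv) a p ha, h.eq _ hu a p ha, h.eq _ hv a p ha, hz, lz_add,
    hs_add (ALPar_c2 C a hu) (ALPar_c2 C a hv)]
  exact ct_add _ _ _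

theorem Op.sub (h : Op C c K A D) (hu : M.Sm u) (hv : M.Sm v) (p : X) :
    D (fun q => u q - v q) p = D u p - D v p := by
  obtain ⟨a, ha⟩ := ALPar_pt C p
  rw [h.eq _ (sm_sub hu hv) a p ha, h.eq _ hu a p ha, h.eq _ hv a p ha, hz, lz_sub,
    hs_sub (ALPar_c2 C a hu) (ALPar_c2 C a hv)]
  exact ct_sub _ _ _

theorem Op.const_mul (h : Op C c K A D) (hu : M.Sm u) (t : ℝ) (p : X) :
    D (fun q => t * u q) p = t * D u p := by
  obtain ⟨a, ha⟩ := ALPar_pt C p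
  rw [h.eq _ (sm_mul (sm_const M t) hu) a p ha, h.eq _ hu a p ha, hz, lz_const_mul, hs_const_mul]
  exact ct_smul _ _ _

theorem Op.zero (h : Op C c K A D) (hu : M.Sm u) (h0 : u =ᶠ[𝓝 p] fun _ => 0) : D u p = 0 := by
  obtain ⟨a, ha⟩ := ALPar_pt C p
  have h1 : u =ᶠ[𝓝 p] fun q => 0 * u q := h0.mono fun q hq => hq.trans (zero_mul _).symm
  have h2 := h.const_mul hu 0 p
  rw [h.eq _ (sm_mul (sm_const M 0) hu) a p ha, zero_mul, hz,
    ← hs_congr (lz_congr ((C.bχ a).2 ha) h1 _)] at h2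
  rw [h.eq _ hu a p ha]
  exact h2

theorem Op.sum (h : Op C c K A D) {ι : Type} (s : Finset ι) {F : ι → X → ℝ}
    (hF : ∀ i ∈ s, M.Sm (F i)) (p : X) :
    D (fun q => ∑ i ∈ s, F i q) p = ∑ i ∈ s, D (F i) p := by
  classical
  induction s using Finset.induction_on with
  | empty => exact h.zero (sm_const M 0) (Eventually.of_forall fun _ => rfl)
  | insert i s hi ih =>
    have h1 : ∀ j ∈ s, M.Sm (F j) := fun j hj => hF j (Finset.mem_insert_of_mem hj)
    simp only [Finset.sum_insert hi]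
    rw [h.add (hF i (Finset.mem_insert_self _ _)) (sm_sum s h1), ih h1]

/-- The error of the local parametrix. -/
def ALPar_e {m : ℕ} (A : E m → Mat m) (θ w h : E m → ℝ) (x : E m) : ℝ :=
  θ x * h x + 2 * ∑ i, ∑ j, A x i j * pd i θ x * pd j w x + w x * ct (A x) (hs θ x)

theorem ALPar_hn {m : ℕ} {A : E m → Mat m} {θ w h : E m → ℝ} {B δ : ℝ} (hK : 0 ≤ K) (hA : HM A K)
    (hθ : Hq 2 θ B) (hw : Hq 1 w δ) (hh : Hn h δ) :
    Hn (ALPar_e A θ w h) ((2 * B + 12 * m ^ 2 * K * B) * δ) := by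
  have hB := hθ.nonneg
  have hδ := hw.nonneg
  have h1 := hθ.hn.mul hh
  have h2 := (Hn.sum (Finset.univ : Finset (Fin m)) (a := m * (2 * (2 * K * B) * δ))
    (F := fun i x => ∑ j, A x i j * pd i θ x * pd j w x) (by positivity) fun i _ => by
      have h3 := Hn.sum (Finset.univ : Finset (Fin m)) (a := 2 * (2 * K * B) * δ)
        (F := fun j x => A x i j * pd i θ x * pd j w x) (by positivity) fun j _ =>
          ((hA i j).mul (hθ.2.2 i).hn).mul (hw.2.2 j)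
      simpa using h3).const_mul 2
  have h3 := hw.hn.mul (HM.contract hK hB hA hθ.hm)
  refine ((h1.add h2).add h3).mono (le_of_eq ?_)
  simp only [Finset.card_univ, Fintype.card_fin, abs_two]
  ring

theorem ALPar_id (h : Op C c K A D) {w h' : E (n + n) → ℝ} (hw : ContDiff ℝ ∞ w) {lam : ℝ}
    (he : ∀ p ∈ tsupport (C.ψ a), ct (A a (ra M a p)) (hs w (ra M a p)) - lam * w (ra M a p) =
      lz M (M.ρ a) a g (ra M a p) + h' (ra M a p)) (p : X) :
    D (up M (C.χ a) a w) p - lam * up M (C.χ a) a w p - M.ρ a p * g p =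
      up M (C.ψ a) a (ALPar_e (A a) (lz M (C.χ a) a fun _ => 1) w h') p := by
  have hU := sm_up (C.bχ a) hw
  by_cases hp : p ∈ tsupport (C.χ a)
  · have hs' := (C.bχ a).2 hp
    have h1 := he p (C.chi_sub a hp)
    have h2 : C.χ a p * M.ρ a p = M.ρ a p := by
      by_cases h3 : M.ρ a p = 0
      · rw [h3, mul_zero]
      · rw [C.chi_one h3, one_mul]
    rw [lz_ra hs'] at h1
    rw [h.eq _ hU a p hp, hz, lz_up (fun _ h => C.psi_one h), ct_hs_mul (h.ell a _).1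
      (c2_of_contDiff (lz_tf (C.bχ a) (sm_const M 1)).1) (c2_of_contDiff hw), up, up, ALPar_e,
      (C.oneψ a p hp).self_of_nhds, lz_ra hs']
    linear_combination C.χ a p * h1 + g p * h2
  · have h1 : C.χ a =ᶠ[𝓝 p] 0 := notMem_tsupport_iff_eventuallyEq.1 hp
    have h2 : up M (C.χ a) a w =ᶠ[𝓝 p] fun _ => 0 := h1.mono fun q hq => by
      rw [up, hq, Pi.zero_apply, zero_mul]
    have h3 : M.ρ a p = 0 := image_eq_zero_of_notMem_tsupport fun h4 => hp (C.rho_sub a h4)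
    rw [h.zero hU h2, h2.self_of_nhds, h3, up]
    by_cases h4 : C.ψ a p = 0
    · rw [h4]
      ring
    · have h5 := lz_zero_ev ((C.bψ a).2 (subset_tsupport _ h4)) hp fun _ => 1
      have h6 : ∀ i, pd i (lz M (C.χ a) a fun _ => 1) (ra M a p) = 0 := fun i => by
        rw [(pd_congr h5 i).self_of_nhds, pd_const]
      rw [ALPar_e, hs_congr h5, hs_const, h5.self_of_nhds]
      simp [h6, ct]

theorem op_param (hn : 0 < n) (C : Cut M) (hc : 0 < c) (hK : 0 ≤ K) :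
    ∃ lam C₀ : ℝ, 1 ≤ lam ∧ 0 < C₀ ∧ ∀ A D, Op C c K A D → ∀ (g : X → ℝ) (N : ℝ), 0 ≤ N → M.Sm g →
      Nk C 0 g N → ∃ u, M.Sm u ∧ Nk C 2 u (C₀ * N) ∧
        Nk C 0 (fun p => D u p - lam * u p - g p) (N / 2) := by
  obtain ⟨R, hR⟩ := exists_radius C
  obtain ⟨C₁, hC₁, h1⟩ := al_solve (m := n + n) (by omega) hc hK R
  obtain ⟨C₂, hC₂, h2⟩ := nk_lz C (bump_rho M) 0
  obtain ⟨C₃, hC₃, h3⟩ := nk_up C C.bχ 2
  obtain ⟨C₄, hC₄, h4⟩ := nk_up C C.bψ 0
  choose B₀ hB₀ using fun a => hk_iff.1 ((lz_tf (C.bχ a) (sm_const M 1)).hk 2)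
  obtain ⟨B, hB⟩ : ∃ B : ℝ, ∀ a, Hq 2 (lz M (C.χ a) a fun _ => 1) B :=
    ⟨∑ a, B₀ a, fun a => (hB₀ a).mono
      (Finset.single_le_sum (fun a _ => (hB₀ a).nonneg) (Finset.mem_univ a))⟩
  obtain ⟨Q, hQ⟩ : ∃ Q : ℝ, Q = Fintype.card M.ι *
      (C₄ * (2 * B + 12 * ((n + n : ℕ) : ℝ) ^ 2 * K * B) * C₂) := ⟨_, rfl⟩
  obtain ⟨lam, hlam, h5⟩ := h1 (1 / (2 * (|Q| + 1))) (by positivity)
  refine ⟨lam, Fintype.card M.ι * (C₃ * C₁ * C₂) + 1, hlam, by positivity,
    fun A D h g N hN hg hgN => ?_⟩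
  choose w h' hw hw2 hw1 hh he using fun a => h5 (A a) (lz M (M.ρ a) a g) (C₂ * N) (h.ell a)
    (h.hm a) (h.hk a) (h2 g N hgN a) (lz_tf (bump_rho M a) hg).hk
  have hU : ∀ a ∈ (Finset.univ : Finset M.ι), M.Sm (up M (C.χ a) a (w a)) := fun a _ =>
    sm_up (C.bχ a) (hw a)
  refine ⟨fun p => ∑ a, up M (C.χ a) a (w a) p, sm_sum _ hU, ?_, ?_⟩
  · refine (Nk.sum Finset.univ fun a _ => h3 a _ _ (hw2 a)).mono ?_
    simp only [Finset.sum_const, Finset.card_univ, nsmul_eq_mul]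
    linarith
  · have e : (fun p => D (fun p => ∑ a, up M (C.χ a) a (w a) p) p -
        lam * ∑ a, up M (C.χ a) a (w a) p - g p) = fun p => ∑ a, up M (C.ψ a) a
          (ALPar_e (A a) (lz M (C.χ a) a fun _ => 1) (w a) (h' a)) p := by
      funext p
      have e1 : g p = ∑ a, M.ρ a p * g p := by rw [← Finset.sum_mul, M.ρ_sum, one_mul]
      rw [h.sum _ hU, e1, Finset.mul_sum, ← Finset.sum_sub_distrib, ← Finset.sum_sub_distrib]
      exact Finset.sum_congr rfl fun a _ =>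
        ALPar_id h (hw a) (fun q hq => he a _ (hR a q hq)) p
    rw [e]
    refine (Nk.sum Finset.univ fun a _ =>
      h4 a _ _ (ALPar_hn hK (h.hm a) (hB a) (hw1 a) (hh a))).mono ?_
    simp only [Finset.sum_const, Finset.card_univ, nsmul_eq_mul]
    have e2 : Q * (1 / (2 * (|Q| + 1))) ≤ 1 / 2 := by
      rw [mul_one_div, div_le_iff₀ (by positivity)]
      linarith [le_abs_self Q]
    have e3 := mul_le_mul_of_nonneg_right e2 hN
    rw [hQ] at e3 ⊢
    linarith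

end Vale.Agent.P272.AL
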