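import Vale.Agent.P272.ALPq

/-! P272, part A1: the first step of the nonlinear regularity, by difference quotients.
Let `B = G + Pq J (hs W)`, `‖v‖ ≤ δ`, `d x = W (x + v) - W x`. `logdet_sub` for `B` and `B (· + v)` gives `A` with
constants independent of `v`, and `ct (Pq Jᵀ (A x)) (hs d x) = f (x + v) - f x - ct (A x) (G (x + v) - G x)` if
`θ x ≠ 0` (`ct_Pq`). As in `reg_loc`, `Lop (Pq Jᵀ A) (-lam) (θ d)` is a sum of products in which one factor has
`Hn` norm at most `C ‖v‖` (`Hq.diffquot` for `f`, `G`, `W`, `pd i W`; `ct_hs_mul`, `Tf.coord`). `schauder_neg`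
gives `HM (hs (θ d)) (C ‖v‖)`. Since `(θ W) (x + v) - (θ W) x = θ x * d x + (θ (x + v) - θ x) * W (x + v)` and the
last term has `Hq 2` norm at most `C ‖v‖`, `hk1_of_diff` applies to `hs (θ W) · i j`; then `hk_of_hs`.
Compare `reg_step` and `reg_sol_one` in P227. -/

set_option linter.unusedSectionVars false

open MeasureTheory Set Filter Topology Metric Matrix
open scoped ContDiff ComplexConjugate ComplexOrder

noncomputable section

namespace Vale.Agent.P272.AL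

open Vale.Agent.P271 Vale.Agent.P227

variable {m k : ℕ} {f g θ V W : E m → ℝ} {A B G : E m → Mat m} {J : Mat m} {a b c K N M : ℝ}

/-- families whose `Hq k` norms are bounded by a multiple of `N` -/
def R1O {ι : Type} (k : ℕ) (N : ι → ℝ) (F : ι → E m → ℝ) : Prop :=
  ∃ C, 0 ≤ C ∧ ∀ p, Hq k (F p) (C * N p)

section
variable {ι : Type} {n : ι → ℝ} {F F' : ι → E m → ℝ}

theorem R1O.add (h : R1O k n F) (h' : R1O k n F') : R1O k n fun p x => F p x + F' p x := by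
  obtain ⟨C, hC, h⟩ := h
  obtain ⟨C', hC', h'⟩ := h'
  exact ⟨C + C', add_nonneg hC hC', fun p => ((h p).add (h' p)).mono (add_mul _ _ _).ge⟩

theorem R1O.sub (h : R1O k n F) (h' : R1O k n F') : R1O k n fun p x => F p x - F' p x := by
  obtain ⟨C, hC, h⟩ := h
  obtain ⟨C', hC', h'⟩ := h'
  exact ⟨C + C', add_nonneg hC hC', fun p => ((h p).sub (h' p)).mono (add_mul _ _ _).ge⟩

theorem R1O.cmul (h : R1O k n F) (t : ℝ) : R1O k n fun p x => t * F p x := by
  obtain ⟨C, hC, h⟩ := h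
  exact ⟨|t| * C, by positivity, fun p => ((h p).const_mul t).mono (mul_assoc _ _ _).ge⟩

theorem R1O.mul (h : R1O k 1 F) (h' : R1O k n F') : R1O k n fun p x => F p x * F' p x := by
  obtain ⟨C, hC, h⟩ := h
  obtain ⟨C', hC', h'⟩ := h'
  refine ⟨2 ^ (k + 1) * C * C', by positivity, fun p => ((h p).mul (h' p)).mono (le_of_eq ?_)⟩
  rw [Pi.one_apply]
  ring

theorem R1O.mul' (h : R1O k n F) (h' : R1O k 1 F') : R1O k n fun p x => F p x * F' p x := by
  simpa only [mul_comm] using h'.mul h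

theorem R1O_sum {F : Fin m → ι → E m → ℝ} (h : ∀ i, R1O k n (F i)) :
    R1O k n fun p x => ∑ i, F i p x := by
  choose C hC h using h
  exact ⟨∑ i, C i, Finset.sum_nonneg fun i _ => hC i, fun p =>
    (Hq.sum Finset.univ fun i _ => h i p).mono (Finset.sum_mul _ _ _).ge⟩

theorem R1O_shift (h : Hk k f) (v : ι → E m) : R1O k 1 fun p x => f (x + v p) := by
  obtain ⟨C, hC⟩ := hk_iff.1 h
  exact ⟨C, hC.nonneg, fun p => (hC.shift _).mono (mul_one C).ge⟩

theorem R1O_const (h : Hk k f) : R1O k (1 : ι → ℝ) fun _ => f := by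
  obtain ⟨C, hC⟩ := hk_iff.1 h
  exact ⟨C, hC.nonneg, fun p => hC.mono (mul_one C).ge⟩

theorem R1O_diff (h : Hk (k + 1) f) (v : ι → E m) :
    R1O k (fun p => ‖v p‖) fun p x => f (x + v p) - f x := by
  obtain ⟨C, hC⟩ := hk_iff.1 h
  have := hC.nonneg
  exact ⟨m * C, by positivity, fun p => hC.diffquot _⟩

theorem R1O.der (h : R1O (k + 1) n F) (i : Fin m) : R1O k n fun p => pd i (F p) := by
  obtain ⟨C, hC, h⟩ := h
  exact ⟨C, hC, fun p => (h p).2.2 i⟩

theorem R1O.low (h : R1O (k + 1) n F) : R1O k n F := by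
  obtain ⟨C, hC, h⟩ := h
  exact ⟨C, hC, fun p => (h p).of_succ⟩

theorem R1O_hm {T : ι → E m → Mat m} (hK : 0 ≤ K) (h : ∀ p, HM (T p) K) (i j : Fin m) :
    R1O 0 1 fun p x => T p x i j :=
  ⟨K, hK, fun p => (h p i j).mono (mul_one K).ge⟩

/-- the localized Schauder estimate for a family -/
theorem R1O_est {T : ι → E m → Mat m} {d q : ι → E m → ℝ} (hc : 0 < c) (hK : 0 ≤ K) (hθ : Tf θ)
    (hT : ∀ p, Ell (T p) c) (hT' : ∀ p, HM (T p) K) (hd : ∀ p, Hk 2 (d p)) (hd' : R1O 1 n d)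
    (hq : R1O 0 n q) (hn : ∀ p, 0 ≤ n p)
    (he : ∀ p x, θ x ≠ 0 → ct (T p x) (hs (d p) x) = q p x) (i j : Fin m) :
    R1O 0 n fun p x => hs (fun y => θ y * d p y) x i j := by
  obtain ⟨lam, C, -, hC, hS⟩ := schauder_neg m hc hK
  have t0 : ∀ {η : E m → ℝ}, Tf η → R1O 0 (1 : ι → ℝ) fun _ => η := fun h => R1O_const (h.hk 0)
  obtain ⟨C1, hC1, h1⟩ := (((((t0 hθ).mul hq).add ((R1O_sum fun i => R1O_sum fun j =>
    ((R1O_hm hK hT' i j).mul (t0 (hθ.pd i))).mul (hd'.der j)).cmul 2)).add (hd'.low.mul'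
      (R1O_sum fun i => R1O_sum fun j => (R1O_hm hK hT' i j).mul (t0 ((hθ.pd j).pd i))))).sub
      (R1O_sum fun i => ((t0 ((hθ.pd i).coord i)).mul hd'.low).add
        ((t0 (hθ.coord i)).mul (hd'.der i)))).add (((t0 hθ).mul hd'.low).cmul (-lam))
  refine ⟨C * C1, by positivity, fun p => ?_⟩
  obtain ⟨N1, h2⟩ := hk_iff.1 (hθ.hk 2)
  obtain ⟨N2, h3⟩ := hk_iff.1 (hd p)
  have h4 := h2.mul h3
  rw [mul_assoc]
  refine hS (T p) _ (-lam) _ (hT p) (hT' p) le_rfl h4.c2 ⟨_, h4.hm⟩ (Mo.yn (Hn.mo ?_)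
    (mul_nonneg hC1 (hn p))) i j
  refine (congrArg (fun z => Hn z _) (funext fun x => ?_)).mp (h1 p)
  have h5 : θ x * q p x = θ x * ct (T p x) (hs (d p) x) := by
    by_cases h : θ x = 0
    · rw [h, zero_mul, zero_mul]
    · rw [he p x h]
  have h6 := ct_hs_mul (hT p x).1 h2.c2 h3.c2 x
  simp only [ct] at h5 h6
  simp only [Lop, eu, h5, h6, pd_mul h2.c2.1 h3.c2.1, hs_apply θ, mul_add, mul_assoc]

end

theorem reg_first {S : Set (E m)} (hc : 0 < c) (hθ : Tf θ) (hS : Near θ S)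
    (hG : ∀ i j, Hk 1 fun x => G x i j) (hW : Hk 2 W)
    (hE : Ell (fun x => G x + Pq J (hs W x)) c) (hf : Hk 1 f)
    (he : ∀ x ∈ S, Real.log (G x + Pq J (hs W x)).det = f x) :
    Hk 3 fun x => θ x * W x := by
  obtain ⟨δ, hδ, hS⟩ := hS
  obtain ⟨K, hK, hB⟩ := exists_HM (A := fun x => G x + Pq J (hs W x)) fun i j =>
    ((hG i j).of_succ.add (Pq_hk J (fun i j => hk_hs (k := 0) hW i j) i j)).hn
  obtain ⟨c', K', hc', hK', hL⟩ := logdet_sub m hc hK
  obtain ⟨Cp, hCp, hP⟩ := Pq_hm Jᵀ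
  choose A hA hA' hA'' using fun p : {v : E m // ‖v‖ ≤ δ} => hL _
    (fun x => G (x + p.1) + Pq J (hs W (x + p.1))) hE (fun x => hE _) hB
    fun i j => (hB i j).shift _
  obtain ⟨N1, h1⟩ := hk_iff.1 hW
  obtain ⟨N2, h2⟩ := hk_iff.1 (hθ.hk 2)
  have hd : ∀ v : E m, Hq 2 (fun x => W (x + v) - W x) (N1 + N1) := fun v => (h1.shift v).sub h1
  have h3 := fun i j => R1O_est (T := fun p x => Pq Jᵀ (A p x)) (c := c' / 4) (by positivity)
    (mul_nonneg hCp.le hK') hθ (fun p => Pq_ell _ hc'.le (hA p)) (fun p => hP _ _ hK' (hA' p))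
    (fun p => (hd p.1).hk) (R1O_diff hW Subtype.val)
    ((R1O_diff hf Subtype.val).sub (R1O_sum fun i => R1O_sum fun j =>
      (R1O_hm hK' hA' i j).mul (R1O_diff (hG i j) Subtype.val))) (fun p => norm_nonneg _)
    (fun p x hx => by
      have h4 := hA'' p x
      have h5 := he x (by simpa using hS x hx 0 (by simpa using hδ.le))
      rw [he _ (hS x hx p.1 p.2), h5, add_sub_add_comm, ← Pq_sub, ct_add, ct_Pq] at h4
      rw [hs_sub (h1.c2.shift _) h1.c2, hs_shift, h4]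
      simp only [ct, Matrix.sub_apply]
      ring) i j
  obtain ⟨C2, hC2, h4⟩ := (R1O_diff (hθ.hk 3) (Subtype.val : {v : E m // ‖v‖ ≤ δ} → _)).mul'
    (R1O_shift hW Subtype.val)
  have h5 := h2.mul h1
  refine hk_of_hs (k := 1) h5.of_succ.hk h5.c2 fun i j => ⟨⟨_, h5.hm i j⟩, ?_⟩
  obtain ⟨C1, hC1, h6⟩ := h3 i j
  refine hk1_of_diff (h5.hm i j).continuous (add_nonneg hC1 hC2) hδ fun v hv => ?_
  have h7 : (fun x => θ (x + v) * W (x + v) - θ x * W x) = fun x =>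
      θ x * (W (x + v) - W x) + (θ (x + v) - θ x) * W (x + v) := funext fun x => by ring
  have h8 := hs_sub (h5.c2.shift v) h5.c2
  rw [hs_shift (w := fun x => θ x * W x), h7, hs_add (h2.mul (hd v)).c2 (h4 ⟨v, hv⟩).c2] at h8
  rw [add_mul]
  refine (congrArg (fun z => Hn z _) (funext fun x => ?_)).mp
    (Hn.add (h6 ⟨v, hv⟩) ((h4 ⟨v, hv⟩).hm i j))
  exact congrFun (congrFun (congrFun h8 x) i) j

end Vale.Agent.P272.AL
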