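import Vale.Agent.P272.ALExt
import Vale.Agent.P272.ALReg
import Vale.Agent.P272.ALReg1

/-! P272, part A1: the quadratic remainder and the nonlinear regularity.
`q_est`: `Nf_est` with `T x = - Pq (Jm n) (hz C a w x)`, which has `HM` norm at most `C₁ r` (`nk_lz`, `Hq.hm`, `Pq_hm`);
on `tsupport (χ a)`, `2 * Qr η w p = Nf (G a x) (T x)` (`Ext.logdt`, `Ext.lap`, `Ext.pos`, `ct_Pq`, `smul_ct`); then
`lz_eq_mul` and `Hn.mul` with the norm of `lz (χ a) a 1`. `hz` of a difference: `lz_sub`, `hs_sub`.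
`non_reg`: with `ψ' = lz (ψ a) a 1`, `f = ψ' * log det (G a) + 2 * (lz (ψ a) a w + lz (ψ a) a g)` (`Tf.mul`,
`contDiff_logdet`), `θ = lz (ρ a) a 1`, `S = ra a '' tsupport (χ a)` (`near_rho`), `W = lz (ψ a) a w`;
`reg_first`, then induction with `reg_high`, `hk_lz`, `lz_mul`; `sm_of_hk`. -/

set_option linter.unusedSectionVars false

open MeasureTheory Set Filter Topology Metric Matrix
open scoped ContDiff ComplexConjugate ComplexOrder

noncomputable section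

namespace Vale.Agent.P272.AL

open Vale.Agent.P271 Vale.Agent.P227

variable {n : ℕ} {X : Type} [TopologicalSpace X] [T2Space X] [CompactSpace X]
  [MeasurableSpace X] {M : Model n X} {C : Cut M} {a b : M.ι} {θ θ' u v w g : X → ℝ} {p : X}
  {k : ℕ} {c K N s : ℝ} {A G : M.ι → E (n + n) → Mat (n + n)} {D : (X → ℝ) → X → ℝ}
  {η : Frm M.toAtl}

theorem alq_nf {c' : ℝ} (h : Ext C c K η G) (hη : Kae M.toAtl η) (hw : M.Sm w) (hc' : 0 < c')
    (hE : ∀ a, Ell (fun x => G a x + Pq (Jm n) (hz C a w x)) c') (hp : p ∈ tsupport (C.χ a)) :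
    Qr η w p = 1 / 2 * Nf (G a (ra M a p)) (-Pq (Jm n) (hz C a w (ra M a p))) := by
  have h1 := h.logdt hη hw (h.pos hη.1 hw hc' hE) hp
  have h2 := h.lap hη hw hp
  rw [cf, smul_ct, ← ct_Pq] at h2
  have h3 : ∀ P Q : Mat (n + n), ∑ i, ∑ j, P i j * (-Q) i j = -ct P Q := fun P Q => by
    simp only [ct, Matrix.neg_apply, mul_neg, Finset.sum_neg_distrib]
  rw [Qr, Nf, h3, sub_neg_eq_add, h2]
  linarith

theorem alq_hm (C : Cut M) : ∃ C₁ : ℝ, 0 < C₁ ∧ ∀ (w : X → ℝ) (r : ℝ), Nk C 2 w r → ∀ a,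
    C2 (lz M (C.ψ a) a w) ∧ (∀ x, (-Pq (Jm n) (hz C a w x)).IsSymm) ∧
      HM (fun x => -Pq (Jm n) (hz C a w x)) (C₁ * r) := by
  obtain ⟨C1, hC1, h1⟩ := nk_lz C C.bψ 2
  obtain ⟨C2, hC2, h2⟩ := Pq_hm (Jm n)
  refine ⟨C2 * C1, mul_pos hC2 hC1, fun w r hw a => ?_⟩
  have h3 := h1 w r hw a
  refine ⟨h3.c2, fun x => (Pq_symm _ (h3.c2.hs_symm x)).neg, fun i j => ?_⟩
  have h4 := (h2 _ _ h3.nonneg h3.hm i j).const_mul (-1)
  simp only [neg_mul, one_mul, abs_neg, abs_one, ← mul_assoc] at h4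
  exact h4

theorem q_est (C : Cut M) (hc : 0 < c) (hK : 0 ≤ K) : ∃ r₀ C₀ : ℝ, 0 < r₀ ∧ 0 < C₀ ∧
    ∀ η G, Kae M.toAtl η → Ext C c K η G →
      (∀ w, Nk C 2 w r₀ → ∀ a, Ell (fun x => G a x + Pq (Jm n) (hz C a w x)) (c / 2)) ∧
      ∀ (w w' : X → ℝ) (r s : ℝ), M.Sm w → M.Sm w' → 0 ≤ r → r ≤ r₀ → 0 ≤ s → Nk C 2 w r →
        Nk C 2 w' r → Nk C 2 (fun p => w p - w' p) s →
        Nk C 0 (fun p => Qr η w p - Qr η w' p) (C₀ * r * s) := by
  obtain ⟨r0, Cn, hr0, hCn, hN⟩ := Nf_est (n := n + n) hc hK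
  obtain ⟨C1, hC1, h1⟩ := alq_hm C
  obtain ⟨B, hB, hB1⟩ := nk_of_sm C 0 (sm_const M 1)
  have e0 : C1 * (r0 / C1) = r0 := mul_div_cancel₀ _ hC1.ne'
  refine ⟨r0 / C1, 2 * (B + 1) * Cn * C1 ^ 2, by positivity, by positivity, fun η G hη h => ?_⟩
  have hE : ∀ w, Nk C 2 w (r0 / C1) →
      ∀ a, Ell (fun x => G a x + Pq (Jm n) (hz C a w x)) (c / 2) := fun w hw a => by
    obtain ⟨-, a2, a3⟩ := h1 w _ hw a
    have a4 := (hN (G a) (h.ell a) (h.hm a)).1 _ a2 fun x i j => ((a3 i j).1 x).trans e0.le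
    simp only [sub_neg_eq_add] at a4
    exact a4
  refine ⟨hE, fun w w' r s hw hw' hr hr' hs nw nw' nd a => ?_⟩
  obtain ⟨a1, a2, a3⟩ := h1 w _ nw a
  obtain ⟨b1, b2, b3⟩ := h1 w' _ nw' a
  obtain ⟨-, -, d3⟩ := h1 _ _ nd a
  have e1 : (fun x => -Pq (Jm n) (hz C a (fun p => w p - w' p) x))
      = fun x => -Pq (Jm n) (hz C a w x) - -Pq (Jm n) (hz C a w' x) := by
    funext x
    rw [hz, lz_sub, hs_sub a1 b1, Pq_sub, neg_sub_neg, neg_sub]
    rfl
  rw [e1] at d3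
  have h2 := (hN (G a) (h.ell a) (h.hm a)).2.2 _ _ (C1 * r) (C1 * r) (C1 * s) (C1 * s)
    (by positivity) ((mul_le_mul_of_nonneg_left hr' hC1.le).trans e0.le) (by positivity)
    (by positivity) (by positivity) a2 b2 (fun x i j => (a3 i j).1 x) (fun x i j => (b3 i j).1 x)
    a3 b3 (fun x i j => (d3 i j).1 x) d3
  have h3 := Hn.mul (hB1 a) (h2.const_mul (1 / 2))
  have e2 : lz M (C.χ a) a (fun p => Qr η w p - Qr η w' p) = fun x =>
      lz M (C.χ a) a (fun _ => 1) x * (1 / 2 * (Nf (G a x) (-Pq (Jm n) (hz C a w x)) -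
        Nf (G a x) (-Pq (Jm n) (hz C a w' x)))) :=
    lz_eq_mul fun p _ hp => by
      have hp' : p ∈ tsupport (C.χ a) := subset_tsupport _ hp
      rw [alq_nf h hη hw (half_pos hc) (hE w (nw.mono hr')) hp',
        alq_nf h hη hw' (half_pos hc) (hE w' (nw'.mono hr')) hp', mul_sub]
  change Hn _ _
  rw [e2]
  refine h3.mono ?_
  rw [abs_of_pos one_half_pos]
  have h4 : 0 ≤ Cn * C1 ^ 2 * r * s := by positivity
  nlinarith

theorem non_reg {c' : ℝ} (hc : 0 < c) (h : Ext C c K η G) (hw : Nk C 2 w N) (hc' : 0 < c')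
    (hE : ∀ a, Ell (fun x => G a x + Pq (Jm n) (hz C a w x)) c') (hg : M.Sm g)
    (he : ∀ a, ∀ p ∈ tsupport (C.χ a),
      Real.log (G a (ra M a p) + Pq (Jm n) (hz C a w (ra M a p))).det -
        Real.log (G a (ra M a p)).det = 2 * (w p + g p)) : M.Sm w := by
  have hs : ∀ a, ∀ p ∈ tsupport (C.χ a), p ∈ (M.e a).source := fun a p hp => (C.bχ a).2 hp
  have hθ : ∀ a, Tf (lz M (M.ρ a) a fun _ => 1) := fun a => lz_tf (bump_rho M a) (sm_const M 1)
  have hm : ∀ a, lz M (M.ρ a) a w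
      = fun x => lz M (M.ρ a) a (fun _ => 1) x * lz M (C.ψ a) a w x := fun a =>
    lz_mul (fun p hp => C.psi_one (by rw [C.chi_one hp]; exact one_ne_zero)) a w
  have hf : ∀ a k, Hk k (lz M (C.ψ a) a w) → Hk k fun x =>
      lz M (C.ψ a) a (fun _ => 1) x * Real.log (G a x).det +
        2 * (lz M (C.ψ a) a w x + lz M (C.ψ a) a g x) := fun a k hk =>
    (((lz_tf (C.bψ a) (sm_const M 1)).mul (contDiff_logdet hc (h.ell a) (h.hk a))).hk k).add
      ((hk.add ((lz_tf (C.bψ a) hg).hk k)).const_mul 2)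
  have hq : ∀ a, ∀ x ∈ ra M a '' tsupport (C.χ a),
      Real.log (G a x + Pq (Jm n) (P227.hs (lz M (C.ψ a) a w) x)).det =
        lz M (C.ψ a) a (fun _ => 1) x * Real.log (G a x).det +
          2 * (lz M (C.ψ a) a w x + lz M (C.ψ a) a g x) := by
    rintro a _ ⟨p, hp, rfl⟩
    have h1 := he a p hp
    rw [lz_ra (hs a p hp), lz_ra (hs a p hp), lz_ra (hs a p hp), (C.oneψ a p hp).self_of_nhds]
    rw [hz] at h1
    linarith
  have key : ∀ k a, Hk (k + 3) (lz M (M.ρ a) a w) := fun k => by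
    induction k with
    | zero =>
      intro a
      rw [hm]
      exact reg_first hc' (hθ a) (near_rho C a) (h.hk a 1) (hw.hk (C.bψ a)) (hE a)
        (hf a 1 (hw.hk (C.bψ a)).of_succ) (hq a)
    | succ k ih =>
      intro a
      rw [hm]
      exact reg_high hc' (hθ a) (near_rho C a) (h.hk a (k + 2)) (hk_lz C ih (C.bψ a)) (hE a)
        (hf a (k + 2) (hk_lz C ih (C.bψ a)).of_succ) (hq a)
  exact sm_of_hk C fun k b => hk_of_le (key k b) (Nat.le_add_right k 3)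

end Vale.Agent.P272.AL
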