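import Vale.Agent.P272.ALQ
import Vale.Agent.P272.ALLin

/-! P272, part A1: the nonlinear step. -/

set_option linter.unusedSectionVars false

open MeasureTheory Set Filter Topology Metric Matrix
open scoped ContDiff ComplexConjugate ComplexOrder

noncomputable section

namespace Vale.Agent.P272.AL

open Vale.Agent.P271 Vale.Agent.P227

variable {n : ℕ} {X : Type} [TopologicalSpace X] [T2Space X] [CompactSpace X]
  [MeasurableSpace X] {M : Model n X} {C : Cut M} {a b : M.ι} {θ θ' u v w g : X → ℝ} {p : X}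
  {k : ℕ} {c K N s : ℝ} {A G : M.ι → E (n + n) → Mat (n + n)} {D : (X → ℝ) → X → ℝ}
  {η : Frm M.toAtl}

/-- Approximate solutions. -/
theorem ALStep_approx (hn : 0 < n) (C : Cut M) (hc : 0 < c) (hK : 0 ≤ K) :
    ∃ δ r : ℝ, 0 < δ ∧ ∀ η G, Kae M.toAtl η → Ext C c K η G →
      (∀ w, Nk C 2 w r → ∀ a, Ell (fun x => G a x + Pq (Jm n) (hz C a w x)) (c / 2)) ∧
      ∀ g, M.Sm g → Nk C 0 g δ → ∀ j : ℕ, ∃ w, M.Sm w ∧ Nk C 2 w r ∧ ∀ p,
        |Real.log (dt M (η + ddc M.toAtl w) p) - Real.log (dt M η p) - (w p + g p)| ≤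
          δ / 2 ^ j := by
  obtain ⟨c₁, K₁, hc₁, hK₁, hop⟩ := Ext.op C hc hK
  obtain ⟨C₁, hC₁, hsol⟩ := op_solve hn C hc₁ hK₁
  obtain ⟨r₀, C₀, hr₀, hC₀, hq⟩ := q_est C hc hK
  obtain ⟨r, hr, hr1, hr2⟩ : ∃ r : ℝ, 0 < r ∧ r ≤ r₀ ∧ C₀ * r * (2 * C₁) ≤ 1 := by
    refine ⟨min r₀ (1 / (C₀ * (2 * C₁))), by positivity, min_le_left _ _, ?_⟩
    have h1 := min_le_right r₀ (1 / (C₀ * (2 * C₁)))
    rw [le_div_iff₀ (by positivity)] at h1
    linarith
  refine ⟨r / (2 * C₁), r, by positivity, fun η G hη hG => ?_⟩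
  obtain ⟨hq1, hq2⟩ := hq η G hη hG
  have hO := hop η G hη hG
  refine ⟨fun w hw => hq1 w (hw.mono hr1), fun g hg hgN j => ?_⟩
  have key : ∃ w, M.Sm w ∧ Nk C 2 w (r - r / 2 ^ j) ∧ Nk C 0 (fun p =>
      Real.log (dt M (η + ddc M.toAtl w) p) - Real.log (dt M η p) - (w p + g p))
      (r / (2 * C₁) / 2 ^ j) := by
    induction j with
    | zero =>
      have e : η + ddc M.toAtl (fun _ => 0) = η := add_zero η
      refine ⟨fun _ => 0, sm_const M 0, nk_zero C 2 (by simp), ?_⟩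
      have h1 := hgN.const_mul (-1)
      rw [e]
      simpa using h1
    | succ j ih =>
      obtain ⟨w, hw, hw2, hw0⟩ := ih
      have hj : 0 < r / 2 ^ (j + 1) := by positivity
      have hj' : r / 2 ^ j = 2 * (r / 2 ^ (j + 1)) := by
        field_simp
        ring
      have hwr : Nk C 2 w r := hw2.mono (by linarith)
      have hk := hG.pos hη.1 hw (half_pos hc) (hq1 w (hwr.mono hr1))
      have hR := sm_sub (sm_sub (sm_log_dt hk) (sm_log_dt hη)) (sm_add hw hg)
      obtain ⟨d, hd, hd2, hde⟩ := hsol _ _ hO _ _ (by positivity)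
        (sm_mul (sm_const M (-1)) hR) (hw0.const_mul (-1))
      have hd3 : Nk C 2 d (r / 2 ^ (j + 1)) := hd2.mono (le_of_eq (by
        rw [abs_neg, abs_one]
        field_simp
        ring))
      have hs : Nk C 2 (fun p => w p + d p) (r - r / 2 ^ (j + 1)) :=
        (hw2.add hd3).mono (by linarith)
      refine ⟨fun p => w p + d p, sm_add hw hd, hs, ?_⟩
      have h1 := hq2 _ w r _ (sm_add hw hd) hw hr.le hr1 hj.le (hs.mono (by linarith)) hwr
        (by simpa using hd3)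
      have e : (fun p => Real.log (dt M (η + ddc M.toAtl fun p => w p + d p) p) -
          Real.log (dt M η p) - (w p + d p + g p)) =
          fun p => Qr η (fun p => w p + d p) p - Qr η w p := by
        funext p
        have h2 := hO.add hw hd p
        have h3 := hde p
        simp only [Qr]
        linarith
      rw [e]
      refine h1.mono ?_
      rw [div_right_comm r (2 * C₁), le_div_iff₀ (by positivity)]
      nlinarith
  obtain ⟨w, hw, hw2, hw0⟩ := key
  exact ⟨w, hw, hw2.mono (sub_le_self _ (by positivity)), hw0.abs_le⟩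

theorem al_step (hn : 0 < n) (C : Cut M) (hc : 0 < c) (hK : 0 ≤ K) : ∃ δ : ℝ, 0 < δ ∧
    ∀ η G, Kae M.toAtl η → Ext C c K η G → ∀ g, M.Sm g → Nk C 0 g δ →
      ∃ w, M.Sm w ∧ Kae M.toAtl (η + ddc M.toAtl w) ∧
        ∀ p, Real.log (dt M (η + ddc M.toAtl w) p) = Real.log (dt M η p) + (w p + g p) := by
  obtain ⟨δ, r, hδ, h⟩ := ALStep_approx hn C hc hK
  refine ⟨δ, hδ, fun η G hη hG g hg hgN => ?_⟩
  obtain ⟨hE, h1⟩ := h η G hη hG
  choose W hW hWr hWe using h1 g hg hgN
  obtain ⟨u, hu, hl, hh⟩ := nk_lim hWr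
  have hc2 := half_pos hc
  have he : ∀ a, ∀ p ∈ tsupport (C.χ a),
      Real.log (G a (ra M a p) + Pq (Jm n) (hz C a u (ra M a p))).det -
        Real.log (G a (ra M a p)).det = 2 * (u p + g p) := by
    intro a p hp
    have t1 : Tendsto (fun j => hz C a (W j) (ra M a p)) UF (𝓝 (hz C a u (ra M a p))) :=
      tendsto_pi_nhds.2 fun i => tendsto_pi_nhds.2 fun l => hh a _ i l
    have t2 : Continuous fun H : Mat (n + n) => (G a (ra M a p) + Pq (Jm n) H).det :=
      (continuous_const.add (Pq_cont _)).matrix_det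
    have t3 := (((t2.tendsto _).comp t1).log
      ((hE u hu a).posDef hc2 (ra M a p)).det_pos.ne').sub_const (Real.log (G a (ra M a p)).det)
    have t4 : Tendsto (fun j : ℕ => δ / 2 ^ j) atTop (𝓝 0) :=
      tendsto_const_nhds.div_atTop (tendsto_pow_atTop_atTop_of_one_lt one_lt_two)
    have t5 := (tendsto_of_close UF_le ((hl p).add_const (g p)) t4 fun j => hWe j p).const_mul 2
    refine tendsto_nhds_unique t3 (t5.congr fun j => ?_)
    exact hG.logdt hη (hW j) (hG.pos hη.1 (hW j) hc2 (hE _ (hWr j))) hp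
  have hs := non_reg hc hG hu hc2 (hE u hu) hg he
  have hk := hG.pos hη.1 hs hc2 (hE u hu)
  refine ⟨u, hs, hk, fun p => ?_⟩
  obtain ⟨a, ha⟩ := exists_rho M p
  have h2 := hG.logdt hη hs hk (C.rho_sub a ha)
  rw [he a p (C.rho_sub a ha)] at h2
  linarith

end Vale.Agent.P272.AL
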