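import Vale.Agent.P272.APDefs

/-! P272, part A2: matrix calculus in a ring with derivations. -/

open Matrix

noncomputable section

namespace Vale.Agent.P272.AP

variable {n : ℕ} {R : Type} [CommRing R]

/-- The Leibniz rule. -/
def IsDer (δ : R →+ R) : Prop := ∀ f g, δ (f * g) = δ f * g + f * δ g

namespace IsDer
variable {δ : R →+ R} (h : IsDer δ)
include h

theorem one : δ 1 = 0 := by
  have := h 1 1
  simpa using this

theorem mmul (A B : MR n R) : (A * B).map δ = A.map δ * B + A * B.map δ := by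
  ext i j
  simp only [map_apply, mul_apply, Matrix.add_apply, map_sum, h _ _, Finset.sum_add_distrib]

theorem mone : (1 : MR n R).map δ = 0 := by
  ext i j
  by_cases hij : i = j
  · simp [hij, h.one]
  · simp [hij]

theorem inv {P G : MR n R} (h1 : P * G = 1) : P.map δ = -(P * G.map δ * P) := by
  have h2 := h.mmul P G
  rw [h1, h.mone] at h2
  have h3 : G * P = 1 := mul_eq_one_comm.1 h1
  calc P.map δ = P.map δ * G * P := by rw [mul_assoc, h3, mul_one]
    _ = _ := by rw [eq_neg_of_add_eq_zero_left h2.symm, neg_mul]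

theorem smul (f : R) (A : MR n R) : (f • A).map δ = δ f • A + f • A.map δ := by
  ext i j
  simp only [map_apply, Matrix.smul_apply, Matrix.add_apply, smul_eq_mul, h _ _]

/-- The map to the dual numbers. -/
def dual : R →+* DualNumber R where
  toFun f := TrivSqZeroExt.inl f + TrivSqZeroExt.inr (δ f)
  map_one' := by simp [h.one]
  map_mul' f g := by ext <;> simp [h f g, add_comm, mul_comm]
  map_zero' := by simp
  map_add' f g := by ext <;> simp

/-- The formula of Jacobi. -/
theorem det {P G : MR n R} (h1 : P * G = 1) : δ G.det = G.det * (P * G.map δ).trace := by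
  have h3 : G * P = 1 := mul_eq_one_comm.1 h1
  let i : R →+* DualNumber R := (TrivSqZeroExt.inlHom R R)
  have h4 : G.map h.dual =
      G.map i * (1 + (DualNumber.eps : DualNumber R) • (P * G.map δ).map i) := by
    rw [mul_add, mul_one, Matrix.mul_smul, ← Matrix.map_mul, ← mul_assoc, h3, one_mul]
    ext j k <;> simp [dual, i]
  have h5 := h.dual.map_det G
  have h6 := i.map_det G
  rw [RingHom.mapMatrix_apply] at h5 h6
  rw [h4, det_mul, det_one_add_smul, ← h6, sq, DualNumber.eps_mul_eps, mul_zero, add_zero,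
    ← AddMonoidHom.map_trace i] at h5
  simpa [dual, i] using congrArg TrivSqZeroExt.snd h5

end IsDer

theorem map_tr (δ : R →+ R) (A : MR n R) : δ A.trace = (A.map δ).trace :=
  AddMonoidHom.map_trace δ A

theorem map_madd (δ : R →+ R) (A B : MR n R) : (A + B).map δ = A.map δ + B.map δ :=
  Matrix.map_add _ (map_add δ) A B

theorem map_msub (δ : R →+ R) (A B : MR n R) : (A - B).map δ = A.map δ - B.map δ :=
  Matrix.map_sub _ (map_sub δ) A B

theorem map_msum (δ : R →+ R) (A : Fin n → MR n R) : (∑ i, A i).map δ = ∑ i, (A i).map δ := by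
  ext j k
  simp [Matrix.sum_apply]

variable [StarRing R]

/-- Commuting derivations `d a` and their conjugates `b a`. -/
structure DR (n : ℕ) (R : Type) [CommRing R] [StarRing R] where
  d : Fin n → R →+ R
  b : Fin n → R →+ R
  der : ∀ a, IsDer (d a)
  star_d : ∀ a f, star (d a f) = b a (star f)
  dd : ∀ a c f, d a (d c f) = d c (d a f)
  db : ∀ a c f, d a (b c f) = b c (d a f)

namespace DR
variable (D : DR n R)

theorem star_b (a : Fin n) (f : R) : star (D.b a f) = D.d a (star f) := by
  rw [← star_star f, ← D.star_d, star_star, star_star]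

theorem derb (a : Fin n) : IsDer (D.b a) := fun f g => by
  rw [← star_star (f * g), ← D.star_d, star_mul', D.der a, star_add, star_mul', star_mul',
    D.star_d, D.star_d]
  simp only [star_star]

theorem bb (a c : Fin n) (f : R) : D.b a (D.b c f) = D.b c (D.b a f) := by
  rw [← star_star f, ← D.star_d, ← D.star_d, D.dd, D.star_d, D.star_d]

theorem ct_d (a : Fin n) (A : MR n R) : (A.map (D.d a))ᴴ = Aᴴ.map (D.b a) := by
  ext i j
  simp [D.star_d]

theorem ct_b (a : Fin n) (A : MR n R) : (A.map (D.b a))ᴴ = Aᴴ.map (D.d a) := by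
  ext i j
  simp [D.star_b]

theorem mdd (a c : Fin n) (A : MR n R) :
    (A.map (D.d c)).map (D.d a) = (A.map (D.d a)).map (D.d c) := by
  ext i j
  exact D.dd a c _

theorem mdb (a c : Fin n) (A : MR n R) :
    (A.map (D.b c)).map (D.d a) = (A.map (D.d a)).map (D.b c) := by
  ext i j
  exact D.db a c _

/-- The connection matrices. -/
def Gam (P G : MR n R) (a : Fin n) : MR n R := P * G.map (D.d a)

/-- The Levi matrix. -/
def lm (f : R) : MR n R := Matrix.of fun j k => D.d k (D.b j f)

/-- The Laplacian. -/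
def lap (P : MR n R) (f : R) : R := ∑ a, ∑ c, P a c * D.b c (D.d a f)

theorem lap_eq (P : MR n R) (f : R) : D.lap P f = (P * D.lm f).trace := by
  simp only [lap, lm, trace, diag_apply, mul_apply, of_apply, D.db]

theorem lap_add (P : MR n R) (f g : R) : D.lap P (f + g) = D.lap P f + D.lap P g := by
  simp only [lap, map_add, mul_add, Finset.sum_add_distrib]

theorem lap_mul (P : MR n R) (f g : R) : D.lap P (f * g) = D.lap P f * g + f * D.lap P g +
    ∑ a, ∑ c, P a c * (D.d a f * D.b c g) + ∑ a, ∑ c, P a c * (D.d a g * D.b c f) := by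
  simp only [lap, D.der _ _ _, map_add, D.derb _ _ _, Finset.sum_mul, Finset.mul_sum,
    ← Finset.sum_add_distrib]
  exact Finset.sum_congr rfl fun a _ => Finset.sum_congr rfl fun c _ => by ring

theorem lap_log (P : MR n R) {f l : R} (h : ∀ a, D.d a f = f * D.d a l) :
    f * f * D.lap P l = f * D.lap P f - ∑ a, ∑ c, P a c * (D.d a f * D.b c f) := by
  simp only [lap, h, D.derb _ _ _, Finset.mul_sum, ← Finset.sum_sub_distrib]
  exact Finset.sum_congr rfl fun a _ => Finset.sum_congr rfl fun c _ => by ring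

end DR

theorem herm_inv {P G : MR n R} (h1 : P * G = 1) (hG : Gᴴ = G) : Pᴴ = P := by
  have h2 := congrArg conjTranspose h1
  rw [conjTranspose_mul, hG, conjTranspose_one] at h2
  calc Pᴴ = P * G * Pᴴ := by rw [h1, one_mul]
    _ = P := by rw [mul_assoc, h2, mul_one]

/-- A Kaehler metric `G` with inverse `P` and `l = log det G`. -/
structure KS (D : DR n R) where
  G : MR n R
  P : MR n R
  l : R
  herm : Gᴴ = G
  PG : P * G = 1
  sym : ∀ a j k, D.d a (G j k) = D.d k (G j a)
  dl : ∀ k, D.d k G.det = G.det * D.d k l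

namespace KS
variable {D : DR n R} (K : KS D)

theorem GP : K.G * K.P = 1 := mul_eq_one_comm.1 K.PG

theorem hP : K.Pᴴ = K.P := herm_inv K.PG K.herm

/-- The Christoffel symbols. -/
def Γ (a : Fin n) : MR n R := D.Gam K.P K.G a

theorem G_Γ (a : Fin n) : K.G * K.Γ a = K.G.map (D.d a) := by
  rw [Γ, DR.Gam, ← mul_assoc, K.GP, one_mul]

theorem d_P (a : Fin n) : K.P.map (D.d a) = -(K.Γ a * K.P) := (D.der a).inv K.PG

theorem Γ_symm (a i k : Fin n) : K.Γ a i k = K.Γ k i a := by
  simp only [Γ, DR.Gam, mul_apply, map_apply, K.sym a _ k]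

theorem symb (a j k : Fin n) : D.b a (K.G j k) = D.b j (K.G a k) := by
  have h : ∀ j k, K.G j k = star (K.G k j) := fun j k => by
    rw [← conjTranspose_apply, K.herm]
  rw [h j k, h a k, ← D.star_d, ← D.star_d, K.sym]

theorem trace_Γ (k : Fin n) : (K.Γ k).trace = D.d k K.l := by
  have h1 := (D.der k).det K.PG
  rw [K.dl] at h1
  have h2 : K.P.det * K.G.det = 1 := by rw [← det_mul, K.PG, det_one]
  calc (K.Γ k).trace = K.P.det * (K.G.det * (K.Γ k).trace) := by rw [← mul_assoc, h2, one_mul]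
    _ = _ := by rw [Γ, DR.Gam, ← h1, ← mul_assoc, h2, one_mul]

theorem G_cur (a c : Fin n) : K.G * (K.Γ a).map (D.b c) = (K.G.map (D.d a)).map (D.b c) -
    K.G.map (D.b c) * K.P * K.G.map (D.d a) := by
  rw [← K.G_Γ a, (D.derb c).mmul, K.G_Γ, mul_assoc, show K.P * K.G.map (D.d a) = K.Γ a from rfl,
    add_sub_cancel_left]

theorem G_cur_symm (a c j k : Fin n) :
    (K.G * (K.Γ a).map (D.b c)) j k = (K.G * (K.Γ k).map (D.b j)) c a := by
  rw [G_cur, G_cur]
  simp only [Matrix.sub_apply, mul_apply, map_apply, K.symb c j, K.sym a _ k]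
  rw [K.sym k c a, ← D.db, K.symb c j, D.db, ← K.sym a c k]

/-- The trace of the curvature is the Ricci form. -/
theorem ricci : ∑ a, ∑ c, K.P a c • (K.Γ a).map (D.b c) = K.P * D.lm K.l := by
  have h : K.G * ∑ a, ∑ c, K.P a c • (K.Γ a).map (D.b c) = D.lm K.l := by
    ext j k
    simp only [Finset.mul_sum, Matrix.mul_smul, Matrix.sum_apply, Matrix.smul_apply, smul_eq_mul,
      K.G_cur_symm _ _ j k]
    calc _ = (K.P * (K.G * (K.Γ k).map (D.b j))).trace := by
          simp only [trace, diag_apply, mul_apply (M := K.P)]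
      _ = _ := by rw [← mul_assoc, K.PG, one_mul, ← map_tr, K.trace_Γ, ← D.db]; rfl
  rw [← h, ← mul_assoc, K.PG, one_mul]

variable {Q W : MR n R}

theorem d_trace (hQ : Q * W = 1) (a : Fin n) :
    D.d a (Q * K.G).trace = ip Q K.G (K.Γ a - D.Gam Q W a) 1 := by
  rw [map_tr, (D.der a).mmul, (D.der a).inv hQ, ← K.G_Γ, ip, conjTranspose_one, mul_one, sub_mul,
    sub_mul, trace_sub, trace_add, neg_mul, trace_neg, ← mul_assoc, trace_mul_comm _ (K.Γ a),
    mul_assoc (K.Γ a), neg_add_eq_sub]
  rfl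

/-- The Bochner formula for the trace of `G` with respect to `W`. -/
theorem lap_trace (hQ : Q * W = 1) (hW : Wᴴ = W) : D.lap K.P (Q * K.G).trace =
    ∑ a, ∑ c, K.P a c * ip Q K.G (K.Γ a - D.Gam Q W a) (K.Γ c - D.Gam Q W c) +
      (Q * D.lm K.l).trace -
      ∑ a, ∑ c, K.P a c * (K.G * ((D.Gam Q W a).map (D.b c) * Q)).trace := by
  have h1 : ∀ c, (Q * K.G).map (D.b c) = Q * (K.Γ c - D.Gam Q W c)ᴴ * K.G := by
    intro c
    rw [(D.derb c).mmul, (D.derb c).inv hQ, Γ, DR.Gam, DR.Gam, conjTranspose_sub,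
      conjTranspose_mul, conjTranspose_mul, D.ct_d, D.ct_d, K.herm, hW, K.hP, herm_inv hQ hW,
      mul_sub, sub_mul, mul_assoc Q _ K.G, mul_assoc _ K.P, K.PG, mul_one]
    noncomm_ring
  have h2 : (Q * D.lm K.l).trace =
      ∑ a, ∑ c, K.P a c * ((K.Γ a).map (D.b c) * (Q * K.G)).trace := by
    have h3 : Q * D.lm K.l = Q * K.G * (K.P * D.lm K.l) := by
      rw [mul_assoc, ← mul_assoc K.G, K.GP, one_mul]
    rw [h3, trace_mul_comm, ← K.ricci]
    simp only [Finset.sum_mul, trace_sum, Matrix.smul_mul, trace_smul, smul_eq_mul]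
  rw [h2, DR.lap]
  simp only [← Finset.sum_add_distrib, ← Finset.sum_sub_distrib]
  refine Finset.sum_congr rfl fun a _ => Finset.sum_congr rfl fun c _ => ?_
  rw [K.d_trace hQ, ip, ip, conjTranspose_one, mul_one, mul_assoc, map_tr, (D.derb c).mmul, h1,
    map_msub, sub_mul, trace_add, trace_sub, trace_mul_comm K.G]
  simp only [mul_assoc]
  ring

end KS

end Vale.Agent.P272.AP
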