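import Vale.Agent.P272.APY2

/-! P272, part A2: the estimates of order zero and two. -/

open MeasureTheory Set Filter Topology Metric Matrix
open scoped ContDiff ComplexConjugate ComplexOrder

noncomputable section

namespace Vale.Agent.P272.AP

open Vale.Agent.P271

variable {n : ℕ} {X : Type} [TopologicalSpace X] [T2Space X] [CompactSpace X]
  [MeasurableSpace X] [BorelSpace X] {M : Model n X}

theorem APC2_bdd {f : X → ℝ} (hf : Continuous f) : ∃ D : ℝ, 0 ≤ D ∧ ∀ p, |f p| ≤ D := by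
  obtain ⟨D, hD⟩ := isCompact_univ.exists_bound_of_continuousOn hf.continuousOn
  exact ⟨max D 0, le_max_right _ _, fun p => (hD p (mem_univ p)).trans (le_max_left _ _)⟩

theorem APC2_max {f : X → ℝ} (hf : Continuous f) (p : X) : ∃ q, ∀ r, f r ≤ f q := by
  obtain ⟨q, -, hq⟩ := isCompact_univ.exists_isMaxOn ⟨p, mem_univ p⟩ hf.continuousOn
  exact ⟨q, fun r => hq (mem_univ r)⟩

theorem APC2_ratio (φ ψ : Frm M.toAtl) (p : X) :
    (GM M.toAtl φ p).det.re / (GM M.toAtl ψ p).det.re = dt M φ p / dt M ψ p :=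
  (div_div_div_cancel_right₀ (Api_k_pos M (ch_mem M.toAtl p)).ne' _ _).symm

/-- At a maximum point of `u`: `GM_of_max`, `dt_mono` give `exp (u + F) ≤ dt κ`; at a minimum
point (maximum of `-u`) the reverse inequality. `log (dt κ)` is continuous on a compact space. -/
theorem c0_est {κ : Frm M.toAtl} (hκ : Kae M.toAtl κ) (E : ℝ) :
    ∃ L : ℝ, ∀ F u : X → ℝ, (∀ p, |F p| ≤ E) → M.Sm u → PosF M.toAtl (κ + ddc M.toAtl u) →
      (∀ p, dt M (κ + ddc M.toAtl u) p = Real.exp (u p + F p)) → ∀ p, |u p| ≤ L := by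
  obtain ⟨D, -, hD⟩ := APC2_bdd (sm_log_dt hκ).continuous
  refine ⟨D + E, fun F u hF hu hpos heq p => ?_⟩
  have hη : Kae M.toAtl (κ + ddc M.toAtl u) := ⟨hκ.1.add (isF_ddc hu), hpos⟩
  have hG := GM_add hκ.1 (isF_ddc hu)
  rw [abs_le]
  constructor
  · have hu' : M.Sm ((-1 : ℝ) • u) := fun a => (hu a).const_smul (-1 : ℝ)
    obtain ⟨q, hq⟩ := APC2_max hu'.continuous p
    have h1 := GM_of_max hu' hq
    rw [ddc_smul, GM_smul (isF_ddc hu)] at h1
    have h2 : dt M κ q ≤ dt M (κ + ddc M.toAtl u) q :=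
      dt_mono ((posF_iff hκ.1).1 hκ.2 q).posSemidef (by rw [hG]; simpa using h1)
    rw [heq, ← Real.log_le_iff_le_exp (dt_pos hκ q)] at h2
    have h3 := hq p
    simp only [Pi.smul_apply, smul_eq_mul] at h3
    linarith [(abs_le.1 (hD q)).1, (abs_le.1 (hF q)).2]
  · obtain ⟨q, hq⟩ := APC2_max hu.continuous p
    have h1 := GM_of_max hu hq
    have h2 : dt M (κ + ddc M.toAtl u) q ≤ dt M κ q :=
      dt_mono ((posF_iff hη.1).1 hη.2 q).posSemidef (by rw [hG]; simpa using h1)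
    rw [heq, ← Real.le_log_iff_exp_le (dt_pos hκ q)] at h2
    linarith [(abs_le.1 (hD q)).2, (abs_le.1 (hF q)).1, hq p]

/-- `η = κ + ddc u`, `N = trF κ η`. `log (dt η) = u + F`, so
`trF κ (th + ddc (u + F)) = trF κ th + trF κ (ddc F) + N - n ≥ N - C`; `1 ≤ n ^ 2 ≤ N * trF η κ`
(`sq_le_trace_mul`). With `A = B + C + 1`, at a maximum point `p` of `log N - A u` (`GM_of_max`,
`trace_mul_nonneg`): `0 ≥ trF η (ddc (log N - A u)) ≥ trF η κ - A n`. Then `trace_le_pow` bounds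
`N p` (the ratio of the determinants is `dt η / dt κ`), so `N ≤ C` everywhere, and `trace_le_pow`
with the roles exchanged bounds `trF η κ`. -/
theorem c2_est (hn : 0 < n) {κ : Frm M.toAtl} (hκ : Kae M.toAtl κ) (E : ℝ) :
    ∃ C : ℝ, 0 < C ∧ ∀ F u : X → ℝ, M.Sm F → (∀ p, |F p| ≤ E) →
      (∀ p, -E ≤ trF M.toAtl κ (ddc M.toAtl F) p) → M.Sm u → PosF M.toAtl (κ + ddc M.toAtl u) →
      (∀ p, dt M (κ + ddc M.toAtl u) p = Real.exp (u p + F p)) →
      ∀ p, trF M.toAtl κ (κ + ddc M.toAtl u) p ≤ C ∧ trF M.toAtl (κ + ddc M.toAtl u) κ p ≤ C := by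
  obtain ⟨B, hB0, hB⟩ := yau_ineq' (M := M) hn hκ
  obtain ⟨L, hL⟩ := c0_est hκ E
  obtain ⟨D, -, hD⟩ := APC2_bdd (sm_log_dt hκ).continuous
  obtain ⟨T, hT0, hT⟩ := APC2_bdd (sm_trF hκ (isF_th M)).continuous
  set A := B + (T + n + E) + 1 with hA
  set R := Real.exp (L + E + D) with hR
  set K := n * ((A * n) ^ (n - 1) * R) * Real.exp (2 * A * L) with hK
  refine ⟨max 1 (max K (n * (K ^ (n - 1) * R))), lt_max_of_lt_left one_pos,
    fun F u hFs hF hFt hu hpos heq p => ?_⟩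
  set η := κ + ddc M.toAtl u with hηd
  have hη : Kae M.toAtl η := ⟨hκ.1.add (isF_ddc hu), hpos⟩
  have huL := hL F u hF hu hpos heq
  have hE : 0 ≤ E := (abs_nonneg _).trans (hF p)
  have hn1 : (1 : ℝ) ≤ n := by exact_mod_cast hn
  have hA0 : 0 < A := by positivity
  have Gκ := (posF_iff hκ.1).1 hκ.2
  have Gη := (posF_iff hη.1).1 hη.2
  have hN := trF_pos hn hκ hη
  have hτ := trF_pos hn hη hκ
  have hlog : (fun q => Real.log (dt M η q)) = u + F := by
    funext q; rw [heq, Real.log_exp]; rfl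
  have r1 : ∀ q, dt M η q / dt M κ q ≤ R := fun q => by
    rw [heq, ← Real.exp_log (dt_pos hκ q), ← Real.exp_sub]
    exact Real.exp_le_exp.2 (by
      linarith [(abs_le.1 (hD q)).1, (abs_le.1 (hF q)).2, (abs_le.1 (huL q)).2])
  have r2 : ∀ q, dt M κ q / dt M η q ≤ R := fun q => by
    rw [heq, ← Real.exp_log (dt_pos hκ q), ← Real.exp_sub]
    exact Real.exp_le_exp.2 (by
      linarith [(abs_le.1 (hD q)).2, (abs_le.1 (hF q)).1, (abs_le.1 (huL q)).1])
  have hls : M.Sm fun q => Real.log (trF M.toAtl κ η q) := fun a =>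
    (sm_trF hκ hη.1 a).log fun _ _ => (hN _).ne'
  have hAu : M.Sm (A • u) := fun a => (hu a).const_smul A
  have hg : M.Sm ((fun q => Real.log (trF M.toAtl κ η q)) - A • u) := fun a =>
    (hls a).sub (hAu a)
  obtain ⟨q, hq⟩ := APC2_max hg.continuous p
  have h1 : trF M.toAtl η (ddc M.toAtl ((fun q => Real.log (trF M.toAtl κ η q)) - A • u)) q ≤
      0 := by
    have := trace_mul_nonneg (Gη q).inv.posSemidef (GM_of_max hg hq)
    rw [mul_neg, trace_neg, Complex.neg_re] at this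
    exact neg_nonneg.1 this
  rw [ddc_sub, trF_sub _ (isF_ddc hls) (isF_ddc hAu), ddc_smul, trF_smul _ (isF_ddc hu)] at h1
  have h2 := hB η hη q
  have h3 : trF M.toAtl κ η q = n + trF M.toAtl κ (ddc M.toAtl u) q := by
    rw [hηd, trF_add _ hκ.1 (isF_ddc hu), trF_self hκ]
  have h4 : (n : ℝ) = trF M.toAtl η κ q + trF M.toAtl η (ddc M.toAtl u) q := by
    rw [← trF_add _ hκ.1 (isF_ddc hu), trF_self hη]
  rw [hlog, ddc_add, trF_add _ (isF_th M) ((isF_ddc hu).add (isF_ddc hFs)),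
    trF_add _ (isF_ddc hu) (isF_ddc hFs)] at h2
  have h5 : (n : ℝ) ^ 2 ≤ trF M.toAtl κ η q * trF M.toAtl η κ q := sq_le_trace_mul (Gκ q) (Gη q)
  have h6 : -((T + n + E) * trF M.toAtl η κ q) ≤ (trF M.toAtl κ (th M) q +
      (trF M.toAtl κ (ddc M.toAtl u) q + trF M.toAtl κ (ddc M.toAtl F) q)) /
        trF M.toAtl κ η q := by
    rw [le_div_iff₀ (hN q)]
    have k1 : 1 ≤ trF M.toAtl η κ q * trF M.toAtl κ η q := by nlinarith
    have k2 := mul_le_mul_of_nonneg_left k1 (by positivity : 0 ≤ T + n + E)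
    nlinarith [(abs_le.1 (hT q)).1, hFt q, hN q]
  have h7 : trF M.toAtl η κ q ≤ A * n := by nlinarith
  have h8 : trF M.toAtl κ η q ≤ n * ((A * n) ^ (n - 1) * R) := by
    have k1 := trace_le_pow (Gκ q) (Gη q)
    rw [APC2_ratio] at k1
    refine k1.trans (mul_le_mul_of_nonneg_left (mul_le_mul (pow_le_pow_left₀ (hτ q).le h7 _)
      (r1 q) (div_pos (dt_pos hη q) (dt_pos hκ q)).le (by positivity)) (by positivity))
  have h9 : trF M.toAtl κ η p ≤ K := by
    have k1 := hq p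
    simp only [Pi.sub_apply, Pi.smul_apply, smul_eq_mul] at k1
    have k2 : Real.log (trF M.toAtl κ η p) ≤ Real.log (trF M.toAtl κ η q) + 2 * A * L := by
      nlinarith [(abs_le.1 (huL p)).2, (abs_le.1 (huL q)).1]
    rw [Real.log_le_iff_le_exp (hN p), Real.exp_add, Real.exp_log (hN q)] at k2
    exact k2.trans (mul_le_mul_of_nonneg_right h8 (Real.exp_pos _).le)
  refine ⟨h9.trans (le_max_of_le_right (le_max_left _ _)),
    le_trans ?_ (le_max_of_le_right (le_max_right _ _))⟩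
  have k1 := trace_le_pow (Gη p) (Gκ p)
  rw [APC2_ratio] at k1
  exact k1.trans (mul_le_mul_of_nonneg_left (mul_le_mul (pow_le_pow_left₀ (hN p).le h9 _)
    (r2 p) (div_pos (dt_pos hκ p) (dt_pos hη p)).le (pow_nonneg ((hN p).le.trans h9) _))
    (by positivity))

end Vale.Agent.P272.AP
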