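import Vale.Agent.P272.APC3a

/-! P272, part A2: the local third order estimate of Calabi. -/

open MeasureTheory Set Filter Topology Metric Matrix
open scoped ContDiff ComplexConjugate ComplexOrder

noncomputable section

namespace Vale.Agent.P272.AP

open Vale.Agent.P271 Vale.Agent.P271A

section Cut
variable {n : ℕ} {R : Type} [CommRing R] [StarRing R] {D : DR n R} {x : Fin n → R} {ρ : R}
  (hρ : ∀ a, D.d a ρ = 0) (hd : ∀ a j, D.d a (x j) = if j = a then 1 else 0)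
  (hb : ∀ a j, D.b a (x j) = 0)
include hρ hd hb

theorem d_cut (a : Fin n) : D.d a (ρ - ∑ j, x j * star (x j)) = -star (x a) := by
  simp [D.der _ _ _, hρ, hd, ← D.star_b, hb]

theorem lap_cut' (P : MR n R) : D.lap P (ρ - ∑ j, x j * star (x j)) = -P.trace := by
  simp only [DR.lap, d_cut hρ hd hb]
  simp [← D.star_d, hd, trace, apply_ite star]

end Cut

theorem norm_fderiv_le {n : ℕ} {F : Cn n → ℂ} {z : Cn n} {B : ℝ} (hB : 0 ≤ B)
    (h1 : ∀ p, ‖dz (Pi.single p 1) F z‖ ≤ B) (h2 : ∀ p, ‖dzb (Pi.single p 1) F z‖ ≤ B) :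
    ‖fderiv ℝ F z‖ ≤ 2 * n * B := by
  refine ContinuousLinearMap.opNorm_le_bound _ (by positivity) fun v => ?_
  have h3 : fderiv ℝ F z v = dz v F z + dzb v F z := by
    rw [dz, dzb]
    ring
  have h4 : ∀ u w : Fin n → ℂ, (∀ p, ‖u p‖ ≤ B) → (∀ p, ‖w p‖ ≤ ‖v‖) →
      ‖∑ p, u p * w p‖ ≤ n * (B * ‖v‖) := fun u w hu hw => by
    refine (norm_sum_le _ _).trans ((Finset.sum_le_card_nsmul _ _ (B * ‖v‖) fun p _ =>
      (norm_mul_le _ _).trans (mul_le_mul (hu p) (hw p) (norm_nonneg _) hB)).trans ?_)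
    simp
  rw [h3, dz_eq_sum, dzb_eq_sum]
  simp only [Brid_zv, Brid_bv]
  have h5 := h4 _ v h1 (norm_le_pi_norm v)
  have h6 := h4 _ (fun p => conj (v p)) h2 fun p => (Complex.norm_conj _).trans_le
    (norm_le_pi_norm v p)
  linarith [norm_add_le (∑ p, dz (Pi.single p 1) F z * v p)
    (∑ p, dzb (Pi.single p 1) F z * conj (v p))]

theorem calabi_local (n : ℕ) {r c : ℝ} (hr : 0 < r) (hc : 0 < c) (E : ℝ) :
    ∃ L : ℝ, ∀ (z₀ : Cn n) (U : Set (Cn n)) (Φ f : Cn n → ℝ), IsOpen U → closedBall z₀ r ⊆ U →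
      ContDiffOn ℝ ∞ Φ U → ContDiffOn ℝ ∞ f U → (∀ z ∈ U, (LM Φ z).PosDef) →
      (∀ z ∈ U, Real.log (LM Φ z).det.re = Φ z + f z) →
      (∀ z ∈ closedBall z₀ r, (LM Φ z - (c : ℂ) • 1).PosSemidef ∧
        (((c⁻¹ : ℝ) : ℂ) • 1 - LM Φ z).PosSemidef ∧ EB (LM f z) E ∧ ∀ p, EB (dM p (LM f) z) E) →
      ∀ j k, ‖fderiv ℝ (fun y => LM Φ y j k) z₀‖ ≤ L := by
  have hm : 0 ≤ n * c⁻¹ + |E| := by positivity
  obtain ⟨A, C, hC, H⟩ := at_max n hr hc hm
  set m := n * c⁻¹ + |E| with hm'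
  refine ⟨2 * n * (n * m * √((C + A * (n * m)) / (r ^ 4 * (c * c * c)))),
    fun z₀ U Φ f hU hB hΦ hf hp hl hb j k => ?_⟩
  obtain ⟨K, φ, hφ, hGφ, hG, hP, hΓ, hl'⟩ := exists_KS (hU := hU)
    (fun z hz => hΦ.contDiffAt (hU.mem_nhds hz)) hp
  have hf' := rep_res (hU := hU) (fun z => (f z : ℂ)) fun z hz =>
    Brid_ofReal (hf.contDiffAt (hU.mem_nhds hz))
  set g := res hU (fun z => (f z : ℂ)) fun z hz => Brid_ofReal (hf.contDiffAt (hU.mem_nhds hz))
  have h1 : K.l = φ + g := SU_ext fun y => by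
    rw [map_add, hl' y, hφ y, hf' y]
    exact (congrArg Complex.ofReal (hl y y.2)).trans (Complex.ofReal_add _ _)
  have h2 : ∀ y : U, (y : Cn n) ∈ closedBall z₀ r → Bd K (ev hU y) ((DU hU).lm g) c m := by
    intro y hy
    obtain ⟨b1, b2, b3, b4⟩ := hb y hy
    have b5 : n * c⁻¹ ≤ m := le_add_of_nonneg_right (abs_nonneg E)
    have b6 : E ≤ m := (le_abs_self E).trans (le_add_of_nonneg_left (by positivity))
    refine ⟨ev_star hU y, ?_, hc.le, hm, ?_, ?_, ?_, ?_, ?_, fun p => ?_⟩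
    · ext1 a b
      rw [h1, hGφ]
      simp only [DR.lm, of_apply, map_add, Matrix.add_apply]
    · rw [hP]
      exact inv_ge (hp y y.2) hc b2
    · rw [hG]
      exact b1
    · rw [hP]
      exact (EB_psd (hp y y.2).inv.posSemidef).mono
        ((trace_le_of_le (inv_le (hp y y.2) hc b1)).trans b5)
    · rw [hG]
      exact (EB_psd (hp y y.2).posSemidef).mono ((trace_le_of_le b2).trans b5)
    · rw [hf'.lm]
      exact b3.mono b6
    · rw [rep_dM hf'.lm]
      exact (b4 p).mono b6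
  have hx : ∀ a, ∀ z ∈ U, ContDiffAt ℝ ∞ (fun w : Cn n => w a - z₀ a) z := fun a z _ => by
    fun_prop
  have hx' : ∀ a (z : Cn n), HasFDerivAt (fun w : Cn n => w a - z₀ a)
      (ContinuousLinearMap.proj (R := ℂ) (φ := fun _ : Fin n => ℂ) a) z := fun a z =>
    (hasFDerivAt_apply a z).sub_const _
  set x : Fin n → SU hU := fun a => res hU _ (hx a)
  set ρ : SU hU := res hU (fun _ => ((r ^ 2 : ℝ) : ℂ)) fun _ _ => contDiffAt_const
  have hρ : ∀ a, (DU hU).d a ρ = 0 := fun a => SU_ext fun y =>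
    ((rep_res _ _).d a y).trans (dz_const _)
  have hd : ∀ a b, (DU hU).d a (x b) = if b = a then 1 else 0 := fun a b => SU_ext fun y => by
    rw [(rep_res _ (hx b)).d a y, dz_hol (hx' b y).differentiableAt, (hx' b y).fderiv]
    by_cases hab : b = a <;> simp [hab]
  have hb' : ∀ a b, (DU hU).b a (x b) = 0 := fun a b => SU_ext fun y =>
    ((rep_res _ (hx b)).b a y).trans (dzb_hol (hx' b y).differentiableAt)
  set χ := ρ - ∑ a, x a * star (x a) with hχ
  have h3 : Rep χ fun z => ((r ^ 2 - ∑ a, ‖z a - z₀ a‖ ^ 2 : ℝ) : ℂ) := fun y => by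
    simp only [hχ, map_sub, map_sum, map_mul, ev_star, Complex.ofReal_sub, Complex.ofReal_sum,
      Complex.star_def, Complex.mul_conj, Complex.normSq_eq_norm_sq]
    rfl
  set S := pr K.P K.G K.Γ K.Γ
  obtain ⟨W, hW⟩ := exists_rep (χ * χ * S + A • K.G.trace)
  have hq : Continuous fun z : Cn n => ∑ a, ‖z a - z₀ a‖ ^ 2 := by fun_prop
  have h4 : ∀ z : Cn n, ∑ a, ‖z a - z₀ a‖ ^ 2 ≤ r ^ 2 → ∀ a, ‖z a - z₀ a‖ ≤ r := fun z hz a =>
    (pow_le_pow_iff_left₀ (norm_nonneg _) hr.le two_ne_zero).1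
      ((Finset.single_le_sum (f := fun a => ‖z a - z₀ a‖ ^ 2) (fun _ _ => sq_nonneg _)
        (Finset.mem_univ a)).trans hz)
  have h5 : {z : Cn n | ∑ a, ‖z a - z₀ a‖ ^ 2 ≤ r ^ 2} ⊆ closedBall z₀ r := fun z hz => by
    rw [mem_closedBall, dist_eq_norm]
    exact (pi_norm_le_iff_of_nonneg hr.le).2 (h4 z hz)
  have h6 : z₀ ∈ {z : Cn n | ∑ a, ‖z a - z₀ a‖ ^ 2 ≤ r ^ 2} := by simpa using sq_nonneg r
  obtain ⟨z, hz, hz'⟩ := ((isCompact_closedBall z₀ r).of_isClosed_subset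
    (isClosed_le hq continuous_const) h5).exists_isMaxOn ⟨z₀, h6⟩ (f := fun z => (W z).re)
    fun z hz => (Complex.continuous_re.continuousAt.comp
      (hW.sm ⟨z, hB (h5 hz)⟩).continuousAt).continuousWithinAt
  set y : U := ⟨z, hB (h5 hz)⟩
  set y₀ : U := ⟨z₀, hB (h5 h6)⟩
  have b1 := h2 y (h5 hz)
  have b0 := h2 y₀ (h5 h6)
  have h7 : (ev hU y (χ * χ * S)).re ≤ C := by
    rcases (sub_nonneg.2 (mem_setOf.1 hz)).eq_or_lt with h0 | h0
    · rw [map_mul, map_mul, h3 y]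
      simpa [y, ← h0] using hC
    · have a1 : ∀ᶠ w : U in 𝓝 y, ∑ a, ‖(w : Cn n) a - z₀ a‖ ^ 2 < r ^ 2 :=
        (hq.comp continuous_subtype_val).continuousAt.eventually_lt continuousAt_const
          (sub_pos.1 h0)
      have a2 := max_pr (g := χ * χ * S + A • K.G.trace) (y := y) (P := K.P)
        (by rw [star_add, star_mul', star_mul', star_nsmul, h3.star_eq, star_tG,
          star_pr K.hP K.herm])
        (a1.mono fun w hw => by
          rw [hW w, hW y]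
          exact hz' hw.le) b1.psdP
      refine H _ _ K _ _ χ _ b1 h3.star_eq (h3 y) h0
        (sub_le_self _ (Finset.sum_nonneg fun _ _ => sq_nonneg _)) (fun a => ?_)
        (lap_cut' hρ hd hb' _) a2.1 a2.2
      rw [d_cut hρ hd hb', map_neg, norm_neg, ev_star, norm_star]
      exact h4 z hz a
  have h8 : (ev hU y₀ (χ * χ * S + A • K.G.trace)).re ≤
      (ev hU y (χ * χ * S + A • K.G.trace)).re := by
    rw [hW y₀, hW y]
    exact hz' h6
  have h9 : (ev hU y₀ (χ * χ * S)).re = r ^ 4 * (ev hU y₀ S).re := by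
    rw [map_mul, map_mul, h3 y₀, mul_assoc, Complex.re_ofReal_mul, Complex.re_ofReal_mul]
    simp only [y₀, sub_self, norm_zero, ne_eq, OfNat.ofNat_ne_zero, not_false_eq_true, zero_pow,
      Finset.sum_const_zero]
    ring
  have h10 := mul_le_mul_of_nonneg_left ((Complex.re_le_norm _).trans b1.Gm.trace) A.cast_nonneg
  have h11 := mul_nonneg A.cast_nonneg (Complex.nonneg_iff.1 b0.psdG.trace_nonneg).1
  simp only [map_add, map_nsmul, Complex.add_re, Complex.re_nsmul, h9, ev_trace] at h8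
  simp only [nsmul_eq_mul] at h8
  have h12 := mul_le_mul_of_nonneg_left b0.le_S (pow_nonneg hr.le 4)
  have h13 : sz K (ev hU y₀) ≤ √((C + A * (n * m)) / (r ^ 4 * (c * c * c))) := by
    refine Real.le_sqrt_of_sq_le ?_
    rw [le_div_iff₀ (by positivity)]
    linarith
  have h14 : ∀ p, EB ((K.G.map ((DU hU).d p)).map (ev hU y₀))
      (n * m * √((C + A * (n * m)) / (r ^ 4 * (c * c * c)))) := fun p => by
    rw [← K.G_Γ, Matrix.map_mul]
    exact b0.Gm.mul ((EB_sz K _ p).mono h13)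
  refine norm_fderiv_le (by positivity) (fun p => ?_) fun p => ?_
  · have a := h14 p j k
    rwa [rep_dM hG] at a
  · have a := (h14 p).ct j k
    rwa [← map_ct (ev_star hU y₀), (DU hU).ct_d, K.herm, rep_bM hG] at a

end Vale.Agent.P272.AP
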