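import Vale.Agent.P272.APRing

/-! P272, part A2: the pointwise estimates behind the third order estimate of Calabi. -/

open Matrix
open scoped ComplexConjugate ComplexOrder

noncomputable section

namespace Vale.Agent.P272.AP

variable {n : ℕ}

theorem num {x s σ L L' lc g cr ρ C A κ : ℝ} (hx : 0 < x) (hxρ : x ≤ ρ) (hs : 0 ≤ s)
    (hσ0 : 0 ≤ σ) (hσ : σ ≤ C * s ^ 2) (hC : 0 ≤ C) (hA0 : 0 ≤ A) (hL : -(C * (1 + s ^ 2)) ≤ L)
    (hL' : κ * s ^ 2 - C ≤ L') (hlc : -C ≤ lc) (hg : g ≤ C) (hcr : -(A * C * s) ≤ cr)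
    (hA : ρ ^ 2 * C + (2 * ρ + 6) * C ^ 2 + 1 ≤ A * κ)
    (h : x ^ 3 * L + 2 * x ^ 2 * lc * σ - 6 * x * g * σ + 2 * cr + x * (A * L') ≤ 0) :
    x ^ 2 * σ ≤ C * (2 * ((A + ρ ^ 2) * C * ρ ^ 2) + (2 * A * C) ^ 2) := by
  have hx2 : x ^ 2 ≤ ρ ^ 2 := pow_le_pow_left₀ hx.le hxρ 2
  have h1 : -(x * (ρ ^ 2 * (C * (1 + s ^ 2)))) ≤ x ^ 3 * L := by
    have a1 := mul_le_mul_of_nonneg_left hL (pow_nonneg hx.le 3)
    have a2 := mul_le_mul_of_nonneg_left (mul_le_mul_of_nonneg_right hx2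
      (show 0 ≤ C * (1 + s ^ 2) by positivity)) hx.le
    linarith
  have h2 : -(x * (ρ * (C * (C * s ^ 2)))) ≤ x ^ 2 * lc * σ := by
    have a1 := mul_le_mul_of_nonneg_left hlc (show 0 ≤ x ^ 2 * σ by positivity)
    have a2 := mul_le_mul_of_nonneg_left (mul_le_mul hxρ (mul_le_mul_of_nonneg_left hσ hC)
      (by positivity) (hx.le.trans hxρ)) hx.le
    linarith
  have h3 : x * g * σ ≤ x * (C * (C * s ^ 2)) := by
    have a1 := mul_le_mul_of_nonneg_left hg (show 0 ≤ x * σ by positivity)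
    have a2 := mul_le_mul_of_nonneg_left (mul_le_mul_of_nonneg_left hσ hC) hx.le
    linarith
  have h4 := mul_le_mul_of_nonneg_left (mul_le_mul_of_nonneg_left hL' hA0) hx.le
  have h5 := mul_le_mul_of_nonneg_left hA (show 0 ≤ x * s ^ 2 by positivity)
  have h6 : x * s ^ 2 ≤ (A + ρ ^ 2) * C * x + 2 * A * C * s := by linarith
  have h7 := mul_le_mul_of_nonneg_left h6 hx.le
  have h8 := mul_le_mul_of_nonneg_left hx2 (show 0 ≤ (A + ρ ^ 2) * C by positivity)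
  have h9 : (x * s) ^ 2 ≤ 2 * ((A + ρ ^ 2) * C * ρ ^ 2) + (2 * A * C) ^ 2 := by
    have := sq_nonneg (x * s - 2 * A * C)
    linarith
  have h10 := mul_le_mul_of_nonneg_left hσ (sq_nonneg x)
  have h11 := mul_le_mul_of_nonneg_left h9 hC
  linarith

theorem EB_act {A : Mx n} {X : Fin n → Mx n} {a b : ℝ} (hA : EB A a) (hX : ∀ p, EB (X p) b)
    (p : Fin n) : EB (act A X p) (3 * (n * a * b)) :=
  (((hA.mul (hX p)).sub ((hX p).mul hA)).sub (EB_sum_smul (fun r => hA r p) hX)).mono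
    (le_of_eq (by ring))

theorem neg_le_re {w : ℂ} {a : ℝ} (h : ‖w‖ ≤ a) : -a ≤ w.re :=
  (abs_le.1 ((Complex.abs_re_le_norm w).trans h)).1

variable {R : Type} [CommRing R] [StarRing R] {D : DR n R}

theorem map_act (e : R →+* ℂ) (A : MR n R) (X : Fin n → MR n R) (p : Fin n) :
    (act A X p).map e = act (A.map e) (fun q => (X q).map e) p := by
  ext j k
  simp [act, Matrix.sum_apply, mul_apply]

theorem lap_cut (D : DR n R) (P : MR n R) (χ S : R) : χ * D.lap P (χ * χ * S) =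
    χ ^ 3 * D.lap P S + 2 * χ ^ 2 * D.lap P χ * S -
      6 * χ * (∑ a, ∑ c, P a c * (D.d a χ * D.b c χ)) * S +
      2 * (∑ a, ∑ c, P a c * (D.d a χ * D.b c (χ * χ * S)) +
        ∑ a, ∑ c, P a c * (D.d a (χ * χ * S) * D.b c χ)) := by
  simp only [DR.lap, D.der _ _ _, D.derb _ _ _, map_add, Finset.mul_sum, Finset.sum_mul,
    ← Finset.sum_add_distrib, ← Finset.sum_sub_distrib]
  exact Finset.sum_congr rfl fun a _ => Finset.sum_congr rfl fun c _ => by ring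

/-- Bounds for the metric and for the right hand side of the equation at one point. -/
structure Bd (K : KS D) (e : R →+* ℂ) (F : MR n R) (c m : ℝ) : Prop where
  he : ∀ f, e (star f) = star (e f)
  lm : D.lm K.l = K.G + F
  hc : 0 ≤ c
  hm : 0 ≤ m
  Pge : (K.P.map e - (c : ℂ) • 1).PosSemidef
  Gge : (K.G.map e - (c : ℂ) • 1).PosSemidef
  Pm : EB (K.P.map e) m
  Gm : EB (K.G.map e) m
  Fm : EB (F.map e) m
  dFm : ∀ p, EB ((F.map (D.d p)).map e) m

/-- The size of the Christoffel symbols. -/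
def sz (K : KS D) (e : R →+* ℂ) : ℝ := √(fro fun p => (K.Γ p).map e)

theorem sz_sq (K : KS D) (e : R →+* ℂ) : sz K e ^ 2 = fro fun p => (K.Γ p).map e :=
  Real.sq_sqrt (fro_nonneg _)

theorem EB_sz (K : KS D) (e : R →+* ℂ) (p : Fin n) : EB ((K.Γ p).map e) (sz K e) :=
  EB_fro (fun p => (K.Γ p).map e) p

theorem psd_of_ge {A : Mx n} {c : ℝ} (hc : 0 ≤ c) (h : (A - (c : ℂ) • 1).PosSemidef) :
    A.PosSemidef := by
  simpa using h.add (PosSemidef.one.smul (Complex.zero_le_real.2 hc))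

theorem star_tG (K : KS D) : star K.G.trace = K.G.trace := by
  rw [← trace_conjTranspose, K.herm]

namespace Bd
variable {K : KS D} {e : R →+* ℂ} {F : MR n R} {c m : ℝ} (h : Bd K e F c m)
include h

theorem psdP : (K.P.map e).PosSemidef := psd_of_ge h.hc h.Pge

theorem psdG : (K.G.map e).PosSemidef := psd_of_ge h.hc h.Gge

theorem S_le : (e (pr K.P K.G K.Γ K.Γ)).re ≤ n ^ 6 * m ^ 3 * sz K e ^ 2 := by
  rw [ev_pr h.he, sq, ← mul_assoc]
  exact (Complex.re_le_norm _).trans (norm_pr_le h.Pm h.Gm (EB_sz K e) (EB_sz K e))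

theorem le_S : c * c * c * sz K e ^ 2 ≤ (e (pr K.P K.G K.Γ K.Γ)).re := by
  rw [ev_pr h.he, sz_sq]
  exact sum_ip_ge h.hc h.hc h.hc h.Pge h.Pge h.Gge _

theorem lapS : -((n ^ 7 * m ^ 5 + 8 * (n ^ 8 * m ^ 5)) * (1 + sz K e ^ 2)) ≤
    (e (D.lap K.P (pr K.P K.G K.Γ K.Γ))).re := by
  have h1 : ∀ p, EB ((K.P * ((D.lm K.l).map (D.d p) - D.lm K.l * K.Γ p)).map e)
      (n * m * (m + n * m * sz K e)) := fun p => by
    rw [h.lm, map_madd, ← K.G_Γ, add_mul, add_sub_add_left_eq_sub, Matrix.map_mul,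
      Matrix.map_sub _ (map_sub e), Matrix.map_mul]
    exact h.Pm.mul ((h.dFm p).sub (h.Fm.mul (EB_sz K e p)))
  have h2 : ∀ p, EB ((act (K.P * D.lm K.l) K.Γ p).map e)
      (3 * (n * (n * m * (m + m)) * sz K e)) := fun p => by
    rw [map_act, h.lm, Matrix.map_mul, Matrix.map_add _ (map_add e)]
    exact EB_act (h.Pm.mul (h.Gm.add h.Fm)) (EB_sz K e) p
  have h3 := neg_le_re (norm_pr_le h.Pm h.Gm h1 (EB_sz K e))
  have h4 := neg_le_re (norm_pr_le h.Pm h.Gm (EB_sz K e) h1)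
  have h5 := neg_le_re (norm_pr_le h.Pm h.Gm h2 (EB_sz K e))
  have h6 := sum_pr_nonneg h.psdP h.psdG fun a p => (K.nab a K.Γ p).map e
  have h7 := sum_pr_nonneg' h.psdP h.psdG fun a p => ((K.Γ p).map (D.b a)).map e
  have h8 : 0 ≤ (n : ℝ) ^ 7 * m ^ 5 * (sz K e - 1) ^ 2 := by
    have := h.hm
    positivity
  have h9 : 0 ≤ (n : ℝ) ^ 8 * m ^ 5 := by
    have := h.hm
    positivity
  rw [K.calabi]
  simp only [map_add, map_sum, map_mul, ev_pr h.he, Complex.add_re]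
  simp only [map_apply] at h6 h7
  linarith

theorem lapT : c * c * sz K e ^ 2 - n * (m + m) ≤ (e (D.lap K.P K.G.trace)).re := by
  have h1 := K.lap_trace (Q := 1) (W := 1) (one_mul 1) conjTranspose_one
  have h2 : ∀ a, D.Gam 1 1 a = 0 := fun a => by rw [DR.Gam, (D.der a).mone, mul_zero]
  simp only [one_mul, h2, sub_zero, Matrix.map_zero _ (map_zero _), mul_one, mul_zero, trace_zero,
    Finset.sum_const_zero, h.lm] at h1
  have h3 := sum_ip_ge zero_le_one h.hc h.hc h.Pge (Q := 1) (by simpa using PosSemidef.zero) h.Gge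
    fun p => (K.Γ p).map e
  have h4 := neg_le_re (h.Gm.add h.Fm).trace
  rw [h1, sz_sq]
  simp only [map_add, map_sum, map_mul, ev_ip h.he, ev_trace, Matrix.map_add _ (map_add e),
    Matrix.map_one _ (map_zero e) (map_one e), Complex.add_re]
  simp only [map_apply] at h3
  linarith

theorem dT (a : Fin n) : ‖e (D.d a K.G.trace)‖ ≤ n * (n * m * sz K e) := by
  rw [map_tr, ← K.G_Γ, ev_trace, Matrix.map_mul]
  exact (h.Gm.mul (EB_sz K e a)).trace

theorem bT (a : Fin n) : ‖e (D.b a K.G.trace)‖ ≤ n * (n * m * sz K e) := by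
  rw [← star_tG K, ← D.star_d, h.he, norm_star]
  exact h.dT a

end Bd

/-- The estimate at a maximum point. -/
theorem at_max (n : ℕ) {r c m : ℝ} (hr : 0 < r) (hc : 0 < c) (hm : 0 ≤ m) :
    ∃ (A : ℕ) (C : ℝ), 0 ≤ C ∧ ∀ (R : Type) [CommRing R] [StarRing R] (D : DR n R) (K : KS D)
      (e : R →+* ℂ) (F : MR n R) (χ : R) (x : ℝ), Bd K e F c m → star χ = χ → e χ = x → 0 < x →
      x ≤ r ^ 2 → (∀ a, ‖e (D.d a χ)‖ ≤ r) → D.lap K.P χ = -K.P.trace →
      (∀ a, e (D.d a (χ * χ * pr K.P K.G K.Γ K.Γ + A • K.G.trace)) = 0) →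
      (e (D.lap K.P (χ * χ * pr K.P K.G K.Γ K.Γ + A • K.G.trace))).re ≤ 0 →
      (e (χ * χ * pr K.P K.G K.Γ K.Γ)).re ≤ C := by
  obtain ⟨C, hC, c1, c2, c3, c4, c5⟩ : ∃ C : ℝ, 0 ≤ C ∧ n ^ 6 * m ^ 3 ≤ C ∧
      n ^ 7 * m ^ 5 + 8 * (n ^ 8 * m ^ 5) ≤ C ∧ n * (m + m) ≤ C ∧ n ^ 2 * m * (r * r) ≤ C ∧
      2 * (n ^ 4 * m ^ 2 * r) ≤ C := by
    have a1 : 0 ≤ (n : ℝ) ^ 6 * m ^ 3 := by positivity
    have a2 : 0 ≤ (n : ℝ) ^ 7 * m ^ 5 + 8 * (n ^ 8 * m ^ 5) := by positivity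
    have a3 : 0 ≤ (n : ℝ) * (m + m) := by positivity
    have a4 : 0 ≤ (n : ℝ) ^ 2 * m * (r * r) := by positivity
    have a5 : 0 ≤ 2 * ((n : ℝ) ^ 4 * m ^ 2 * r) := by positivity
    exact ⟨_, add_nonneg (add_nonneg (add_nonneg (add_nonneg a1 a2) a3) a4) a5, by linarith,
      by linarith, by linarith, by linarith, by linarith⟩
  obtain ⟨A, hA⟩ := exists_nat_ge (((r ^ 2) ^ 2 * C + (2 * r ^ 2 + 6) * C ^ 2 + 1) / (c * c))
  rw [div_le_iff₀ (mul_pos hc hc)] at hA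
  refine ⟨A, C * (2 * ((A + (r ^ 2) ^ 2) * C * (r ^ 2) ^ 2) + (2 * A * C) ^ 2), by positivity,
    fun R _ _ D K e F χ x h hχ hx hx0 hxr hd hl h1 h2 => ?_⟩
  set S := pr K.P K.G K.Γ K.Γ with hS
  have hs : 0 ≤ sz K e := Real.sqrt_nonneg _
  have hSs : star S = S := star_pr K.hP K.herm _ _
  have hσ : e S = ((e S).re : ℝ) := by
    have a := h.he S
    rw [hSs] at a
    exact (Complex.conj_eq_iff_re.1 a.symm).symm
  have hb : ∀ a, ‖e (D.b a χ)‖ ≤ r := fun a => by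
    rw [← hχ, ← D.star_d, h.he, norm_star]
    exact hd a
  have h3 : ∀ a, ‖e (D.d a (χ * χ * S))‖ ≤ A * (n * (n * m * sz K e)) := fun a => by
    have a1 := h1 a
    rw [map_add, map_nsmul, map_add, map_nsmul, nsmul_eq_mul] at a1
    rw [eq_neg_of_add_eq_zero_left a1, norm_neg, norm_mul, Complex.norm_natCast]
    exact mul_le_mul_of_nonneg_left (h.dT a) A.cast_nonneg
  have h4 : ∀ a, ‖e (D.b a (χ * χ * S))‖ ≤ A * (n * (n * m * sz K e)) := fun a => by
    rw [← hχ, ← hSs, ← star_mul', ← star_mul', ← D.star_d, h.he, norm_star]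
    exact h3 a
  have h5 : D.lap K.P (χ * χ * S + A • K.G.trace) =
      D.lap K.P (χ * χ * S) + A * D.lap K.P K.G.trace := by
    simp only [DR.lap, map_nsmul, map_add, mul_add, Finset.sum_add_distrib]
    simp only [nsmul_eq_mul, Finset.mul_sum, mul_left_comm (A : R)]
  have h6 := congrArg (fun f => (e f).re) (lap_cut D K.P χ S)
  have g1 := (Complex.re_le_norm _).trans (norm_sum_sum_le h.Pm fun a b =>
    (norm_mul_le _ _).trans (mul_le_mul (hd a) (hb b) (norm_nonneg _) hr.le))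
  have g2 := neg_le_re (norm_sum_sum_le h.Pm fun a b =>
    (norm_mul_le _ _).trans (mul_le_mul (hd a) (h4 b) (norm_nonneg _) hr.le))
  have g3 := neg_le_re (norm_sum_sum_le h.Pm fun a b =>
    (norm_mul_le _ _).trans (mul_le_mul (h3 a) (hb b) (norm_nonneg _) (by positivity)))
  have g4 : -C ≤ (e (D.lap K.P χ)).re := by
    rw [hl, map_neg, ev_trace]
    have a1 := neg_le_re ((norm_neg _).trans_le h.Pm.trace)
    have a2 : 0 ≤ n * m := by positivity
    linarith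
  have g5 := mul_le_mul_of_nonneg_left c5 (show 0 ≤ A * sz K e by positivity)
  rw [h5, map_add, map_mul, map_natCast, Complex.add_re, ← Complex.ofReal_natCast,
    Complex.re_ofReal_mul] at h2
  have g6 := mul_nonpos_of_nonneg_of_nonpos hx0.le h2
  simp only [map_add, map_sub, map_sum, map_mul e, map_pow, map_ofNat, hx] at h6
  rw [hσ] at h6
  simp only [Complex.add_re, Complex.sub_re, mul_assoc, ← Complex.ofReal_pow,
    ← Complex.ofReal_ofNat, Complex.re_ofReal_mul, Complex.re_mul_ofReal] at h6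
  rw [map_mul, map_mul, hx, mul_assoc, Complex.re_ofReal_mul, Complex.re_ofReal_mul, ← mul_assoc,
    ← sq]
  refine num hx0 hxr hs (le_trans (by positivity) h.le_S)
    (h.S_le.trans (mul_le_mul_of_nonneg_right c1 (sq_nonneg _))) hC A.cast_nonneg
    (le_trans (neg_le_neg (mul_le_mul_of_nonneg_right c2 (by positivity))) h.lapS)
    (le_trans (sub_le_sub_left c3 _) h.lapT) g4 (g1.trans c4)
    (le_trans (by linarith) (add_le_add g2 g3)) hA ?_
  simp only [map_apply, mul_assoc χ] at g6 ⊢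
  linarith

end Vale.Agent.P272.AP
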