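import Vale.Agent.P272.APAlg

/-! P272, part A2: the Bochner formula for the square norm of the Christoffel symbols. -/

open Matrix

noncomputable section

namespace Vale.Agent.P272.AP

variable {n : ℕ} {R : Type} [CommRing R] [StarRing R] {P G : MR n R}

theorem ip_add_left (A A' B : MR n R) : ip P G (A + A') B = ip P G A B + ip P G A' B := by
  simp only [ip, add_mul, trace_add]

theorem ip_sub_left (A A' B : MR n R) : ip P G (A - A') B = ip P G A B - ip P G A' B := by
  simp only [ip, sub_mul, trace_sub]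

theorem ip_sum_left {ι : Type} [Fintype ι] (v : ι → R) (A : ι → MR n R) (B : MR n R) :
    ip P G (∑ r, v r • A r) B = ∑ r, v r * ip P G (A r) B := by
  simp only [ip, Finset.sum_mul, trace_sum, Matrix.smul_mul, trace_smul, smul_eq_mul]

theorem star_ip (hP : Pᴴ = P) (hG : Gᴴ = G) (A B : MR n R) : star (ip P G A B) = ip P G B A := by
  rw [ip, ← trace_conjTranspose, ip]
  simp only [conjTranspose_mul, hP, hG, conjTranspose_conjTranspose]
  rw [trace_mul_comm]
  simp only [mul_assoc]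

theorem star_pr (hP : Pᴴ = P) (hG : Gᴴ = G) (X Y : Fin n → MR n R) :
    star (pr P G X Y) = pr P G Y X := by
  simp only [pr, star_sum, star_mul', star_ip hP hG, ← conjTranspose_apply, hP]
  exact Finset.sum_comm

theorem pr_add_left (X X' Y : Fin n → MR n R) :
    pr P G (fun p => X p + X' p) Y = pr P G X Y + pr P G X' Y := by
  simp only [pr, ip_add_left, mul_add, Finset.sum_add_distrib]

theorem pr_sum_one (X : Fin n → Fin n → MR n R) (Y : Fin n → MR n R) :
    pr P G (fun p => ∑ a, X a p) Y = ∑ a, pr P G (X a) Y := by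
  simp only [pr, ip, Finset.sum_mul, trace_sum, Finset.mul_sum]
  rw [Finset.sum_comm (f := fun a p => ∑ q, P p q * (X a p * P * (Y q)ᴴ * G).trace)]
  exact Finset.sum_congr rfl fun p _ => Finset.sum_comm

theorem pr_smul (v : R) (X Y : Fin n → MR n R) :
    pr P G (fun p => v • X p) Y = v * pr P G X Y := by
  simp only [pr, ip, Matrix.smul_mul, trace_smul, smul_eq_mul, Finset.mul_sum, mul_left_comm v]

theorem pr_sum_left (v : Fin n → Fin n → R) (X : Fin n → Fin n → Fin n → MR n R)
    (Y : Fin n → MR n R) :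
    pr P G (fun p => ∑ a, ∑ c, v a c • X a c p) Y = ∑ a, ∑ c, v a c * pr P G (X a c) Y := by
  simp only [pr_sum_one, pr_smul]

/-- The action of an endomorphism on one-forms with values in endomorphisms. -/
def act (A : MR n R) (X : Fin n → MR n R) (p : Fin n) : MR n R :=
  A * X p - X p * A - ∑ r, A r p • X r

theorem act_sum (v : Fin n → Fin n → R) (A : Fin n → Fin n → MR n R) (X : Fin n → MR n R)
    (p : Fin n) : ∑ a, ∑ c, v a c • act (A a c) X p = act (∑ a, ∑ c, v a c • A a c) X p := by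
  simp only [act, smul_sub, Finset.sum_sub_distrib, Finset.sum_mul, Finset.mul_sum,
    Matrix.smul_mul, Matrix.mul_smul, Matrix.sum_apply, Matrix.smul_apply, smul_eq_mul,
    Finset.sum_smul, Finset.smul_sum, smul_smul]
  congr 1
  rw [Finset.sum_comm (f := fun r a => ∑ c, (v a c * A a c r p) • X r)]
  exact Finset.sum_congr rfl fun a _ => Finset.sum_comm

namespace KS
variable {D : DR n R} (K : KS D)

/-- The covariant derivative. -/
def nab (a : Fin n) (X : Fin n → MR n R) (p : Fin n) : MR n R :=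
  (X p).map (D.d a) + act (K.Γ a) X p

theorem d_ip (a : Fin n) (A B : MR n R) : D.d a (ip K.P K.G A B) =
    ip K.P K.G (A.map (D.d a) + (K.Γ a * A - A * K.Γ a)) B + ip K.P K.G A (B.map (D.b a)) := by
  rw [ip, map_tr, (D.der a).mmul, (D.der a).mmul, (D.der a).mmul, K.d_P, ← K.G_Γ, ← D.ct_b,
    ← mul_assoc, trace_add, trace_mul_comm _ (K.Γ a)]
  simp only [ip, add_mul, sub_mul, mul_neg, neg_mul, trace_add, trace_sub, trace_neg, mul_assoc]
  ring

theorem d_pr (a : Fin n) (X Y : Fin n → MR n R) : D.d a (pr K.P K.G X Y) =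
    pr K.P K.G (K.nab a X) Y + pr K.P K.G X fun q => (Y q).map (D.b a) := by
  have h1 : ∀ p q, D.d a (K.P p q) = -∑ r, K.Γ a p r * K.P r q := fun p q =>
    congrFun (congrFun (K.d_P a) p) q
  have h2 : ∑ p, ∑ q, (∑ r, K.Γ a p r * K.P r q) * ip K.P K.G (X p) (Y q) =
      ∑ p, ∑ q, K.P p q * ∑ r, K.Γ a r p * ip K.P K.G (X r) (Y q) := by
    simp only [Finset.sum_mul, Finset.mul_sum]
    rw [Finset.sum_comm, Finset.sum_comm (f := fun p q => ∑ r, K.P p q * _)]
    refine Finset.sum_congr rfl fun q _ => ?_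
    rw [Finset.sum_comm]
    exact Finset.sum_congr rfl fun _ _ => Finset.sum_congr rfl fun _ _ => by ring
  simp only [pr, map_sum, D.der a _ _, h1, d_ip, nab, act, ip_add_left, ip_sub_left, ip_sum_left,
    neg_mul, mul_add, mul_sub, Finset.sum_add_distrib, Finset.sum_sub_distrib,
    Finset.sum_neg_distrib, h2]
  ring

theorem b_pr (c : Fin n) (X Y : Fin n → MR n R) : D.b c (pr K.P K.G X Y) =
    pr K.P K.G (fun q => (X q).map (D.b c)) Y + pr K.P K.G X (K.nab c Y) := by
  rw [← star_pr K.hP K.herm Y X, ← D.star_d, d_pr, star_add, star_pr K.hP K.herm,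
    star_pr K.hP K.herm, add_comm]

theorem b_nab (a c : Fin n) (X : Fin n → MR n R) (p : Fin n) : (K.nab a X p).map (D.b c) =
    K.nab a (fun q => (X q).map (D.b c)) p + act ((K.Γ a).map (D.b c)) X p := by
  simp only [nab, act, map_madd, map_msub, map_msum, (D.derb c).mmul, (D.derb c).smul, D.mdb,
    Finset.sum_add_distrib, map_apply]
  abel

theorem flat (a p : Fin n) :
    (K.Γ p).map (D.d a) + K.Γ a * K.Γ p = (K.Γ a).map (D.d p) + K.Γ p * K.Γ a := by
  have h : ∀ a p, (K.Γ p).map (D.d a) + K.Γ a * K.Γ p = K.P * (K.G.map (D.d p)).map (D.d a) := by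
    intro a p
    conv_lhs => rw [Γ, DR.Gam, (D.der a).mmul, K.d_P, neg_mul, mul_assoc]
    abel
  rw [h, h, D.mdd]

/-- The contracted Bianchi identity. -/
theorem bianchi (p : Fin n) :
    ∑ a, ∑ c, K.P a c • K.nab a (fun q => (K.Γ q).map (D.b c)) p =
      K.P * ((D.lm K.l).map (D.d p) - D.lm K.l * K.Γ p) := by
  have h1 : ∀ a c, K.nab a (fun q => (K.Γ q).map (D.b c)) p =
      ((K.Γ a).map (D.b c)).map (D.d p) + K.Γ p * (K.Γ a).map (D.b c) -
        (K.Γ a).map (D.b c) * K.Γ p - ∑ r, K.Γ p r a • (K.Γ r).map (D.b c) := by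
    intro a c
    have h := congrArg (fun A : MR n R => A.map (D.b c)) (K.flat a p)
    simp only [map_madd, (D.derb c).mmul, ← D.mdb] at h
    simp only [nab, act, K.Γ_symm a _ p]
    rw [eq_sub_of_add_eq h]
    abel
  have h2 := congrArg (fun A : MR n R => A.map (D.d p)) K.ricci
  have h3 : ∀ a c, D.d p (K.P a c) = -∑ r, K.Γ p a r * K.P r c := fun a c =>
    congrFun (congrFun (K.d_P p) a) c
  simp only [map_msum, (D.der p).smul, (D.der p).mmul, K.d_P, h3, Finset.sum_add_distrib,
    neg_smul, Finset.sum_neg_distrib] at h2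
  have h4 : ∑ a, ∑ c, (∑ r, K.Γ p a r * K.P r c) • (K.Γ a).map (D.b c) =
      ∑ a, ∑ c, K.P a c • ∑ r, K.Γ p r a • (K.Γ r).map (D.b c) := by
    simp only [Finset.sum_smul, Finset.smul_sum, smul_smul]
    rw [Finset.sum_comm, Finset.sum_comm (f := fun a c => ∑ r, (K.P a c * _) • _)]
    refine Finset.sum_congr rfl fun c _ => ?_
    rw [Finset.sum_comm]
    exact Finset.sum_congr rfl fun _ _ => Finset.sum_congr rfl fun _ _ => by rw [mul_comm]
  have h5 : ∑ a, ∑ c, K.P a c • (K.Γ p * (K.Γ a).map (D.b c)) = K.Γ p * (K.P * D.lm K.l) := by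
    simp only [← K.ricci, Finset.mul_sum, Matrix.mul_smul]
  have h6 : ∑ a, ∑ c, K.P a c • ((K.Γ a).map (D.b c) * K.Γ p) = K.P * D.lm K.l * K.Γ p := by
    simp only [← K.ricci, Finset.sum_mul, Matrix.smul_mul]
  simp only [h1, smul_sub, smul_add, Finset.sum_sub_distrib, Finset.sum_add_distrib, h5, h6, ← h4]
  rw [eq_sub_of_add_eq' h2]
  noncomm_ring

/-- The formula of Calabi. -/
theorem calabi : D.lap K.P (pr K.P K.G K.Γ K.Γ) =
    pr K.P K.G (fun p => K.P * ((D.lm K.l).map (D.d p) - D.lm K.l * K.Γ p)) K.Γ +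
      pr K.P K.G K.Γ (fun p => K.P * ((D.lm K.l).map (D.d p) - D.lm K.l * K.Γ p)) +
      pr K.P K.G (act (K.P * D.lm K.l) K.Γ) K.Γ +
      ∑ a, ∑ c, K.P a c * pr K.P K.G (K.nab a K.Γ) (K.nab c K.Γ) +
      ∑ a, ∑ c, K.P a c * pr K.P K.G (fun q => (K.Γ q).map (D.b c))
        fun q => (K.Γ q).map (D.b a) := by
  have h1 := pr_sum_left (P := K.P) (G := K.G) K.P
    (fun a c => K.nab a fun q => (K.Γ q).map (D.b c)) K.Γ
  have h2 := pr_sum_left (P := K.P) (G := K.G) K.P
    (fun a c => act ((K.Γ a).map (D.b c)) K.Γ) K.Γ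
  simp only [K.bianchi] at h1
  rw [funext fun p => act_sum K.P (fun a c => (K.Γ a).map (D.b c)) K.Γ p, K.ricci] at h2
  have h3 := congrArg star h1
  simp only [star_sum, star_mul', star_pr K.hP K.herm, ← conjTranspose_apply, K.hP] at h3
  rw [Finset.sum_comm] at h3
  rw [h1, h3, show act (K.P * D.lm K.l) K.Γ = fun p => act (K.P * D.lm K.l) K.Γ p from rfl, h2]
  simp only [DR.lap, d_pr, map_add, b_pr, b_nab, pr_add_left, mul_add, Finset.sum_add_distrib]
  ring

end KS

end Vale.Agent.P272.AP
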