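import Vale.Agent.P272.Api

/-! P272, part A2: definitions. -/

open MeasureTheory Set Filter Topology Metric Matrix
open scoped ContDiff ComplexConjugate ComplexOrder

noncomputable section

namespace Vale.Agent.P272.AP

open Vale.Agent.P271

variable {n : ℕ}

/-- Square matrices over a ring. -/
abbrev MR (n : ℕ) (R : Type) : Type := Matrix (Fin n) (Fin n) R

section Ring
variable {R : Type} [CommRing R] [StarRing R]

/-- The pairing of endomorphisms given by two Hermitian matrices. -/
def ip (P G A B : MR n R) : R := (A * P * Bᴴ * G).trace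

/-- The pairing of one-forms with values in endomorphisms. -/
def pr (P G : MR n R) (X Y : Fin n → MR n R) : R := ∑ p, ∑ q, P p q * ip P G (X p) (Y q)

end Ring

/-- A bound for the entries. -/
def EB (A : Mx n) (m : ℝ) : Prop := ∀ i j, ‖A i j‖ ≤ m

/-- The sum of the squares of all entries. -/
def fro (X : Fin n → Mx n) : ℝ := ∑ p, ∑ i, ∑ k, ‖X p i k‖ ^ 2

/-- The holomorphic derivative of a matrix valued function. -/
def dM (p : Fin n) (F : Cn n → Mx n) (z : Cn n) : Mx n :=
  Matrix.of fun j k => dz (Pi.single p 1) (fun y => F y j k) z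

/-- The antiholomorphic derivative of a matrix valued function. -/
def bM (p : Fin n) (F : Cn n → Mx n) (z : Cn n) : Mx n :=
  Matrix.of fun j k => dzb (Pi.single p 1) (fun y => F y j k) z

/-- The Christoffel symbols of the metric with potential `Φ`. -/
def Chr (Φ : Cn n → ℝ) (p : Fin n) (z : Cn n) : Mx n := (LM Φ z)⁻¹ * dM p (LM Φ) z

/-- The curvature of the metric with potential `Φ`. -/
def Cur (Φ : Cn n → ℝ) (a b : Fin n) (z : Cn n) : Mx n := bM b (Chr Φ a) z * (LM Φ z)⁻¹

/-- `Φ` is smooth and strictly plurisubharmonic near `z`. -/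
def Spsh (Φ : Cn n → ℝ) (z : Cn n) : Prop := ∀ᶠ y in 𝓝 z, ContDiffAt ℝ ∞ Φ y ∧ (LM Φ y).PosDef

end Vale.Agent.P272.AP
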