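import Vale.Agent.P272.APC2
import Vale.Agent.P272.APC3

/-! P272, part A2: the Aubin-Yau inequality and the a priori estimates. -/

open MeasureTheory Set Filter Topology Metric Matrix
open scoped ContDiff ComplexConjugate ComplexOrder

noncomputable section

namespace Vale.Agent.P272

open Vale.Agent.P271

variable {n : ℕ} {X : Type} [TopologicalSpace X] [T2Space X] [CompactSpace X]
  [MeasurableSpace X] [BorelSpace X] {M : Model n X}

/-- The Aubin-Yau inequality. -/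
theorem yau_ineq (hn : 0 < n) {w : Frm M.toAtl} (hw : Kae M.toAtl w) :
    ∃ B : ℝ, 0 ≤ B ∧ ∀ η, Kae M.toAtl η → ∀ p,
      trF M.toAtl w (th M + ddc M.toAtl fun q => Real.log (dt M η q)) p / trF M.toAtl w η p -
          B * trF M.toAtl η w p ≤
        trF M.toAtl η (ddc M.toAtl fun q => Real.log (trF M.toAtl w η q)) p :=
  AP.yau_ineq' hn hw

theorem APMain_dz {g g₀ g₁ : Cn n → ℂ} {z : Cn n} {s t : ℂ} (h₀ : DifferentiableAt ℝ g₀ z)
    (h₁ : DifferentiableAt ℝ g₁ z) (h : g =ᶠ[𝓝 z] fun y => s * g₀ y + t * g₁ y) (ξ : Cn n) :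
    dz ξ g z = s * dz ξ g₀ z + t * dz ξ g₁ z := by
  have h2 : HasFDerivAt (fun y => s * g₀ y + t * g₁ y) _ z :=
    (h₀.hasFDerivAt.const_mul s).add (h₁.hasFDerivAt.const_mul t)
  simp only [dz, h.fderiv_eq, h2.fderiv, _root_.add_apply, _root_.smul_apply, smul_eq_mul]
  ring

theorem APMain_cdz {g : Cn n → ℂ} {z : Cn n} (h : ContDiffAt ℝ ∞ g z) (ξ : Cn n) :
    ContinuousAt (dz ξ g) z := by
  have h1 : ContinuousAt (fderiv ℝ g) z := (h.fderiv_right (m := 0) (by simp)).continuousAt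
  exact ((h1.clm_apply continuousAt_const).sub
    (continuousAt_const.mul (h1.clm_apply continuousAt_const))).div_const 2

omit [T2Space X] [CompactSpace X] [MeasurableSpace X] [BorelSpace X] in
theorem APMain_EB {A : Atl n X} {φ : Frm A} (hφ : IsF A φ) {K : A.ι → Set (Cn n)}
    (hK : ∀ a, IsCompact (K a)) (hKt : ∀ a, K a ⊆ (A.e a).target) :
    ∀ᶠ E : ℝ in atTop, ∀ a, ∀ z ∈ K a,
      AP.EB (LM (φ a) z) E ∧ ∀ p, AP.EB (AP.dM p (LM (φ a)) z) E := by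
  have h1 : ∀ a (g : Cn n → ℂ), (∀ z ∈ (A.e a).target, ContinuousAt g z) →
      ∀ᶠ E : ℝ in atTop, ∀ z ∈ K a, ‖g z‖ ≤ E := by
    intro a g hg
    obtain ⟨C, hC⟩ := (hK a).exists_bound_of_continuousOn
      fun z hz => (hg z (hKt a hz)).continuousWithinAt
    exact (eventually_ge_atTop C).mono fun E hE z hz => (hC z hz).trans hE
  have h2 : ∀ᶠ E : ℝ in atTop, ∀ a j k, ∀ z ∈ K a, ‖LM (φ a) z j k‖ ≤ E := by
    simp only [eventually_all]
    exact fun a j k => h1 a _ fun z hz => (contDiffAt_LM (hφ.smAt hz) j k).continuousAt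
  have h3 : ∀ᶠ E : ℝ in atTop, ∀ a p j k, ∀ z ∈ K a,
      ‖dz (Pi.single p 1) (fun y => LM (φ a) y j k) z‖ ≤ E := by
    simp only [eventually_all]
    exact fun a p j k => h1 a _ fun z hz => APMain_cdz (contDiffAt_LM (hφ.smAt hz) j k) _
  filter_upwards [h2, h3] with E e2 e3 a z hz
  exact ⟨fun j k => e2 a j k z hz, fun p j k => e3 a p j k z hz⟩

theorem APMain_cvx {τ E : ℝ} (hτ : τ ∈ Icc (0 : ℝ) 1) {x y : ℂ} (hx : ‖x‖ ≤ E) (hy : ‖y‖ ≤ E) :
    ‖((1 - τ : ℝ) : ℂ) * x + τ * y‖ ≤ E := by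
  refine (norm_add_le _ _).trans ?_
  rw [norm_mul, norm_mul, Complex.norm_real, Complex.norm_real, Real.norm_of_nonneg hτ.1,
    Real.norm_of_nonneg (sub_nonneg.2 hτ.2)]
  nlinarith [mul_le_mul_of_nonneg_left hx (sub_nonneg.2 hτ.2), mul_le_mul_of_nonneg_left hy hτ.1]

theorem APMain_comb {f₀ f₁ : Cn n → ℝ} {z : Cn n} {τ E : ℝ} (hτ : τ ∈ Icc (0 : ℝ) 1)
    (h : ∀ᶠ y in 𝓝 z, ContDiffAt ℝ ∞ f₀ y ∧ ContDiffAt ℝ ∞ f₁ y)
    (h₀ : AP.EB (LM f₀ z) E ∧ ∀ p, AP.EB (AP.dM p (LM f₀) z) E)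
    (h₁ : AP.EB (LM f₁ z) E ∧ ∀ p, AP.EB (AP.dM p (LM f₁) z) E) :
    AP.EB (LM ((1 - τ) • f₀ + τ • f₁) z) E ∧
      ∀ p, AP.EB (AP.dM p (LM ((1 - τ) • f₀ + τ • f₁)) z) E := by
  have e : ∀ j k, (fun y => LM ((1 - τ) • f₀ + τ • f₁) y j k) =ᶠ[𝓝 z]
      fun y => ((1 - τ : ℝ) : ℂ) * LM f₀ y j k + τ * LM f₁ y j k := by
    intro j k
    filter_upwards [h] with y hy
    rw [LM_add (φ := (1 - τ) • f₀) (ψ := τ • f₁) (hy.1.const_smul (1 - τ)) (hy.2.const_smul τ),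
      LM_smul hy.1, LM_smul hy.2]
    rfl
  refine ⟨fun j k => ?_, fun p j k => ?_⟩
  · rw [(e j k).eq_of_nhds]
    exact APMain_cvx hτ (h₀.1 j k) (h₁.1 j k)
  · have d₀ := (contDiffAt_LM h.self_of_nhds.1 j k).differentiableAt (by simp)
    have d₁ := (contDiffAt_LM h.self_of_nhds.2 j k).differentiableAt (by simp)
    rw [AP.dM, Matrix.of_apply, APMain_dz d₀ d₁ (e j k)]
    exact APMain_cvx hτ (h₀.2 p j k) (h₁.2 p j k)

theorem APMain_psd {W G : Mx n} {c C : ℝ} (hc : 0 < c) (hC : 0 < C) (hW : W.PosDef) (hG : G.PosDef)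
    (h1 : (W - (c : ℂ) • 1).PosSemidef) (h2 : (((c⁻¹ : ℝ) : ℂ) • 1 - W).PosSemidef)
    (h3 : (W⁻¹ * G).trace.re ≤ C) (h4 : (G⁻¹ * W).trace.re ≤ C) :
    (G - ((c / C : ℝ) : ℂ) • 1).PosSemidef ∧ ((((c / C)⁻¹ : ℝ) : ℂ) • 1 - G).PosSemidef := by
  have hC' : (C : ℂ) ≠ 0 := Complex.ofReal_ne_zero.2 hC.ne'
  have hc' : (c : ℂ) ≠ 0 := Complex.ofReal_ne_zero.2 hc.ne'
  constructor
  · have h5 := (((psd_trace_sub hG hW.posSemidef).add
      (hG.posSemidef.smul (Complex.zero_le_real.2 (sub_nonneg.2 h4)))).add h1).smul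
      (Complex.zero_le_real.2 (inv_nonneg.2 hC.le))
    refine (congrArg Matrix.PosSemidef ?_).mp h5
    ext i j
    simp only [Matrix.smul_apply, Matrix.add_apply, Matrix.sub_apply, smul_eq_mul]
    push_cast
    field_simp
    ring
  · have h5 := ((psd_trace_sub hW hG.posSemidef).add
      (hW.posSemidef.smul (Complex.zero_le_real.2 (sub_nonneg.2 h3)))).add
      (h2.smul (Complex.zero_le_real.2 hC.le))
    refine (congrArg Matrix.PosSemidef ?_).mp h5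
    ext i j
    simp only [Matrix.smul_apply, Matrix.add_apply, Matrix.sub_apply, smul_eq_mul]
    push_cast
    field_simp
    ring

/-- The a priori estimates along the path from `F₀` to `F₁`: bounds for the solution, for its
Levi matrix from both sides, and for the first derivatives of the Levi matrix, on any family of
compact subsets of the charts.
Proof: take `r > 0` with `K' a = cthickening r (K a) ⊆ target` (compact, contains the closed balls of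
radius `r`). On `K' a` there is `c₀` with `c₀ ≤ W ≤ c₀⁻¹`, `W = LM (κ a)` (`psd_trace_sub` for the
pairs `W, 1` and `1, W`, `AP.continuousAt_trace_inv`). `AP.c2_est` and `psd_trace_sub` give
`G ≤ C W`, `W ≤ C G`, so `c = c₀ / C`. Apply `AP.calabi_local` with `U` the target and
`f = (1 - τ) • f₀ + τ • f₁`, `f i = loc a (F i + log ‖k a‖ ^ 2) - κ a` (`dt_eq`); the entries of
`LM (f i)` and `AP.dM p (LM (f i))` are continuous on the target. -/
theorem apriori (hn : 0 < n) {κ : Frm M.toAtl} (hκ : Kae M.toAtl κ) {F₀ F₁ : X → ℝ}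
    (h₀ : M.Sm F₀) (h₁ : M.Sm F₁) {K : M.ι → Set (Cn n)} (hK : ∀ a, IsCompact (K a))
    (hKt : ∀ a, K a ⊆ (M.e a).target) :
    ∃ c L : ℝ, 0 < c ∧ 0 ≤ L ∧ ∀ τ ∈ Icc (0 : ℝ) 1, ∀ u, M.Sm u →
      PosF M.toAtl (κ + ddc M.toAtl u) →
      (∀ p, dt M (κ + ddc M.toAtl u) p = Real.exp (u p + ((1 - τ) * F₀ p + τ * F₁ p))) →
      (∀ p, |u p| ≤ L) ∧ ∀ a, ∀ z ∈ K a,
        (LM ((κ + ddc M.toAtl u) a) z - (c : ℂ) • 1).PosSemidef ∧
        (((c⁻¹ : ℝ) : ℂ) • 1 - LM ((κ + ddc M.toAtl u) a) z).PosSemidef ∧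
        ∀ j k, ‖fderiv ℝ (fun y => LM ((κ + ddc M.toAtl u) a) y j k) z‖ ≤ L := by
  choose ρ hρ hρt using fun a =>
    (hK a).exists_cthickening_subset_open (M.e a).open_target (hKt a)
  obtain ⟨r, hr, hr0⟩ := ((eventually_all.2 fun a => Ioc_mem_nhdsGT (hρ a)).and
    (self_mem_nhdsWithin (a := (0 : ℝ)) (s := Ioi 0))).exists
  have hK' : ∀ a, IsCompact (cthickening r (K a)) := fun a => (hK a).cthickening
  have hKt' : ∀ a, cthickening r (K a) ⊆ (M.e a).target := fun a =>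
    (cthickening_mono (hr a).2 _).trans (hρt a)
  obtain ⟨c, hc, hell⟩ := ApiX2_ell hκ hK' hKt'
  have hb : ∀ g : X → ℝ, M.Sm g → ∀ᶠ E : ℝ in atTop, ∀ p, |g p| ≤ E := by
    intro g hg
    obtain ⟨C, hC⟩ := isCompact_univ.exists_bound_of_continuousOn hg.continuous.continuousOn
    exact (eventually_ge_atTop C).mono fun E hE p => (hC p (mem_univ p)).trans hE
  have hφ₀ := ((isF_ddc h₀).add (isF_th M)).sub hκ.1
  have hφ₁ := ((isF_ddc h₁).add (isF_th M)).sub hκ.1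
  obtain ⟨E, ⟨b₀, b₁, t₀, t₁⟩, e₀, e₁⟩ := (((hb _ h₀).and ((hb _ h₁).and
    ((hb _ (sm_trF hκ (isF_ddc h₀))).and (hb _ (sm_trF hκ (isF_ddc h₁)))))).and
    ((APMain_EB hφ₀ hK' hKt').and (APMain_EB hφ₁ hK' hKt'))).exists
  obtain ⟨L₀, hL₀⟩ := AP.c0_est hκ E
  obtain ⟨C, hC, hC2⟩ := AP.c2_est hn hκ E
  obtain ⟨L₁, hL₁⟩ := AP.calabi_local n hr0 (div_pos hc hC) E
  refine ⟨c / C, max (max L₀ L₁) 0, div_pos hc hC, le_max_right _ _, fun τ hτ u hu hp hd => ?_⟩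
  have hτ1 := sub_nonneg.2 hτ.2
  have hF : M.Sm fun p => (1 - τ) * F₀ p + τ * F₁ p := fun a =>
    (contDiffOn_const.mul (h₀ a)).add (contDiffOn_const.mul (h₁ a))
  have hFb : ∀ p, |(1 - τ) * F₀ p + τ * F₁ p| ≤ E := fun p => by
    refine (abs_add_le _ _).trans ?_
    rw [abs_mul, abs_mul, abs_of_nonneg hτ.1, abs_of_nonneg hτ1]
    nlinarith [mul_le_mul_of_nonneg_left (b₀ p) hτ1, mul_le_mul_of_nonneg_left (b₁ p) hτ.1]
  have hFt : ∀ p, -E ≤ trF M.toAtl κ (ddc M.toAtl fun p => (1 - τ) * F₀ p + τ * F₁ p) p :=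
    fun p => by
      have e : (ddc M.toAtl fun p => (1 - τ) * F₀ p + τ * F₁ p) =
          (1 - τ) • ddc M.toAtl F₀ + τ • ddc M.toAtl F₁ := rfl
      rw [e, trF_add κ ((isF_ddc h₀).smul _) ((isF_ddc h₁).smul _), trF_smul κ (isF_ddc h₀),
        trF_smul κ (isF_ddc h₁)]
      nlinarith [mul_le_mul_of_nonneg_left (neg_le_of_abs_le (t₀ p)) hτ1,
        mul_le_mul_of_nonneg_left (neg_le_of_abs_le (t₁ p)) hτ.1]
  have hη : Kae M.toAtl (κ + ddc M.toAtl u) := ⟨hκ.1.add (isF_ddc hu), hp⟩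
  have hps : ∀ a, ∀ z ∈ cthickening r (K a),
      (LM ((κ + ddc M.toAtl u) a) z - ((c / C : ℝ) : ℂ) • 1).PosSemidef ∧
        ((((c / C)⁻¹ : ℝ) : ℂ) • 1 - LM ((κ + ddc M.toAtl u) a) z).PosSemidef := by
    intro a z hz
    have hz' := hKt' a hz
    have h3 := hC2 _ u hF hFb hFt hu hp hd ((M.e a).symm z)
    rw [trF_eq hκ hη.1 ((M.e a).map_target hz'), trF_eq hη hκ.1 ((M.e a).map_target hz'),
      (M.e a).right_inv hz'] at h3
    exact APMain_psd hc hC (hκ.2 a z hz') (hp a z hz') (hell a z hz).1 (hell a z hz).2 h3.1 h3.2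
  refine ⟨fun p => (hL₀ _ u hFb hu hp hd p).trans ((le_max_left _ _).trans (le_max_left _ _)),
    fun a z hz => ?_⟩
  have hball : closedBall z r ⊆ cthickening r (K a) := closedBall_subset_cthickening hz r
  refine ⟨(hps a z (self_subset_cthickening _ hz)).1, (hps a z (self_subset_cthickening _ hz)).2,
    fun j k => le_trans ?_ ((le_max_right _ _).trans (le_max_left _ _))⟩
  refine hL₁ z _ _ ((1 - τ) • (ddc M.toAtl F₀ + th M - κ) a + τ • (ddc M.toAtl F₁ + th M - κ) a)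
    (M.e a).open_target (hball.trans (hKt' a)) (hη.1.sm a)
    (((hφ₀.smul (1 - τ)).add (hφ₁.smul τ)).sm a) (hp a) (fun y hy => ?_)
    (fun y hy => ⟨(hps a y (hball hy)).1, (hps a y (hball hy)).2, APMain_comb hτ ?_
      (e₀ a y (hball hy)) (e₁ a y (hball hy))⟩) j k
  · have hy' := (M.e a).map_target hy
    have h3 := dt_eq hη.1 hy'
    rw [(M.e a).right_inv hy, hd, eq_div_iff (Api_k_pos M hy').ne'] at h3
    rw [← h3, Real.log_mul (Real.exp_pos _).ne' (Api_k_pos M hy').ne', Real.log_exp]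
    simp only [Pi.add_apply, Pi.sub_apply, Pi.smul_apply, smul_eq_mul, ddc, th, Atl.loc]
    ring
  · filter_upwards [(M.e a).open_target.mem_nhds (hKt' a (hball hy))] with w hw
    exact ⟨hφ₀.smAt hw, hφ₁.smAt hw⟩

end Vale.Agent.P272
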