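import Vale.Agent.P272.APDefs

/-! P272, part A2: pointwise inequalities for complex matrices. -/

open MeasureTheory Set Filter Topology Metric Matrix
open scoped ContDiff ComplexConjugate ComplexOrder

noncomputable section

namespace Vale.Agent.P272.AP

open Vale.Agent.P271

variable {n : ℕ} {A B P Q G : Mx n} {a b c m : ℝ}

theorem APMat_sum {f : Fin n → ℂ} (h : ∀ r, ‖f r‖ ≤ a) : ‖∑ r, f r‖ ≤ n * a := by
  refine (norm_sum_le _ _).trans ((Finset.sum_le_sum fun r _ => h r).trans ?_)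
  simp

theorem APMat_mul {x y : ℂ} (hx : ‖x‖ ≤ a) (hy : ‖y‖ ≤ b) : ‖x * y‖ ≤ a * b :=
  (norm_mul_le _ _).trans (mul_le_mul hx hy (norm_nonneg _) ((norm_nonneg _).trans hx))

theorem EB.mono (h : EB A a) (hab : a ≤ b) : EB A b :=
  fun i j => (h i j).trans hab

theorem EB.add (h : EB A a) (h' : EB B b) : EB (A + B) (a + b) :=
  fun i j => (norm_add_le _ _).trans (add_le_add (h i j) (h' i j))

theorem EB.sub (h : EB A a) (h' : EB B b) : EB (A - B) (a + b) :=
  fun i j => (norm_sub_le _ _).trans (add_le_add (h i j) (h' i j))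

theorem EB.mul (h : EB A a) (h' : EB B b) : EB (A * B) (n * a * b) := fun i j => by
  rw [Matrix.mul_apply, mul_assoc]
  exact APMat_sum fun r => APMat_mul (h i r) (h' r j)

theorem EB.ct (h : EB A a) : EB Aᴴ a := fun i j => by
  rw [conjTranspose_apply, norm_star]
  exact h j i

theorem EB.trace (h : EB A a) : ‖A.trace‖ ≤ n * a :=
  APMat_sum fun r => h r r

theorem EB_one : EB (1 : Mx n) 1 := fun i j => by
  rw [Matrix.one_apply]
  split_ifs <;> simp

theorem EB_sum_smul {v : Fin n → ℂ} {X : Fin n → Mx n} (hv : ∀ r, ‖v r‖ ≤ a)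
    (hX : ∀ r, EB (X r) b) : EB (∑ r, v r • X r) (n * a * b) := fun i j => by
  rw [Matrix.sum_apply, mul_assoc]
  exact APMat_sum fun r => APMat_mul (hv r) (hX r i j)

theorem norm_sum_sum_le {f : Fin n → Fin n → ℂ} (hP : EB P a) (hf : ∀ p q, ‖f p q‖ ≤ b) :
    ‖∑ p, ∑ q, P p q * f p q‖ ≤ n ^ 2 * a * b := by
  refine (APMat_sum fun p => APMat_sum fun q => APMat_mul (hP p q) (hf p q)).trans (le_of_eq ?_)
  ring

theorem fro_nonneg (X : Fin n → Mx n) : 0 ≤ fro X := by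
  unfold fro
  positivity

theorem EB_fro (X : Fin n → Mx n) (p : Fin n) : EB (X p) √(fro X) := fun i j => by
  refine Real.le_sqrt_of_sq_le ?_
  refine le_trans ?_ (Finset.single_le_sum (f := fun p => ∑ i, ∑ k, ‖X p i k‖ ^ 2)
    (fun _ _ => by positivity) (Finset.mem_univ p))
  refine le_trans ?_ (Finset.single_le_sum (f := fun i => ∑ k, ‖X p i k‖ ^ 2)
    (fun _ _ => by positivity) (Finset.mem_univ i))
  exact Finset.single_le_sum (f := fun k => ‖X p i k‖ ^ 2) (fun _ _ => by positivity)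
    (Finset.mem_univ j)

/-- Write `A = Bᴴ * B`; then `|A i j| ≤ ∑ t, (|B t i| ^ 2 + |B t j| ^ 2) / 2`. -/
theorem EB_psd (hA : A.PosSemidef) : EB A A.trace.re := fun i j => by
  obtain ⟨y, rfl⟩ := Mat_root hA
  have e : (yᴴ * y).trace.re = ∑ i, ∑ t, ‖y t i‖ ^ 2 := by
    simp only [Matrix.trace, Matrix.diag, Matrix.mul_apply, conjTranspose_apply, Complex.re_sum,
      Complex.star_def, Complex.conj_mul', ← Complex.ofReal_pow, Complex.ofReal_re]
  have h : ∀ i, ∑ t, ‖y t i‖ ^ 2 ≤ ∑ i, ∑ t, ‖y t i‖ ^ 2 := fun i =>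
    Finset.single_le_sum (f := fun i => ∑ t, ‖y t i‖ ^ 2) (fun _ _ => by positivity)
      (Finset.mem_univ i)
  have h2 : ‖(yᴴ * y) i j‖ ≤ ∑ t, (‖y t i‖ ^ 2 + ‖y t j‖ ^ 2) / 2 := by
    rw [Matrix.mul_apply]
    refine (norm_sum_le _ _).trans (Finset.sum_le_sum fun t _ => ?_)
    rw [norm_mul, conjTranspose_apply, norm_star]
    nlinarith [sq_nonneg (‖y t i‖ - ‖y t j‖)]
  rw [← Finset.sum_div, Finset.sum_add_distrib] at h2
  rw [e]
  linarith [h i, h j]

theorem trace_le_of_le (h : ((m : ℂ) • (1 : Mx n) - A).PosSemidef) : A.trace.re ≤ n * m := by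
  have := (Complex.nonneg_iff.1 h.trace_nonneg).1
  simp only [trace_sub, trace_smul, trace_one, Fintype.card_fin, smul_eq_mul, Complex.sub_re,
    Complex.mul_re, Complex.ofReal_re, Complex.natCast_re, Complex.ofReal_im, zero_mul] at this
  linarith

/-- `P - c = (P - c)ᴴ G (P - c) + c ^ 2 (c⁻¹ - G)` for `P = G⁻¹`. -/
theorem inv_ge (hG : G.PosDef) (hc : 0 < c) (h : (((c⁻¹ : ℝ) : ℂ) • (1 : Mx n) - G).PosSemidef) :
    (G⁻¹ - (c : ℂ) • 1).PosSemidef := by
  have hu := (Matrix.isUnit_iff_isUnit_det G).1 hG.isUnit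
  have hc' : (c : ℂ) ≠ 0 := Complex.ofReal_ne_zero.2 hc.ne'
  have h1 := (hG.posSemidef.conjTranspose_mul_mul_same (G⁻¹ - (c : ℂ) • 1)).add
    (h.smul (a := (c : ℂ) ^ 2) (pow_nonneg (Complex.zero_le_real.2 hc.le) 2))
  have e : (G⁻¹ - (c : ℂ) • 1)ᴴ * G * (G⁻¹ - (c : ℂ) • 1) +
      (c : ℂ) ^ 2 • (((c⁻¹ : ℝ) : ℂ) • (1 : Mx n) - G) = G⁻¹ - (c : ℂ) • 1 := by
    rw [conjTranspose_sub, hG.inv.1.eq, conjTranspose_smul, conjTranspose_one, Complex.star_def,
      Complex.conj_ofReal]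
    simp only [Matrix.sub_mul, Matrix.mul_sub, Matrix.smul_mul, Matrix.mul_smul, Matrix.one_mul,
      Matrix.mul_one, Matrix.nonsing_inv_mul G hu, Matrix.mul_nonsing_inv G hu,
      Complex.ofReal_inv]
    match_scalars <;> field_simp <;> ring
  exact e ▸ h1

/-- `1 - c P = (1 - c P)ᴴ (1 - c P) + c Pᴴ (G - c) P` for `P = G⁻¹`. -/
theorem inv_le (hG : G.PosDef) (hc : 0 < c) (h : (G - (c : ℂ) • 1).PosSemidef) :
    (((c⁻¹ : ℝ) : ℂ) • (1 : Mx n) - G⁻¹).PosSemidef := by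
  have hu := (Matrix.isUnit_iff_isUnit_det G).1 hG.isUnit
  have hc' : (c : ℂ) ≠ 0 := Complex.ofReal_ne_zero.2 hc.ne'
  have h1 := ((posSemidef_conjTranspose_mul_self (1 - (c : ℂ) • G⁻¹)).smul
    (a := ((c⁻¹ : ℝ) : ℂ)) (Complex.zero_le_real.2 (inv_pos.2 hc).le)).add
    (h.conjTranspose_mul_mul_same G⁻¹)
  have e : ((c⁻¹ : ℝ) : ℂ) • ((1 - (c : ℂ) • G⁻¹)ᴴ * (1 - (c : ℂ) • G⁻¹)) +
      (G⁻¹)ᴴ * (G - (c : ℂ) • 1) * G⁻¹ = ((c⁻¹ : ℝ) : ℂ) • (1 : Mx n) - G⁻¹ := by
    rw [conjTranspose_sub, conjTranspose_smul, hG.inv.1.eq, conjTranspose_one, Complex.star_def,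
      Complex.conj_ofReal]
    simp only [Matrix.sub_mul, Matrix.mul_sub, Matrix.smul_mul, Matrix.mul_smul, Matrix.one_mul,
      Matrix.mul_one, Matrix.nonsing_inv_mul G hu, Complex.ofReal_inv]
    match_scalars <;> field_simp <;> ring
  exact e ▸ h1

/-- Write `P = Bᴴ * B` and use the hypothesis for `v = fun a => conj (B t a)`. -/
theorem gram (hP : P.PosSemidef) {f : Fin n → Fin n → ℂ}
    (h : ∀ v : Fin n → ℂ, 0 ≤ (∑ p, ∑ q, v p * conj (v q) * f p q).re) :
    0 ≤ (∑ p, ∑ q, P p q * f p q).re := by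
  obtain ⟨y, rfl⟩ := Mat_root hP
  have e : ∑ p, ∑ q, (yᴴ * y) p q * f p q =
      ∑ t, ∑ p, ∑ q, conj (y t p) * conj (conj (y t q)) * f p q := by
    simp only [Matrix.mul_apply, conjTranspose_apply, Complex.star_def, Complex.conj_conj,
      Finset.sum_mul]
    exact (Finset.sum_congr rfl fun p _ => Finset.sum_comm).trans Finset.sum_comm
  rw [e, Complex.re_sum]
  exact Finset.sum_nonneg fun t _ => h fun p => conj (y t p)

theorem ip_nonneg (hQ : Q.PosSemidef) (hG : G.PosSemidef) (A : Mx n) : 0 ≤ (ip Q G A A).re :=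
  trace_mul_nonneg (hQ.mul_mul_conjTranspose_same A) hG

theorem APMat_left (Q G : Mx n) (v : Fin n → ℂ) (X : Fin n → Mx n) (B : Mx n) :
    ip Q G (∑ p, v p • X p) B = ∑ p, v p * ip Q G (X p) B := by
  simp only [ip, Matrix.sum_mul, Matrix.smul_mul, trace_sum, trace_smul, smul_eq_mul]

theorem ip_sum (Q G : Mx n) (v w : Fin n → ℂ) (X Y : Fin n → Mx n) :
    ip Q G (∑ p, v p • X p) (∑ q, w q • Y q) =
      ∑ p, ∑ q, v p * conj (w q) * ip Q G (X p) (Y q) := by
  rw [APMat_left]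
  refine Finset.sum_congr rfl fun p _ => ?_
  simp only [ip, conjTranspose_sum, conjTranspose_smul, Matrix.mul_sum, Matrix.sum_mul,
    Matrix.mul_smul, Matrix.smul_mul, trace_sum, trace_smul, smul_eq_mul, Finset.mul_sum,
    Complex.star_def, mul_assoc]

theorem APMat_conj (hQ : Q.IsHermitian) (hG : G.IsHermitian) (A B : Mx n) :
    conj (ip Q G A B) = ip Q G B A := by
  rw [ip, ← Complex.star_def, ← trace_conjTranspose, conjTranspose_mul, conjTranspose_mul,
    conjTranspose_mul, conjTranspose_conjTranspose, hQ.eq, hG.eq, trace_mul_comm, ip,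
    Matrix.mul_assoc B Q]

theorem APMat_cs (hn : 0 < n) (hQ : Q.PosDef) (hG : G.PosDef) (A : Mx n) :
    0 ≤ (((Q * G).trace.re : ℂ) * ip Q G A A - ip Q G A 1 * conj (ip Q G A 1)).re := by
  have hT : 0 < (Q * G).trace.re := by
    have := trace_inv_mul_pos hn hQ.inv hG
    rwa [Matrix.nonsing_inv_nonsing_inv Q ((Matrix.isUnit_iff_isUnit_det Q).1 hQ.isUnit)] at this
  have e1 : ip Q G 1 1 = (Q * G).trace := by simp [ip]
  have e2 : ip Q G 1 1 = ((Q * G).trace.re : ℂ) := by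
    rw [← e1]
    exact (Complex.conj_eq_iff_re.1 (APMat_conj hQ.1 hG.1 1 1)).symm
  obtain ⟨T, hT'⟩ : ∃ T, T = (Q * G).trace.re := ⟨_, rfl⟩
  rw [← hT'] at hT e2 ⊢
  obtain ⟨s, hs⟩ : ∃ s, s = ip Q G A 1 := ⟨_, rfl⟩
  have e3 : ip Q G ((T : ℂ) • A - s • 1) ((T : ℂ) • A - s • 1) = (T : ℂ) * T * ip Q G A A -
      T * conj s * ip Q G A 1 - s * T * ip Q G 1 A + s * conj s * ip Q G 1 1 := by
    simp only [ip, conjTranspose_sub, conjTranspose_smul, Matrix.mul_sub, Matrix.sub_mul,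
      Matrix.mul_smul, Matrix.smul_mul, trace_sub, trace_smul, smul_eq_mul, Complex.star_def,
      Complex.conj_ofReal]
    ring
  have h := ip_nonneg hQ.posSemidef hG.posSemidef ((T : ℂ) • A - s • 1)
  rw [e3, e2, ← APMat_conj hQ.1 hG.1 A 1, ← hs, show (T : ℂ) * T * ip Q G A A -
    T * conj s * s - s * T * conj s + s * conj s * T = T * (T * ip Q G A A - s * conj s) by ring,
    Complex.re_ofReal_mul] at h
  rw [← hs]
  exact (mul_nonneg_iff_of_pos_left hT).1 h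

/-- Cauchy-Schwarz: by `gram` it is enough to show `|ip A 1| ^ 2 ≤ ip 1 1 * ip A A` for
`A = ∑ v p • X p`; expand `0 ≤ ip (A - t • 1) (A - t • 1)`, `ip 1 1 = tr (Q G) > 0`,
`conj (ip A 1) = ip 1 A`. -/
theorem sum_ip_cs (hn : 0 < n) (hP : P.PosSemidef) (hQ : Q.PosDef) (hG : G.PosDef)
    (X : Fin n → Mx n) :
    (∑ p, ∑ q, P p q * (ip Q G (X p) 1 * conj (ip Q G (X q) 1))).re ≤
      (Q * G).trace.re * (∑ p, ∑ q, P p q * ip Q G (X p) (X q)).re := by
  have h := gram hP (f := fun p q => ((Q * G).trace.re : ℂ) * ip Q G (X p) (X q) -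
    ip Q G (X p) 1 * conj (ip Q G (X q) 1)) fun v => by
      have h1 := APMat_cs hn hQ hG (∑ p, v p • X p)
      rw [ip_sum, APMat_left, map_sum, Finset.sum_mul_sum, Finset.mul_sum,
        ← Finset.sum_sub_distrib] at h1
      refine h1.trans_eq (congrArg _ (Finset.sum_congr rfl fun p _ => ?_))
      rw [Finset.mul_sum, ← Finset.sum_sub_distrib]
      refine Finset.sum_congr rfl fun q _ => ?_
      rw [map_mul]
      ring
  simp only [mul_sub, Finset.sum_sub_distrib, mul_left_comm _ ((Q * G).trace.re : ℂ),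
    ← Finset.mul_sum, Complex.sub_re, Complex.re_ofReal_mul] at h
  linarith

theorem APMat_psd (ha : 0 ≤ a) (hQ : (Q - (a : ℂ) • 1).PosSemidef) : Q.PosSemidef := by
  simpa using hQ.add (PosSemidef.one.smul (a := (a : ℂ)) (Complex.zero_le_real.2 ha))

/-- `ip` is linear in `Q` and in `G`; use `gram` for `P - c`, then `ip_nonneg` twice. -/
theorem sum_ip_ge (ha : 0 ≤ a) (hb : 0 ≤ b) (hc : 0 ≤ c) (hP : (P - (c : ℂ) • 1).PosSemidef)
    (hQ : (Q - (a : ℂ) • 1).PosSemidef) (hG : (G - (b : ℂ) • 1).PosSemidef) (X : Fin n → Mx n) :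
    c * a * b * fro X ≤ (∑ p, ∑ q, P p q * ip Q G (X p) (X q)).re := by
  have hQ' := APMat_psd ha hQ
  have hG' := APMat_psd hb hG
  have h1 := gram hP (f := fun p q => ip Q G (X p) (X q)) fun v => by
    rw [← ip_sum]
    exact ip_nonneg hQ' hG' _
  have h2 : ∀ A : Mx n, a * b * ∑ i, ∑ k, ‖A i k‖ ^ 2 ≤ (ip Q G A A).re := fun A => by
    have e : ip Q G A A = ip (Q - (a : ℂ) • 1) G A A + a * ip 1 (G - (b : ℂ) • 1) A A +
        a * (b * (A * Aᴴ).trace) := by
      simp only [ip, Matrix.mul_sub, Matrix.sub_mul, Matrix.mul_smul, Matrix.smul_mul, trace_sub,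
        trace_smul, smul_eq_mul, Matrix.mul_one]
      ring
    have e' : (A * Aᴴ).trace.re = ∑ i, ∑ k, ‖A i k‖ ^ 2 := by
      simp only [Matrix.trace, Matrix.diag, Matrix.mul_apply, conjTranspose_apply, Complex.re_sum,
        Complex.star_def, Complex.mul_conj', ← Complex.ofReal_pow, Complex.ofReal_re]
    rw [e, Complex.add_re, Complex.add_re, Complex.re_ofReal_mul, Complex.re_ofReal_mul,
      Complex.re_ofReal_mul, e']
    have := ip_nonneg hQ hG' A
    have := mul_nonneg ha (ip_nonneg PosSemidef.one hG A)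
    linarith
  have h3 : ∑ p, ∑ q, (P - (c : ℂ) • (1 : Mx n)) p q * ip Q G (X p) (X q) =
      ∑ p, ∑ q, P p q * ip Q G (X p) (X q) - c * ∑ p, ip Q G (X p) (X p) := by
    simp [sub_mul, Matrix.one_apply, Finset.mul_sum]
  have h4 : a * b * fro X ≤ (∑ p, ip Q G (X p) (X p)).re := by
    rw [fro, Finset.mul_sum, Complex.re_sum]
    exact Finset.sum_le_sum fun p _ => h2 (X p)
  rw [h3, Complex.sub_re, Complex.re_ofReal_mul] at h1
  have := mul_le_mul_of_nonneg_left h4 hc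
  linarith

theorem pr_nonneg (hP : P.PosSemidef) (hG : G.PosSemidef) (X : Fin n → Mx n) :
    0 ≤ (pr P G X X).re :=
  gram hP fun v => by
    rw [← ip_sum]
    exact ip_nonneg hP hG _

theorem APMat_pr (P G : Mx n) (v w : Fin n → ℂ) (X Y : Fin n → Fin n → Mx n) :
    pr P G (fun r => ∑ p, v p • X p r) (fun r => ∑ q, w q • Y q r) =
      ∑ p, ∑ q, v p * conj (w q) * pr P G (X p) (Y q) := by
  simp only [pr, ip_sum, Finset.mul_sum]
  refine (Finset.sum_congr rfl fun r _ => Finset.sum_comm).trans (Finset.sum_comm.trans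
    (Finset.sum_congr rfl fun p _ => ?_))
  refine (Finset.sum_congr rfl fun r _ => Finset.sum_comm).trans (Finset.sum_comm.trans
    (Finset.sum_congr rfl fun q _ => ?_))
  exact Finset.sum_congr rfl fun r _ => Finset.sum_congr rfl fun t _ => by ring

theorem sum_pr_nonneg (hP : P.PosSemidef) (hG : G.PosSemidef) (X : Fin n → Fin n → Mx n) :
    0 ≤ (∑ p, ∑ q, P p q * pr P G (X p) (X q)).re :=
  gram hP fun v => by
    rw [← APMat_pr]
    exact pr_nonneg hP hG _

/-- As `sum_pr_nonneg`, with the conjugate coefficients. -/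
theorem sum_pr_nonneg' (hP : P.PosSemidef) (hG : G.PosSemidef) (X : Fin n → Fin n → Mx n) :
    0 ≤ (∑ p, ∑ q, P p q * pr P G (X q) (X p)).re :=
  gram hP fun v => by
    have h := pr_nonneg hP hG fun r => ∑ p, conj (v p) • X p r
    rw [APMat_pr, Finset.sum_comm] at h
    refine h.trans_eq (congrArg _ (Finset.sum_congr rfl fun p _ => Finset.sum_congr rfl
      fun q _ => ?_))
    rw [Complex.conj_conj, mul_comm (v p)]

theorem norm_pr_le {X Y : Fin n → Mx n} (hP : EB P m) (hG : EB G m) (hX : ∀ p, EB (X p) a)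
    (hY : ∀ p, EB (Y p) b) : ‖pr P G X Y‖ ≤ n ^ 6 * m ^ 3 * a * b := by
  refine (norm_sum_sum_le hP fun p q => ((((hX p).mul hP).mul (hY q).ct).mul hG).trace).trans
    (le_of_eq ?_)
  ring

end Vale.Agent.P272.AP
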