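import Vale.Agent.P272.APCal
import Vale.Agent.P272.APMat

/-! P272, part A2: the ring of smooth functions on an open set. -/

open MeasureTheory Set Filter Topology Metric Matrix
open scoped ContDiff ComplexConjugate ComplexOrder

noncomputable section

namespace Vale.Agent.P272.AP

open Vale.Agent.P271 Vale.Agent.P271A

variable {n : ℕ}

section Nat
variable {R : Type} [CommRing R] [StarRing R] {e : R →+* ℂ}

theorem map_ct (he : ∀ f, e (star f) = star (e f)) (A : MR n R) : Aᴴ.map e = (A.map e)ᴴ :=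
  conjTranspose_map (e : R → ℂ) he

theorem ev_trace (e : R →+* ℂ) (A : MR n R) : e A.trace = (A.map e).trace :=
  AddMonoidHom.map_trace e A

theorem ev_ip (he : ∀ f, e (star f) = star (e f)) (P G A B : MR n R) :
    e (ip P G A B) = ip (P.map e) (G.map e) (A.map e) (B.map e) := by
  simp only [ip, ev_trace, Matrix.map_mul, map_ct he]

theorem ev_pr (he : ∀ f, e (star f) = star (e f)) (P G : MR n R) (X Y : Fin n → MR n R) :
    e (pr P G X Y) = pr (P.map e) (G.map e) (fun p => (X p).map e) fun p => (Y p).map e := by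
  simp only [pr, map_sum, map_mul, ev_ip he, map_apply]

end Nat

variable {U : Set (Cn n)} (hU : IsOpen U)

/-- An open set as a Riemann domain. -/
def RU : RD n U :=
  ⟨Subtype.val, hU.isOpenEmbedding_subtypeVal.isLocalHomeomorph, volume.comap Subtype.val,
    fun _ _ _ _ _ _ => (MeasurableEmbedding.subtype_coe hU.measurableSet).comap_apply _ _⟩

/-- The smooth functions on an open set. -/
def SU : StarSubalgebra ℂ (U → ℂ) where
  carrier := {f | (RU hU).Sm f}
  mul_mem' ha hb := RD.Sm.mul ha hb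
  add_mem' ha hb := RD.Sm.add ha hb
  algebraMap_mem' c := RD.sm_const c
  star_mem' ha := RD.Sm.conj ha

/-- A constant vector field as an additive map. -/
def dU (ξ : E n × E n) : SU hU →+ SU hU :=
  AddMonoidHom.mk' (fun f => ⟨(RU hU).dX ξ f.1, RD.Sm.dX f.2 ξ⟩) fun f g =>
    Subtype.ext (funext fun y => RD.dX_add f.2 g.2 y)

/-- The Wirtinger derivatives. -/
def DU : DR n (SU hU) where
  d a := dU hU (zv a)
  b a := dU hU (bv a)
  der _ f g := Subtype.ext (funext fun y => RD.dX_mul f.2 g.2 y)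
  star_d a f := Subtype.ext (funext fun y => RD.conj_dz f.1 a y)
  dd _ _ f := Subtype.ext (funext fun y => RD.dX_comm f.2 y)
  db _ _ f := Subtype.ext (funext fun y => RD.dX_comm f.2 y)

/-- The evaluation at a point. -/
def ev (y : U) : SU hU →+* ℂ where
  toFun f := f.1 y
  map_one' := rfl
  map_mul' _ _ := rfl
  map_zero' := rfl
  map_add' _ _ := rfl

theorem ev_star (y : U) (f : SU hU) : ev hU y (star f) = star (ev hU y f) := rfl

/-- The restriction of a smooth function. -/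
def res (F : Cn n → ℂ) (hF : ∀ z ∈ U, ContDiffAt ℝ ∞ F z) : SU hU :=
  ⟨fun y => F y, RD.sm_pr (D := RU hU) fun y => hF y y.2⟩

variable {hU}

theorem SU_ext {f g : SU hU} (h : ∀ y, ev hU y f = ev hU y g) : f = g := Subtype.ext (funext h)

theorem SU_mext {A B : MR n (SU hU)} (h : ∀ y, A.map (ev hU y) = B.map (ev hU y)) : A = B := by
  ext1 j k
  exact SU_ext fun y => congrFun (congrFun (h y) j) k

/-- `F` represents `g`. -/
def Rep (g : SU hU) (F : Cn n → ℂ) : Prop := ∀ y : U, ev hU y g = F y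

theorem rep_res (F : Cn n → ℂ) (hF : ∀ z ∈ U, ContDiffAt ℝ ∞ F z) : Rep (res hU F hF) F :=
  fun _ => rfl

theorem exists_rep (g : SU hU) : ∃ F, Rep g F :=
  ⟨Function.extend Subtype.val g.1 0, fun y =>
    (Subtype.val_injective.extend_apply g.1 0 y).symm⟩

namespace Rep
variable {g : SU hU} {F : Cn n → ℂ} (h : Rep g F)
include h

theorem sm (y : U) : ContDiffAt ℝ ∞ F y :=
  RD.Sm.rep (D := RU hU) (y := y) g.2 (Eventually.of_forall h)

theorem d (a : Fin n) : Rep ((DU hU).d a g) (dz (Pi.single a 1) F) := fun y =>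
  (RD.dX_rep (D := RU hU) (y := y) (Eventually.of_forall h)).trans (Brid_zv a)

theorem b (a : Fin n) : Rep ((DU hU).b a g) (dzb (Pi.single a 1) F) := fun y =>
  (RD.dX_rep (D := RU hU) (y := y) (Eventually.of_forall h)).trans (Brid_bv a)

end Rep

theorem Rep.lm {g : SU hU} {φ : Cn n → ℝ} (h : Rep g fun z => φ z) (y : U) :
    ((DU hU).lm g).map (ev hU y) = LM φ y := by
  ext j k
  exact (h.b j).d k y

theorem Rep.smR {g : SU hU} {φ : Cn n → ℝ} (h : Rep g fun z => φ z) (y : U) :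
    ContDiffAt ℝ ∞ φ y :=
  Complex.reCLM.contDiff.contDiffAt.comp _ (h.sm y)

theorem Rep.lap {g : SU hU} {φ : Cn n → ℝ} (h : Rep g fun z => φ z) (P : MR n (SU hU)) (y : U) :
    ev hU y ((DU hU).lap P g) = (P.map (ev hU y) * LM φ y).trace := by
  rw [DR.lap_eq, ev_trace, Matrix.map_mul, h.lm]

theorem Rep.star_eq {g : SU hU} {φ : Cn n → ℝ} (h : Rep g fun z => φ z) : star g = g :=
  SU_ext fun y => by rw [ev_star, h y]; exact Complex.conj_ofReal _

theorem rep_dM {A : MR n (SU hU)} {F : Cn n → Mx n} (h : ∀ y : U, A.map (ev hU y) = F y)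
    (p : Fin n) (y : U) : (A.map ((DU hU).d p)).map (ev hU y) = dM p F y := by
  ext j k
  exact Rep.d (F := fun z => F z j k) (fun y => congrFun (congrFun (h y) j) k) p y

theorem rep_bM {A : MR n (SU hU)} {F : Cn n → Mx n} (h : ∀ y : U, A.map (ev hU y) = F y)
    (p : Fin n) (y : U) : (A.map ((DU hU).b p)).map (ev hU y) = bM p F y := by
  ext j k
  exact Rep.b (F := fun z => F z j k) (fun y => congrFun (congrFun (h y) j) k) p y

/-- The logarithm of a positive function. -/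
theorem Rep.log {g : SU hU} {φ : Cn n → ℝ} (h : Rep g fun z => φ z) (h0 : ∀ z ∈ U, 0 < φ z) :
    ∃ l : SU hU, (Rep l fun z => Real.log (φ z)) ∧ ∀ a, (DU hU).d a g = g * (DU hU).d a l := by
  have h1 : ∀ z ∈ U, ContDiffAt ℝ ∞ (fun z => (Real.log (φ z) : ℂ)) z := fun z hz =>
    Brid_ofReal ((h.smR ⟨z, hz⟩).log (h0 z hz).ne')
  refine ⟨res hU _ h1, rep_res _ h1, fun a => SU_ext fun y => ?_⟩
  have h2 : (φ y : ℂ) ≠ 0 := Complex.ofReal_ne_zero.2 (h0 y y.2).ne'
  rw [map_mul, h.d a y, (rep_res _ h1).d a y, h y,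
    dz_comp ((h.smR y).differentiableAt (by simp)) (Real.hasDerivAt_log (h0 y y.2).ne'),
    Complex.ofReal_inv, mul_inv_cancel_left₀ h2]

/-- The inverse of a function without zeros. -/
theorem exists_inv {g : SU hU} (h0 : ∀ y, ev hU y g ≠ 0) : ∃ u : SU hU, u * g = 1 := by
  obtain ⟨F, h⟩ := exists_rep g
  have h1 : ∀ z ∈ U, ContDiffAt ℝ ∞ (fun z => (F z)⁻¹) z := fun z hz =>
    (h.sm ⟨z, hz⟩).inv (h ⟨z, hz⟩ ▸ h0 ⟨z, hz⟩)
  refine ⟨res hU _ h1, SU_ext fun y => ?_⟩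
  rw [map_mul, rep_res _ h1 y, map_one, h y]
  exact inv_mul_cancel₀ (h y ▸ h0 y)

/-- The maximum principle. -/
theorem max_pr {g : SU hU} (hg : star g = g) {y : U}
    (hm : ∀ᶠ w in 𝓝 y, (ev hU w g).re ≤ (ev hU y g).re) {P : MR n (SU hU)}
    (hP : (P.map (ev hU y)).PosSemidef) :
    (∀ a, ev hU y ((DU hU).d a g) = 0) ∧ (ev hU y ((DU hU).lap P g)).re ≤ 0 := by
  obtain ⟨F, h⟩ := exists_rep g
  have h1 : Rep g fun z => ((F z).re : ℝ) := fun w => by
    have h2 := ev_star hU w g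
    rw [hg, h w] at h2
    rw [h w]
    exact (Complex.conj_eq_iff_re.1 h2.symm).symm
  have h2 : IsLocalMax (fun z => (F z).re) (y : Cn n) := by
    rw [IsLocalMax, IsMaxFilter, ← hU.isOpenEmbedding_subtypeVal.map_nhds_eq, eventually_map]
    simpa only [h _] using hm
  refine ⟨fun a => ?_, ?_⟩
  · have h3 := ((h1.smR y).differentiableAt (by simp)).hasFDerivAt
    rw [h2.fderiv_eq_zero] at h3
    have h4 : fderiv ℝ (fun z => ((F z).re : ℂ)) y = _ :=
      (Complex.ofRealCLM.hasFDerivAt.comp _ h3).fderiv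
    rw [h1.d a y, dz, h4]
    simp
  · have h3 := trace_mul_nonneg hP (LM_of_isLocalMax (h1.smR y) h2)
    rw [Matrix.mul_neg, trace_neg, Complex.neg_re] at h3
    rw [h1.lap]
    linarith

/-- The Kaehler metric given by a potential. -/
theorem exists_KS {Φ : Cn n → ℝ} (h : ∀ z ∈ U, ContDiffAt ℝ ∞ Φ z)
    (hp : ∀ z ∈ U, (LM Φ z).PosDef) :
    ∃ (K : KS (DU hU)) (φ : SU hU), (Rep φ fun z => Φ z) ∧ K.G = (DU hU).lm φ ∧
      (∀ y : U, K.G.map (ev hU y) = LM Φ y) ∧ (∀ y : U, K.P.map (ev hU y) = (LM Φ y)⁻¹) ∧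
      (∀ a (y : U), (K.Γ a).map (ev hU y) = Chr Φ a y) ∧
      Rep K.l fun z => Real.log (LM Φ z).det.re := by
  have h1 := rep_res (hU := hU) (fun z => (Φ z : ℂ)) fun z hz => Brid_ofReal (h z hz)
  set φ := res hU (fun z => (Φ z : ℂ)) fun z hz => Brid_ofReal (h z hz)
  have h2 : Rep ((DU hU).lm φ).det fun z => ((LM Φ z).det.re : ℝ) := fun y => by
    rw [RingHom.map_det, RingHom.mapMatrix_apply, h1.lm]
    exact det_eq_re (hp y y.2).1
  obtain ⟨l, hl, hl'⟩ := h2.log fun z hz => det_re_pos (hp z hz)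
  obtain ⟨u, hu⟩ := exists_inv (g := ((DU hU).lm φ).det) fun y => by
    rw [h2 y]
    exact Complex.ofReal_ne_zero.2 (det_re_pos (hp y y.2)).ne'
  have h3 : u • ((DU hU).lm φ).adjugate * (DU hU).lm φ = 1 := by
    rw [Matrix.smul_mul, adjugate_mul, smul_smul, hu, one_smul]
  have h4 : ∀ y : U, (u • ((DU hU).lm φ).adjugate).map (ev hU y) = (LM Φ y)⁻¹ := fun y => by
    have h5 := congrArg (fun A : MR n (SU hU) => A.map (ev hU y)) h3
    simp only [Matrix.map_mul, h1.lm, Matrix.map_one _ (map_zero _) (map_one _)] at h5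
    exact (inv_eq_left_inv h5).symm
  refine ⟨⟨(DU hU).lm φ, _, l, SU_mext fun y => ?_, h3, fun a j k => (DU hU).dd _ _ _, hl'⟩, φ, h1,
    rfl, h1.lm, h4, fun a y => ?_, hl⟩
  · rw [map_ct (ev_star hU y), h1.lm]
    exact (hp y y.2).1
  · rw [KS.Γ, DR.Gam, Matrix.map_mul, h4, rep_dM h1.lm]
    rfl

theorem Spsh.exists_open {Φ Ψ : Cn n → ℝ} {z : Cn n} (hΦ : Spsh Φ z) (hΨ : Spsh Ψ z) :
    ∃ U : Set (Cn n), IsOpen U ∧ z ∈ U ∧ (∀ y ∈ U, ContDiffAt ℝ ∞ Φ y) ∧
      (∀ y ∈ U, (LM Φ y).PosDef) ∧ (∀ y ∈ U, ContDiffAt ℝ ∞ Ψ y) ∧ ∀ y ∈ U, (LM Ψ y).PosDef := by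
  obtain ⟨U, h1, h2, h3⟩ := _root_.eventually_nhds_iff.1 (hΦ.and hΨ)
  exact ⟨U, h2, h3, fun y hy => (h1 y hy).1.1, fun y hy => (h1 y hy).1.2,
    fun y hy => (h1 y hy).2.1, fun y hy => (h1 y hy).2.2⟩

end Vale.Agent.P272.AP
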