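import Vale.Agent.P272.APYau

/-! P272, part A2: the Aubin-Yau inequality on the manifold. -/

open MeasureTheory Set Filter Topology Metric Matrix
open scoped ContDiff ComplexConjugate ComplexOrder

noncomputable section

namespace Vale.Agent.P272.AP

open Vale.Agent.P271

variable {n : ℕ} {X : Type} [TopologicalSpace X] [T2Space X] [CompactSpace X]
  [MeasurableSpace X] [BorelSpace X] {M : Model n X}

theorem APY2_mat {W G : Mx n} {c : ℝ} (hW : W.PosDef) (hG : G.PosDef)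
    (h1 : (W - (c : ℂ) • 1).PosSemidef) (h2 : (((c⁻¹ : ℝ) : ℂ) • 1 - W).PosSemidef) :
    c * G⁻¹.trace.re ≤ (G⁻¹ * W).trace.re ∧ G.trace.re ≤ (W⁻¹ * G).trace.re * (n * c⁻¹) := by
  have a1 := trace_mul_nonneg hG.inv.posSemidef h1
  rw [Matrix.mul_sub, trace_sub, Matrix.mul_smul, Matrix.mul_one, trace_smul, Complex.sub_re,
    smul_eq_mul, Complex.re_ofReal_mul] at a1
  have a2 := trace_mul_nonneg (psd_trace_sub hW hG.posSemidef) PosSemidef.one
  rw [Matrix.mul_one, trace_sub, trace_smul, Complex.sub_re, smul_eq_mul,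
    Complex.re_ofReal_mul] at a2
  have a3 := mul_le_mul_of_nonneg_left (trace_le_of_le h2)
    (trace_mul_nonneg hW.inv.posSemidef hG.posSemidef)
  exact ⟨by linarith, by linarith⟩

omit [T2Space X] [CompactSpace X] [MeasurableSpace X] [BorelSpace X] in
theorem APY2_spsh {A : Atl n X} {w : Frm A} (hw : Kae A w) {a : A.ι} {z : Cn n}
    (hz : z ∈ (A.e a).target) : Spsh (w a) z := by
  filter_upwards [(A.e a).open_target.mem_nhds hz] with y hy
  exact ⟨hw.1.smAt hy, hw.2 a y hy⟩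

omit [T2Space X] [CompactSpace X] [MeasurableSpace X] [BorelSpace X] in
theorem APY2_bd {A : Atl n X} {w : Frm A} (hw : Kae A w) {K : A.ι → Set (Cn n)}
    (hK : ∀ a, IsCompact (K a)) (hKt : ∀ a, K a ⊆ (A.e a).target) :
    ∃ m : ℝ, 0 ≤ m ∧ ∀ a, ∀ z ∈ K a, ∀ i j, EB (Cur (w a) i j z) m := by
  have h1 : ∀ t : A.ι × Fin n × Fin n × Fin n × Fin n, ∃ C : ℝ, ∀ z ∈ K t.1,
      ‖Cur (w t.1) t.2.1 t.2.2.1 z t.2.2.2.1 t.2.2.2.2‖ ≤ C := fun t =>
    (hK t.1).exists_bound_of_continuousOn fun z hz =>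
      (continuousAt_Cur (APY2_spsh hw (hKt _ hz)) _ _ _ _).continuousWithinAt
  choose C hC using h1
  obtain ⟨m, hm⟩ := (Set.finite_range C).bddAbove
  exact ⟨max 0 m, le_max_left _ _, fun a z hz i j k l =>
    ((hC (a, i, j, k, l) z hz).trans (hm ⟨_, rfl⟩)).trans (le_max_right _ _)⟩

/-- Take `c, K` from `exists_margin`, `m ≥ 0` a bound for the entries of `Cur (w a)` on `K a`
(`continuousAt_Cur`, finitely many indices), `B = n ^ 5 * m / c ^ 2`. At `p` take the chart `a` with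
`e a p ∈ K a`, rewrite with `trF_eq`, `LM_ricci`, `LM_congr` (the function `loc a (log trF w η)` is
`log tr (W⁻¹ G)` on the target) and use `yau_local`. With `W = LM (w a)`, `G = LM (η a)`:
`c tr G⁻¹ ≤ tr (G⁻¹ W)` (`trace_mul_nonneg` for `G⁻¹`, `W - c`) and
`tr G ≤ tr (W⁻¹ G) tr W ≤ tr (W⁻¹ G) n / c` (`psd_trace_sub`, `trace_le_of_le`). -/
theorem yau_ineq' (hn : 0 < n) {w : Frm M.toAtl} (hw : Kae M.toAtl w) :
    ∃ B : ℝ, 0 ≤ B ∧ ∀ η, Kae M.toAtl η → ∀ p,
      trF M.toAtl w (th M + ddc M.toAtl fun q => Real.log (dt M η q)) p / trF M.toAtl w η p -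
          B * trF M.toAtl η w p ≤
        trF M.toAtl η (ddc M.toAtl fun q => Real.log (trF M.toAtl w η q)) p := by
  obtain ⟨R, c, hR, hc, K, hK, hKt, hcov, hell⟩ := exists_margin hw
  obtain ⟨m, hm0, hm⟩ := APY2_bd hw hK hKt
  refine ⟨n ^ 5 * m / c ^ 2, by positivity, fun η hη p => ?_⟩
  obtain ⟨a, hp, hb⟩ := hcov p
  have hz : M.toAtl.e a p ∈ K a := hb (mem_closedBall_self hR.le)
  have ht := hKt a hz
  have s1 : M.toAtl.Sm fun q => Real.log (trF M.toAtl w η q) := fun b =>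
    (sm_trF hw hη.1 b).log fun _ _ => (trF_pos hn hw hη _).ne'
  have e1 : LM (ddc M.toAtl (fun q => Real.log (trF M.toAtl w η q)) a) (M.toAtl.e a p) =
      LM (fun y => Real.log ((LM (w a) y)⁻¹ * LM (η a) y).trace.re) (M.toAtl.e a p) := by
    refine LM_congr ?_
    filter_upwards [(M.toAtl.e a).open_target.mem_nhds ht] with y hy
    change Real.log (trF M.toAtl w η ((M.toAtl.e a).symm y)) = _
    rw [trF_eq hw hη.1 ((M.toAtl.e a).map_target hy), (M.toAtl.e a).right_inv hy]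
  rw [trF_eq hw ((isF_th M).add (isF_ddc (sm_log_dt hη))) hp, trF_eq hw hη.1 hp,
    trF_eq hη hw.1 hp, trF_eq hη (isF_ddc s1) hp, LM_ricci hη ht, e1]
  refine le_trans ?_ (yau_local hn (APY2_spsh hη ht) (APY2_spsh hw ht) (hm a _ hz))
  have hW := hw.2 a _ ht
  have hG := hη.2 a _ ht
  obtain ⟨b1, b2⟩ := APY2_mat hW hG (hell a _ hz).1 (hell a _ hz).2
  have b3 := trace_inv_mul_pos hn hW hG
  have b4 := trace_mul_nonneg hG.inv.posSemidef PosSemidef.one
  rw [Matrix.mul_one] at b4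
  generalize ((LM (w a) (M.toAtl.e a p))⁻¹ * LM (η a) (M.toAtl.e a p)).trace.re = τ at *
  generalize ((LM (η a) (M.toAtl.e a p))⁻¹ * LM (w a) (M.toAtl.e a p)).trace.re = s at *
  generalize (LM (η a) (M.toAtl.e a p))⁻¹.trace.re = x at *
  generalize (LM (η a) (M.toAtl.e a p)).trace.re = y at *
  rw [sub_div]
  refine sub_le_sub_left ?_ _
  rw [div_le_iff₀ b3]
  have b5 : x ≤ s * c⁻¹ := by
    rw [← div_eq_mul_inv, le_div_iff₀ hc]
    linarith
  calc (n : ℝ) ^ 4 * m * x * y ≤ n ^ 4 * m * x * (τ * (n * c⁻¹)) :=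
        mul_le_mul_of_nonneg_left b2 (by positivity)
    _ ≤ n ^ 4 * m * (s * c⁻¹) * (τ * (n * c⁻¹)) := by gcongr
    _ = n ^ 5 * m / c ^ 2 * s * τ := by field_simp

end Vale.Agent.P272.AP
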