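import Vale.Agent.P272.APRing

/-! P272, part A2: the Aubin-Yau inequality in a chart. -/

open MeasureTheory Set Filter Topology Metric Matrix
open scoped ContDiff ComplexConjugate ComplexOrder

noncomputable section

namespace Vale.Agent.P272.AP

open Vale.Agent.P271

variable {n : ℕ} {Φ Ψ : Cn n → ℝ} {z : Cn n}

theorem rep_Cur {U : Set (Cn n)} {hU : IsOpen U} {K : KS (DU hU)}
    (hP : ∀ y : U, K.P.map (ev hU y) = (LM Ψ y)⁻¹)
    (hΓ : ∀ a (y : U), (K.Γ a).map (ev hU y) = Chr Ψ a y) (a b : Fin n) (y : U) :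
    ((K.Γ a).map ((DU hU).b b) * K.P).map (ev hU y) = Cur Ψ a b y := by
  rw [Matrix.map_mul, hP, rep_bM (hΓ a), Cur]

theorem continuousAt_Cur (hΨ : Spsh Ψ z) (a b j k : Fin n) :
    ContinuousAt (fun y => Cur Ψ a b y j k) z := by
  obtain ⟨U, hU, hz, h1, h2, -⟩ := hΨ.exists_open hΨ
  obtain ⟨K, φ, -, -, -, hP, hΓ, -⟩ := exists_KS (hU := hU) h1 h2
  exact (Rep.sm (F := fun y => Cur Ψ a b y j k)
    (fun y => congrFun (congrFun (rep_Cur hP hΓ a b y) j) k) ⟨z, hz⟩).continuousAt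

theorem continuousAt_trace_inv (hΨ : Spsh Ψ z) :
    ContinuousAt (fun y => (LM Ψ y)⁻¹.trace.re) z := by
  obtain ⟨U, hU, hz, h1, h2, -⟩ := hΨ.exists_open hΨ
  obtain ⟨K, φ, -, -, -, hP, -⟩ := exists_KS (hU := hU) h1 h2
  have h3 : Rep K.P.trace fun y => (LM Ψ y)⁻¹.trace := fun y => by rw [ev_trace, hP]
  exact Complex.continuous_re.continuousAt.comp (h3.sm ⟨z, hz⟩).continuousAt

theorem yau_local (hn : 0 < n) (hΦ : Spsh Φ z) (hΨ : Spsh Ψ z) {m : ℝ}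
    (hm : ∀ a b, EB (Cur Ψ a b z) m) :
    (((LM Ψ z)⁻¹ * LM (fun y => Real.log (LM Φ y).det.re) z).trace.re -
        n ^ 4 * m * (LM Φ z)⁻¹.trace.re * (LM Φ z).trace.re) / ((LM Ψ z)⁻¹ * LM Φ z).trace.re ≤
      ((LM Φ z)⁻¹ * LM (fun y => Real.log ((LM Ψ y)⁻¹ * LM Φ y).trace.re) z).trace.re := by
  obtain ⟨U, hU, hz, h1, h2, h3, h4⟩ := hΦ.exists_open hΨ
  obtain ⟨K, φ, -, -, hG, hP, hΓ, hl⟩ := exists_KS (hU := hU) h1 h2
  obtain ⟨K', ψ, -, -, hW, hQ, hΓ', -⟩ := exists_KS (hU := hU) h3 h4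
  have hs : star (K'.P * K.G).trace = (K'.P * K.G).trace := by
    rw [← trace_conjTranspose, conjTranspose_mul, K.herm, K'.hP, trace_mul_comm]
  have hu : Rep (K'.P * K.G).trace fun y => (((LM Ψ y)⁻¹ * LM Φ y).trace.re : ℝ) := fun y => by
    have h5 := ev_star hU y (K'.P * K.G).trace
    rw [hs, ev_trace, Matrix.map_mul, hQ, hG] at h5
    rw [ev_trace, Matrix.map_mul, hQ, hG]
    exact (Complex.conj_eq_iff_re.1 h5.symm).symm
  have hu0 : ∀ y ∈ U, 0 < ((LM Ψ y)⁻¹ * LM Φ y).trace.re := fun y hy =>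
    trace_inv_mul_pos hn (h4 y hy) (h2 y hy)
  obtain ⟨l, hl1, hl2⟩ := hu.log hu0
  set y : U := ⟨z, hz⟩
  have e1 := congrArg (ev hU y) ((DU hU).lap_log K.P hl2)
  have e2 := congrArg (ev hU y) (K.lap_trace K'.PG K'.herm)
  have e3 : ∀ a, ev hU y ((DU hU).d a (K'.P * K.G).trace) =
      ip (LM Ψ z)⁻¹ (LM Φ z) ((K.Γ a - K'.Γ a).map (ev hU y)) 1 := fun a => by
    rw [K.d_trace K'.PG, ev_ip (ev_star hU y), hQ, hG, Matrix.map_one _ (map_zero _) (map_one _)]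
    rfl
  have e4 : ∀ a, ev hU y ((DU hU).b a (K'.P * K.G).trace) =
      conj (ip (LM Ψ z)⁻¹ (LM Φ z) ((K.Γ a - K'.Γ a).map (ev hU y)) 1) := fun a => by
    rw [← hs, ← (DU hU).star_d, ev_star, e3]
    rfl
  have e5 : ∀ a c, ev hU y (K.P a c) = (LM Φ z)⁻¹ a c := fun a c => congrFun (congrFun (hP y) a) c
  have e6 : ∀ a c, ev hU y (K.G * (((DU hU).Gam K'.P K'.G a).map ((DU hU).b c) * K'.P)).trace =
      (LM Φ z * Cur Ψ a c z).trace := fun a c => by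
    rw [ev_trace, Matrix.map_mul, hG, ← rep_Cur hQ hΓ' a c y]
    rfl
  have e7 : ev hU y (K'.P * (DU hU).lm K.l).trace =
      ((LM Ψ z)⁻¹ * LM (fun y => Real.log (LM Φ y).det.re) z).trace := by
    rw [ev_trace, Matrix.map_mul, hQ, hl.lm]
  simp only [map_add, map_sub, map_sum, map_mul, e5, e6, e7, ev_ip (ev_star hU y), hQ, hG] at e2
  simp only [map_sub, map_sum, map_mul, e3, e4, e5, e2, hu y, hl1.lap, hP] at e1
  have e8 := sum_ip_cs hn (h2 z hz).inv.posSemidef (h4 z hz).inv (h2 z hz)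
    fun a => (K.Γ a - K'.Γ a).map (ev hU y)
  have hy : (y : Cn n) = z := rfl
  have e9 := (Complex.re_le_norm _).trans (norm_sum_sum_le (EB_psd (h2 z hz).inv.posSemidef)
    fun a c => ((EB_psd (h2 z hz).posSemidef).mul (hm a c)).trace)
  have e10 := congrArg Complex.re e1
  simp only [Complex.sub_re, Complex.add_re, mul_assoc, Complex.re_ofReal_mul, hy,
    show ∀ a, (DU hU).Gam K'.P K'.G a = K'.Γ a from fun _ => rfl] at e10
  have e11 := hu0 z hz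
  rw [div_le_iff₀ e11]
  refine le_of_mul_le_mul_left ?_ e11
  have e12 := mul_le_mul_of_nonneg_left e9 e11.le
  linarith

end Vale.Agent.P272.AP
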