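import Mathlib

/-! P272, part B: the Cauchy-Pompeiu formula and integrals depending on parameters. -/

open MeasureTheory Set Metric Filter Topology
open scoped ContDiff Real Convolution

noncomputable section

namespace Vale.Agent.P272

section Aux

variable {W : Type} [NormedAddCommGroup W]

lemma B0_intOn {G : ℝ × ℝ → W} (hG : Continuous G) {R : ℝ}
    (h0 : ∀ p : ℝ × ℝ, R < p.1 → G p = 0) :
    Integrable G (((volume : Measure ℝ).restrict (Ioi 0)).prod
      ((volume : Measure ℝ).restrict (Ioo (-π) π))) := by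
  rw [Measure.prod_restrict]
  have h1 : IntegrableOn G (Icc 0 R ×ˢ Icc (-π) π) ((volume : Measure ℝ).prod volume) :=
    hG.continuousOn.integrableOn_compact (isCompact_Icc.prod isCompact_Icc)
  refine h1.of_forall_sdiff_eq_zero (measurableSet_Ioi.prod measurableSet_Ioo) ?_
  rintro p ⟨⟨h2, h3⟩, h4⟩
  refine h0 p (lt_of_not_ge fun h5 => h4 ⟨⟨le_of_lt h2, h5⟩, Ioo_subset_Icc_self h3⟩)

/-- The point of the unit circle with argument `t`. -/
def B0E (t : ℝ) : ℂ := Real.cos t + Real.sin t * Complex.I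

lemma B0E_cont : Continuous B0E := by unfold B0E; fun_prop

lemma B0E_norm (t : ℝ) : ‖B0E t‖ = 1 := by
  rw [B0E, Complex.ofReal_cos, Complex.ofReal_sin, Complex.norm_cos_add_sin_mul_I]

lemma B0E_deriv (t : ℝ) : HasDerivAt B0E (Complex.I * B0E t) t := by
  have h := (Real.hasDerivAt_cos t).ofReal_comp.add
    ((Real.hasDerivAt_sin t).ofReal_comp.mul_const Complex.I)
  refine h.congr_deriv ?_
  rw [B0E]
  push_cast
  linear_combination (-Complex.sin t) * Complex.I_mul_I

lemma B0E_inv (t : ℝ) : (B0E t)⁻¹ = Real.cos t - Real.sin t * Complex.I := by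
  refine inv_eq_of_mul_eq_one_right ?_
  rw [B0E]
  push_cast
  linear_combination (-(Complex.sin t) ^ 2) * Complex.I_mul_I + Complex.cos_sq_add_sin_sq (t : ℂ)

end Aux

section Pomp

variable {V : Type} [NormedAddCommGroup V] [NormedSpace ℂ V] [CompleteSpace V]

omit [CompleteSpace V] in
lemma B0_alg (L : ℂ →L[ℝ] V) {r : ℝ} (hr : r ≠ 0) (t : ℝ) :
    r • (((r : ℂ) * B0E t)⁻¹ • (L 1 + Complex.I • L Complex.I)) =
      L (B0E t) + Complex.I • L (Complex.I * B0E t) := by
  have e1 : B0E t = Real.cos t • (1 : ℂ) + Real.sin t • Complex.I := by simp [B0E]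
  have e2 : Complex.I * B0E t = (-Real.sin t) • (1 : ℂ) + Real.cos t • Complex.I := by
    simp only [B0E, Complex.real_smul]
    push_cast
    linear_combination (Complex.sin t) * Complex.I_mul_I
  have hr' : (r : ℂ) ≠ 0 := Complex.ofReal_ne_zero.2 hr
  have f1 : L (B0E t) = (Real.cos t : ℂ) • L 1 + (Real.sin t : ℂ) • L Complex.I := by
    rw [e1, map_add, map_smul, map_smul, Complex.coe_smul, Complex.coe_smul]
  have f2 : L (Complex.I * B0E t) =
      ((-Real.sin t : ℝ) : ℂ) • L 1 + (Real.cos t : ℂ) • L Complex.I := by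
    rw [e2, map_add, map_smul, map_smul, Complex.coe_smul, Complex.coe_smul]
  rw [f1, f2, ← Complex.coe_smul, smul_smul, mul_inv, mul_inv_cancel_left₀ hr', B0E_inv]
  match_scalars
  · ring
  · linear_combination (-Complex.sin t) * Complex.I_mul_I

/-- Polar coordinates: the integrand times the radius is the radial derivative plus
`I / radius` times the angular derivative. -/
theorem B0_pomp {H : ℂ → V} (hH : ContDiff ℝ 1 H) (hc : HasCompactSupport H) :
    ∫ u : ℂ, u⁻¹ • (fderiv ℝ H u 1 + Complex.I • fderiv ℝ H u Complex.I) =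
      (-(2 * π : ℂ)) • H 0 := by
  have hD : Continuous (fderiv ℝ H) := hH.continuous_fderiv one_ne_zero
  have hd : Differentiable ℝ H := hH.differentiable one_ne_zero
  obtain ⟨R, hR⟩ := hc.isCompact.isBounded.subset_closedBall 0
  have hn : ∀ r t : ℝ, ‖(r : ℂ) * B0E t‖ = |r| := fun r t => by
    rw [norm_mul, B0E_norm, mul_one, Complex.norm_real, Real.norm_eq_abs]
  have hz : ∀ r t : ℝ, R < |r| → (r : ℂ) * B0E t ∉ tsupport H := fun r t h h' => by
    have := mem_closedBall_zero_iff.1 (hR h')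
    rw [hn] at this
    linarith
  have hP : Continuous fun p : ℝ × ℝ => fderiv ℝ H ((p.1 : ℂ) * B0E p.2) :=
    hD.comp ((Complex.continuous_ofReal.comp continuous_fst).mul (B0E_cont.comp continuous_snd))
  have iA := B0_intOn (G := fun p : ℝ × ℝ => fderiv ℝ H ((p.1 : ℂ) * B0E p.2) (B0E p.2))
    (hP.clm_apply (B0E_cont.comp continuous_snd)) (R := R) fun p hp => by
      rw [fderiv_of_notMem_tsupport ℝ (hz _ _ (hp.trans_le (le_abs_self _)))]; rfl
  have iB := B0_intOn (G := fun p : ℝ × ℝ =>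
      Complex.I • fderiv ℝ H ((p.1 : ℂ) * B0E p.2) (Complex.I * B0E p.2))
    ((hP.clm_apply (continuous_const.mul (B0E_cont.comp continuous_snd))).const_smul _)
    (R := R) fun p hp => by
      rw [fderiv_of_notMem_tsupport ℝ (hz _ _ (hp.trans_le (le_abs_self _)))]; simp
  have eA : ∀ t : ℝ, ∫ r in Ioi (0 : ℝ), fderiv ℝ H ((r : ℂ) * B0E t) (B0E t) = -H 0 := by
    intro t
    have h1 : ContDiff ℝ 1 fun r : ℝ => H ((r : ℂ) * B0E t) :=
      hH.comp (Complex.ofRealCLM.contDiff.mul contDiff_const)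
    have h2 : HasCompactSupport fun r : ℝ => H ((r : ℂ) * B0E t) :=
      HasCompactSupport.intro (isCompact_closedBall (0 : ℝ) R) fun r hr =>
        image_eq_zero_of_notMem_tsupport (hz r t (not_le.1 fun h =>
          hr (mem_closedBall_zero_iff.2 h)))
    have h3 := h2.integral_Ioi_deriv_eq h1 0
    rw [Complex.ofReal_zero, zero_mul] at h3
    rw [← h3]
    refine integral_congr_ae (Filter.Eventually.of_forall fun r => ?_)
    have h4 : HasDerivAt (fun r : ℝ => (r : ℂ) * B0E t) (B0E t) r := by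
      simpa using (hasDerivAt_id r).ofReal_comp.mul_const (B0E t)
    exact ((hd _).hasFDerivAt.comp_hasDerivAt r h4).deriv.symm
  have eB : ∀ r : ℝ, r ≠ 0 → ∫ t in Ioo (-π) π,
      Complex.I • fderiv ℝ H ((r : ℂ) * B0E t) (Complex.I * B0E t) = 0 := by
    intro r hr
    have h1 : ∀ t : ℝ, HasDerivAt (fun t : ℝ => r⁻¹ • H ((r : ℂ) * B0E t))
        (fderiv ℝ H ((r : ℂ) * B0E t) (Complex.I * B0E t)) t := by
      intro t
      have h2 := ((hd _).hasFDerivAt.comp_hasDerivAt t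
        ((B0E_deriv t).const_mul (r : ℂ))).const_smul r⁻¹
      refine h2.congr_deriv ?_
      rw [← Complex.real_smul (x := r) (z := Complex.I * B0E t), map_smul, inv_smul_smul₀ hr]
    have h3 : Continuous fun t : ℝ => fderiv ℝ H ((r : ℂ) * B0E t) (Complex.I * B0E t) :=
      (hD.comp (continuous_const.mul B0E_cont)).clm_apply (continuous_const.mul B0E_cont)
    have h4 : B0E π = B0E (-π) := by simp [B0E]
    rw [integral_smul, ← integral_Ioc_eq_integral_Ioo,
      ← intervalIntegral.integral_of_le (by linarith [Real.pi_pos]),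
      intervalIntegral.integral_eq_sub_of_hasDerivAt (fun t _ => h1 t) (h3.intervalIntegrable _ _),
      h4, sub_self, smul_zero]
  rw [← Complex.integral_comp_polarCoord_symm]
  have e0 : polarCoord.target = Ioi (0 : ℝ) ×ˢ Ioo (-π) π := rfl
  rw [e0, setIntegral_congr_fun (measurableSet_Ioi.prod measurableSet_Ioo)
    (g := fun p : ℝ × ℝ => fderiv ℝ H ((p.1 : ℂ) * B0E p.2) (B0E p.2) +
      Complex.I • fderiv ℝ H ((p.1 : ℂ) * B0E p.2) (Complex.I * B0E p.2))
    fun p hp => by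
      rw [Complex.polarCoord_symm_apply]
      exact B0_alg _ (ne_of_gt hp.1) p.2,
    Measure.volume_eq_prod, ← Measure.prod_restrict, integral_add iA iB,
    integral_prod_symm _ iA, integral_prod _ iB]
  have e1 : ∫ r in Ioi (0 : ℝ), ∫ t in Ioo (-π) π,
      Complex.I • fderiv ℝ H ((r : ℂ) * B0E t) (Complex.I * B0E t) = 0 :=
    setIntegral_eq_zero_of_forall_eq_zero fun r hr => eB r (ne_of_gt hr)
  simp only [eA]
  rw [e1, add_zero, setIntegral_const, Real.volume_real_Ioo_of_le (by linarith [Real.pi_pos]),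
    ← Complex.coe_smul, smul_neg, neg_smul]
  congr 2
  push_cast
  ring

end Pomp

section Param

variable {P G : Type} [NormedAddCommGroup P] [NormedSpace ℝ P] [NormedAddCommGroup G]
  [NormedSpace ℝ G] [MeasurableSpace G] [BorelSpace G] [ProperSpace G] {μ : Measure G}
  {f : G → ℂ} {g : P × G → ℂ}

omit [NormedAddCommGroup P] [NormedSpace ℝ P] [NormedSpace ℝ G] [BorelSpace G] [ProperSpace G] in
theorem B0_conv (f : G → ℂ) (g : P × G → ℂ) (p : P) :
    (f ⋆[ContinuousLinearMap.mul ℝ ℂ, μ] fun x => g (p, -x)) 0 = ∫ t, f t * g (p, t) ∂μ := by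
  simp [convolution_def]

theorem B0_smooth (hf : LocallyIntegrable f μ) (hg : ContDiff ℝ ∞ g)
    (hs : ∀ R : ℝ, ∃ R' : ℝ, ∀ p t, ‖p‖ < R → R' < ‖t‖ → g (p, t) = 0) :
    ContDiff ℝ ∞ fun p => ∫ t, f t * g (p, t) ∂μ := by
  refine contDiff_iff_contDiffAt.2 fun p => ?_
  obtain ⟨R', hR⟩ := hs (‖p‖ + 1)
  have hg' : ContDiff ℝ ∞ (↿fun (p : P) (x : G) => g (p, -x)) :=
    hg.comp (contDiff_fst.prodMk contDiff_snd.neg)
  have h := contDiffOn_convolution_right_with_param_comp (n := ⊤) (μ := μ)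
    (ContinuousLinearMap.mul ℝ ℂ) (s := ball (0 : P) (‖p‖ + 1)) (v := fun _ => (0 : G))
    contDiffOn_const (f := f) (g := fun p x => g (p, -x)) isOpen_ball
    (isCompact_closedBall (0 : G) R') (fun q x hq hx => hR q (-x) (mem_ball_zero_iff.1 hq)
      (by rw [norm_neg]; exact not_le.1 fun h => hx (mem_closedBall_zero_iff.2 h)))
    hf hg'.contDiffOn
  simp only [B0_conv] at h
  exact h.contDiffAt (isOpen_ball.mem_nhds (mem_ball_zero_iff.2 (lt_add_one _)))

omit [NormedSpace ℝ G] in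
theorem B0_int (hf : LocallyIntegrable f μ) {k : G → ℂ} (hk : Continuous k) {R : ℝ}
    (hs : ∀ t, R < ‖t‖ → k t = 0) : Integrable (fun t => f t * k t) μ :=
  hf.integrable_smul_right_of_hasCompactSupport hk
    (HasCompactSupport.intro (isCompact_closedBall (0 : G) R) fun x hx =>
      hs x (not_le.1 fun h => hx (mem_closedBall_zero_iff.2 h)))

omit [MeasurableSpace G] [BorelSpace G] [ProperSpace G] in
theorem B0_supp (hs : ∀ R : ℝ, ∃ R' : ℝ, ∀ p t, ‖p‖ < R → R' < ‖t‖ → g (p, t) = 0) (R : ℝ) :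
    ∃ R' : ℝ, ∀ p t, ‖p‖ < R → R' < ‖t‖ → fderiv ℝ g (p, t) = 0 := by
  obtain ⟨R', hR⟩ := hs R
  refine ⟨R', fun p t hp ht => ?_⟩
  have h : g =ᶠ[𝓝 (p, t)] fun _ => 0 := by
    have h1 : IsOpen {q : P × G | ‖q.1‖ < R ∧ R' < ‖q.2‖} :=
      (isOpen_lt continuous_fst.norm continuous_const).inter
        (isOpen_lt continuous_const continuous_snd.norm)
    filter_upwards [h1.mem_nhds ⟨hp, ht⟩] with q hq
    exact hR q.1 q.2 hq.1 hq.2
  rw [h.fderiv_eq, fderiv_fun_const]
  rfl

theorem B0_fderiv (hf : LocallyIntegrable f μ) (hg : ContDiff ℝ ∞ g)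
    (hs : ∀ R : ℝ, ∃ R' : ℝ, ∀ p t, ‖p‖ < R → R' < ‖t‖ → g (p, t) = 0) (p v : P) :
    fderiv ℝ (fun p => ∫ t, f t * g (p, t) ∂μ) p v = ∫ t, f t * fderiv ℝ g (p, t) (v, 0) ∂μ := by
  obtain ⟨R', hR⟩ := hs (‖p‖ + 1)
  obtain ⟨R'', hR'⟩ := B0_supp hs (‖p‖ + 1)
  let N : P × G →L[ℝ] P × G := (ContinuousLinearMap.fst ℝ P G).prod (-ContinuousLinearMap.snd ℝ P G)
  have hg' : ContDiff ℝ ∞ (↿fun (p : P) (x : G) => g (p, -x)) := hg.comp N.contDiff
  have hd : ∀ q : P × G, fderiv ℝ (↿fun (p : P) (x : G) => g (p, -x)) q =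
      (fderiv ℝ g (q.1, -q.2)).comp N := fun q =>
    (((hg.differentiable (by simp)) (N q)).hasFDerivAt.comp q N.hasFDerivAt).fderiv
  have h := hasFDerivAt_convolution_right_with_param (μ := μ)
    (ContinuousLinearMap.mul ℝ ℂ) (s := ball (0 : P) (‖p‖ + 1)) (f := f)
    (g := fun p x => g (p, -x)) isOpen_ball
    (isCompact_closedBall (0 : G) R') (fun q x hq hx => hR q (-x) (mem_ball_zero_iff.1 hq)
      (by rw [norm_neg]; exact not_le.1 fun h => hx (mem_closedBall_zero_iff.2 h)))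
    hf (hg'.of_le (by simp)).contDiffOn (p, 0) (mem_ball_zero_iff.2 (lt_add_one _))
  have h2 := (HasFDerivAt.comp (f := fun e : P => (e, (0 : G))) p h
    (hasFDerivAt_prodMk_left (𝕜 := ℝ) p (0 : G))).fderiv
  have e : (fun q : P × G => (f ⋆[ContinuousLinearMap.mul ℝ ℂ, μ] fun x => g (q.1, -x)) q.2) ∘
      (fun e : P => (e, (0 : G))) = fun p => ∫ t, f t * g (p, t) ∂μ :=
    funext fun q => B0_conv f g q
  rw [e] at h2
  rw [h2, ContinuousLinearMap.comp_apply, convolution_precompR_apply _ hf]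
  · rw [← B0_conv f (fun q => fderiv ℝ g q (v, 0)) p]
    congr 2
    funext a
    rw [hd]
    simp [N]
  · refine HasCompactSupport.intro (isCompact_closedBall (0 : G) R'') fun x hx => ?_
    rw [hd, hR' p (-x) (lt_add_one _)
      (by rw [norm_neg]; exact not_le.1 fun h => hx (mem_closedBall_zero_iff.2 h))]
    rfl
  · exact (hg'.continuous_fderiv (by simp)).comp (Continuous.prodMk_right p)

end Param

section Interval

variable {P : Type} [NormedAddCommGroup P] [NormedSpace ℝ P] {g : P × ℝ → ℂ}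

/-- A bump equal to one on `[-2, 2]`. -/
def B0b : ContDiffBump (0 : ℝ) := ⟨2, 3, by norm_num, by norm_num⟩

omit [NormedAddCommGroup P] [NormedSpace ℝ P] in
theorem B0_aux (g : P × ℝ → ℂ) (p : P) :
    ∫ t in (0 : ℝ)..1, g (p, t) =
      ∫ t, (1 : ℂ) * ((B0b t : ℂ) * g (p, t)) ∂(volume.restrict (Ioc (0 : ℝ) 1)) := by
  rw [intervalIntegral.integral_of_le zero_le_one]
  refine setIntegral_congr_fun measurableSet_Ioc fun t ht => ?_
  have : B0b t = 1 := B0b.one_of_mem_closedBall (by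
    rw [mem_closedBall_zero_iff, Real.norm_of_nonneg ht.1.le]
    exact ht.2.trans one_le_two)
  simp [this]

theorem B0_cut (hg : ContDiff ℝ ∞ g) : ContDiff ℝ ∞ fun q : P × ℝ => (B0b q.2 : ℂ) * g q :=
  (Complex.ofRealCLM.contDiff.comp (B0b.contDiff.comp contDiff_snd)).mul hg

omit [NormedSpace ℝ P] in
theorem B0_cuts (g : P × ℝ → ℂ) (R : ℝ) : ∃ R' : ℝ, ∀ (p : P) (t : ℝ), ‖p‖ < R → R' < ‖t‖ →
    (fun q : P × ℝ => (B0b q.2 : ℂ) * g q) (p, t) = 0 :=
  ⟨3, fun p t _ ht => by
    have : B0b t = 0 := B0b.zero_of_le_dist (by rw [dist_zero_right]; exact ht.le)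
    simp [this]⟩

theorem B0_ismooth (hg : ContDiff ℝ ∞ g) : ContDiff ℝ ∞ fun p => ∫ t in (0 : ℝ)..1, g (p, t) := by
  simp only [B0_aux g]
  exact B0_smooth (locallyIntegrable_const 1) (B0_cut hg) (B0_cuts g)

theorem B0_ifderiv (hg : ContDiff ℝ ∞ g) (p v : P) :
    fderiv ℝ (fun p => ∫ t in (0 : ℝ)..1, g (p, t)) p v =
      ∫ t in (0 : ℝ)..1, fderiv ℝ g (p, t) (v, 0) := by
  simp only [B0_aux g]
  rw [B0_fderiv (locallyIntegrable_const 1) (B0_cut hg) (B0_cuts g),
    intervalIntegral.integral_of_le zero_le_one]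
  refine setIntegral_congr_fun measurableSet_Ioc fun t ht => ?_
  have h : (fun q : P × ℝ => (B0b q.2 : ℂ) * g q) =ᶠ[𝓝 (p, t)] g := by
    have h1 : IsOpen {q : P × ℝ | ‖q.2‖ < 2} := isOpen_lt (by fun_prop) continuous_const
    have h2 : ‖t‖ < 2 := by
      rw [Real.norm_of_nonneg ht.1.le]
      exact ht.2.trans_lt one_lt_two
    filter_upwards [h1.mem_nhds h2] with q hq
    have : B0b q.2 = 1 := B0b.one_of_mem_closedBall (mem_closedBall_zero_iff.2 (le_of_lt hq))
    simp [this]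
  simp only [h.fderiv_eq, one_mul]

end Interval

end Vale.Agent.P272
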