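import Vale.Agent.P272.B1
import Vale.Agent.P272.Defs

/-! P272, part B: a closed real (1,1)-form has local potentials. -/

open MeasureTheory Set Metric Filter Topology
open scoped ContDiff ComplexConjugate

noncomputable section

namespace Vale.Agent.P272

open Vale.Agent.P271 Vale.Agent.P271A

variable {n : ℕ}

theorem B2_slice {g : Cn n × ℝ → ℂ} (hg : ContDiff ℝ ∞ g) (z v : Cn n) (t : ℝ) :
    fderiv ℝ (fun w => g (w, t)) z v = fderiv ℝ g (z, t) (v, 0) :=
  congrArg (fun L => L v) (HasFDerivAt.comp (f := fun w : Cn n => (w, t)) z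
    (hg.differentiable (by simp) (z, t)).hasFDerivAt
    (hasFDerivAt_prodMk_left (𝕜 := ℝ) z t)).fderiv

theorem B2_cont {g : Cn n × ℝ → ℂ} (hg : ContDiff ℝ ∞ g) (z v : Cn n) :
    Continuous fun t : ℝ => fderiv ℝ (fun w => g (w, t)) z v := by
  simp only [B2_slice hg]
  exact ((hg.continuous_fderiv (by simp)).comp (Continuous.prodMk_right z)).clm_apply
    continuous_const

theorem B2_cont_dz {g : Cn n × ℝ → ℂ} (hg : ContDiff ℝ ∞ g) (z ξ : Cn n) :
    Continuous fun t : ℝ => dz ξ (fun w => g (w, t)) z :=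
  ((B2_cont hg z ξ).sub (continuous_const.mul (B2_cont hg z _))).div_const _

theorem B2_int_fd {g : Cn n × ℝ → ℂ} (hg : ContDiff ℝ ∞ g) (z v : Cn n) :
    fderiv ℝ (fun w => ∫ t in (0 : ℝ)..1, g (w, t)) z v =
      ∫ t in (0 : ℝ)..1, fderiv ℝ (fun w => g (w, t)) z v := by
  simp only [B2_slice hg]
  exact B0_ifderiv hg z v

theorem B2_int_dz {g : Cn n × ℝ → ℂ} (hg : ContDiff ℝ ∞ g) (z ξ : Cn n) :
    dz ξ (fun w => ∫ t in (0 : ℝ)..1, g (w, t)) z =
      ∫ t in (0 : ℝ)..1, dz ξ (fun w => g (w, t)) z := by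
  unfold dz
  rw [B2_int_fd hg, B2_int_fd hg, intervalIntegral.integral_div, intervalIntegral.integral_sub
    ((B2_cont hg z ξ).intervalIntegrable _ _)
    (((B2_cont hg z _).intervalIntegrable _ _).const_mul _),
    intervalIntegral.integral_const_mul]

theorem B2_int_dzb {g : Cn n × ℝ → ℂ} (hg : ContDiff ℝ ∞ g) (z ξ : Cn n) :
    dzb ξ (fun w => ∫ t in (0 : ℝ)..1, g (w, t)) z =
      ∫ t in (0 : ℝ)..1, dzb ξ (fun w => g (w, t)) z := by
  unfold dzb
  rw [B2_int_fd hg, B2_int_fd hg, intervalIntegral.integral_div, intervalIntegral.integral_add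
    ((B2_cont hg z ξ).intervalIntegrable _ _)
    (((B2_cont hg z _).intervalIntegrable _ _).const_mul _),
    intervalIntegral.integral_const_mul]

theorem B2_fd_scale {F : Cn n → ℂ} (hF : ContDiff ℝ ∞ F) (t : ℝ) (z v : Cn n) :
    fderiv ℝ (fun w => F (t • w)) z v = t * fderiv ℝ F (t • z) v := by
  have h := (HasFDerivAt.comp (f := fun w : Cn n => t • w) z
    (hF.differentiable (by simp) (t • z)).hasFDerivAt ((hasFDerivAt_id z).const_smul t)).fderiv
  refine (congrArg (fun L => L v) h).trans ?_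
  simp

theorem B2_dz_scale {F : Cn n → ℂ} (hF : ContDiff ℝ ∞ F) (t : ℝ) (z ξ : Cn n) :
    dz ξ (fun w => F (t • w)) z = t * dz ξ F (t • z) := by
  simp only [dz, B2_fd_scale hF]
  ring

theorem B2_dzb_scale {F : Cn n → ℂ} (hF : ContDiff ℝ ∞ F) (t : ℝ) (z ξ : Cn n) :
    dzb ξ (fun w => F (t • w)) z = t * dzb ξ F (t • z) := by
  simp only [dzb, B2_fd_scale hF]
  ring

/-- The integrand of the homotopy formula. -/
def B2g (K : Fin n → Cn n → ℂ) (q : Cn n × ℝ) : ℂ := (q.2 : ℂ) * ∑ k, K k (q.2 • q.1) * q.1 k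

variable {K : Fin n → Cn n → ℂ}

theorem B2_sm (hK : ∀ k, ContDiff ℝ ∞ (K k)) : ContDiff ℝ ∞ (B2g K) :=
  (Complex.ofRealCLM.contDiff.comp contDiff_snd).mul (ContDiff.sum fun k _ =>
    ((hK k).comp (contDiff_snd.smul contDiff_fst)).mul
      ((contDiff_apply ℝ ℂ k).comp contDiff_fst))

theorem B2_d1 (hK : ∀ k, ContDiff ℝ ∞ (K k)) (t : ℝ) (z : Cn n) (k : Fin n) :
    DifferentiableAt ℝ (fun w => K k (t • w)) z :=
  ((hK k).comp (contDiff_id.const_smul t)).differentiable (by simp) z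

theorem B2_dz_g (hK : ∀ k, ContDiff ℝ ∞ (K k)) (t : ℝ) (z ξ : Cn n) :
    dz ξ (fun w => B2g K (w, t)) z =
      t * ∑ k, (t * dz ξ (K k) (t • z) * z k + K k (t • z) * ξ k) := by
  have h1 : ∀ k, DifferentiableAt ℝ (fun w : Cn n => K k (t • w) * w k) z := fun k =>
    (B2_d1 hK t z k).mul (differentiableAt_apply k z)
  simp only [B2g]
  rw [dz_mul (differentiableAt_const _) (DifferentiableAt.fun_sum fun k _ => h1 k), dz_const,
    zero_mul, zero_add, dz_sum _ fun k _ => h1 k]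
  congr 1
  refine Finset.sum_congr rfl fun k _ => ?_
  rw [dz_mul (B2_d1 hK t z k) (differentiableAt_apply k z), B2_dz_scale (hK k),
    dz_hol (differentiableAt_apply k z), (hasFDerivAt_apply k z).fderiv]
  rfl

theorem B2_dzb_g (hK : ∀ k, ContDiff ℝ ∞ (K k)) (t : ℝ) (z ξ : Cn n) :
    dzb ξ (fun w => B2g K (w, t)) z = t * ∑ k, t * dzb ξ (K k) (t • z) * z k := by
  have h1 : ∀ k, DifferentiableAt ℝ (fun w : Cn n => K k (t • w) * w k) z := fun k =>
    (B2_d1 hK t z k).mul (differentiableAt_apply k z)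
  simp only [B2g]
  rw [dzb_mul (differentiableAt_const _) (DifferentiableAt.fun_sum fun k _ => h1 k), dzb_const,
    zero_mul, zero_add, dzb_sum _ fun k _ => h1 k]
  congr 1
  refine Finset.sum_congr rfl fun k _ => ?_
  rw [dzb_mul (B2_d1 hK t z k) (differentiableAt_apply k z), B2_dzb_scale (hK k),
    dzb_hol (differentiableAt_apply k z), mul_zero, add_zero]

theorem B2_split (F : Cn n → ℂ) (w z : Cn n) : fderiv ℝ F w z =
    ∑ l, dz (Pi.single l 1) F w * z l + ∑ l, dzb (Pi.single l 1) F w * conj (z l) := by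
  have h1 := dz_eq_sum F w z
  have h2 := dzb_eq_sum F w z
  simp only [Brid_zv, Brid_bv] at h1 h2
  rw [← h1, ← h2, dz, dzb]
  ring

theorem B2_ftc {F : Cn n → ℂ} (hF : ContDiff ℝ ∞ F) (z : Cn n) :
    ∫ t in (0 : ℝ)..1, (2 * t * F (t • z) + t ^ 2 * fderiv ℝ F (t • z) z) = F z := by
  have hc : Continuous fun t : ℝ => t • z := continuous_id.smul continuous_const
  rw [intervalIntegral.integral_eq_sub_of_hasDerivAt (f := fun t : ℝ => (t : ℂ) ^ 2 * F (t • z))]
  · simp
  · intro t _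
    have h1 : HasDerivAt (fun t : ℝ => F (t • z)) (fderiv ℝ F (t • z) z) t := by
      have h := (hF.differentiable (by simp) (t • z)).hasFDerivAt.comp_hasDerivAt t
        ((hasDerivAt_id t).smul_const z)
      rwa [one_smul] at h
    refine (((hasDerivAt_id t).ofReal_comp.pow 2).mul h1).congr_deriv ?_
    simp
  · refine Continuous.intervalIntegrable ?_ _ _
    exact ((continuous_const.mul Complex.continuous_ofReal).mul (hF.continuous.comp hc)).add
      ((Complex.continuous_ofReal.pow 2).mul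
        (((hF.continuous_fderiv (by simp)).comp hc).clm_apply continuous_const))

theorem B2_pot0 {H : Fin n → Fin n → Cn n → ℂ} (hH : ∀ j k, ContDiff ℝ ∞ (H j k)) {r : ℝ}
    (hr : 0 < r) (hh : ∀ j k, ∀ z ∈ ball (0 : Cn n) r, H j k z = conj (H k j z))
    (hc : ∀ j k l, ∀ z ∈ ball (0 : Cn n) r,
      dz (Pi.single l 1) (H j k) z = dz (Pi.single k 1) (H j l) z) :
    ∃ (φ : Cn n → ℝ) (r' : ℝ), 0 < r' ∧ ContDiff ℝ ∞ φ ∧
      ∀ z ∈ ball (0 : Cn n) r', ∀ j k, LM φ z j k = H j k z := by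
  have hb : ∀ j k ξ, ∀ z ∈ ball (0 : Cn n) r, dzb ξ (H j k) z = conj (dz ξ (H k j) z) := by
    intro j k ξ z hz
    rw [conj_dz]
    refine dzb_congr ?_
    filter_upwards [isOpen_ball.mem_nhds hz] with w hw using hh j k w hw
  have hm : ∀ z ∈ ball (0 : Cn n) r, ∀ t ∈ uIcc (0 : ℝ) 1, t • z ∈ ball (0 : Cn n) r := by
    intro z hz t ht
    rw [uIcc_of_le zero_le_one] at ht
    rw [mem_ball_zero_iff, norm_smul, Real.norm_of_nonneg ht.1]
    exact (mul_le_of_le_one_left (norm_nonneg _) ht.2).trans_lt (mem_ball_zero_iff.1 hz)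
  let α : Fin n → Cn n → ℂ := fun j z => ∫ t in (0 : ℝ)..1, B2g (H j) (z, t)
  have hα : ∀ j, ContDiff ℝ ∞ (α j) := fun j => B0_ismooth (B2_sm (hH j))
  obtain ⟨u, r', hr', hu, h1⟩ := B1_dolb hr hα fun j k z hz => by
    simp only [α]
    rw [B2_int_dzb (B2_sm (hH k)), B2_int_dzb (B2_sm (hH j))]
    refine intervalIntegral.integral_congr fun t ht => ?_
    simp only [B2_dzb_g (hH k), B2_dzb_g (hH j)]
    congr 1
    refine Finset.sum_congr rfl fun l _ => ?_
    rw [hb _ _ _ _ (hm z hz t ht), hb _ _ _ _ (hm z hz t ht), hc _ _ _ _ (hm z hz t ht)]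
  have h2 : ∀ j k, ∀ z ∈ ball (0 : Cn n) r,
      dz (Pi.single k 1) (α j) z + conj (dz (Pi.single j 1) (α k) z) = H j k z := by
    intro j k z hz
    have hcj : Continuous fun t : ℝ => conj (dz (Pi.single j 1) (fun w => B2g (H k) (w, t)) z) :=
      Complex.continuous_conj.comp (B2_cont_dz (B2_sm (hH k)) _ _)
    simp only [α]
    rw [B2_int_dz (B2_sm (hH j)), B2_int_dz (B2_sm (hH k)), ← B2_ftc (hH j k) z,
      intervalIntegral.integral_of_le zero_le_one (f := fun t => dz (Pi.single j 1) _ z),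
      ← integral_conj, ← intervalIntegral.integral_of_le zero_le_one,
      ← intervalIntegral.integral_add ((B2_cont_dz (B2_sm (hH j)) _ _).intervalIntegrable _ _)
        (hcj.intervalIntegrable _ _)]
    refine intervalIntegral.integral_congr fun t ht => ?_
    have ht' := hm z hz t ht
    simp only [B2_dz_g (hH k), B2_dz_g (hH j), B2_split (H j k),
      Finset.sum_add_distrib, Pi.single_apply, mul_ite, mul_one, mul_zero, Finset.sum_ite_eq',
      Finset.mem_univ, if_true, map_mul, map_add, map_sum, Complex.conj_ofReal]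
    have e1 : ∑ l, (t : ℂ) * dz (Pi.single k 1) (H j l) (t • z) * z l =
        t * ∑ l, dz (Pi.single l 1) (H j k) (t • z) * z l := by
      rw [Finset.mul_sum]
      exact Finset.sum_congr rfl fun l _ => by rw [hc j k l _ ht', mul_assoc]
    have e2 : ∑ l, (t : ℂ) * conj (dz (Pi.single j 1) (H k l) (t • z)) * conj (z l) =
        t * ∑ l, dzb (Pi.single l 1) (H j k) (t • z) * conj (z l) := by
      rw [Finset.mul_sum]
      exact Finset.sum_congr rfl fun l _ => by rw [hb j k _ _ ht', hc k j l _ ht', mul_assoc]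
    rw [e1, e2, ← hh j k _ ht']
    ring
  have hu' : ContDiff ℝ ∞ fun w => conj (u w) := Complex.conjCLE.contDiff.comp hu
  refine ⟨fun z => 2 * (u z).re, min r r', lt_min hr hr',
    contDiff_const.mul (Complex.reCLM.contDiff.comp hu), fun z hz j k => ?_⟩
  have hz1 : z ∈ ball (0 : Cn n) r := ball_subset_ball (min_le_left _ _) hz
  have hz2 : ∀ᶠ w in 𝓝 z, w ∈ ball (0 : Cn n) r' :=
    isOpen_ball.mem_nhds (ball_subset_ball (min_le_right _ _) hz)
  have e : (fun w => ((2 * (u w).re : ℝ) : ℂ)) = fun w => u w + conj (u w) :=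
    funext fun w => (Complex.add_conj _).symm
  have e1 : ∀ ξ, dzb ξ (fun w => u w + conj (u w)) = fun w => dzb ξ u w + conj (dz ξ u w) :=
    fun ξ => funext fun w => by
      rw [dzb_add (hu.differentiable (by simp) w) (hu'.differentiable (by simp) w), conj_dz]
  have e2 : ∀ ξ, (fun w => conj (dz ξ u w)) = dzb ξ fun w => conj (u w) :=
    fun ξ => funext fun w => conj_dz _ _ _
  have h3 : ∀ i, dzb (Pi.single i 1) u =ᶠ[𝓝 z] α i := fun i => hz2.mono fun w hw => h1 i w hw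
  simp only [LM, lev, Matrix.of_apply]
  rw [e, e1, dz_add ((B1_sm_dzb hu _).differentiable (by simp) z)
    (by rw [e2]; exact (B1_sm_dzb hu' _).differentiable (by simp) z), ← Brid_conj_dzb,
    ← B1_zb hu.contDiffAt, dz_congr (h3 j), dz_congr (h3 k), h2 j k z hz1]

/-- Local potentials. -/
theorem B2_pot {H : Fin n → Fin n → Cn n → ℂ} {U : Set (Cn n)} (hU : IsOpen U) {c : Cn n}
    (hcU : c ∈ U) (hH : ∀ j k, ContDiffOn ℝ ∞ (H j k) U)
    (hh : ∀ j k, ∀ z ∈ U, H j k z = conj (H k j z))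
    (hc : ∀ j k l, ∀ z ∈ U, dz (Pi.single l 1) (H j k) z = dz (Pi.single k 1) (H j l) z) :
    ∃ φ : Cn n → ℝ, ContDiff ℝ ∞ φ ∧ ∀ᶠ z in 𝓝 c, ∀ j k, LM φ z j k = H j k z := by
  obtain ⟨R, hR, hb⟩ := nhds_basis_closedBall.mem_iff.1 (hU.mem_nhds hcU)
  let b : ContDiffBump (0 : Cn n) := ⟨R / 2, R, half_pos hR, half_lt_self hR⟩
  let Ψ : Cn n → Cn n := fun w => b w • w + c
  have hΨ : ContDiff ℝ ∞ Ψ := (b.contDiff.smul contDiff_id).add contDiff_const
  have hΨU : ∀ w, Ψ w ∈ U := fun w => hb (by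
    rw [mem_closedBall, dist_eq_norm, add_sub_cancel_right, norm_smul,
      Real.norm_of_nonneg b.nonneg]
    by_cases h : R ≤ ‖w‖
    · rw [b.zero_of_le_dist (by rw [dist_zero_right]; exact h), zero_mul]
      exact hR.le
    · exact (mul_le_of_le_one_left (norm_nonneg _) b.le_one).trans (not_le.1 h).le)
  have h1 : ∀ w ∈ ball (0 : Cn n) (R / 2), Ψ w = w + c := fun w hw => by
    simp only [Ψ]
    rw [b.one_of_mem_closedBall (ball_subset_closedBall hw), one_smul]
  have h2 : ∀ (F : Cn n → ℂ) ξ, ∀ w ∈ ball (0 : Cn n) (R / 2),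
      dz ξ (F ∘ Ψ) w = dz ξ F (Ψ w) := by
    intro F ξ w hw
    have h3 : F ∘ Ψ =ᶠ[𝓝 w] fun y => F (y + c) := by
      filter_upwards [isOpen_ball.mem_nhds hw] with y hy
      rw [Function.comp_apply, h1 y hy]
    rw [dz_congr h3, h1 w hw, dz, dz, fderiv_comp_add_right]
  obtain ⟨φ, r', hr', hφ, h3⟩ := B2_pot0 (H := fun j k => H j k ∘ Ψ)
    (fun j k => (hH j k).comp_contDiff hΨ hΨU) (half_pos hR)
    (fun j k z _ => hh j k _ (hΨU z))
    (fun j k l z hz => by rw [h2 _ _ z hz, h2 _ _ z hz, hc j k l _ (hΨU z)])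
  refine ⟨fun z => φ (z - c), hφ.comp (contDiff_id.sub contDiff_const), ?_⟩
  filter_upwards [ball_mem_nhds c (lt_min hr' (half_pos hR))] with z hz j k
  rw [mem_ball_iff_norm, lt_min_iff] at hz
  have h4 := h3 (z - c) (mem_ball_zero_iff.2 hz.1) j k
  rw [Function.comp_apply, h1 _ (mem_ball_zero_iff.2 hz.2), sub_add_cancel] at h4
  rw [← h4]
  have e : ∀ ξ, dzb ξ (fun w => (φ (w - c) : ℂ)) = fun w => dzb ξ (fun y => (φ y : ℂ)) (w - c) :=
    fun ξ => funext fun w => by
      rw [dzb, dzb, fderiv_comp_sub (f := fun y => (φ y : ℂ))]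
  simp only [LM, lev, Matrix.of_apply]
  rw [e, dz, dz, fderiv_comp_sub]

end Vale.Agent.P272
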