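import Vale.Agent.P272.DDefs

/-! P272, part D: the density of a disc. -/

open MeasureTheory Set Filter Topology Metric Matrix
open scoped ContDiff ComplexConjugate ComplexOrder

noncomputable section

namespace Vale.Agent.P272

open Vale.Agent.P271

variable {n : ℕ} {X : Type} [TopologicalSpace X] {A : Atl n X}
  {w η η₀ η₁ η₂ φ ψ : Frm A} {K r : ℝ} {x : X} {f g : ℂ → X} {U : Set ℂ} {ζ : ℂ}

theorem IsD.mono (hf : IsD A f U) {V : Set ℂ} (h : V ⊆ U) : IsD A f V :=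
  ⟨hf.1.mono h, fun a => (hf.2 a).mono (inter_subset_inter_left _ h)⟩

theorem IsD.congr (hf : IsD A f U) (h : EqOn g f U) : IsD A g U :=
  ⟨hf.1.congr h, fun a => ((hf.2 a).mono fun z hz => ⟨hz.1, by
    rw [mem_preimage, ← h hz.1]; exact hz.2⟩).congr fun z hz => by rw [h hz.1]⟩

theorem isD_const (x : X) (U : Set ℂ) : IsD A (fun _ => x) U :=
  ⟨continuousOn_const, fun _ => differentiableOn_const _⟩

theorem IsD.analyticAt (hf : IsD A f U) (hU : U ∈ 𝓝 ζ) {a : A.ι} (ha : f ζ ∈ (A.e a).source) :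
    AnalyticAt ℂ (fun z => A.e a (f z)) ζ :=
  (hf.2 a).analyticAt (inter_mem hU
    ((hf.1.continuousAt hU).preimage_mem_nhds ((A.e a).open_source.mem_nhds ha)))

theorem DA1_tr (hc : ContinuousAt f ζ) {a b : A.ι} (ha : f ζ ∈ (A.e a).source)
    (hb : f ζ ∈ (A.e b).source) {v : Cn n} (hv : HasDerivAt (fun z => A.e a (f z)) v ζ) :
    HasDerivAt (fun z => A.e b (f z)) (fderiv ℂ (A.tr a b) (A.e a (f ζ)) v) ζ := by
  have hz : A.e a (f ζ) ∈ A.ov a b := ⟨(A.e a).map_source ha, by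
    rw [mem_preimage, (A.e a).left_inv ha]; exact hb⟩
  have h1 : DifferentiableAt ℂ (A.tr a b) (A.e a (f ζ)) := (A.hol a b _ hz).differentiableAt
  refine (h1.hasFDerivAt.comp_hasDerivAt ζ hv).congr_of_eventuallyEq ?_
  filter_upwards [hc.preimage_mem_nhds ((A.e a).open_source.mem_nhds ha)] with z hz
  simp only [Function.comp_apply, Atl.tr, (A.e a).left_inv hz]

/-- Holomorphy is a local property and can be checked in one chart. -/
theorem isD_of_local (h : ∀ ζ ∈ U, ContinuousAt f ζ ∧ ∃ a, f ζ ∈ (A.e a).source ∧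
    DifferentiableAt ℂ (fun z => A.e a (f z)) ζ) : IsD A f U := by
  refine ⟨fun z hz => (h z hz).1.continuousWithinAt, fun b z hz => ?_⟩
  obtain ⟨hc, a, ha, hd⟩ := h z hz.1
  exact (DA1_tr hc ha hz.2 hd.hasDerivAt).differentiableAt.differentiableWithinAt

theorem IsD.comp (hf : IsD A f U) {m : ℂ → ℂ} {V : Set ℂ} (hm : DifferentiableOn ℂ m V)
    (h : MapsTo m V U) : IsD A (fun z => f (m z)) V :=
  ⟨hf.1.comp hm.continuousOn h, fun a =>
    (hf.2 a).comp (hm.mono inter_subset_left) fun _ hz => ⟨h hz.1, hz.2⟩⟩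

theorem den_congr (h : f =ᶠ[𝓝 ζ] g) : den A φ f ζ = den A φ g ζ := by
  unfold den
  rw [h.eq_of_nhds]
  congr 1
  exact EventuallyEq.deriv_eq (h.mono fun z hz => by simp only [hz])

theorem den_const (φ : Frm A) (x : X) (ζ : ℂ) : den A φ (fun _ => x) ζ = 0 := by
  simp [den, Lev, lev, dz]

theorem den_eq_GM (hφ : IsF A φ) (f : ℂ → X) (ζ : ℂ) : den A φ f ζ =
    hq (GM A φ (f ζ)) (deriv (fun z => A.e (ch A (f ζ)) (f z)) ζ) :=
  Lev_eq_LM (hφ.smAt (ApiA_ch A _)) _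

theorem den_zero (f : ℂ → X) (ζ : ℂ) : den A 0 f ζ = 0 := by
  have e : GM A 0 (f ζ) = 0 := LM_const 0
  rw [den_eq_GM isF_zero, e]
  simp [hq]

theorem den_add (hφ : IsF A φ) (hψ : IsF A ψ) (f : ℂ → X) (ζ : ℂ) :
    den A (φ + ψ) f ζ = den A φ f ζ + den A ψ f ζ := by
  rw [den_eq_GM (hφ.add hψ), den_eq_GM hφ, den_eq_GM hψ, GM_add hφ hψ]
  simp only [hq, add_mulVec, dotProduct_add, Complex.add_re]

theorem den_sub (hφ : IsF A φ) (hψ : IsF A ψ) (f : ℂ → X) (ζ : ℂ) :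
    den A (φ - ψ) f ζ = den A φ f ζ - den A ψ f ζ := by
  rw [den_eq_GM (hφ.sub hψ), den_eq_GM hφ, den_eq_GM hψ, GM_sub hφ hψ]
  simp only [hq, sub_mulVec, dotProduct_sub, Complex.sub_re]

theorem den_smul (hφ : IsF A φ) (c : ℝ) (f : ℂ → X) (ζ : ℂ) :
    den A (c • φ) f ζ = c * den A φ f ζ := by
  rw [den_eq_GM (hφ.smul c), den_eq_GM hφ, GM_smul hφ]
  simp only [hq, smul_mulVec, dotProduct_smul, smul_eq_mul, Complex.re_ofReal_mul]

theorem den_nonneg (hφ : IsF A φ) (h : NnF A φ) (f : ℂ → X) (ζ : ℂ) : 0 ≤ den A φ f ζ :=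
  (posSemidef_LM_iff (hφ.smAt (ApiA_ch A _))).1 (h _ _ (ApiA_ch A _)) _

theorem den_le [CompactSpace X] (hw : Kae A w) (hφ : IsF A φ) :
    ∃ C : ℝ, 0 < C ∧ ∀ f ζ, |den A φ f ζ| ≤ C * den A w f ζ := by
  obtain ⟨C, hC, h1, h2⟩ := exists_le hw hφ
  refine ⟨C, hC, fun f ζ => ?_⟩
  have h3 := den_nonneg ((hw.1.smul C).sub hφ) h1.nn f ζ
  have h4 := den_nonneg ((hw.1.smul C).add hφ) h2.nn f ζ
  rw [den_sub (hw.1.smul C) hφ, den_smul hw.1] at h3
  rw [den_add (hw.1.smul C) hφ, den_smul hw.1] at h4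
  exact abs_le.2 ⟨by linarith, by linarith⟩

theorem DA1_conj (D H : Mx n) (v : Cn n) : hq (Dᴴ * H * D) v = hq H (D *ᵥ v) := by
  simp only [hq, ← mulVec_mulVec, dotProduct_mulVec, star_mulVec]

theorem DA1_smul (H : Mx n) (c : ℂ) (v : Cn n) : hq H (c • v) = hq H v * ‖c‖ ^ 2 := by
  simp only [hq, mulVec_smul, star_smul, smul_dotProduct, dotProduct_smul, smul_eq_mul]
  rw [← mul_assoc, Complex.star_def, Complex.mul_conj, Complex.re_ofReal_mul, mul_comm,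
    Complex.normSq_eq_norm_sq]

/-- Independence of the chart. -/
theorem den_eq (hφ : IsF A φ) (hf : IsD A f U) (hU : U ∈ 𝓝 ζ) {a : A.ι}
    (ha : f ζ ∈ (A.e a).source) :
    den A φ f ζ = hq (LM (φ a) (A.e a (f ζ))) (deriv (fun z => A.e a (f z)) ζ) := by
  rw [den_eq_GM hφ, ApiA_rep hφ ha, DA1_conj, DM_mulVec, (DA1_tr (hf.1.continuousAt hU) ha
    (ch_mem A _) (hf.analyticAt hU ha).differentiableAt.hasDerivAt).deriv]

theorem den_lap (hφ : IsF A φ) (hf : IsD A f U) (hU : U ∈ 𝓝 ζ) {a : A.ι}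
    (ha : f ζ ∈ (A.e a).source) :
    Laplacian.laplacian (fun z => φ a (A.e a (f z))) ζ = 4 * den A φ f ζ := by
  have h := hφ.smAt ((A.e a).map_source ha)
  rw [laplacian_comp h (hf.analyticAt hU ha), Lev_eq_LM h, den_eq hφ hf hU ha, hq]

theorem DA1_sm {g : ℂ → Cn n} (h : AnalyticAt ℂ g ζ) : ContDiffAt ℝ ∞ g ζ :=
  (h.contDiffAt (n := ∞)).restrict_scalars ℝ

theorem den_ddc {u : X → ℝ} (hu : A.Sm u) (hf : IsD A f U) (hU : U ∈ 𝓝 ζ) :
    ContDiffAt ℝ ∞ (fun z => u (f z)) ζ ∧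
      Laplacian.laplacian (fun z => u (f z)) ζ = 4 * den A (ddc A u) f ζ := by
  have ha := ch_mem A (f ζ)
  have e : (fun z => u (f z)) =ᶠ[𝓝 ζ]
      fun z => ddc A u (ch A (f ζ)) (A.e (ch A (f ζ)) (f z)) := by
    filter_upwards [(hf.1.continuousAt hU).preimage_mem_nhds
      ((A.e _).open_source.mem_nhds ha)] with z hz
    simp only [ddc, Atl.loc, (A.e _).left_inv hz]
  refine ⟨(((isF_ddc hu).smAt (ApiA_ch A _)).comp ζ
    (DA1_sm (hf.analyticAt hU ha))).congr_of_eventuallyEq e, ?_⟩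
  rw [(InnerProductSpace.laplacian_congr_nhds e).eq_of_nhds, den_lap (isF_ddc hu) hf hU ha]

theorem contDiffAt_den (hφ : IsF A φ) (hf : IsD A f U) (hU : U ∈ 𝓝 ζ) :
    ContDiffAt ℝ ∞ (den A φ f) ζ := by
  have ha := ch_mem A (f ζ)
  generalize ch A (f ζ) = a at ha
  have hg := hf.analyticAt hU ha
  have h1 : ∀ j, ContDiffAt ℝ ∞ (fun z => deriv (fun z => A.e a (f z)) z j) ζ :=
    contDiffAt_pi.1 (DA1_sm hg.deriv)
  have h2 : ∀ j k, ContDiffAt ℝ ∞ (fun z => LM (φ a) (A.e a (f z)) j k) ζ := fun j k =>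
    ContDiffAt.comp (g := fun w => LM (φ a) w j k) ζ
      (contDiffAt_LM (hφ.smAt ((A.e a).map_source ha)) j k) (DA1_sm hg)
  have h3 : ContDiffAt ℝ ∞
      (fun z => hq (LM (φ a) (A.e a (f z))) (deriv (fun z => A.e a (f z)) z)) ζ :=
    Complex.reCLM.contDiff.contDiffAt.comp ζ (ContDiffAt.sum fun j _ =>
      (Complex.conjCLE.contDiff.contDiffAt.comp ζ (h1 j)).mul
        (ContDiffAt.sum (s := Finset.univ) fun k _ => (h2 j k).mul (h1 k)))
  refine h3.congr_of_eventuallyEq ?_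
  filter_upwards [eventually_mem_nhds_iff.2 hU, (hf.1.continuousAt hU).preimage_mem_nhds
    ((A.e a).open_source.mem_nhds ha)] with z h4 h5
  exact den_eq hφ hf h4 h5

theorem continuousOn_den (hφ : IsF A φ) (hf : IsD A f U) (hU : IsOpen U) :
    ContinuousOn (den A φ f) U := fun _ hz =>
  (contDiffAt_den hφ hf (hU.mem_nhds hz)).continuousAt.continuousWithinAt

theorem den_comp (hφ : IsF A φ) (hf : IsD A f U) {m : ℂ → ℂ} (hU : U ∈ 𝓝 (m ζ))
    (hm : DifferentiableAt ℂ m ζ) :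
    den A φ (fun z => f (m z)) ζ = den A φ f (m ζ) * ‖deriv m ζ‖ ^ 2 := by
  have h := ((hf.analyticAt hU (ch_mem A _)).differentiableAt.hasDerivAt.scomp ζ
    hm.hasDerivAt).deriv
  rw [den_eq_GM hφ, den_eq_GM hφ, ← DA1_smul, ← h]
  rfl

end Vale.Agent.P272
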