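import Vale.Agent.P272.DA1

/-! P272, part D: algebra of the characteristic. -/

open MeasureTheory Set Filter Topology Metric Matrix
open scoped ContDiff ComplexConjugate ComplexOrder

set_option linter.unusedSectionVars false

noncomputable section

namespace Vale.Agent.P272

open Vale.Agent.P271

variable {n : ℕ} {X : Type} [TopologicalSpace X] [T2Space X] [CompactSpace X] {A : Atl n X}
  {w η η₀ η₁ η₂ φ ψ : Frm A} {K r : ℝ} {x : X} {f g : ℂ → X} {U : Set ℂ} {ζ : ℂ}

theorem DA2_nonneg {z : ℂ} (hz : z ∈ ball (0 : ℂ) r) : 0 ≤ Real.log (r / ‖z‖) := by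
  rcases eq_or_ne z 0 with rfl | h
  · simp
  · exact Real.log_nonneg ((one_le_div (norm_pos_iff.2 h)).2 (mem_ball_zero_iff.1 hz).le)

theorem DA2_le {s : ℝ} (h0 : 0 < r) (hs : r ≤ s) (z : ℂ) :
    Real.log (r / ‖z‖) ≤ Real.log (s / ‖z‖) := by
  rcases eq_or_ne z 0 with rfl | h
  · simp
  · have := norm_pos_iff.2 h
    exact Real.log_le_log (div_pos h0 this) (div_le_div_of_nonneg_right hs this.le)

theorem DA2_split (h0 : 0 < r) {z : ℂ} (h : z ≠ 0) :
    Real.log (1 / ‖z‖) + Real.log r = Real.log (r / ‖z‖) := by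
  have := norm_ne_zero_iff.2 h
  rw [Real.log_div one_ne_zero this, Real.log_div h0.ne' this, Real.log_one]
  ring

theorem DA2_out (h0 : 0 < r) (d : ℂ → ℝ) : ∀ z ∈ ball (0 : ℂ) 1 \ ball 0 r,
    max (Real.log (1 / ‖z‖) + Real.log r) 0 * d z = 0 := fun z hz => by
  have h1 : r ≤ ‖z‖ := not_lt.1 fun h => hz.2 (mem_ball_zero_iff.2 h)
  have h2 := h0.trans_le h1
  rw [DA2_split h0 (norm_pos_iff.1 h2), max_eq_right, zero_mul]
  exact Real.log_nonpos (div_pos h0 h2).le ((div_le_one h2).2 h1)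

theorem DA2_in (h0 : 0 < r) (d : ℂ → ℝ) : ∀ᵐ z : ℂ, z ∈ ball (0 : ℂ) r →
    Real.log (r / ‖z‖) * d z = max (Real.log (1 / ‖z‖) + Real.log r) 0 * d z := by
  filter_upwards [Measure.ae_ne volume (0 : ℂ)] with z hz hb
  rw [DA2_split h0 hz, max_eq_left (DA2_nonneg hb)]

theorem DA2_int (h0 : 0 < r) {d : ℂ → ℝ}
    (h : IntegrableOn (fun z => Real.log (r / ‖z‖) * d z) (ball (0 : ℂ) r)) :
    IntegrableOn (fun z => max (Real.log (1 / ‖z‖) + Real.log r) 0 * d z) (ball (0 : ℂ) 1) :=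
  IntegrableOn.of_forall_sdiff_eq_zero
    (h.congr ((ae_restrict_iff' measurableSet_ball).2 (DA2_in h0 d))) measurableSet_ball
    (DA2_out h0 d)

theorem DA2_max_le (h0 : 0 < r) (h1 : r ≤ 1) {z : ℂ} (hz : z ∈ ball (0 : ℂ) 1) :
    max (Real.log (1 / ‖z‖) + Real.log r) 0 ≤ Real.log (1 / ‖z‖) :=
  max_le (add_le_of_nonpos_right (Real.log_nonpos h0.le h1)) (DA2_nonneg hz)

theorem DA2_meas (r : ℝ) : Measurable fun z : ℂ => Real.log (r / ‖z‖) :=
  Real.measurable_log.comp (measurable_const.div measurable_norm)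

theorem DA2_meas' (hφ : IsF A φ) (hf : IsD A f (ball 0 1)) (r : ℝ) : AEStronglyMeasurable
    (fun z => max (Real.log (1 / ‖z‖) + Real.log r) 0 * den A φ f z)
    (volume.restrict (ball (0 : ℂ) 1)) :=
  (((DA2_meas 1).add_const _).max measurable_const).aestronglyMeasurable.mul
    ((continuousOn_den hφ hf isOpen_ball).aestronglyMeasurable measurableSet_ball)

theorem DA2_c : 0 < 2 / Real.pi := div_pos two_pos Real.pi_pos

theorem integrableOn_log (hr : 0 < r) : IntegrableOn (fun z : ℂ => Real.log (r / ‖z‖)) (ball 0 r) := by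
  have h := integrableOn_gr (r := r) (t := 0) (by rwa [norm_zero])
  rwa [show gr r 0 = _ from funext (gr_zero hr)] at h

theorem integral_log (hr : 0 < r) :
    ∫ z in ball (0 : ℂ) r, Real.log (r / ‖z‖) = Real.pi / 2 * r ^ 2 := by
  have h := integral_gr (r := r) (t := 0) (by rwa [norm_zero])
  simp only [gr_zero hr, norm_zero] at h
  rw [h]
  ring

theorem IsD.integrableOn (hφ : IsF A φ) (hf : IsD A f (ball 0 1)) (h0 : 0 < r) (h1 : r < 1) :
    IntegrableOn (fun z => Real.log (r / ‖z‖) * den A φ f z) (ball (0 : ℂ) r) :=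
  (integrableOn_log h0).mul_continuousOn_of_subset
    ((continuousOn_den hφ hf isOpen_ball).mono (closedBall_subset_ball h1)) measurableSet_ball
    (isCompact_closedBall 0 r) ball_subset_closedBall

theorem Adm.integrableOn (hw : Kae A w) (hf : Adm A w x f) (hφ : IsF A φ) (h0 : 0 < r)
    (h1 : r ≤ 1) : IntegrableOn (fun z => Real.log (r / ‖z‖) * den A φ f z) (ball (0 : ℂ) r) := by
  obtain ⟨C, hC, h⟩ := den_le hw hφ
  refine Integrable.mono' ((hf.2.2.mono_set (ball_subset_ball h1)).const_mul C)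
    ((DA2_meas r).aestronglyMeasurable.mul (((continuousOn_den hφ hf.1 isOpen_ball).mono
      (ball_subset_ball h1)).aestronglyMeasurable measurableSet_ball))
    (ae_restrict_of_forall_mem measurableSet_ball fun z hz => ?_)
  rw [Real.norm_eq_abs, abs_mul, abs_of_nonneg (DA2_nonneg hz), mul_left_comm]
  exact mul_le_mul (DA2_le h0 h1 z) (h f z) (abs_nonneg _) (DA2_nonneg (ball_subset_ball h1 hz))

theorem T_congr (h : EqOn f g (ball 0 1)) (h1 : r ≤ 1) : T A φ f r = T A φ g r := by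
  unfold T
  congr 1
  refine setIntegral_congr_fun measurableSet_ball fun z hz => ?_
  simp only [den_congr (φ := φ)
    (h.eventuallyEq_of_mem (isOpen_ball.mem_nhds (ball_subset_ball h1 hz)))]

theorem Adm.congr (hf : Adm A w x f) (h : EqOn g f (ball 0 1)) : Adm A w x g := by
  refine ⟨hf.1.congr h, (h (mem_ball_self one_pos)).trans hf.2.1,
    hf.2.2.congr_fun (fun z hz => ?_) measurableSet_ball⟩
  simp only [den_congr (φ := w) (h.eventuallyEq_of_mem (isOpen_ball.mem_nhds hz))]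

theorem admC_const (w : Frm A) (x : X) : AdmC A w x fun _ => x := by
  refine ⟨⟨isD_const x _, rfl, ?_⟩, continuousOn_const⟩
  simp only [den_const, mul_zero]
  exact integrableOn_zero

theorem T_const (φ : Frm A) (x : X) (r : ℝ) : T A φ (fun _ => x) r = 0 := by
  simp only [T, den_const, mul_zero, integral_zero]

theorem T_add (hw : Kae A w) (hf : Adm A w x f) (hφ : IsF A φ) (hψ : IsF A ψ) (h0 : 0 < r)
    (h1 : r ≤ 1) : T A (φ + ψ) f r = T A φ f r + T A ψ f r := by
  simp only [T, den_add hφ hψ, mul_add]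
  rw [integral_add (hf.integrableOn hw hφ h0 h1) (hf.integrableOn hw hψ h0 h1), mul_add]

theorem T_smul (hφ : IsF A φ) (c : ℝ) (f : ℂ → X) (r : ℝ) :
    T A (c • φ) f r = c * T A φ f r := by
  simp only [T, den_smul hφ, mul_left_comm _ c]
  rw [integral_const_mul, mul_left_comm]

theorem T_sub (hw : Kae A w) (hf : Adm A w x f) (hφ : IsF A φ) (hψ : IsF A ψ) (h0 : 0 < r)
    (h1 : r ≤ 1) : T A (φ - ψ) f r = T A φ f r - T A ψ f r := by
  simp only [T, den_sub hφ hψ, mul_sub]
  rw [integral_sub (hf.integrableOn hw hφ h0 h1) (hf.integrableOn hw hψ h0 h1), mul_sub]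

theorem T_zero (f : ℂ → X) (r : ℝ) : T A 0 f r = 0 := by
  simp only [T, den_zero, mul_zero, integral_zero]

theorem T_nonneg (hφ : IsF A φ) (h : NnF A φ) (f : ℂ → X) (r : ℝ) : 0 ≤ T A φ f r :=
  mul_nonneg DA2_c.le (setIntegral_nonneg measurableSet_ball fun z hz =>
    mul_nonneg (DA2_nonneg hz) (den_nonneg hφ h f z))

/-- The characteristic as an integral over the unit disc. -/
theorem T_eq_max (φ : Frm A) (f : ℂ → X) (h0 : 0 < r) (h1 : r ≤ 1) :
    T A φ f r = 2 / Real.pi * ∫ z in ball (0 : ℂ) 1,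
      max (Real.log (1 / ‖z‖) + Real.log r) 0 * den A φ f z := by
  rw [setIntegral_eq_of_subset_of_forall_sdiff_eq_zero measurableSet_ball (ball_subset_ball h1)
    (DA2_out h0 _), ← setIntegral_congr_ae measurableSet_ball (DA2_in h0 _), T]

theorem T_mono (hw : Kae A w) (hf : Adm A w x f) (hφ : IsF A φ) (h : NnF A φ) {s : ℝ}
    (h0 : 0 < r) (hs : r ≤ s) (h1 : s ≤ 1) : T A φ f r ≤ T A φ f s := by
  have h2 := h0.trans_le hs
  rw [T_eq_max φ f h0 (hs.trans h1), T_eq_max φ f h2 h1]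
  refine mul_le_mul_of_nonneg_left (integral_mono (DA2_int h0 (hf.integrableOn hw hφ h0
    (hs.trans h1))) (DA2_int h2 (hf.integrableOn hw hφ h2 h1)) fun z => ?_) DA2_c.le
  exact mul_le_mul_of_nonneg_right (max_le_max_right _ (add_le_add_right
    (Real.log_le_log h0 hs) _)) (den_nonneg hφ h f z)

theorem continuousOn_T (hw : Kae A w) (hf : Adm A w x f) (hφ : IsF A φ) :
    ContinuousOn (T A φ f) (Ioc 0 1) := by
  obtain ⟨C, hC, h⟩ := den_le hw hφ
  refine ContinuousOn.congr (continuousOn_const.mul (continuousOn_of_dominated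
    (fun r _ => DA2_meas' hφ hf.1 r) (fun r hr => ae_restrict_of_forall_mem measurableSet_ball
      fun z hz => ?_) (hf.2.2.const_mul C) (Eventually.of_forall fun z => ?_)))
    fun r hr => T_eq_max φ f hr.1 hr.2
  · rw [Real.norm_eq_abs, abs_mul, abs_of_nonneg (le_max_right _ _), mul_left_comm]
    exact mul_le_mul (DA2_max_le hr.1 hr.2 hz) (h f z) (abs_nonneg _) (DA2_nonneg hz)
  · exact ((continuousOn_const.add (Real.continuousOn_log.mono fun r hr => hr.1.ne')).sup
      continuousOn_const).mul continuousOn_const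

theorem T_tendsto (hw : Kae A w) (hf : Adm A w x f) (hφ : IsF A φ) :
    Tendsto (T A φ f) (𝓝[<] 1) (𝓝 (T A φ f 1)) :=
  (continuousOn_T hw hf hφ 1 ⟨one_pos, le_rfl⟩).tendsto.mono_left
    (le_inf nhdsWithin_le_nhds (le_principal_iff.2 (Ioc_mem_nhdsLT one_pos)))

theorem T_abs_le (hw : Kae A w) (hφ : IsF A φ) : ∃ C : ℝ, 0 < C ∧ ∀ x f r, Adm A w x f → 0 < r →
    r ≤ 1 → |T A φ f r| ≤ C * T A w f r := by
  obtain ⟨C, hC, h⟩ := den_le hw hφ
  refine ⟨C, hC, fun x f r hf h0 h1 => ?_⟩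
  rw [T, T, abs_mul, abs_of_pos DA2_c, mul_left_comm, ← integral_const_mul C, ← Real.norm_eq_abs]
  refine mul_le_mul_of_nonneg_left (norm_integral_le_of_norm_le
    ((hf.integrableOn hw hw.1 h0 h1).const_mul C)
    (ae_restrict_of_forall_mem measurableSet_ball fun z hz => ?_)) DA2_c.le
  rw [Real.norm_eq_abs, abs_mul, abs_of_nonneg (DA2_nonneg hz), mul_left_comm]
  exact mul_le_mul_of_nonneg_left (h f z) (DA2_nonneg hz)

theorem adm_of_bdd (hw : Kae A w) (hf : IsD A f (ball 0 1)) {C : ℝ}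
    (h : ∀ r ∈ Ioo (0 : ℝ) 1, T A w f r ≤ C) : Adm A w (f 0) f := by
  have hd := den_nonneg hw.1 hw.2.nn f
  refine ⟨hf, rfl, (DA2_meas 1).aestronglyMeasurable.mul
    ((continuousOn_den hw.1 hf isOpen_ball).aestronglyMeasurable measurableSet_ball), ?_⟩
  have h1 := lintegral_liminf_le' (μ := volume.restrict (ball (0 : ℂ) 1)) (u := 𝓝[<] (1 : ℝ))
    fun r => (DA2_meas' hw.1 hf r).enorm
  have h2 : ∀ z ∈ ball (0 : ℂ) 1, Tendsto (fun r => ‖max (Real.log (1 / ‖z‖) + Real.log r) 0 *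
      den A w f z‖ₑ) (𝓝[<] 1) (𝓝 ‖Real.log (1 / ‖z‖) * den A w f z‖ₑ) := fun z hz => by
    have h3 : ContinuousAt (fun r => max (Real.log (1 / ‖z‖) + Real.log r) 0 * den A w f z) 1 :=
      ((continuousAt_const.add (Real.continuousAt_log one_ne_zero)).sup continuousAt_const).mul
        continuousAt_const
    have h4 := h3.tendsto
    rw [Real.log_one, add_zero, max_eq_left (DA2_nonneg hz)] at h4
    exact (h4.mono_left nhdsWithin_le_nhds).enorm
  rw [lintegral_congr_ae (ae_restrict_of_forall_mem measurableSet_ball fun z hz =>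
    (h2 z hz).liminf_eq)] at h1
  refine (h1.trans (liminf_le_of_frequently_le' (Eventually.frequently ?_))).trans_lt
    (ENNReal.ofReal_lt_top (r := C / (2 / Real.pi)))
  filter_upwards [Ioo_mem_nhdsLT one_pos] with r hr
  rw [← ofReal_integral_norm_eq_lintegral_enorm (DA2_int hr.1 (hf.integrableOn hw.1 hr.1 hr.2))]
  refine ENNReal.ofReal_le_ofReal ((le_div_iff₀' DA2_c).2 (le_trans (le_of_eq ?_) (h r hr)))
  rw [T_eq_max w f hr.1 hr.2.le]
  simp only [Real.norm_of_nonneg (mul_nonneg (le_max_right _ _) (hd _))]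

theorem T_close (hφ : IsF A φ) (hf : IsD A f (ball 0 1)) (hg : IsD A g (ball 0 1)) (h0 : 0 < r)
    (h1 : r < 1) {ε : ℝ} (h : ∀ z ∈ ball (0 : ℂ) r, |den A φ f z - den A φ g z| ≤ ε) :
    |T A φ f r - T A φ g r| ≤ ε * r ^ 2 := by
  rw [T, T, ← mul_sub, ← integral_sub (hf.integrableOn hφ h0 h1) (hg.integrableOn hφ h0 h1),
    abs_mul, abs_of_pos DA2_c]
  have h2 := norm_integral_le_of_norm_le (f := fun z => Real.log (r / ‖z‖) * den A φ f z -
    Real.log (r / ‖z‖) * den A φ g z) ((integrableOn_log h0).mul_const ε)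
    (ae_restrict_of_forall_mem measurableSet_ball fun z hz => by
      rw [← mul_sub, Real.norm_eq_abs, abs_mul, abs_of_nonneg (DA2_nonneg hz)]
      exact mul_le_mul_of_nonneg_left (h z hz) (DA2_nonneg hz))
  rw [integral_mul_const, integral_log h0] at h2
  refine (mul_le_mul_of_nonneg_left h2 DA2_c.le).trans_eq ?_
  have := Real.pi_pos
  field_simp

/-- The characteristic dominates the weighted characteristic of `w`. -/
theorem T_ge_weight (hw : Kae A w) (hf : Adm A w x f) (hη : IsF A η) {l : X → ℝ}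
    (hl : Continuous l) (h : ∀ p, (GM A η p - (l p : ℂ) • GM A w p).PosSemidef) :
    2 / Real.pi * ∫ ζ in ball (0 : ℂ) 1, Real.log (1 / ‖ζ‖) * den A w f ζ * l (f ζ) ≤
      T A η f 1 := by
  obtain ⟨C, hC⟩ := isCompact_univ.exists_bound_of_continuousOn hl.continuousOn
  refine mul_le_mul_of_nonneg_left (setIntegral_mono_on (Integrable.mul_bdd hf.2.2
    ((hl.comp_continuousOn hf.1.1).aestronglyMeasurable measurableSet_ball)
    (Eventually.of_forall fun z => hC _ (mem_univ _))) (hf.integrableOn hw hη one_pos le_rfl)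
    measurableSet_ball fun z hz => ?_) DA2_c.le
  rw [mul_assoc]
  refine mul_le_mul_of_nonneg_left ?_ (DA2_nonneg hz)
  have h1 := (h (f z)).re_dotProduct_nonneg (deriv (fun y => A.e (ch A (f z)) (f y)) z)
  rw [den_eq_GM hw.1, den_eq_GM hη, hq, hq]
  rw [sub_mulVec, dotProduct_sub, smul_mulVec, dotProduct_smul, RCLike.re_to_complex,
    Complex.sub_re, smul_eq_mul, Complex.re_ofReal_mul] at h1
  linarith

end Vale.Agent.P272
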