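import Vale.Agent.P272.DA2

/-! P272, part D: potentials, dilations, the Brody bound. -/

open MeasureTheory Set Filter Topology Metric Matrix
open scoped ContDiff ComplexConjugate ComplexOrder

noncomputable section

namespace Vale.Agent.P272

open Vale.Agent.P271

variable {n : ℕ} {X : Type} [TopologicalSpace X] [T2Space X] [CompactSpace X] {A : Atl n X}
  {w η η₀ η₁ η₂ φ ψ : Frm A} {K r : ℝ} {x : X} {f g : ℂ → X} {U : Set ℂ} {ζ : ℂ}

omit [T2Space X] [CompactSpace X] in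
theorem DA3_ddc {u : X → ℝ} (hu : A.Sm u) (hf : IsD A f (ball 0 1)) :
    ∀ z ∈ ball (0 : ℂ) 1, ContDiffAt ℝ 2 (fun z => u (f z)) z ∧
      Laplacian.laplacian (fun z => u (f z)) z = 4 * den A (ddc A u) f z := fun _ hz =>
  ⟨(den_ddc hu hf (isOpen_ball.mem_nhds hz)).1.of_le (by
    exact WithTop.coe_le_coe.2 (le_top : (2 : ℕ∞) ≤ ⊤)),
    (den_ddc hu hf (isOpen_ball.mem_nhds hz)).2⟩

theorem DA3_det (a : ℂ) :
    |((ContinuousLinearMap.toSpanSingleton ℂ a).restrictScalars ℝ).det| = ‖a‖ ^ 2 := by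
  simp [ContinuousLinearMap.det, LinearMap.det_restrictScalars, Algebra.norm_complex_eq,
    Complex.normSq_eq_norm_sq]

theorem T_pot (hφ : IsF A φ) (hf : IsD A f (ball 0 1)) {v : ℂ → ℝ}
    (hv : ∀ z ∈ ball (0 : ℂ) 1, ContDiffAt ℝ 2 v z ∧ Laplacian.laplacian v z = 4 * den A φ f z)
    (h0 : 0 < r) (h1 : r < 1) : T A φ f r = Real.circleAverage v 0 r - v 0 := by
  have hsub : closedBall (0 : ℂ) r ⊆ ball 0 1 := closedBall_subset_ball h1
  rw [green_jensen h0 fun ζ hζ => (hv ζ (hsub hζ)).1]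
  have e : ∫ ζ in ball (0 : ℂ) r, Real.log (r / ‖ζ‖) * Laplacian.laplacian v ζ =
      4 * ∫ ζ in ball (0 : ℂ) r, Real.log (r / ‖ζ‖) * den A φ f ζ := by
    rw [← integral_const_mul]
    refine setIntegral_congr_fun measurableSet_ball fun ζ hζ => ?_
    rw [(hv ζ (hsub (ball_subset_closedBall hζ))).2]
    ring
  rw [e, T]
  have := Real.pi_pos
  field_simp
  ring

theorem continuousOn_avg {v : ℂ → ℝ} (hc : ContinuousOn v (closedBall 0 1)) :
    ContinuousOn (fun s => Real.circleAverage v 0 s) (Icc 0 1) := by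
  refine Real.ContinuousOn.circleAverage (hc.mono fun z hz => ?_) fun s hs => hs.1
  rw [mem_closedBall, dist_eq_norm]
  exact hz.2

theorem T_pot_one (hw : Kae A w) (hf : Adm A w x f) (hφ : IsF A φ) {v : ℂ → ℝ}
    (hv : ∀ z ∈ ball (0 : ℂ) 1, ContDiffAt ℝ 2 v z ∧ Laplacian.laplacian v z = 4 * den A φ f z)
    (hc : ContinuousOn v (closedBall 0 1)) : T A φ f 1 = Real.circleAverage v 0 1 - v 0 := by
  have h1 : Tendsto (fun s => Real.circleAverage v 0 s - v 0) (𝓝[<] 1)
      (𝓝 (Real.circleAverage v 0 1 - v 0)) := by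
    refine Tendsto.sub_const ?_ _
    have h2 := continuousOn_avg hc 1 ⟨zero_le_one, le_rfl⟩
    refine h2.tendsto.mono_left ?_
    rw [← nhdsWithin_Ioo_eq_nhdsLT zero_lt_one]
    exact nhdsWithin_mono _ Ioo_subset_Icc_self
  refine tendsto_nhds_unique (T_tendsto hw hf hφ) (h1.congr' ?_)
  filter_upwards [Ioo_mem_nhdsLT zero_lt_one] with s hs
  exact (T_pot hφ hf.1 hv hs.1 hs.2).symm

theorem T_ddc (hw : Kae A w) (hf : Adm A w x f) {u : X → ℝ} (hu : A.Sm u) (h0 : 0 < r)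
    (h1 : r < 1) : T A (ddc A u) f r = av u f r - u x := by
  rw [T_pot (isF_ddc hu) hf.1 (DA3_ddc hu hf.1) h0 h1, av, hf.2.1]

theorem T_ddc_one (hw : Kae A w) (hf : AdmC A w x f) {u : X → ℝ} (hu : A.Sm u) :
    T A (ddc A u) f 1 = av u f 1 - u x := by
  rw [T_pot_one hw hf.1 (isF_ddc hu) (DA3_ddc hu hf.1.1)
    ((Atl.Sm.continuous hu).comp_continuousOn hf.2), av, hf.1.2.1]

/-- Without continuity up to the boundary. -/
theorem T_ddc_le (hw : Kae A w) (hf : Adm A w x f) {u : X → ℝ} (hu : A.Sm u) {b : ℝ}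
    (hb : ∀ p, u p ≤ b) : T A (ddc A u) f 1 ≤ b - u x := by
  refine le_of_tendsto (T_tendsto hw hf (isF_ddc hu)) ?_
  filter_upwards [Ioo_mem_nhdsLT zero_lt_one] with s hs
  rw [T_ddc hw hf hu hs.1 hs.2, av]
  refine sub_le_sub_right (Real.circleAverage_mono_on_of_le_circle ?_ fun z _ => hb _) _
  refine ContinuousOn.circleIntegrable hs.1.le ?_
  refine (Atl.Sm.continuous hu).comp_continuousOn (hf.1.1.mono ?_)
  exact sphere_subset_ball hs.2

/-- Holomorphic change of variables. -/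
theorem cov {m : ℂ → ℂ} (hU : IsOpen U) (hm : DifferentiableOn ℂ m U) (hi : InjOn m U)
    (G : ℂ → ℝ) :
    (IntegrableOn G (m '' U) ↔ IntegrableOn (fun z => G (m z) * ‖deriv m z‖ ^ 2) U) ∧
      ∫ z in m '' U, G z = ∫ z in U, G (m z) * ‖deriv m z‖ ^ 2 := by
  have hd : ∀ z ∈ U, HasFDerivWithinAt m
      ((ContinuousLinearMap.toSpanSingleton ℂ (deriv m z)).restrictScalars ℝ) U z := fun z hz =>
    ((hm.differentiableAt (hU.mem_nhds hz)).hasDerivAt.hasFDerivAt.restrictScalars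
      ℝ).hasFDerivWithinAt
  have h1 := integrableOn_image_iff_integrableOn_abs_det_fderiv_smul volume hU.measurableSet hd hi G
  have h2 := integral_image_eq_integral_abs_det_fderiv_smul volume hU.measurableSet hd hi G
  simp only [DA3_det, smul_eq_mul] at h1 h2
  simp only [mul_comm (G _)]
  exact ⟨h1, h2⟩

theorem T_dilate (hφ : IsF A φ) (hf : IsD A f (ball 0 1)) {s : ℝ} (hs : 0 < s) (hs1 : s ≤ 1)
    (h0 : 0 < r) (h1 : r ≤ 1) : T A φ (fun z => f (s * z)) r = T A φ f (s * r) := by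
  have hs' : (s : ℂ) ≠ 0 := Complex.ofReal_ne_zero.2 hs.ne'
  have hn : ∀ z : ℂ, ‖(s : ℂ) * z‖ = s * ‖z‖ := fun z => by
    rw [norm_mul, Complex.norm_real, Real.norm_of_nonneg hs.le]
  have hm : Differentiable ℂ fun z : ℂ => (s : ℂ) * z := by fun_prop
  have him : (fun z : ℂ => (s : ℂ) * z) '' ball 0 r = ball 0 (s * r) := by
    ext y
    simp only [mem_image, mem_ball, dist_zero_right]
    constructor
    · rintro ⟨z, hz, rfl⟩
      rw [hn]
      exact mul_lt_mul_of_pos_left hz hs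
    · intro hy
      have e : (s : ℂ) * (y / s) = y := by field_simp
      refine ⟨y / s, ?_, e⟩
      have := hn (y / s)
      rw [e] at this
      rw [this] at hy
      exact lt_of_mul_lt_mul_left hy hs.le
  have h2 := (cov (U := ball 0 r) isOpen_ball hm.differentiableOn
    (fun a _ b _ e => mul_left_cancel₀ hs' e)
    (fun z => Real.log (s * r / ‖z‖) * den A φ f z)).2
  rw [him] at h2
  rw [T, T, h2]
  congr 1
  refine setIntegral_congr_fun measurableSet_ball fun z hz => ?_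
  have hz' : (s : ℂ) * z ∈ ball (0 : ℂ) 1 := by
    rw [mem_ball, dist_zero_right] at hz ⊢
    rw [hn]
    calc s * ‖z‖ ≤ 1 * ‖z‖ := by gcongr
      _ < 1 := by linarith
  rw [den_comp hφ hf (m := fun z : ℂ => (s : ℂ) * z) (isOpen_ball.mem_nhds hz') (hm z), hn,
    mul_div_mul_left _ _ hs.ne', mul_assoc]

theorem admC_dilate (hw : IsF A w) (hf : IsD A f (ball 0 1)) {s : ℝ} (hs : 0 < s) (hs1 : s < 1) :
    AdmC A w (f 0) fun z => f (s * z) := by
  have hn : ∀ z : ℂ, ‖(s : ℂ) * z‖ = s * ‖z‖ := fun z => by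
    rw [norm_mul, Complex.norm_real, Real.norm_of_nonneg hs.le]
  have hm : Differentiable ℂ fun z : ℂ => (s : ℂ) * z := by fun_prop
  have h1 : 1 < 1 / s := by
    rw [lt_div_iff₀ hs]
    linarith
  have hD : IsD A (fun z => f (s * z)) (ball 0 (1 / s)) := by
    refine hf.comp hm.differentiableOn fun z hz => ?_
    rw [mem_ball, dist_zero_right] at hz ⊢
    rw [hn]
    rw [lt_div_iff₀ hs] at hz
    linarith
  have hsub : closedBall (0 : ℂ) 1 ⊆ ball 0 (1 / s) := closedBall_subset_ball h1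
  refine ⟨⟨hD.mono (ball_subset_closedBall.trans hsub), by simp, ?_⟩, hD.1.mono hsub⟩
  have h2 := (continuousOn_den hw hD isOpen_ball).mono hsub
  exact IntegrableOn.mul_continuousOn_of_subset (integrableOn_log one_pos) h2 measurableSet_ball
    (isCompact_closedBall 0 1) ball_subset_closedBall

theorem den_brody (hw : Kae A w) (hK : Brody A w K) {c : ℂ} {ρ : ℝ} (hρ : 0 < ρ)
    (hf : IsD A f (ball c ρ)) : den A w f c ≤ K / ρ ^ 2 := by
  have hm : Differentiable ℂ fun z : ℂ => c + (ρ : ℂ) * z := by fun_prop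
  have hD : IsD A (fun z => f (c + ρ * z)) (ball 0 1) := by
    refine hf.comp hm.differentiableOn fun z hz => ?_
    rw [mem_ball, dist_zero_right] at hz
    rw [mem_ball, dist_eq_norm, add_sub_cancel_left, norm_mul, Complex.norm_real,
      Real.norm_of_nonneg hρ.le]
    calc ρ * ‖z‖ < ρ * 1 := mul_lt_mul_of_pos_left hz hρ
      _ = ρ := mul_one ρ
  have h1 := hK _ hD
  have hU : ball c ρ ∈ 𝓝 ((fun z : ℂ => c + (ρ : ℂ) * z) 0) := by
    simpa using ball_mem_nhds c hρ
  rw [den_comp hw.1 hf (m := fun z : ℂ => c + (ρ : ℂ) * z) hU (hm 0)] at h1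
  have hd : deriv (fun z : ℂ => c + (ρ : ℂ) * z) 0 = ρ := by
    have := (((hasDerivAt_id (0 : ℂ)).const_mul (ρ : ℂ)).const_add c).deriv
    simpa using this
  rw [hd, Complex.norm_real, Real.norm_of_nonneg hρ.le, mul_zero, add_zero] at h1
  rwa [le_div_iff₀ (by positivity)]

theorem brody_nonneg (hK : Brody A w K) (x : X) : 0 ≤ K := by
  have := hK _ (isD_const x _)
  rwa [den_const] at this

theorem T_bdd (hw : Kae A w) (hK : Brody A w K) (hφ : IsF A φ) (h0 : 0 < r) (h1 : r < 1) :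
    ∃ C, ∀ x f, Adm A w x f → |T A φ f r| ≤ C := by
  obtain ⟨C, hC, h⟩ := T_abs_le hw hφ
  refine ⟨C * (K / (1 - r) ^ 2 * r ^ 2), fun x f hf => (h x f r hf h0 h1.le).trans ?_⟩
  refine mul_le_mul_of_nonneg_left ?_ hC.le
  have h2 := T_close (ε := K / (1 - r) ^ 2) hw.1 hf.1 (isD_const x _) h0 h1 fun z hz => by
    rw [den_const, sub_zero, abs_of_nonneg (den_nonneg hw.1 hw.2.nn f z)]
    refine den_brody hw hK (by linarith) (hf.1.mono ?_)
    refine ball_subset_ball' ?_
    rw [mem_ball] at hz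
    linarith
  rw [T_const, sub_zero] at h2
  exact (le_abs_self _).trans h2

end Vale.Agent.P272
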