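import Vale.Agent.P272.DC

/-! P272, part D: the Brody bound. -/

open MeasureTheory Set Filter Topology Metric Matrix
open scoped ContDiff ComplexConjugate ComplexOrder

noncomputable section

namespace Vale.Agent.P272

open Vale.Agent.P271

variable {n : ℕ} {X : Type} [TopologicalSpace X] [T2Space X] [CompactSpace X] {A : Atl n X}
  {w η η₀ η₁ η₂ φ ψ : Frm A} {K r : ℝ} {x : X} {f g : ℂ → X} {U : Set ℂ} {ζ : ℂ}

omit [T2Space X] [CompactSpace X] in
/-- Rescaling at the maximum of the weighted density. -/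
theorem DBr_zal (hw : Kae A w) (hf : IsD A f (ball 0 1)) (hr : 0 < r)
    (h : 16 * r ^ 2 ≤ den A w f 0) :
    ∃ F, IsD A F (ball 0 r) ∧ den A w F 0 = 1 ∧ ∀ z ∈ ball (0 : ℂ) r, den A w F z ≤ 4 := by
  have hs : closedBall (0 : ℂ) (1 / 2) ⊆ ball 0 1 := closedBall_subset_ball (by norm_num)
  have hc : ContinuousOn (fun z : ℂ => (1 / 2 - ‖z‖) ^ 2 * den A w f z) (closedBall 0 (1 / 2)) :=
    ContinuousOn.mul (by fun_prop) ((continuousOn_den hw.1 hf isOpen_ball).mono hs)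
  obtain ⟨y, hy, hm⟩ := (isCompact_closedBall (0 : ℂ) (1 / 2)).exists_isMaxOn
    (nonempty_closedBall.2 (by norm_num)) hc
  have h0 : (1 / 2 - ‖(0 : ℂ)‖) ^ 2 * den A w f 0 ≤ (1 / 2 - ‖y‖) ^ 2 * den A w f y :=
    hm (mem_closedBall_self (by norm_num))
  rw [norm_zero] at h0
  have hy' : 0 ≤ 1 / 2 - ‖y‖ := sub_nonneg.2 (mem_closedBall_zero_iff.1 hy)
  have hnn := den_nonneg hw.1 hw.2.nn f
  have h1 : 4 * r ^ 2 ≤ (1 / 2 - ‖y‖) ^ 2 * den A w f y := by linarith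
  have h2 : 0 < den A w f y :=
    pos_of_mul_pos_right ((by positivity : 0 < 4 * r ^ 2).trans_le h1) (sq_nonneg _)
  obtain ⟨s, hs0, hs1⟩ : ∃ s : ℝ, 0 < s ∧ den A w f y * s ^ 2 = 1 :=
    ⟨(√(den A w f y))⁻¹, inv_pos.2 (Real.sqrt_pos.2 h2), by
      rw [inv_pow, Real.sq_sqrt h2.le, mul_inv_cancel₀ h2.ne']⟩
  have h3 : 2 * (r * s) ≤ 1 / 2 - ‖y‖ := by
    refine (abs_le_of_sq_le_sq' ?_ hy').2
    have := mul_le_mul_of_nonneg_right h1 (sq_nonneg s)
    rw [mul_assoc _ (den A w f y), hs1] at this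
    linarith
  have h4 : ∀ z ∈ ball (0 : ℂ) r, (1 / 2 - ‖y‖) / 2 ≤ 1 / 2 - ‖y + s * z‖ := fun z hz => by
    have a1 := norm_add_le y (s * z)
    rw [norm_mul, Complex.norm_real, Real.norm_of_nonneg hs0.le] at a1
    have a2 := mul_le_mul_of_nonneg_left (mem_ball_zero_iff.1 hz).le hs0.le
    linarith
  have h5 : ∀ z ∈ ball (0 : ℂ) r, y + s * z ∈ closedBall (0 : ℂ) (1 / 2) := fun z hz =>
    mem_closedBall_zero_iff.2 (by linarith [h4 z hz])
  have h6 : ∀ z ∈ ball (0 : ℂ) r,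
      den A w (fun z => f (y + s * z)) z = den A w f (y + s * z) * s ^ 2 := fun z hz => by
    have a1 : HasDerivAt (fun z : ℂ => y + s * z) s z := by
      simpa using ((hasDerivAt_id z).const_mul (s : ℂ)).const_add y
    rw [den_comp (m := fun z : ℂ => y + s * z) hw.1 hf (isOpen_ball.mem_nhds (hs (h5 z hz)))
      a1.differentiableAt, a1.deriv, Complex.norm_real, Real.norm_of_nonneg hs0.le]
  refine ⟨fun z => f (y + s * z), hf.comp (by fun_prop) fun z hz => hs (h5 z hz), ?_,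
    fun z hz => ?_⟩
  · rw [h6 0 (mem_ball_self hr), mul_zero, add_zero, hs1]
  · rw [h6 z hz]
    have a1 : (1 / 2 - ‖y + s * z‖) ^ 2 * den A w f (y + s * z) ≤
        (1 / 2 - ‖y‖) ^ 2 * den A w f y := hm (h5 z hz)
    have a2 := mul_le_mul_of_nonneg_right (pow_le_pow_left₀ (by linarith) (h4 z hz) 2)
      (hnn (y + s * z))
    have a3 : 0 < 1 / 2 - ‖y‖ := lt_of_lt_of_le (by positivity) h3
    have a4 : den A w f (y + s * z) ≤ 4 * den A w f y :=
      le_of_mul_le_mul_left (by linarith) (pow_pos a3 2)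
    have a5 := mul_le_mul_of_nonneg_right a4 (sq_nonneg s)
    linarith

theorem brody (hw : Kae A w) (h : Hyp A) : ∃ K, Brody A w K := by
  by_contra hn
  simp only [Brody, not_exists, not_forall, not_le] at hn
  have h1 : ∀ k : ℕ, ∃ F, IsD A F (ball 0 (k + 1)) ∧ den A w F 0 = 1 ∧
      ∀ z ∈ ball (0 : ℂ) (k + 1), den A w F z ≤ 4 := fun k => by
    obtain ⟨f, hf, hf'⟩ := hn (16 * (k + 1) ^ 2)
    exact DBr_zal hw hf (by positivity) hf'.le
  choose F hF h2 h3 using h1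
  obtain ⟨g, hg, -, h4⟩ := limit_disc (U := univ) hw (hyperfilter ℕ) (F := F) fun z _ => by
    refine ⟨1, one_pos, 4, Nat.hyperfilter_le_atTop ?_⟩
    filter_upwards [tendsto_natCast_atTop_atTop.eventually_ge_atTop ‖z‖] with k hk
    have : ball z 1 ⊆ ball 0 (k + 1) := ball_subset_ball' (by rw [dist_zero_right]; linarith)
    exact ⟨(hF k).mono this, fun y hy => h3 k y (this hy)⟩
  obtain ⟨ρ, hρ, h5⟩ := h4 w hw.1 0 trivial (1 / 2) (by norm_num)
  obtain ⟨k, hk⟩ := h5.exists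
  have h6 := hk 0 (mem_ball_self hρ)
  rw [h2, funext (h g hg), den_const] at h6
  norm_num at h6

end Vale.Agent.P272
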