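import Vale.Agent.P272.DL

/-! P272, part D: limits of discs. -/

open MeasureTheory Set Filter Topology Metric Matrix
open scoped ContDiff ComplexConjugate ComplexOrder

noncomputable section

namespace Vale.Agent.P272

open Vale.Agent.P271

variable {n : ℕ} {X : Type} [TopologicalSpace X] [T2Space X] [CompactSpace X] {A : Atl n X}
  {w η η₀ η₁ η₂ φ ψ : Frm A} {K r : ℝ} {x : X} {f g : ℂ → X} {U : Set ℂ} {ζ : ℂ}

/-- Pointwise limits of bounded holomorphic maps are locally uniform limits. -/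
theorem DC_unif {I : Type} {l : Filter I} [l.NeBot] {u : I → ℂ → Cn n} {v : ℂ → Cn n} {z₀ : ℂ}
    {ρ M : ℝ} (h : ∀ᶠ i in l, DifferentiableOn ℂ (u i) (ball z₀ ρ) ∧ ∀ z ∈ ball z₀ ρ, ‖u i z‖ ≤ M)
    (hv : ∀ z ∈ ball z₀ ρ, Tendsto (fun i => u i z) l (𝓝 (v z))) :
    TendstoLocallyUniformlyOn u v l (ball z₀ ρ) := by
  refine Metric.tendstoLocallyUniformlyOn_iff.2 fun ε hε y hy => ?_
  obtain ⟨s, hs, hs'⟩ := Metric.isOpen_iff.1 isOpen_ball y hy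
  have h1 : ∀ᶠ i in l, ∀ z ∈ ball y s, ‖u i z - u i y‖ ≤ 2 * M / s * ‖z - y‖ :=
    h.mono fun i hi z hz =>
      P278F.norm_sub_le_of_bound (hi.1.mono hs') (fun q hq => hi.2 q (hs' hq)) hz
  have h2 : ∀ z ∈ ball y s, ‖v z - v y‖ ≤ 2 * M / s * ‖z - y‖ := fun z hz =>
    le_of_tendsto ((hv z (hs' hz)).sub (hv y hy)).norm (h1.mono fun i hi => hi z hz)
  have h3 : Tendsto (fun z : ℂ => 2 * M / s * ‖z - y‖) (𝓝 y) (𝓝 0) :=
    Continuous.tendsto' (by fun_prop) _ _ (by simp)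
  refine ⟨ball y s ∩ {z | 2 * M / s * ‖z - y‖ < ε / 3}, mem_nhdsWithin_of_mem_nhds
    (inter_mem (ball_mem_nhds y hs) (h3.eventually (gt_mem_nhds (by positivity)))), ?_⟩
  filter_upwards [h1, Metric.tendsto_nhds.1 (hv y hy) (ε / 3) (by positivity)] with i hi hi' z hz
  have h4 := hi z hz.1
  have h5 := h2 z hz.1
  have h6 : 2 * M / s * ‖z - y‖ < ε / 3 := hz.2
  rw [← dist_eq_norm] at h4 h5
  linarith [dist_triangle4 (v z) (v y) (u i y) (u i z), dist_comm (u i z) (u i y),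
    dist_comm (v y) (u i y)]

theorem DC_prod {I : Type} {l : Filter I} {u : I → ℂ → Cn n} {v : ℂ → Cn n} {V : Set ℂ} {z₀ : ℂ}
    (h : TendstoLocallyUniformlyOn u v l V) (hV : V ∈ 𝓝 z₀) (hv : ContinuousAt v z₀) :
    Tendsto (fun p : I × ℂ => u p.1 p.2) (l ×ˢ 𝓝 z₀) (𝓝 (v z₀)) := by
  have h1 : TendstoLocallyUniformlyOn (fun p : I × ℂ => u p.1) v (l ×ˢ 𝓝 z₀) V :=
    fun W hW y hy => (h W hW y hy).imp fun t ht => ⟨ht.1, tendsto_fst.eventually ht.2⟩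
  refine h1.tendsto_comp hv.continuousWithinAt (mem_of_mem_nhds hV) ?_
  rw [nhdsWithin_eq_nhds.2 hV]
  exact tendsto_snd

theorem DC_hq {p : Cn n → ℝ} {z v : Cn n} (h : ContDiffAt ℝ ∞ p z) :
    ContinuousAt (fun q : Cn n × Cn n => hq (LM p q.1) q.2) (z, v) := by
  simp only [hq, dotProduct, mulVec, Pi.star_apply]
  refine Complex.continuous_re.continuousAt.comp (tendsto_finsetSum _ fun j _ =>
    ContinuousAt.mul (by fun_prop) (tendsto_finsetSum _ fun k _ =>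
      ContinuousAt.mul ?_ (by fun_prop)))
  exact ContinuousAt.comp (f := fun q : Cn n × Cn n => q.1) (x := (z, v))
    (contDiffAt_LM h j k).continuousAt continuousAt_fst

theorem DC_loc (hw : Kae A w) {I : Type} (𝒰 : Ultrafilter I) {F : I → ℂ → X}
    (hg : ∀ z, Tendsto (fun i => F i z) 𝒰 (𝓝 (g z))) {z₀ : ℂ} {ρ B : ℝ} (hρ : 0 < ρ)
    (h : ∀ᶠ i in (𝒰 : Filter I), IsD A (F i) (ball z₀ ρ) ∧ ∀ z ∈ ball z₀ ρ, den A w (F i) z ≤ B) :
    ∃ s > (0 : ℝ), ∃ a, (∀ᶠ i in (𝒰 : Filter I), IsD A (F i) (ball z₀ s) ∧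
      ∀ z ∈ ball z₀ s, F i z ∈ (A.e a).source) ∧ (∀ z ∈ ball z₀ s, g z ∈ (A.e a).source) ∧
      DifferentiableOn ℂ (fun z => A.e a (g z)) (ball z₀ s) ∧ IsD A g (ball z₀ s) ∧
      TendstoLocallyUniformlyOn (fun i z => A.e a (F i z)) (fun z => A.e a (g z)) 𝒰 (ball z₀ s) ∧
      TendstoLocallyUniformlyOn (fun i => deriv fun z => A.e a (F i z))
        (deriv fun z => A.e a (g z)) 𝒰 (ball z₀ s) := by
  obtain ⟨R, c, S, hM⟩ := exists_marg hw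
  have h1 : Tendsto (fun t : ℝ => 4 * B * t ^ 2) (𝓝 0) (𝓝 0) :=
    Continuous.tendsto' (by fun_prop) _ _ (by simp)
  have h2 : ∀ᶠ t : ℝ in 𝓝[>] 0, 4 * B * t ^ 2 < c * R ^ 2 ∧ t < ρ := nhdsWithin_le_nhds
    ((h1.eventually (gt_mem_nhds (mul_pos hM.c_pos (pow_pos hM.R_pos 2)))).and (gt_mem_nhds hρ))
  obtain ⟨s, ⟨h3, h4⟩, hs⟩ := (h2.and self_mem_nhdsWithin).exists
  have h5 := ball_subset_ball (x := z₀) h4.le
  obtain ⟨a, ha⟩ := Ultrafilter.eventually_exists_iff.1 (h.mono fun i hi =>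
    hM.small hw.1 (hi.1.mono h5) (fun z hz => hi.2 z (h5 hz)) h3.le)
  have h6 : IsClosed ((A.e a).symm '' S a) :=
    ((hM.cpt a).image_of_continuousOn ((A.e a).continuousOn_symm.mono (hM.sub a))).isClosed
  have h7 : ∀ z ∈ ball z₀ s, g z ∈ (A.e a).source := fun z hz => by
    obtain ⟨y, hy, e⟩ := h6.mem_of_tendsto (hg z) (ha.mono fun i hi =>
      ⟨_, (hi z hz).2, (A.e a).left_inv (hi z hz).1⟩)
    exact e ▸ (A.e a).map_target (hM.sub a hy)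
  obtain ⟨M, hM'⟩ := isBounded_iff_forall_norm_le.1 (hM.cpt a).isBounded
  have h8 : ∀ᶠ i in (𝒰 : Filter I), DifferentiableOn ℂ (fun z => A.e a (F i z)) (ball z₀ s) := by
    filter_upwards [h, ha] with i hi hi'
    exact (hi.1.2 a).mono fun z hz => ⟨h5 hz, (hi' z hz).1⟩
  have h9 : TendstoLocallyUniformlyOn (fun i z => A.e a (F i z)) (fun z => A.e a (g z)) 𝒰
      (ball z₀ s) := by
    refine DC_unif (M := M) ?_ fun z hz => ((A.e a).continuousAt (h7 z hz)).tendsto.comp (hg z)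
    filter_upwards [h8, ha] with i hi hi'
    exact ⟨hi, fun z hz => hM' _ (hi' z hz).2⟩
  have h10 := h9.differentiableOn h8 isOpen_ball
  refine ⟨s, hs, a, ?_, h7, h10, isD_of_local fun z hz => ?_, h9, h9.deriv h8 isOpen_ball⟩
  · filter_upwards [h, ha] with i hi hi'
    exact ⟨hi.1.mono h5, fun z hz => (hi' z hz).1⟩
  · have h11 := h10.differentiableAt (isOpen_ball.mem_nhds hz)
    refine ⟨?_, a, h7 z hz, h11⟩
    refine (((A.e a).continuousAt_symm ((A.e a).map_source (h7 z hz))).comp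
      (f := fun z => A.e a (g z)) h11.continuousAt).congr ?_
    filter_upwards [isOpen_ball.mem_nhds hz] with y hy
    exact (A.e a).left_inv (h7 y hy)

theorem limit_disc (hw : Kae A w) {I : Type} (𝒰 : Ultrafilter I) {F : I → ℂ → X}
    (h : ∀ z₀ ∈ U, ∃ ρ > (0 : ℝ), ∃ B : ℝ, ∀ᶠ i in (𝒰 : Filter I),
      IsD A (F i) (ball z₀ ρ) ∧ ∀ z ∈ ball z₀ ρ, den A w (F i) z ≤ B) :
    ∃ g, IsD A g U ∧ (∀ z ∈ U, Tendsto (fun i => F i z) 𝒰 (𝓝 (g z))) ∧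
      ∀ φ, IsF A φ → ∀ z₀ ∈ U, ∀ ε > (0 : ℝ), ∃ ρ > (0 : ℝ), ∀ᶠ i in (𝒰 : Filter I),
        ∀ z ∈ ball z₀ ρ, |den A φ (F i) z - den A φ g z| ≤ ε := by
  have h0 : ∀ z, ∃ y, Tendsto (fun i => F i z) 𝒰 (𝓝 y) := fun z =>
    ⟨_, (𝒰.map fun i => F i z).le_nhds_lim⟩
  choose g hg using h0
  refine ⟨g, isD_of_local fun z hz => ?_, fun z _ => hg z, fun φ hφ z₀ hz ε hε => ?_⟩
  · obtain ⟨ρ, hρ, B, hB⟩ := h z hz
    obtain ⟨s, hs, a, -, h2, h3, h4, -⟩ := DC_loc hw 𝒰 hg hρ hB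
    exact ⟨h4.1.continuousAt (ball_mem_nhds z hs), a, h2 z (mem_ball_self hs),
      h3.differentiableAt (ball_mem_nhds z hs)⟩
  obtain ⟨ρ, hρ, B, hB⟩ := h z₀ hz
  obtain ⟨s, hs, a, h1, h2, h3, h4, h5, h6⟩ := DC_loc hw 𝒰 hg hρ hB
  have hb := ball_mem_nhds z₀ hs
  have c1 := h3.continuousOn.continuousAt hb
  have c2 := (h3.deriv isOpen_ball).continuousOn.continuousAt hb
  have c3 := (DC_hq (v := deriv (fun z => A.e a (g z)) z₀)
    (hφ.smAt ((A.e a).map_source (h2 z₀ (mem_ball_self hs))))).tendsto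
  have t1 := c3.comp ((DC_prod h5 hb c1).prodMk_nhds (DC_prod h6 hb c2))
  have t2 := (c3.comp (c1.tendsto.prodMk_nhds c2.tendsto)).comp
    (tendsto_snd (f := (𝒰 : Filter I)))
  have t3 := (t1.sub t2).abs
  rw [sub_self, abs_zero] at t3
  obtain ⟨pa, hpa, pb, hpb, hp⟩ := eventually_prod_iff.1 (t3.eventually (gt_mem_nhds hε))
  obtain ⟨t, ht, ht'⟩ := Metric.eventually_nhds_iff_ball.1 (hpb.and hb)
  refine ⟨t, ht, ?_⟩
  filter_upwards [hpa, h1] with i hi hi' z hz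
  have hz' := (ht' z hz).2
  rw [den_eq hφ hi'.1 (isOpen_ball.mem_nhds hz') (hi'.2 z hz'),
    den_eq hφ h4 (isOpen_ball.mem_nhds hz') (h2 z hz')]
  exact (hp hi (ht' z hz).1).le

end Vale.Agent.P272
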