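import Vale.Agent.P272.GreenX2

/-! P272: the Green-Jensen and Green-Poisson formulas in a disc. -/

open MeasureTheory Set Filter Topology Metric Matrix
open scoped ContDiff ComplexConjugate ComplexOrder

noncomputable section

namespace Vale.Agent.P272

open Vale.Agent.P271

theorem gr_zero {r : ℝ} (hr : 0 < r) (ζ : ℂ) : gr r 0 ζ = Real.log (r / ‖ζ‖) := by
  unfold gr
  congr 1
  rw [map_zero, zero_mul, sub_zero, sub_zero, norm_pow, Complex.norm_real, Real.norm_eq_abs,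
    abs_of_pos hr, pow_two, mul_div_mul_left _ _ hr.ne']

theorem green_sq (r : ℝ) (t ζ : ℂ) :
    ‖(r : ℂ) ^ 2 - conj t * ζ‖ ^ 2 - r ^ 2 * ‖ζ - t‖ ^ 2 = (r ^ 2 - ‖ζ‖ ^ 2) * (r ^ 2 - ‖t‖ ^ 2) := by
  simp only [← Complex.normSq_eq_norm_sq, Complex.normSq_apply, ← Complex.ofReal_pow,
    Complex.sub_re, Complex.sub_im, Complex.mul_re, Complex.mul_im, Complex.conj_re,
    Complex.conj_im, Complex.ofReal_re, Complex.ofReal_im]
  ring

theorem gr_nonneg {r : ℝ} {t ζ : ℂ} (ht : ‖t‖ < r) (hζ : ‖ζ‖ < r) : 0 ≤ gr r t ζ := by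
  have hr : 0 < r := (norm_nonneg t).trans_lt ht
  unfold gr
  rcases eq_or_ne ζ t with h | h
  · simp [h]
  · have h0 : 0 < r * ‖ζ - t‖ := mul_pos hr (norm_pos_iff.2 (sub_ne_zero.2 h))
    refine Real.log_nonneg ((one_le_div h0).2 (abs_le_of_sq_le_sq' ?_ (norm_nonneg _)).2)
    have h1 : 0 ≤ r ^ 2 - ‖ζ‖ ^ 2 := by nlinarith [norm_nonneg ζ]
    have h2 : 0 ≤ r ^ 2 - ‖t‖ ^ 2 := by nlinarith [norm_nonneg t]
    nlinarith [green_sq r t ζ, mul_nonneg h1 h2]

theorem integrableOn_gr {r : ℝ} {t : ℂ} (ht : ‖t‖ < r) : IntegrableOn (gr r t) (ball 0 r) := by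
  have hr : 0 < r := (norm_nonneg t).trans_lt ht
  have hne : ∀ ζ ∈ closedBall (0 : ℂ) r, (r : ℂ) ^ 2 - conj t * ζ ≠ 0 := fun ζ hζ => by
    have := mob_den (t := -t) (w := ζ) (by rwa [norm_neg]) (mem_closedBall_zero_iff.1 hζ)
    rwa [map_neg, neg_mul, ← sub_eq_add_neg] at this
  have h1 : IntegrableOn (fun ζ : ℂ => Real.log ‖(r : ℂ) ^ 2 - conj t * ζ‖) (ball 0 r) :=
    (ContinuousOn.integrableOn_compact (isCompact_closedBall 0 r)
      (ContinuousOn.log (by fun_prop) fun ζ hζ => norm_ne_zero_iff.2 (hne ζ hζ))).mono_set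
      ball_subset_closedBall
  have h2 : IntegrableOn (fun ζ : ℂ => Real.log ‖ζ - t‖) (ball 0 r) := by
    have h3 := ((measurePreserving_sub_right volume t).integrableOn_comp_preimage
      (Homeomorph.subRight t).measurableEmbedding).2 (greenX1_log (r + r))
    refine h3.mono_set fun ζ hζ => ?_
    rw [mem_preimage, mem_ball_zero_iff] at *
    linarith [norm_sub_le ζ t]
  have h4 : IntegrableOn (fun _ : ℂ => Real.log r) (ball 0 r) :=
    integrableOn_const measure_ball_lt_top.ne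
  refine (h1.sub (h4.add h2)).congr ((ae_restrict_iff' measurableSet_ball).2 ?_)
  filter_upwards [Measure.ae_ne volume t] with ζ hζ hb
  have h5 : ‖ζ - t‖ ≠ 0 := norm_ne_zero_iff.2 (sub_ne_zero.2 hζ)
  simp only [gr, Pi.sub_apply, Pi.add_apply]
  rw [Real.log_div (norm_ne_zero_iff.2 (hne ζ (ball_subset_closedBall hb))) (mul_ne_zero hr.ne' h5),
    Real.log_mul hr.ne' h5]

theorem po_le {r : ℝ} {t ξ : ℂ} (ht : ‖t‖ < r) (hξ : ‖ξ‖ = r) :
    0 ≤ po r t ξ ∧ po r t ξ ≤ (r + ‖t‖) / (r - ‖t‖) := by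
  have h0 := norm_nonneg t
  have h1 : r - ‖t‖ ≤ ‖ξ - t‖ := hξ ▸ norm_sub_norm_le ξ t
  have h2 : 0 < r - ‖t‖ := sub_pos.2 ht
  unfold po
  refine ⟨div_nonneg (by nlinarith) (sq_nonneg _), ?_⟩
  rw [div_le_div_iff₀ (pow_pos (h2.trans_le h1) 2) h2]
  have h3 : (r - ‖t‖) ^ 2 ≤ ‖ξ - t‖ ^ 2 := pow_le_pow_left₀ h2.le h1 2
  nlinarith [mul_le_mul_of_nonneg_left h3 (show 0 ≤ r + ‖t‖ by linarith)]

theorem green_jensen {u : ℂ → ℝ} {r : ℝ} (hr : 0 < r)
    (hu : ∀ ζ ∈ closedBall (0 : ℂ) r, ContDiffAt ℝ 2 u ζ) :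
    Real.circleAverage u 0 r - u 0 =
      1 / (2 * Real.pi) * ∫ ζ in ball (0 : ℂ) r, Real.log (r / ‖ζ‖) * Laplacian.laplacian u ζ := by
  obtain ⟨v, hv, e⟩ := greenX1_ext hu
  rw [← (e 0 (mem_closedBall_self hr.le)).eq_of_nhds,
    ← Real.circleAverage_congr_sphere (f₁ := v) fun ζ hζ =>
      (e ζ (by rw [abs_of_pos hr] at hζ; exact sphere_subset_closedBall hζ)).eq_of_nhds,
    greenX1_jensen hr hv]
  congr 1
  refine setIntegral_congr_fun measurableSet_ball fun ζ hζ => ?_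
  rw [(InnerProductSpace.laplacian_congr_nhds (e ζ (ball_subset_closedBall hζ))).eq_of_nhds]

theorem green_poisson {u : ℂ → ℝ} {r : ℝ} {t : ℂ} (ht : ‖t‖ < r)
    (hu : ∀ ζ ∈ closedBall (0 : ℂ) r, ContDiffAt ℝ 2 u ζ) :
    Real.circleAverage (fun ξ => po r t ξ * u ξ) 0 r - u t =
      1 / (2 * Real.pi) * ∫ ζ in ball (0 : ℂ) r, gr r t ζ * Laplacian.laplacian u ζ := by
  have hr : 0 < r := (norm_nonneg t).trans_lt ht
  have hm : ∀ w ∈ closedBall (0 : ℂ) r, mob r t w ∈ closedBall (0 : ℂ) r := fun w hw =>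
    mem_closedBall_zero_iff.2 (mob_le ht (mem_closedBall_zero_iff.1 hw))
  have h := green_jensen (u := fun w => u (mob r t w)) hr fun w hw =>
    (hu _ (hm w hw)).comp w
      (((mob_analyticAt ht (mem_closedBall_zero_iff.1 hw)).contDiffAt (n := 2)).restrict_scalars ℝ)
  rw [mob_circle ht fun ζ hζ =>
    (hu ζ (sphere_subset_closedBall hζ)).continuousAt.continuousWithinAt, mob_zero ht] at h
  rw [h, ← mob_area ht fun ζ => gr r t ζ * Laplacian.laplacian u ζ]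
  congr 1
  refine setIntegral_congr_fun measurableSet_ball fun w hw => ?_
  have hw' := ball_subset_closedBall hw
  rw [laplacian_comp_hol (hu _ (hm w hw')) (mob_analyticAt ht (mem_closedBall_zero_iff.1 hw')),
    gr_mob ht (mem_ball_zero_iff.1 hw)]
  ring

theorem green_lap_sq (z : ℂ) : Laplacian.laplacian (fun ζ : ℂ => ‖ζ‖ ^ 2) z = 4 := by
  have h1 : fderiv ℝ (fun ζ : ℂ => ‖ζ‖ ^ 2) = fun ζ => (2 • innerSL ℝ (E := ℂ)) ζ := by
    funext ζ
    exact (hasStrictFDerivAt_norm_sq ζ).hasFDerivAt.fderiv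
  rw [InnerProductSpace.laplacian_eq_iteratedFDeriv_complexPlane]
  simp only [iteratedFDeriv_two_apply, Matrix.cons_val_zero, Matrix.cons_val_one, h1]
  rw [ContinuousLinearMap.fderiv]
  change 2 • inner ℝ (1 : ℂ) (1 : ℂ) + 2 • inner ℝ Complex.I Complex.I = (4 : ℝ)
  rw [real_inner_self_eq_norm_sq, real_inner_self_eq_norm_sq, norm_one, Complex.norm_I]
  norm_num

theorem integral_gr {r : ℝ} {t : ℂ} (ht : ‖t‖ < r) :
    ∫ ζ in ball (0 : ℂ) r, gr r t ζ = Real.pi / 2 * (r ^ 2 - ‖t‖ ^ 2) := by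
  have hr : 0 < r := (norm_nonneg t).trans_lt ht
  have h1 := green_poisson (u := fun _ => r ^ 2) ht fun _ _ => contDiffAt_const
  have h2 := green_poisson (u := fun ζ => ‖ζ‖ ^ 2) ht fun _ _ => (contDiff_norm_sq ℝ).contDiffAt
  have h3 : Real.circleAverage (fun ξ => po r t ξ * ‖ξ‖ ^ 2) 0 r =
      Real.circleAverage (fun ξ => po r t ξ * r ^ 2) 0 r :=
    Real.circleAverage_congr_sphere fun ξ hξ => by
      rw [abs_of_pos hr, mem_sphere_zero_iff_norm] at hξ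
      simp only [hξ]
  simp only [InnerProductSpace.laplacian_const, Pi.zero_apply, mul_zero, integral_zero] at h1
  simp only [green_lap_sq, integral_mul_const] at h2
  have := Real.pi_pos
  rw [h3, sub_eq_zero.1 h1] at h2
  rw [h2]
  field_simp
  ring

end Vale.Agent.P272
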