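import Vale.Agent.P272.Api
import Vale.Agent.P272.Green
import Vale.Agent.P278F.Osg

/-! P272, part D: definitions. -/

open MeasureTheory Set Filter Topology Metric Matrix
open scoped ContDiff ComplexConjugate ComplexOrder

noncomputable section

namespace Vale.Agent.P272

open Vale.Agent.P271

section Dbar
variable {F : Type} [NormedAddCommGroup F] [NormedSpace ℂ F]

/-- The Cauchy-Riemann operator. -/
def dbar (u : ℂ → F) (ζ : ℂ) : F :=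
  (2 : ℂ)⁻¹ • (fderiv ℝ u ζ 1 + Complex.I • fderiv ℝ u ζ Complex.I)

/-- The equation `dbar u = β` near `ζ₀`, in the sense of uniform approximation. -/
def DBAt (u β : ℂ → F) (ζ₀ : ℂ) : Prop :=
  ∃ ρ > (0 : ℝ), ∀ ε > (0 : ℝ), ∃ v : ℂ → F, ContDiffOn ℝ 1 v (ball ζ₀ ρ) ∧
    ∀ ζ ∈ ball ζ₀ ρ, ‖v ζ - u ζ‖ ≤ ε ∧ ‖dbar v ζ - β ζ‖ ≤ ε

/-- The equation `dbar u = β` in the unit disc. -/
def DB (u β : ℂ → F) : Prop := ∀ ζ ∈ ball (0 : ℂ) 1, DBAt u β ζ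

/-- The weighted Cauchy transform. -/
def Tm (m : ℝ) (β : ℂ → F) (ζ : ℂ) : F :=
  (Real.pi : ℂ)⁻¹ • ∫ z in ball (0 : ℂ) 1, (Complex.exp (m * conj z * (ζ - z)) / (ζ - z)) • β z

end Dbar

/-- The Laplacian in the first variable. -/
def L1 (g : ℂ × ℂ → ℝ) (q : ℂ × ℂ) : ℝ := Laplacian.laplacian (fun z => g (z, q.2)) q.1

/-- The Laplacian in the second variable. -/
def L2 (g : ℂ × ℂ → ℝ) (q : ℂ × ℂ) : ℝ := Laplacian.laplacian (fun z => g (q.1, z)) q.2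

/-- The exponent of the boundary bump. -/
def kap (ρ : ℝ) (ξ ζ : ℂ) : ℂ := (ρ ^ 2 / 10 : ℝ) / (1 + ρ - conj ξ * ζ)

/-- The boundary bump. -/
def bump (ρ : ℝ) (ξ ζ : ℂ) : ℂ := ζ * Complex.exp (-kap ρ ξ ζ)

variable {n : ℕ} {X : Type} [TopologicalSpace X]

/-- Endomorphisms. -/
abbrev En (n : ℕ) : Type := Cn n →L[ℂ] Cn n

/-- The matrix of an endomorphism. -/
def mt (L : En n) : Mx n := Matrix.of fun j k => L (Pi.single k 1) j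

/-- The value of a Hermitian form. -/
def hq (H : Mx n) (v : Cn n) : ℝ := (star v ⬝ᵥ H *ᵥ v).re

/-- Matrix functions with entire entries. -/
def Ent (G : ℂ → Mx n) : Prop := ∀ j k, Differentiable ℂ fun ζ => G ζ j k

/-- The transition cocycle of the tangent bundle. -/
def gm (A : Atl n X) (a b : A.ι) (p : X) : En n := fderiv ℂ (A.tr a b) (A.e a p)

/-- The conclusion of `exists_margin`. -/
structure Marg (A : Atl n X) (w : Frm A) (R c : ℝ) (K : A.ι → Set (Cn n)) : Prop where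
  R_pos : 0 < R
  c_pos : 0 < c
  cpt : ∀ a, IsCompact (K a)
  sub : ∀ a, K a ⊆ (A.e a).target
  cov : ∀ p, ∃ a, p ∈ (A.e a).source ∧ closedBall (A.e a p) R ⊆ K a
  ell : ∀ a, ∀ z ∈ K a, (LM (w a) z - (c : ℂ) • 1).PosSemidef ∧
    (((c⁻¹ : ℝ) : ℂ) • 1 - LM (w a) z).PosSemidef

theorem exists_marg [T2Space X] [CompactSpace X] {A : Atl n X} {w : Frm A} (hw : Kae A w) :
    ∃ R c K, Marg A w R c K := by
  obtain ⟨R, c, h1, h2, K, h3, h4, h5, h6⟩ := exists_margin hw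
  exact ⟨R, c, K, h1, h2, h3, h4, h5, h6⟩

/-- Discs that are continuous up to the boundary. -/
def Dc (A : Atl n X) (f : ℂ → X) : Prop := IsD A f (ball 0 1) ∧ ContinuousOn f (closedBall 0 1)

theorem AdmC.dc {A : Atl n X} {w : Frm A} {x : X} {f : ℂ → X} (h : AdmC A w x f) : Dc A f :=
  ⟨h.1.1, h.2⟩

/-- The part of the closed disc that `f` maps to the chart `a`. -/
def dom (A : Atl n X) (f : ℂ → X) (a : A.ι) : Set ℂ := closedBall 0 1 ∩ f ⁻¹' (A.e a).source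

/-- A holomorphic frame of the pull-back of the tangent bundle. -/
structure Frame (A : Atl n X) (f : ℂ → X) (W : A.ι → ℂ → En n) : Prop where
  cont : ∀ a, ContinuousOn (W a) (dom A f a)
  hol : ∀ a, DifferentiableOn ℂ (W a) (ball 0 1 ∩ f ⁻¹' (A.e a).source)
  unit : ∀ a, ∀ ζ ∈ dom A f a, IsUnit (W a ζ)
  tr : ∀ a b, ∀ ζ ∈ dom A f a, ζ ∈ dom A f b → W b ζ = gm A a b (f ζ) * W a ζ

/-- A partition of unity on the closed disc. -/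
structure Part (A : Atl n X) (f : ℂ → X) (V : A.ι → Set X) (μ : A.ι → ℂ → ℝ) : Prop where
  sm : ∀ a, ContDiff ℝ ∞ (μ a)
  nonneg : ∀ a ζ, 0 ≤ μ a ζ
  sum : ∀ ζ ∈ closedBall (0 : ℂ) 1, ∑ a, μ a ζ = 1
  supp : ∀ a, ∀ ζ ∈ closedBall (0 : ℂ) 1, ζ ∈ tsupport (μ a) → f ζ ∈ V a

/-- The sources of the charts. -/
abbrev src (A : Atl n X) : A.ι → Set X := fun a => (A.e a).source

/-- Coordinates centred at `f ζ`. -/
def cc (A : Atl n X) (f : ℂ → X) (W : A.ι → ℂ → En n) (μ : A.ι → ℂ → ℝ) (ζ : ℂ) (y : X) : Cn n :=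
  ∑ a, (μ a ζ : ℂ) • Ring.inverse (W a ζ) (A.e a y - A.e a (f ζ))

/-- The `dbar` derivative of these coordinates in `ζ`. -/
def qq (A : Atl n X) (f : ℂ → X) (W : A.ι → ℂ → En n) (μ : A.ι → ℂ → ℝ) (ζ : ℂ) (y : X) : Cn n :=
  ∑ a, dbar (fun z => (μ a z : ℂ)) ζ • Ring.inverse (W a ζ) (A.e a y - A.e a (f ζ))

/-- A uniform inverse of the coordinates. -/
structure Inv (A : Atl n X) (f : ℂ → X) (W : A.ι → ℂ → En n) (μ : A.ι → ℂ → ℝ)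
    (E : ℂ → Cn n → X) (ρ : ℝ) : Prop where
  pos : 0 < ρ
  cont : ContinuousOn (fun q : ℂ × Cn n => E q.1 q.2) (closedBall 0 1 ×ˢ ball 0 ρ)
  zero : ∀ ζ ∈ closedBall (0 : ℂ) 1, E ζ 0 = f ζ
  inv : ∀ ζ ∈ closedBall (0 : ℂ) 1, ∀ u ∈ ball (0 : Cn n) ρ, cc A f W μ ζ (E ζ u) = u
  mem : ∀ a, ∀ ζ ∈ closedBall (0 : ℂ) 1, ζ ∈ tsupport (μ a) → ∀ u ∈ ball (0 : Cn n) ρ,
    E ζ u ∈ (A.e a).source
  unit : ∀ ζ ∈ closedBall (0 : ℂ) 1, ∀ u ∈ ball (0 : Cn n) ρ, ∀ a, E ζ u ∈ (A.e a).source →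
    IsUnit (fderiv ℂ (fun z => cc A f W μ ζ ((A.e a).symm z)) (A.e a (E ζ u)))

/-- A nonlinearity that vanishes to second order. -/
structure QS (Q : ℂ → Cn n → Cn n) (ρ : ℝ) : Prop where
  pos : 0 < ρ
  cont : ContinuousOn (fun q : ℂ × Cn n => Q q.1 q.2) (closedBall 0 1 ×ˢ ball 0 ρ)
  hol : ∀ ζ ∈ closedBall (0 : ℂ) 1, DifferentiableOn ℂ (Q ζ) (ball 0 ρ)
  zero : ∀ ζ ∈ closedBall (0 : ℂ) 1, Q ζ 0 = 0
  der : ∀ ζ ∈ closedBall (0 : ℂ) 1, HasFDerivAt (Q ζ) (0 : En n) 0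

/-- A tube around the disc in which holomorphic discs solve `dbar u = Q u`. -/
structure Tube (A : Atl n X) (f : ℂ → X) (W : A.ι → ℂ → En n) (E : ℂ → Cn n → X)
    (Q : ℂ → Cn n → Cn n) (ρ : ℝ) : Prop where
  qs : QS Q ρ
  cont : ContinuousOn (fun q : ℂ × Cn n => E q.1 q.2) (closedBall 0 1 ×ˢ ball 0 ρ)
  zero : ∀ ζ ∈ closedBall (0 : ℂ) 1, E ζ 0 = f ζ
  hol : ∀ ζ ∈ closedBall (0 : ℂ) 1, ∀ a,
    DifferentiableOn ℂ (fun u => A.e a (E ζ u)) (ball 0 ρ ∩ E ζ ⁻¹' (A.e a).source)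
  der : ∀ a, ∀ ζ ∈ dom A f a, HasFDerivAt (fun u => A.e a (E ζ u)) (W a ζ) 0
  linv : ∀ ζ ∈ closedBall (0 : ℂ) 1, ∃ c : X → Cn n, ∀ u ∈ ball (0 : Cn n) ρ, c (E ζ u) = u ∧
    ∀ a, E ζ u ∈ (A.e a).source →
      DifferentiableAt ℂ (fun z => c ((A.e a).symm z)) (A.e a (E ζ u))
  isD : ∀ u : ℂ → Cn n, MapsTo u (ball 0 1) (ball 0 ρ) → DB u (fun ζ => Q ζ (u ζ)) →
    IsD A (fun ζ => E ζ (u ζ)) (ball 0 1)

/-- A holomorphic family of solutions of `dbar u = Q u` tangent to `P`. -/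
structure Sol {d : ℕ} (Q : ℂ → Cn n → Cn n) (ρ : ℝ) (P : ℂ → Cn d →L[ℂ] Cn n)
    (u : ℂ → Cn d → Cn n) (τ C : ℝ) : Prop where
  pos : 0 < τ
  cont : ContinuousOn (fun q : ℂ × Cn d => u q.1 q.2) (closedBall 0 1 ×ˢ ball 0 τ)
  mem : ∀ ζ ∈ closedBall (0 : ℂ) 1, ∀ t ∈ ball (0 : Cn d) τ, u ζ t ∈ ball (0 : Cn n) ρ
  hol : ∀ ζ ∈ closedBall (0 : ℂ) 1, DifferentiableOn ℂ (u ζ) (ball 0 τ)
  cen : ∀ t ∈ ball (0 : Cn d) τ, u 0 t = P 0 t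
  db : ∀ t ∈ ball (0 : Cn d) τ, DB (fun ζ => u ζ t) fun ζ => Q ζ (u ζ t)
  quad : ∀ ζ ∈ closedBall (0 : ℂ) 1, ∀ t ∈ ball (0 : Cn d) τ, ‖u ζ t - P ζ t‖ ≤ C * ‖t‖ ^ 2

/-- A holomorphic one parameter family of discs. -/
structure Fam2 (A : Atl n X) (Z : ℂ → ℂ → X) (τ : ℝ) : Prop where
  pos : 0 < τ
  cont : ContinuousOn (fun q : ℂ × ℂ => Z q.1 q.2) (closedBall 0 1 ×ˢ ball 0 τ)
  hol₁ : ∀ s ∈ ball (0 : ℂ) τ, IsD A (fun ζ => Z ζ s) (ball 0 1)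
  hol₂ : ∀ ζ ∈ closedBall (0 : ℂ) 1, IsD A (Z ζ) (ball 0 τ)

/-- The matrix of a form in a frame. -/
def Hm (A : Atl n X) (f : ℂ → X) (W : A.ι → ℂ → En n) (φ : Frm A) (ζ : ℂ) : Mx n :=
  (mt (W (ch A (f ζ)) ζ))ᴴ * GM A φ (f ζ) * mt (W (ch A (f ζ)) ζ)

/-- The mean of a form on a vector field over a circle. -/
def mq (A : Atl n X) (f : ℂ → X) (W : A.ι → ℂ → En n) (φ : Frm A) (p : ℂ → Cn n) (r : ℝ) : ℝ :=
  Real.circleAverage (fun ζ => hq (Hm A f W φ ζ) (p ζ)) 0 r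

end Vale.Agent.P272
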