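import Vale.Agent.P272.DS3

/-! P272, part D: nonlinear `dbar` equations. -/

open MeasureTheory Set Filter Topology Metric Matrix
open scoped ContDiff ComplexConjugate ComplexOrder

noncomputable section

namespace Vale.Agent.P272

open Vale.Agent.P271

section Ext
variable {F : Type} [NormedAddCommGroup F] [NormedSpace ℂ F]

open Classical in
/-- Extension by zero, with a weight. -/
def DS4e (m : ℝ) (γ : C(closedBall (0 : ℂ) 1, F)) (z : ℂ) : F :=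
  if h : z ∈ closedBall (0 : ℂ) 1 then (Real.exp (m * ‖z‖ ^ 2 / 2) : ℂ) • γ ⟨z, h⟩ else 0

theorem DS4e_eq (m : ℝ) (γ : C(closedBall (0 : ℂ) 1, F)) {z : ℂ} (h : z ∈ closedBall (0 : ℂ) 1) :
    DS4e m γ z = (Real.exp (m * ‖z‖ ^ 2 / 2) : ℂ) • γ ⟨z, h⟩ := dif_pos h

theorem DS4e_cont (m : ℝ) (γ : C(closedBall (0 : ℂ) 1, F)) :
    ContinuousOn (DS4e m γ) (closedBall 0 1) := by
  rw [continuousOn_iff_continuous_domRestrict]
  have h : (closedBall (0 : ℂ) 1).domRestrict (DS4e m γ) =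
      fun z => (Real.exp (m * ‖z.1‖ ^ 2 / 2) : ℂ) • γ z := funext fun z => DS4e_eq m γ z.2
  rw [h]
  fun_prop

theorem DS4e_norm (m : ℝ) (γ γ' : C(closedBall (0 : ℂ) 1, F)) {z : ℂ}
    (h : z ∈ closedBall (0 : ℂ) 1) :
    ‖DS4e m γ z - DS4e m γ' z‖ ≤ ‖γ - γ'‖ * Real.exp (m * ‖z‖ ^ 2 / 2) := by
  rw [DS4e_eq m γ h, DS4e_eq m γ' h, ← smul_sub, norm_smul, Complex.norm_real,
    Real.norm_of_nonneg (Real.exp_pos _).le, mul_comm]
  exact mul_le_mul_of_nonneg_right ((γ - γ').norm_coe_le_norm ⟨z, h⟩) (Real.exp_pos _).le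

theorem DS4e_zero (m : ℝ) (z : ℂ) : DS4e m (0 : C(closedBall (0 : ℂ) 1, F)) z = 0 := by
  unfold DS4e
  split_ifs <;> simp

/-- The weighted solution operator. -/
def DS4s (m : ℝ) (β : ℂ → F) (hβ : ContinuousOn β (closedBall 0 1)) : C(closedBall (0 : ℂ) 1, F) :=
  ⟨fun z => (Real.exp (m * ‖z.1‖ ^ 2 / 2) : ℂ)⁻¹ • (Tm m β z - Tm m β 0), by
    refine Continuous.smul (Continuous.inv₀ (by fun_prop) fun z => ?_)
      (((continuous_Tm hβ m).comp continuous_subtype_val).sub continuous_const)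
    exact Complex.ofReal_ne_zero.2 (Real.exp_pos _).ne'⟩

theorem DS4s_eq (m : ℝ) {β : ℂ → F} (hβ : ContinuousOn β (closedBall 0 1))
    (z : closedBall (0 : ℂ) 1) : DS4s m β hβ z =
      (Real.exp (m * ‖z.1‖ ^ 2 / 2) : ℂ)⁻¹ • (Tm m β z - Tm m β 0) := rfl

theorem DS4s_sub (m : ℝ) {β β' : ℂ → F} (hβ : ContinuousOn β (closedBall 0 1))
    (hβ' : ContinuousOn β' (closedBall 0 1)) :
    DS4s m β hβ - DS4s m β' hβ' = DS4s m (fun z => β z - β' z) (hβ.sub hβ') := by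
  ext z
  rw [ContinuousMap.sub_apply, DS4s_eq, DS4s_eq, DS4s_eq, Tm_sub hβ hβ', Tm_sub hβ hβ', ← smul_sub]
  congr 1
  abel

theorem DS4s_norm {m : ℝ} (hm : 0 ≤ m) {β : ℂ → F} (hβ : ContinuousOn β (closedBall 0 1)) {a : ℝ}
    (ha : 0 ≤ a) (h : ∀ ζ ∈ closedBall (0 : ℂ) 1, ‖Tm m β ζ‖ ≤ a * Real.exp (m * ‖ζ‖ ^ 2 / 2)) :
    ‖DS4s m β hβ‖ ≤ 2 * a := by
  refine (ContinuousMap.norm_le _ (by positivity)).2 fun z => ?_
  rw [DS4s_eq]
  have h0 := h 0 (mem_closedBall_self zero_le_one)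
  have h1 := h z z.2
  have h2 : 1 ≤ Real.exp (m * ‖z.1‖ ^ 2 / 2) := Real.one_le_exp (by positivity)
  rw [norm_zero, zero_pow two_ne_zero, mul_zero, zero_div, Real.exp_zero, mul_one] at h0
  rw [norm_smul, norm_inv, Complex.norm_real, Real.norm_of_nonneg (Real.exp_pos _).le,
    inv_mul_le_iff₀ (Real.exp_pos _)]
  refine (norm_sub_le _ _).trans ?_
  nlinarith

end Ext

theorem dbar_fix {L : ℝ} (hL : 0 ≤ L) : ∃ C : ℝ, 0 < C ∧ ∀ (F : Type) [NormedAddCommGroup F]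
    [NormedSpace ℂ F] [CompleteSpace F] (N : ℂ → F → F) (ρ b : ℝ), C * b ≤ ρ →
    ContinuousOn (fun q : ℂ × F => N q.1 q.2) (closedBall 0 1 ×ˢ closedBall 0 ρ) →
    (∀ ζ ∈ closedBall (0 : ℂ) 1, ∀ u ∈ closedBall (0 : F) ρ, ∀ v ∈ closedBall (0 : F) ρ,
      ‖N ζ u - N ζ v‖ ≤ L * ‖u - v‖) →
    (∀ ζ ∈ closedBall (0 : ℂ) 1, ‖N ζ 0‖ ≤ b) →
    ∃ u : ℂ → F, ContinuousOn u (closedBall 0 1) ∧ u 0 = 0 ∧
      (∀ ζ ∈ closedBall (0 : ℂ) 1, ‖u ζ‖ ≤ C * b) ∧ DB u fun ζ => N ζ (u ζ) := by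
  have hε : 0 < 1 / (4 * (L + 1)) := by positivity
  obtain ⟨m, hm, hT⟩ := Tm_small hε
  refine ⟨Real.exp (m / 2), Real.exp_pos _, fun F _ _ _ N ρ b hρ hN hL' h0 => ?_⟩
  have hb : 0 ≤ b := (norm_nonneg _).trans (h0 0 (mem_closedBall_self zero_le_one))
  have hw : ∀ z ∈ closedBall (0 : ℂ) 1, Real.exp (m * ‖z‖ ^ 2 / 2) ≤ Real.exp (m / 2) :=
    fun z hz => by
      rw [mem_closedBall_zero_iff] at hz
      have h1 : ‖z‖ ^ 2 ≤ 1 := pow_le_one₀ (norm_nonneg _) hz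
      exact Real.exp_le_exp.2 (by nlinarith)
  let S := closedBall (0 : C(closedBall (0 : ℂ) 1, F)) b
  have h1 : ∀ γ : S, ∀ z ∈ closedBall (0 : ℂ) 1,
      ‖DS4e m γ.1 z‖ ≤ b * Real.exp (m * ‖z‖ ^ 2 / 2) := fun γ z hz => by
    have h := DS4e_norm m γ.1 0 hz
    rw [DS4e_zero, sub_zero, sub_zero] at h
    exact h.trans (mul_le_mul_of_nonneg_right (mem_closedBall_zero_iff.1 γ.2) (Real.exp_pos _).le)
  have h2 : ∀ γ : S, ∀ z ∈ closedBall (0 : ℂ) 1, ‖DS4e m γ.1 z‖ ≤ Real.exp (m / 2) * b :=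
    fun γ z hz => (h1 γ z hz).trans (by rw [mul_comm]; exact mul_le_mul_of_nonneg_right (hw z hz) hb)
  have h3 : ∀ γ : S, ∀ z ∈ closedBall (0 : ℂ) 1, DS4e m γ.1 z ∈ closedBall (0 : F) ρ :=
    fun γ z hz => mem_closedBall_zero_iff.2 ((h2 γ z hz).trans hρ)
  have hρ0 : (0 : F) ∈ closedBall (0 : F) ρ :=
    mem_closedBall_self ((mul_nonneg (Real.exp_pos _).le hb).trans hρ)
  have h4 : ∀ γ : S, ContinuousOn (fun z => N z (DS4e m γ.1 z)) (closedBall 0 1) := fun γ =>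
    hN.comp (continuousOn_id.prodMk (DS4e_cont m γ.1)) fun z hz => ⟨hz, h3 γ z hz⟩
  have h5 : ∀ γ : S, DS4s m _ (h4 γ) ∈ S := fun γ => by
    have h6 := DS4s_norm hm (h4 γ) (a := 1 / (4 * (L + 1)) * ((L + 1) * b)) (by positivity)
      (hT F _ _ fun z hz => by
        have h7 := hL' z (ball_subset_closedBall hz) _ (h3 γ z (ball_subset_closedBall hz)) 0 hρ0
        have h8 := h1 γ z (ball_subset_closedBall hz)
        have h9 : 1 ≤ Real.exp (m * ‖z‖ ^ 2 / 2) := Real.one_le_exp (by positivity)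
        have h10 := norm_le_norm_add_norm_sub' (N z (DS4e m γ.1 z)) (N z 0)
        have h11 := h0 z (ball_subset_closedBall hz)
        rw [sub_zero] at h7
        nlinarith [mul_le_mul_of_nonneg_left h8 hL])
    refine mem_closedBall_zero_iff.2 (h6.trans ?_)
    field_simp
    linarith
  let Φ : S → S := fun γ => ⟨_, h5 γ⟩
  have h6 : ContractingWith (1 / 2) Φ := by
    refine ⟨by norm_num, LipschitzWith.of_dist_le_mul fun γ γ' => ?_⟩
    rw [Subtype.dist_eq, Subtype.dist_eq, dist_eq_norm, dist_eq_norm]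
    change ‖DS4s m _ (h4 γ) - DS4s m _ (h4 γ')‖ ≤ _
    rw [DS4s_sub]
    refine (DS4s_norm hm _ (a := 1 / (4 * (L + 1)) * ((L + 1) * ‖γ.1 - γ'.1‖)) (by positivity)
      (hT F _ _ fun z hz => ?_)).trans (le_of_eq ?_)
    · have hz' := ball_subset_closedBall hz
      refine (hL' z hz' _ (h3 γ z hz') _ (h3 γ' z hz')).trans ?_
      rw [mul_assoc]
      exact mul_le_mul (by linarith) (DS4e_norm m _ _ hz') (norm_nonneg _) (by positivity)
    · push_cast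
      field_simp
      norm_num
  have : Nonempty S := ⟨⟨0, mem_closedBall_self hb⟩⟩
  have : CompleteSpace S := isClosed_closedBall.completeSpace_coe
  obtain ⟨γ, hγ⟩ : ∃ γ, Φ γ = γ := ⟨_, h6.fixedPoint_isFixedPt⟩
  have h7 : ∀ z ∈ closedBall (0 : ℂ) 1, DS4e m γ.1 z = Tm m (fun z => N z (DS4e m γ.1 z)) z -
      Tm m (fun z => N z (DS4e m γ.1 z)) 0 := fun z hz => by
    have h8 : DS4s m _ (h4 γ) = γ.1 := congrArg Subtype.val hγ
    rw [DS4e_eq m γ.1 hz]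
    conv_lhs => rw [← h8]
    exact smul_inv_smul₀ (Complex.ofReal_ne_zero.2 (Real.exp_pos _).ne') _
  refine ⟨DS4e m γ.1, DS4e_cont m γ.1, ?_, h2 γ, fun ζ hζ => ?_⟩
  · rw [h7 0 (mem_closedBall_self zero_le_one), sub_self]
  · refine ((db_Tm (h4 γ) m ζ hζ).add (DBAt.of_hol (differentiableOn_const
      (c := -Tm m (fun z => N z (DS4e m γ.1 z)) 0)) univ_mem)).congr ?_ ?_
    · filter_upwards [isOpen_ball.mem_nhds hζ] with z hz
      rw [h7 z (ball_subset_closedBall hz), sub_eq_add_neg]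
    · exact Eventually.of_forall fun z => (add_zero _).symm

theorem DS4_step {R : Type} [NormedRing R] [NormedAlgebra ℂ R] [CompleteSpace R] {K : ℝ}
    (hK : 0 ≤ K) : ∃ η : ℝ, 0 < η ∧ ∀ B B' G : ℂ → R, ContinuousOn B (closedBall 0 1) →
      ContinuousOn B' (closedBall 0 1) → (∀ ζ ∈ closedBall (0 : ℂ) 1, ‖B ζ‖ ≤ K) →
      (∀ ζ ∈ closedBall (0 : ℂ) 1, ‖B' ζ‖ ≤ K) → (∀ ζ ∈ closedBall (0 : ℂ) 1, ‖B' ζ - B ζ‖ ≤ η) →
      ContinuousOn G (closedBall 0 1) → (∀ ζ ∈ closedBall (0 : ℂ) 1, IsUnit (G ζ)) →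
      (DB G fun ζ => B ζ * G ζ) → ∃ G' : ℂ → R, ContinuousOn G' (closedBall 0 1) ∧
        (∀ ζ ∈ closedBall (0 : ℂ) 1, IsUnit (G' ζ)) ∧ DB G' fun ζ => B' ζ * G' ζ := by
  obtain ⟨C, hC, h⟩ := dbar_fix (L := 2 * K) (by positivity)
  refine ⟨1 / (2 * C), by positivity, fun B B' G hB hB' hb hb' hd hG hu hs => ?_⟩
  have h1 : C * (1 / (2 * C)) = 1 / 2 := by field_simp
  obtain ⟨γ, c1, -, c2, c3⟩ := h R (fun ζ u => B' ζ * (1 + u) - (1 + u) * B ζ) (1 / 2)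
    (1 / (2 * C)) h1.le
    (((hB'.comp continuousOn_fst fun q hq => hq.1).mul (by fun_prop)).sub
      (ContinuousOn.mul (by fun_prop) (hB.comp continuousOn_fst fun q hq => hq.1)))
    (fun ζ hζ u _ v _ => by
      have h2 : B' ζ * (1 + u) - (1 + u) * B ζ - (B' ζ * (1 + v) - (1 + v) * B ζ) =
          B' ζ * (u - v) - (u - v) * B ζ := by noncomm_ring
      rw [h2]
      refine (norm_sub_le _ _).trans ((add_le_add (norm_mul_le _ _) (norm_mul_le _ _)).trans ?_)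
      nlinarith [hb ζ hζ, hb' ζ hζ, norm_nonneg (u - v)])
    (fun ζ hζ => by simpa using hd ζ hζ)
  refine ⟨fun ζ => (1 + γ ζ) * G ζ, (continuousOn_const.add c1).mul hG, fun ζ hζ => ?_,
    fun ζ hζ => ?_⟩
  · have h2 : ‖-γ ζ‖ < 1 := by
      rw [norm_neg]
      linarith [c2 ζ hζ]
    have h3 := isUnit_one_sub_of_norm_lt_one h2
    rw [sub_neg_eq_add] at h3
    exact h3.mul (hu ζ hζ)
  · refine (((DBAt.of_hol (differentiableOn_const (c := (1 : R))) univ_mem).add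
      (c3 ζ hζ)).mul (hs ζ hζ)).congr EventuallyEq.rfl (Eventually.of_forall fun z => ?_)
    beta_reduce
    noncomm_ring

/-- Linear equations have invertible solutions. -/
theorem exists_unit_sol {R : Type} [NormedRing R] [NormedAlgebra ℂ R] [CompleteSpace R]
    {B : ℂ → R} (hB : ContinuousOn B (closedBall 0 1)) :
    ∃ G : ℂ → R, ContinuousOn G (closedBall 0 1) ∧ (∀ ζ ∈ closedBall (0 : ℂ) 1, IsUnit (G ζ)) ∧
      DB G fun ζ => B ζ * G ζ := by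
  obtain ⟨K, hK⟩ := (isCompact_closedBall (0 : ℂ) 1).exists_bound_of_continuousOn hB
  have hK0 : 0 ≤ K := (norm_nonneg _).trans (hK 0 (mem_closedBall_self zero_le_one))
  obtain ⟨η, hη, h⟩ := DS4_step (R := R) hK0
  obtain ⟨N, hN⟩ := exists_nat_gt (K / η)
  have hN0 : (0 : ℝ) < N := (div_nonneg hK0 hη.le).trans_lt hN
  have h1 : ∀ j : ℕ, j ≤ N → ∀ ζ ∈ closedBall (0 : ℂ) 1, ‖((j / N : ℝ) : ℂ) • B ζ‖ ≤ K :=
    fun j hj ζ hζ => by
      rw [norm_smul, Complex.norm_real, Real.norm_of_nonneg (by positivity)]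
      exact (mul_le_mul ((div_le_one hN0).2 (Nat.cast_le.2 hj)) (hK ζ hζ) (norm_nonneg _)
        zero_le_one).trans_eq (one_mul K)
  have h2 : ∀ j : ℕ, j ≤ N → ∃ G : ℂ → R, ContinuousOn G (closedBall 0 1) ∧
      (∀ ζ ∈ closedBall (0 : ℂ) 1, IsUnit (G ζ)) ∧
      DB G fun ζ => (((j / N : ℝ) : ℂ) • B ζ) * G ζ := by
    intro j
    induction j with
    | zero =>
      refine fun _ => ⟨fun _ => 1, continuousOn_const, fun _ _ => isUnit_one, fun ζ _ => ?_⟩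
      exact (DBAt.of_hol (differentiableOn_const (c := (1 : R))) univ_mem).congr EventuallyEq.rfl
        (Eventually.of_forall fun z => by simp)
    | succ j ih =>
      intro hj
      obtain ⟨G, g1, g2, g3⟩ := ih (by omega)
      refine h _ _ G (hB.const_smul _) (hB.const_smul _) (h1 j (by omega)) (h1 _ hj)
        (fun ζ hζ => ?_) g1 g2 g3
      have h3 : (((j + 1 : ℕ) : ℝ) / N : ℝ) - (j / N : ℝ) = 1 / N := by
        push_cast
        ring
      rw [Pi.smul_apply, ← sub_smul, ← Complex.ofReal_sub, h3, norm_smul, Complex.norm_real,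
        Real.norm_of_nonneg (by positivity), one_div, inv_mul_le_iff₀ hN0]
      exact (hK ζ hζ).trans ((div_lt_iff₀ hη).1 hN).le
  obtain ⟨G, g1, g2, g3⟩ := h2 N le_rfl
  refine ⟨G, g1, g2, ?_⟩
  simpa only [div_self hN0.ne', Complex.ofReal_one, one_smul] using g3

end Vale.Agent.P272
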