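import Vale.Agent.P272.DT
import Vale.Agent.P272.DS4

/-! P272, part D: frames along neighbouring discs. -/

set_option maxSynthPendingDepth 3

open MeasureTheory Set Filter Topology Metric Matrix
open scoped ContDiff ComplexConjugate ComplexOrder

noncomputable section

namespace Vale.Agent.P272

open Vale.Agent.P271

variable {n : ℕ} {X : Type} [TopologicalSpace X] [T2Space X] [CompactSpace X] {A : Atl n X}
  {f : ℂ → X} {W : A.ι → ℂ → En n} {μ : A.ι → ℂ → ℝ} {E : ℂ → Cn n → X} {ρ : ℝ}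

/-- The glued frame. -/
def DF1T (g : ℂ → X) (W : A.ι → ℂ → En n) (c : A.ι → ℂ → ℂ) (d : A.ι) (ζ : ℂ) : En n :=
  ∑ b, c b ζ • (gm A b d (g ζ) * W b ζ)

theorem DF1_inv {R : Type} [Ring R] {u v : R} (hu : IsUnit u) (hv : IsUnit v) (w : R) :
    Ring.inverse (u * v) * (u * w) = Ring.inverse v * w := by
  obtain ⟨u, rfl⟩ := hu
  obtain ⟨v, rfl⟩ := hv
  rw [← Units.val_mul, Ring.inverse_unit, Ring.inverse_unit, _root_.mul_inv_rev, Units.val_mul,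
    mul_assoc, Units.inv_mul_cancel_left]

section aux

variable {g : ℂ → X} {c : A.ι → ℂ → ℂ} (hf : Dc A f) (hg : Dc A g) (hW : Frame A f W)
  (hS : ∀ b, ∀ ζ ∈ closedBall (0 : ℂ) 1, ζ ∈ tsupport (μ b) →
    f ζ ∈ (A.e b).source ∧ g ζ ∈ (A.e b).source)

include hS

theorem DF1_tr (hz : ∀ b z, z ∉ tsupport (μ b) → ∀ᶠ w in 𝓝 z, c b w = 0) {a d : A.ι} {ζ : ℂ}
    (ha : ζ ∈ dom A g a) (hd : ζ ∈ dom A g d) :
    DF1T g W c d ζ = gm A a d (g ζ) * DF1T g W c a ζ := by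
  simp only [DF1T, Finset.mul_sum]
  refine Finset.sum_congr rfl fun b _ => ?_
  by_cases hb : ζ ∈ tsupport (μ b)
  · rw [mul_smul_comm, ← mul_assoc, gm_mul (hS b ζ ha.1 hb).2 ha.2 hd.2]
  · rw [(hz b ζ hb).self_of_nhds, zero_smul, zero_smul, mul_zero]

include hf hg hW

theorem DF1_cont (hc : ∀ b, Continuous (c b))
    (hz : ∀ b z, z ∉ tsupport (μ b) → ∀ᶠ w in 𝓝 z, c b w = 0) (d : A.ι) :
    ContinuousOn (DF1T g W c d) (dom A g d) := by
  refine continuousOn_finset_sum _ fun b _ ζ hζ => ?_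
  by_cases hb : ζ ∈ tsupport (μ b)
  · have h1 := hS b ζ hζ.1 hb
    refine (hc b).continuousWithinAt.smul (ContinuousWithinAt.mono (t := closedBall 0 1)
      (ContinuousWithinAt.mul ?_ ?_) inter_subset_left)
    · exact ContinuousAt.comp_continuousWithinAt (f := g) ((continuousOn_gm b d).continuousAt
        (((A.e b).open_source.inter (A.e d).open_source).mem_nhds ⟨h1.2, hζ.2⟩)) (hg.2 ζ hζ.1)
    · exact (hW.cont b ζ ⟨hζ.1, h1.1⟩).mono_of_mem_nhdsWithin (hf.dom_mem ⟨hζ.1, h1.1⟩)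
  · refine (ContinuousAt.congr (continuousAt_const (y := (0 : En n))) ?_).continuousWithinAt
    filter_upwards [hz b _ hb] with p hp
    rw [hp, zero_smul]

theorem DF1_sm (hc : ∀ b, ContDiff ℝ ∞ (c b))
    (hz : ∀ b z, z ∉ tsupport (μ b) → ∀ᶠ w in 𝓝 z, c b w = 0)
    (hz' : ∀ b z, z ∉ tsupport (μ b) → ∀ᶠ w in 𝓝 z, dbar (c b) w = 0) {d : A.ι} {ζ : ℂ}
    (hζ : ζ ∈ ball (0 : ℂ) 1 ∩ g ⁻¹' (A.e d).source) :
    ContDiffAt ℝ 1 (DF1T g W c d) ζ ∧
      dbar (DF1T g W c d) ζ = DF1T g W (fun b => dbar (c b)) d ζ := by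
  have k : ∀ b, ContDiffAt ℝ 1 (fun z => c b z • (gm A b d (g z) * W b z)) ζ ∧
      dbar (fun z => c b z • (gm A b d (g z) * W b z)) ζ =
        dbar (c b) ζ • (gm A b d (g ζ) * W b ζ) := by
    intro b
    by_cases hb : ζ ∈ tsupport (μ b)
    · have h1 := hS b ζ (ball_subset_closedBall hζ.1) hb
      have k1 : AnalyticAt ℂ (fun z => gm A b d (g z) * W b z) ζ :=
        (hg.1.analyticAt_gm (isOpen_ball.mem_nhds hζ.1) h1.2 hζ.2).mul
          (hW.analyticAt hf hζ.1 h1.1).1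
      exact ⟨((hc b).of_le (by simp)).contDiffAt.smul (k1.contDiffAt.restrict_scalars ℝ),
        dbar_smul_hol ((hc b).differentiable (by simp) ζ) k1.differentiableAt⟩
    · have e : (fun z => c b z • (gm A b d (g z) * W b z)) =ᶠ[𝓝 ζ] fun _ => 0 := by
        filter_upwards [hz b _ hb] with p hp
        rw [hp, zero_smul]
      refine ⟨contDiffAt_const.congr_of_eventuallyEq e, ?_⟩
      rw [(hz' b _ hb).self_of_nhds, zero_smul, dbar, e.fderiv_eq]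
      simp
  exact ⟨ContDiffAt.sum fun b _ => (k b).1,
    (dbar_sum fun b => (k b).1.differentiableAt one_ne_zero).trans
      (Finset.sum_congr rfl fun b _ => (k b).2)⟩

end aux

theorem frame_step {g : ℂ → X} (hf : Dc A f) (hg : Dc A g) (hW : Frame A f W) {V : A.ι → Set X}
    (hV : ∀ a, IsOpen (V a)) (hc : ∀ p, ∃ a, p ∈ V a) (hs : ∀ a, V a ⊆ (A.e a).source)
    (h : ∀ ζ ∈ closedBall (0 : ℂ) 1, ∀ a, f ζ ∈ V a → g ζ ∈ (A.e a).source ∧
      ∀ b, f ζ ∈ V b → ‖gm A b a (g ζ) * gm A a b (f ζ) - 1‖ ≤ 1 / 2) :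
    ∃ W', Frame A g W' := by
  obtain ⟨μ, hμ⟩ := exists_part hf.2 hV hc
  have hS : ∀ b, ∀ ζ ∈ closedBall (0 : ℂ) 1, ζ ∈ tsupport (μ b) →
      f ζ ∈ (A.e b).source ∧ g ζ ∈ (A.e b).source := fun b ζ hζ hb =>
    ⟨hs b (hμ.supp b ζ hζ hb), (h ζ hζ b (hμ.supp b ζ hζ hb)).1⟩
  obtain ⟨m, hm⟩ : ∃ m : A.ι → ℂ → ℂ, m = fun b z => (μ b z : ℂ) := ⟨_, rfl⟩
  have m1 : ∀ b, ContDiff ℝ ∞ (m b) := fun b => by
    rw [hm]
    exact Complex.ofRealCLM.contDiff.comp (hμ.sm b)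
  have m2 : ∀ b, Continuous (dbar (m b)) := fun b => by
    rw [hm]
    exact (hμ.contDiff_dbar b).continuous
  have z1 : ∀ b z, z ∉ tsupport (μ b) → ∀ᶠ w in 𝓝 z, m b w = 0 := fun b z hz =>
    (dbar_off hz).mono fun _ h => by simp only [hm, h.1, Complex.ofReal_zero]
  have z2 : ∀ b z, z ∉ tsupport (μ b) → ∀ᶠ w in 𝓝 z, dbar (m b) w = 0 := fun b z hz =>
    (dbar_off hz).mono fun _ h => by simpa only [hm] using h.2
  have hu : ∀ d, ∀ ζ ∈ dom A g d, IsUnit (DF1T g W m d ζ) := by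
    intro d ζ hζ
    obtain ⟨a, ha⟩ := hc (f ζ)
    have ha' := (h ζ hζ.1 a ha).1
    rw [DF1_tr hS z1 ⟨hζ.1, ha'⟩ hζ]
    refine (gm_unit ha' hζ.2).mul ?_
    have e : DF1T g W m a ζ =
        (1 - ∑ b, m b ζ • (1 - gm A b a (g ζ) * gm A a b (f ζ))) * W a ζ := by
      have e1 : ∑ b, m b ζ = 1 := by
        simp only [hm, ← Complex.ofReal_sum, hμ.sum ζ hζ.1, Complex.ofReal_one]
      simp only [smul_sub, Finset.sum_sub_distrib, ← Finset.sum_smul, e1, one_smul, sub_sub_cancel,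
        Finset.sum_mul, DF1T]
      refine Finset.sum_congr rfl fun b _ => ?_
      by_cases hb : ζ ∈ tsupport (μ b)
      · rw [hW.tr a b ζ ⟨hζ.1, hs a ha⟩ ⟨hζ.1, (hS b ζ hζ.1 hb).1⟩, smul_mul_assoc, mul_assoc]
      · rw [(z1 b ζ hb).self_of_nhds, zero_smul, zero_smul, zero_mul]
    rw [e]
    refine (isUnit_one_sub_of_norm_lt_one ?_).mul (hW.unit a ζ ⟨hζ.1, hs a ha⟩)
    refine ((norm_sum_le _ _).trans (Finset.sum_le_sum (g := fun b => μ b ζ * (1 / 2))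
      fun b _ => ?_)).trans_lt ?_
    · by_cases hb : ζ ∈ tsupport (μ b)
      · rw [norm_smul, norm_sub_rev, hm, Complex.norm_real, Real.norm_of_nonneg (hμ.nonneg b ζ)]
        exact mul_le_mul_of_nonneg_left ((h ζ hζ.1 a ha).2 b (hμ.supp b ζ hζ.1 hb)) (hμ.nonneg b ζ)
      · rw [(z1 b ζ hb).self_of_nhds, zero_smul, norm_zero]
        exact mul_nonneg (hμ.nonneg b ζ) (by norm_num)
    · rw [← Finset.sum_mul, hμ.sum ζ hζ.1]
      norm_num
  obtain ⟨B, hB⟩ : ∃ B : ℂ → En n, ∀ d, ∀ ζ ∈ dom A g d,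
      B ζ = -(Ring.inverse (DF1T g W m d ζ) * DF1T g W (fun b => dbar (m b)) d ζ) := by
    refine ⟨fun ζ => -(Ring.inverse (DF1T g W m (ch A (g ζ)) ζ) *
      DF1T g W (fun b => dbar (m b)) (ch A (g ζ)) ζ), fun d ζ hζ => ?_⟩
    have h1 : ζ ∈ dom A g (ch A (g ζ)) := ⟨hζ.1, ch_mem A _⟩
    rw [DF1_tr hS z1 h1 hζ, DF1_tr hS z2 h1 hζ, DF1_inv (gm_unit h1.2 hζ.2) (hu _ ζ h1)]
  have c1 := DF1_cont hf hg hW hS (fun b => (m1 b).continuous) z1
  have c2 := DF1_cont hf hg hW hS m2 z2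
  have hBc : ContinuousOn B (closedBall 0 1) := fun ζ hζ => by
    have h1 : ζ ∈ dom A g (ch A (g ζ)) := ⟨hζ, ch_mem A _⟩
    refine ContinuousWithinAt.mono_of_mem_nhdsWithin ?_ (hg.dom_mem h1)
    refine ContinuousWithinAt.congr ?_ (hB _) (hB _ ζ h1)
    refine (ContinuousWithinAt.mul ?_ (c2 _ ζ h1)).neg
    exact ContinuousAt.comp_continuousWithinAt (f := DF1T g W m (ch A (g ζ)))
      (NormedRing.inverse_continuousAt (hu _ ζ h1).unit) (c1 _ ζ h1)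
  obtain ⟨G, G1, G2, G3⟩ := exists_unit_sol hBc
  refine ⟨fun d ζ => DF1T g W m d ζ * G ζ, fun d => (c1 d).mul (G1.mono inter_subset_left),
    fun d ζ hζ => ?_, fun d ζ hζ => (hu d ζ hζ).mul (G2 ζ hζ.1), fun a b ζ ha hb => ?_⟩
  · have hn := (hg.1.1.isOpen_inter_preimage isOpen_ball (A.e d).open_source).mem_nhds hζ
    refine ((DBAt.mul (DBAt.of_contDiffAt (DF1_sm hf hg hW hS m1 z1 z2 hζ).1)
      (G3 ζ hζ.1)).analyticAt ?_).differentiableAt.differentiableWithinAt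
    filter_upwards [hn] with z hz
    have h1 : z ∈ dom A g d := ⟨ball_subset_closedBall hz.1, hz.2⟩
    rw [(DF1_sm hf hg hW hS m1 z1 z2 hz).2, hB d z h1, ← mul_assoc, mul_neg, ← mul_assoc,
      Ring.mul_inverse_cancel _ (hu d z h1), one_mul, neg_mul, add_neg_cancel]
  · simp only [DF1_tr hS z1 ha hb, mul_assoc]

end Vale.Agent.P272
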