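import Vale.Agent.P272.DF1

/-! P272, part D: existence of frames. -/

set_option maxSynthPendingDepth 3

open MeasureTheory Set Filter Topology Metric Matrix
open scoped ContDiff ComplexConjugate ComplexOrder

noncomputable section

namespace Vale.Agent.P272

open Vale.Agent.P271

variable {n : ℕ} {X : Type} [TopologicalSpace X] [T2Space X] [CompactSpace X] {A : Atl n X}
  {f : ℂ → X} {W : A.ι → ℂ → En n} {μ : A.ι → ℂ → ℝ} {E : ℂ → Cn n → X} {ρ : ℝ}

theorem exists_diag (A : Atl n X) : ∃ V : A.ι → Set X, (∀ a, IsOpen (V a)) ∧ (∀ p, ∃ a, p ∈ V a) ∧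
    (∀ a, V a ⊆ (A.e a).source) ∧ ∀ p, ∀ᶠ q : X × X in 𝓝 (p, p), ∀ a, q.1 ∈ V a →
      q.2 ∈ (A.e a).source ∧ ∀ b, q.1 ∈ V b → ‖gm A b a q.2 * gm A a b q.1 - 1‖ ≤ 1 / 2 := by
  obtain ⟨V, h1, h2, h3⟩ := exists_iUnion_eq_closure_subset (u := fun a => (A.e a).source)
    (fun a => (A.e a).open_source) (fun _ => toFinite _)
    (eq_univ_of_forall fun p => mem_iUnion.2 (A.cover p))
  have off : ∀ p a, p ∉ closure (V a) → ∀ᶠ q : X × X in 𝓝 (p, p), q.1 ∉ V a := fun p a hp => by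
    filter_upwards [(continuous_fst.continuousAt (x := (p, p))).preimage_mem_nhds
      (isClosed_closure.isOpen_compl.mem_nhds hp)] with q hq h using hq (subset_closure h)
  refine ⟨V, h2, fun p => mem_iUnion.1 (h1 ▸ mem_univ p), fun a => subset_closure.trans (h3 a),
    fun p => eventually_all.2 fun a => ?_⟩
  by_cases ha : p ∈ closure (V a)
  swap
  · filter_upwards [off p a ha] with q hq h using absurd h hq
  have k : ∀ b, ∀ᶠ q : X × X in 𝓝 (p, p),
      q.1 ∈ V b → ‖gm A b a q.2 * gm A a b q.1 - 1‖ ≤ 1 / 2 := fun b => by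
    by_cases hb : p ∈ closure (V b)
    swap
    · filter_upwards [off p b hb] with q hq h using absurd h hq
    have c : ∀ c d : A.ι, p ∈ (A.e c).source → p ∈ (A.e d).source → ContinuousAt (gm A c d) p :=
      fun c d hc hd => (continuousOn_gm c d).continuousAt
        (((A.e c).open_source.inter (A.e d).open_source).mem_nhds ⟨hc, hd⟩)
    have t1 : ContinuousAt (fun q : X × X => gm A b a q.2) (p, p) :=
      ContinuousAt.comp (f := Prod.snd) (x := (p, p)) (c b a (h3 b hb) (h3 a ha)) continuousAt_snd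
    have t2 : ContinuousAt (fun q : X × X => gm A a b q.1) (p, p) :=
      ContinuousAt.comp (f := Prod.fst) (x := (p, p)) (c a b (h3 a ha) (h3 b hb)) continuousAt_fst
    have t3 : ContinuousAt (fun q : X × X => gm A b a q.2 * gm A a b q.1 - 1) (p, p) :=
      (t1.mul t2).sub continuousAt_const
    have e : ‖gm A b a p * gm A a b p - 1‖ < 1 / 2 := by
      rw [gm_mul (h3 a ha) (h3 b hb) (h3 a ha), gm_self (h3 a ha), sub_self, norm_zero]
      norm_num
    have t4 : ∀ᶠ q : X × X in 𝓝 (p, p), ‖gm A b a q.2 * gm A a b q.1 - 1‖ < 1 / 2 :=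
      t3.norm.eventually_lt_const e
    filter_upwards [t4] with q hq _ using hq.le
  filter_upwards [eventually_all.2 k, (continuous_snd.continuousAt (x := (p, p))).preimage_mem_nhds
    ((A.e a).open_source.mem_nhds (h3 a ha))] with q h4 h5 _ using ⟨h5, h4⟩

theorem frame_const (A : Atl n X) (x : X) : ∃ W, Frame A (fun _ => x) W :=
  ⟨fun a _ => gm A (ch A x) a x, fun _ => continuousOn_const, fun _ => differentiableOn_const _,
    fun _ _ h => gm_unit (ch_mem A x) h.2, fun _ _ _ ha hb => (gm_mul (ch_mem A x) ha.2 hb.2).symm⟩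

theorem exists_frame (hf : Dc A f) : ∃ W, Frame A f W := by
  obtain ⟨V, h1, h2, h3, h4⟩ := exists_diag A
  have nm : ∀ (s : Icc (0 : ℝ) 1) (z : ℂ), ‖((s : ℝ) : ℂ) * z‖ ≤ ‖z‖ := fun s z => by
    rw [norm_mul, Complex.norm_real, Real.norm_of_nonneg s.2.1]
    exact mul_le_of_le_one_left (norm_nonneg _) s.2.2
  have mc : ∀ (s : Icc (0 : ℝ) 1), ∀ z ∈ closedBall (0 : ℂ) 1,
      ((s : ℝ) : ℂ) * z ∈ closedBall (0 : ℂ) 1 := fun s z hz =>
    mem_closedBall_zero_iff.2 ((nm s z).trans (mem_closedBall_zero_iff.1 hz))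
  have hD : ∀ s : Icc (0 : ℝ) 1, Dc A fun z => f (((s : ℝ) : ℂ) * z) := fun s =>
    ⟨hf.1.comp (by fun_prop) fun z hz =>
      mem_ball_zero_iff.2 ((nm s z).trans_lt (mem_ball_zero_iff.1 hz)),
      hf.2.comp (by fun_prop) (mc s)⟩
  have hc : Continuous fun q : Icc (0 : ℝ) 1 × closedBall (0 : ℂ) 1 =>
      f (((q.1 : ℝ) : ℂ) * q.2) :=
    hf.2.comp_continuous (by fun_prop) fun q => mc q.1 _ q.2.2
  have : PreconnectedSpace (Icc (0 : ℝ) 1) := Subtype.preconnectedSpace isPreconnected_Icc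
  have key := PreconnectedSpace.induction₂' (fun s t : Icc (0 : ℝ) 1 =>
    (∃ W, Frame A (fun z => f (((s : ℝ) : ℂ) * z)) W) →
      ∃ W, Frame A (fun z => f (((t : ℝ) : ℂ) * z)) W) (fun s => ?_)
    ⟨fun _ _ _ h h' => h' ∘ h⟩ ⟨0, by simp⟩ ⟨1, by simp⟩
  · simpa using key (by simpa using frame_const A (f 0))
  have hs : Continuous fun q : Icc (0 : ℝ) 1 × closedBall (0 : ℂ) 1 => f (((s : ℝ) : ℂ) * q.2) :=
    hc.comp (continuous_const.prodMk continuous_snd)
  obtain ⟨D, hDe⟩ : ∃ D : X → X → Prop, D = fun x y => ∀ a, x ∈ V a → y ∈ (A.e a).source ∧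
    ∀ b, x ∈ V b → ‖gm A b a y * gm A a b x - 1‖ ≤ 1 / 2 := ⟨_, rfl⟩
  replace h4 : ∀ p, ∀ᶠ q : X × X in 𝓝 (p, p), D q.1 q.2 := hDe ▸ h4
  have e1 := (isCompact_univ (X := closedBall (0 : ℂ) 1)).eventually_forall_of_forall_eventually
    (x₀ := s) (P := fun t z => D (f (((s : ℝ) : ℂ) * z)) (f (((t : ℝ) : ℂ) * z))) fun z _ =>
      ((hs.prodMk hc).continuousAt (x := (s, z))).eventually (h4 _)
  have e2 := (isCompact_univ (X := closedBall (0 : ℂ) 1)).eventually_forall_of_forall_eventually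
    (x₀ := s) (P := fun t z => D (f (((t : ℝ) : ℂ) * z)) (f (((s : ℝ) : ℂ) * z))) fun z _ =>
      ((hc.prodMk hs).continuousAt (x := (s, z))).eventually (h4 _)
  subst hDe
  filter_upwards [e1, e2] with t k1 k2
  exact ⟨fun ⟨W, hW⟩ => frame_step (hD s) (hD t) hW h1 h2 h3 fun z hz => k1 ⟨z, hz⟩ (mem_univ _),
    fun ⟨W, hW⟩ => frame_step (hD t) (hD s) hW h1 h2 h3 fun z hz => k2 ⟨z, hz⟩ (mem_univ _)⟩

end Vale.Agent.P272
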