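import Vale.Agent.P272.DP0
import Vale.Agent.P272.DS4

/-! P272, part D: holomorphic families of solutions. -/

open MeasureTheory Set Filter Topology Metric Matrix
open scoped ContDiff ComplexConjugate ComplexOrder

noncomputable section

namespace Vale.Agent.P272

open Vale.Agent.P271

variable {n : ℕ}

section Aux

variable {d : ℕ} {τ : ℝ}

/-- Extension by zero. -/
def DP4e (γ : C(closedBall (0 : Cn d) τ, Cn n)) (t : Cn d) : Cn n :=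
  open Classical in if h : t ∈ closedBall (0 : Cn d) τ then γ ⟨t, h⟩ else 0

theorem DP4e_eq (γ : C(closedBall (0 : Cn d) τ, Cn n)) {t : Cn d}
    (h : t ∈ closedBall (0 : Cn d) τ) : DP4e γ t = γ ⟨t, h⟩ := dif_pos h

theorem DP4e_norm (γ : C(closedBall (0 : Cn d) τ, Cn n)) (t : Cn d) : ‖DP4e γ t‖ ≤ ‖γ‖ := by
  by_cases h : t ∈ closedBall (0 : Cn d) τ
  · rw [DP4e_eq γ h]; exact γ.norm_coe_le_norm _
  · rw [DP4e, dif_neg h, norm_zero]; exact norm_nonneg _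

theorem DP4e_add (γ γ' : C(closedBall (0 : Cn d) τ, Cn n)) :
    DP4e (γ + γ') = fun t => DP4e γ t + DP4e γ' t := by
  funext t
  by_cases h : t ∈ closedBall (0 : Cn d) τ
  · simp only [DP4e_eq _ h, ContinuousMap.add_apply]
  · simp only [DP4e, dif_neg h, add_zero]

theorem DP4e_sub (γ γ' : C(closedBall (0 : Cn d) τ, Cn n)) (t : Cn d) :
    DP4e γ t - DP4e γ' t = DP4e (γ - γ') t := by
  by_cases h : t ∈ closedBall (0 : Cn d) τ
  · simp only [DP4e_eq _ h, ContinuousMap.sub_apply]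
  · simp only [DP4e, dif_neg h, sub_zero]

theorem DP4e_smul (c : ℂ) (γ : C(closedBall (0 : Cn d) τ, Cn n)) :
    DP4e (c • γ) = fun t => c • DP4e γ t := by
  funext t
  by_cases h : t ∈ closedBall (0 : Cn d) τ
  · simp only [DP4e_eq _ h, ContinuousMap.smul_apply]
  · simp only [DP4e, dif_neg h, smul_zero]

theorem DP4e_zero : DP4e (0 : C(closedBall (0 : Cn d) τ, Cn n)) = fun _ => 0 := by
  funext t
  by_cases h : t ∈ closedBall (0 : Cn d) τ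
  · simp only [DP4e_eq _ h, ContinuousMap.zero_apply]
  · simp only [DP4e, dif_neg h]

/-- Holomorphic maps that vanish to second order. -/
def DP4F (d n : ℕ) (τ : ℝ) : Submodule ℂ C(closedBall (0 : Cn d) τ, Cn n) where
  carrier := {γ | DifferentiableOn ℂ (DP4e γ) (ball 0 τ) ∧
    ∃ c : ℝ, ∀ t ∈ ball (0 : Cn d) τ, ‖DP4e γ t‖ ≤ c * ‖t‖ ^ 2}
  add_mem' := by
    rintro γ γ' ⟨h1, c, h2⟩ ⟨h3, c', h4⟩
    refine ⟨?_, c + c', fun t ht => ?_⟩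
    · rw [DP4e_add]; exact h1.add h3
    · rw [DP4e_add, add_mul]
      exact (norm_add_le _ _).trans (add_le_add (h2 t ht) (h4 t ht))
  zero_mem' := by
    refine ⟨?_, 0, fun t _ => ?_⟩
    · rw [DP4e_zero]; exact differentiableOn_const _
    · rw [DP4e_zero]; simp
  smul_mem' := by
    rintro a γ ⟨h1, c, h2⟩
    refine ⟨?_, ‖a‖ * c, fun t ht => ?_⟩
    · rw [DP4e_smul]; exact h1.const_smul a
    · rw [DP4e_smul, mul_assoc]
      simp only [norm_smul]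
      exact mul_le_mul_of_nonneg_left (h2 t ht) (norm_nonneg _)

theorem DP4_quad {γ : C(closedBall (0 : Cn d) τ, Cn n)} (h : γ ∈ DP4F d n τ) {t : Cn d}
    (ht : t ∈ ball (0 : Cn d) τ) : ‖DP4e γ t‖ ≤ 4 * ‖γ‖ / τ ^ 2 * ‖t‖ ^ 2 := by
  obtain ⟨h1, c, h2⟩ := h
  have hτ : 0 < τ := nonempty_ball.mp ⟨_, ht⟩
  have h0 : DP4e γ 0 = 0 := by simpa using h2 0 (mem_ball_self hτ)
  have h3 : HasFDerivAt (DP4e γ) (0 : Cn d →L[ℂ] Cn n) 0 := by
    rw [hasFDerivAt_iff_isLittleO_nhds_zero]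
    refine Asymptotics.IsBigO.trans_isLittleO ?_
      (Asymptotics.isLittleO_norm_pow_id (E' := Cn d) (n := 2) (by norm_num))
    refine Asymptotics.IsBigO.of_bound c ?_
    filter_upwards [ball_mem_nhds (0 : Cn d) hτ] with s hs
    simpa [h0] using h2 s hs
  have h4 := P278F.second_order h1 (fun z _ => DP4e_norm γ z) ht
  simpa [h0, h3.fderiv] using h4

theorem DP4_closed : IsClosed (DP4F d n τ : Set C(closedBall (0 : Cn d) τ, Cn n)) := by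
  refine isClosed_of_closure_subset fun γ hγ => ?_
  obtain ⟨g, hg, hl⟩ := mem_closure_iff_seq_limit.mp hγ
  have he : Tendsto (fun k => ‖g k - γ‖) atTop (𝓝 0) := tendsto_iff_norm_sub_tendsto_zero.mp hl
  have hb : ∀ k t, ‖DP4e (g k) t - DP4e γ t‖ ≤ ‖g k - γ‖ := fun k t => by
    rw [DP4e_sub]; exact DP4e_norm _ _
  refine ⟨fun z hz => ?_, 4 * ‖γ‖ / τ ^ 2, fun t ht => ?_⟩
  · obtain ⟨R, hR, hs⟩ := Metric.isOpen_iff.mp isOpen_ball z hz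
    exact (P278F.differentiableAt_of_unif hR (fun k => (hg k).1.mono hs) he
      fun k w _ => hb k w).differentiableWithinAt
  · have h1 : Tendsto (fun k => DP4e (g k) t) atTop (𝓝 (DP4e γ t)) :=
      tendsto_iff_norm_sub_tendsto_zero.mpr
        (squeeze_zero (fun _ => norm_nonneg _) (fun k => hb k t) he)
    have h2 : Tendsto (fun k => 4 * ‖g k‖ / τ ^ 2 * ‖t‖ ^ 2) atTop
        (𝓝 (4 * ‖γ‖ / τ ^ 2 * ‖t‖ ^ 2)) :=
      ((hl.norm.const_mul 4).div_const _).mul_const _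
    exact le_of_tendsto_of_tendsto' h1.norm h2 fun k => DP4_quad (hg k) ht

theorem DP4_arg {P : Cn d →L[ℂ] Cn n} {p r : ℝ} (hp : ‖P‖ ≤ p) (hτ : p * τ ≤ r / 2) {t : Cn d}
    (ht : t ∈ closedBall (0 : Cn d) τ) {v : Cn n} (hv : ‖v‖ ≤ r / 2) :
    P t + v ∈ closedBall (0 : Cn n) r := by
  rw [mem_closedBall_zero_iff] at ht ⊢
  have h1 : ‖P t‖ ≤ p * τ :=
    (P.le_opNorm t).trans (mul_le_mul hp ht (norm_nonneg _) ((norm_nonneg _).trans hp))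
  linarith [norm_add_le (P t) v]

/-- The nonlinear operator. -/
theorem DP4_op {Q : Cn n → Cn n} {ρ r C p : ℝ} (hr : r < ρ) (hC : 0 ≤ C)
    (hQ : DifferentiableOn ℂ Q (ball 0 ρ))
    (hb : ∀ u ∈ closedBall (0 : Cn n) r, ‖Q u‖ ≤ C * ‖u‖ ^ 2) {P : Cn d →L[ℂ] Cn n}
    (hp : ‖P‖ ≤ p) (hτ : p * τ ≤ r / 2) {γ : C(closedBall (0 : Cn d) τ, Cn n)}
    (hF : γ ∈ DP4F d n τ) (hγ : ‖γ‖ ≤ r / 2) :
    ∃ δ ∈ DP4F d n τ, ∀ t, δ t = Q (P t + γ t) := by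
  have hm : ∀ t ∈ closedBall (0 : Cn d) τ, P t + DP4e γ t ∈ closedBall (0 : Cn n) r :=
    fun t ht => DP4_arg hp hτ ht ((DP4e_norm _ _).trans hγ)
  have hs : closedBall (0 : Cn n) r ⊆ ball 0 ρ := closedBall_subset_ball hr
  have hc : Continuous fun t : closedBall (0 : Cn d) τ => Q (P t + γ t) := by
    refine hQ.continuousOn.comp_continuous
      ((P.continuous.comp continuous_subtype_val).add γ.continuous) fun t => hs ?_
    have := hm t t.2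
    rwa [DP4e_eq _ t.2] at this
  have he : ∀ t ∈ ball (0 : Cn d) τ, DP4e ⟨_, hc⟩ t = Q (P t + DP4e γ t) := fun t ht => by
    rw [DP4e_eq _ (ball_subset_closedBall ht), DP4e_eq _ (ball_subset_closedBall ht)]
    rfl
  refine ⟨⟨_, hc⟩, ⟨?_, C * (p + 4 * ‖γ‖ / τ ^ 2 * τ) ^ 2, fun t ht => ?_⟩, fun t => rfl⟩
  · refine DifferentiableOn.congr ?_ he
    exact hQ.comp (P.differentiable.differentiableOn.add hF.1)
      fun t ht => hs (hm t (ball_subset_closedBall ht))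
  · rw [he t ht, mul_assoc, ← mul_pow]
    refine (hb _ (hm t (ball_subset_closedBall ht))).trans ?_
    refine mul_le_mul_of_nonneg_left (pow_le_pow_left₀ (norm_nonneg _) ?_ 2) hC
    have h1 : ‖P t‖ ≤ p * ‖t‖ :=
      (P.le_opNorm t).trans (mul_le_mul_of_nonneg_right hp (norm_nonneg _))
    have h2 := DP4_quad hF ht
    have h3 : ‖t‖ ^ 2 ≤ τ * ‖t‖ := by
      rw [sq]
      exact mul_le_mul_of_nonneg_right (mem_ball_zero_iff.mp ht).le (norm_nonneg _)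
    have h4 : 0 ≤ 4 * ‖γ‖ / τ ^ 2 := by positivity
    have h5 := mul_le_mul_of_nonneg_left h3 h4
    have h6 := norm_add_le (P t) (DP4e γ t)
    linarith

theorem DP4_small (p a : ℝ) {r : ℝ} (hr : 0 < r) :
    ∃ τ : ℝ, 0 < τ ∧ p * τ ≤ r ∧ a * (p * τ) ^ 2 ≤ r := by
  have h1 : ∀ᶠ τ in 𝓝 (0 : ℝ), p * τ < r :=
    (show ContinuousAt (fun τ : ℝ => p * τ) 0 by fun_prop).eventually_lt continuousAt_const
      (by simpa using hr)
  have h2 : ∀ᶠ τ in 𝓝 (0 : ℝ), a * (p * τ) ^ 2 < r :=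
    (show ContinuousAt (fun τ : ℝ => a * (p * τ) ^ 2) 0 by fun_prop).eventually_lt
      continuousAt_const (by simpa using hr)
  obtain ⟨τ, h3, h4⟩ := (((h1.and h2).filter_mono nhdsWithin_le_nhds).and
    (self_mem_nhdsWithin (s := Ioi (0 : ℝ)))).exists
  exact ⟨τ, h4, h3.1.le, h3.2.le⟩

variable {F : Type} [NormedAddCommGroup F] [NormedSpace ℂ F]

theorem DP4_mem (ι : F →ₗᵢ[ℂ] C(closedBall (0 : Cn d) τ, Cn n)) {P : Cn d →L[ℂ] Cn n} {p r : ℝ}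
    (hp : ‖P‖ ≤ p) (hτ : p * τ ≤ r / 2) {γ : F} (hγ : γ ∈ closedBall (0 : F) (r / 2))
    (t : closedBall (0 : Cn d) τ) : P t + ι γ t ∈ closedBall (0 : Cn n) r :=
  DP4_arg hp hτ t.2 (((ι γ).norm_coe_le_norm _).trans
    ((ι.norm_map γ).trans_le (mem_closedBall_zero_iff.mp hγ)))

theorem DP4_cont (ι : F →ₗᵢ[ℂ] C(closedBall (0 : Cn d) τ, Cn n)) {Q : ℂ → Cn n → Cn n}
    {ρ r p : ℝ} (h : QS Q ρ) (hr : r < ρ)
    {P : ℂ → Cn d →L[ℂ] Cn n} (hP : Continuous P) (hp : ∀ ζ ∈ closedBall (0 : ℂ) 1, ‖P ζ‖ ≤ p)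
    (hτ : p * τ ≤ r / 2) {N : ℂ → F → F}
    (hN : ∀ ζ ∈ closedBall (0 : ℂ) 1, ∀ γ ∈ closedBall (0 : F) (r / 2), ∀ t,
      ι (N ζ γ) t = Q ζ (P ζ t + ι γ t)) :
    ContinuousOn (fun q : ℂ × F => N q.1 q.2) (closedBall 0 1 ×ˢ closedBall 0 (r / 2)) := by
  rw [continuousOn_iff_continuous_domRestrict]
  refine ι.isometry.isEmbedding.continuous_iff.mpr
    (ContinuousMap.continuous_of_continuous_uncurry _ ?_)
  have h1 : Continuous fun x : (closedBall (0 : ℂ) 1 ×ˢ closedBall (0 : F) (r / 2) :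
      Set (ℂ × F)) × closedBall (0 : Cn d) τ => x.1.1.1 :=
    continuous_fst.comp (continuous_subtype_val.comp continuous_fst)
  have h2 : Continuous fun x : (closedBall (0 : ℂ) 1 ×ˢ closedBall (0 : F) (r / 2) :
      Set (ℂ × F)) × closedBall (0 : Cn d) τ => ι x.1.1.2 x.2 :=
    (ι.continuous.comp
      (continuous_snd.comp (continuous_subtype_val.comp continuous_fst))).eval continuous_snd
  have h3 := h.cont.comp_continuous (h1.prodMk (((hP.comp h1).clm_apply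
    (continuous_subtype_val.comp continuous_snd)).add h2)) fun x =>
      ⟨x.1.2.1, closedBall_subset_ball hr (DP4_mem ι (hp _ x.1.2.1) hτ x.1.2.2 x.2)⟩
  exact h3.congr fun x => (hN _ x.1.2.1 _ x.1.2.2 x.2).symm

theorem DP4_lip (ι : F →ₗᵢ[ℂ] C(closedBall (0 : Cn d) τ, Cn n)) {Q : Cn n → Cn n}
    {r p L : ℝ} (hL : 0 ≤ L) (hb : ∀ u ∈ closedBall (0 : Cn n) r, ∀ v ∈ closedBall (0 : Cn n) r,
      ‖Q u - Q v‖ ≤ L * ‖u - v‖) {P : Cn d →L[ℂ] Cn n} (hp : ‖P‖ ≤ p) (hτ : p * τ ≤ r / 2)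
    {N : F → F} (hN : ∀ γ ∈ closedBall (0 : F) (r / 2), ∀ t, ι (N γ) t = Q (P t + ι γ t)) :
    ∀ u ∈ closedBall (0 : F) (r / 2), ∀ v ∈ closedBall (0 : F) (r / 2),
      ‖N u - N v‖ ≤ L * ‖u - v‖ := by
  intro γ hγ γ' hγ'
  rw [← ι.norm_map, ← ι.norm_map (γ - γ'), map_sub, map_sub]
  refine (ContinuousMap.norm_le _ (by positivity)).mpr fun t => ?_
  rw [ContinuousMap.sub_apply, hN γ hγ, hN γ' hγ']
  refine (hb _ (DP4_mem ι hp hτ hγ t) _ (DP4_mem ι hp hτ hγ' t)).trans ?_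
  rw [add_sub_add_left_eq_sub]
  exact mul_le_mul_of_nonneg_left ((ι γ - ι γ').norm_coe_le_norm t) hL

theorem DP4_zero (ι : F →ₗᵢ[ℂ] C(closedBall (0 : Cn d) τ, Cn n)) {Q : Cn n → Cn n}
    {r p C : ℝ} (hr : 0 < r) (hC : 0 ≤ C)
    (hb : ∀ u ∈ closedBall (0 : Cn n) r, ‖Q u‖ ≤ C * ‖u‖ ^ 2) {P : Cn d →L[ℂ] Cn n}
    (hp : ‖P‖ ≤ p) (hτ : p * τ ≤ r / 2)
    {N : F → F} (hN : ∀ γ ∈ closedBall (0 : F) (r / 2), ∀ t, ι (N γ) t = Q (P t + ι γ t)) :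
    ‖N 0‖ ≤ C * (p * τ) ^ 2 := by
  have h0 : (0 : F) ∈ closedBall (0 : F) (r / 2) := mem_closedBall_self (half_pos hr).le
  rw [← ι.norm_map]
  refine (ContinuousMap.norm_le _ (by positivity)).mpr fun t => ?_
  rw [hN 0 h0]
  refine (hb _ (DP4_mem ι hp hτ h0 t)).trans ?_
  refine mul_le_mul_of_nonneg_left (pow_le_pow_left₀ (norm_nonneg _) ?_ 2) hC
  rw [map_zero, ContinuousMap.zero_apply, add_zero]
  exact (P.le_opNorm t).trans (mul_le_mul hp (mem_closedBall_zero_iff.mp t.2)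
    (norm_nonneg _) ((norm_nonneg _).trans hp))

theorem DP4_sol (ι : F →ₗᵢ[ℂ] C(closedBall (0 : Cn d) τ, Cn n)) (hι : ∀ γ, ι γ ∈ DP4F d n τ)
    {Q : ℂ → Cn n → Cn n} {ρ r p : ℝ} (hτ0 : 0 < τ) (hr : r < ρ)
    {P : ℂ → Cn d →L[ℂ] Cn n} (hP : Differentiable ℂ P)
    (hp : ∀ ζ ∈ closedBall (0 : ℂ) 1, ‖P ζ‖ ≤ p) (hτ : p * τ ≤ r / 2) {N : ℂ → F → F}
    (hN : ∀ ζ ∈ closedBall (0 : ℂ) 1, ∀ γ ∈ closedBall (0 : F) (r / 2), ∀ t,
      ι (N ζ γ) t = Q ζ (P ζ t + ι γ t)) {g : ℂ → F} (hg1 : ContinuousOn g (closedBall 0 1))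
    (hg2 : g 0 = 0) (hg5 : ∀ ζ ∈ closedBall (0 : ℂ) 1, g ζ ∈ closedBall (0 : F) (r / 2))
    (hg4 : DB g fun ζ => N ζ (g ζ)) :
    Sol Q ρ P (fun ζ t => P ζ t + DP4e (ι (g ζ)) t) τ (4 * (r / 2) / τ ^ 2) := by
  refine ⟨hτ0, ?_, fun ζ hζ t ht => ?_,
    fun ζ _ => (P ζ).differentiable.differentiableOn.add (hι (g ζ)).1, fun t _ => ?_,
    fun t ht ζ hζ => ?_, fun ζ hζ t ht => ?_⟩
  · refine (((hP.continuous.comp continuous_fst).clm_apply continuous_snd).continuousOn).add ?_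
    rw [continuousOn_iff_continuous_domRestrict]
    have h1 : Continuous fun x : (closedBall (0 : ℂ) 1 ×ˢ ball (0 : Cn d) τ : Set (ℂ × Cn d)) =>
        ι (g x.1.1) ⟨x.1.2, ball_subset_closedBall x.2.2⟩ :=
      (ι.continuous.comp (hg1.comp_continuous
        (continuous_fst.comp continuous_subtype_val) fun x => x.2.1)).eval
        ((continuous_snd.comp continuous_subtype_val).subtype_mk _)
    exact h1.congr fun x => (DP4e_eq _ (ball_subset_closedBall x.2.2)).symm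
  · rw [DP4e_eq _ (ball_subset_closedBall ht)]
    exact closedBall_subset_ball hr
      (DP4_mem ι (hp ζ hζ) hτ (hg5 ζ hζ) ⟨t, ball_subset_closedBall ht⟩)
  · rw [hg2, map_zero, DP4e_zero, add_zero]
  · have h1 := (hg4 ζ hζ).clm ((ContinuousMap.evalCLM ℂ
      (⟨t, ball_subset_closedBall ht⟩ : closedBall (0 : Cn d) τ)).comp ι.toContinuousLinearMap)
    have h2 : DBAt (fun z => P z t) (fun _ => 0) ζ :=
      DBAt.of_hol (U := univ) (hP.clm_apply (differentiable_const t)).differentiableOn univ_mem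
    refine (h2.add h1).congr (Eventually.of_forall fun z => ?_) ?_
    · simp only [DP4e_eq _ (ball_subset_closedBall ht)]
      rfl
    · filter_upwards [isOpen_ball.mem_nhds hζ] with z hz
      rw [DP4e_eq _ (ball_subset_closedBall ht), zero_add]
      exact (hN z (ball_subset_closedBall hz) (g z) (hg5 z (ball_subset_closedBall hz))
        ⟨t, ball_subset_closedBall ht⟩).symm
  · rw [add_sub_cancel_left]
    refine (DP4_quad (hι (g ζ)) ht).trans (mul_le_mul_of_nonneg_right ?_ (by positivity))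
    have h1 : ‖ι (g ζ)‖ ≤ r / 2 :=
      (ι.norm_map _).trans_le (mem_closedBall_zero_iff.mp (hg5 ζ hζ))
    gcongr

theorem DP4_space (d n : ℕ) (τ : ℝ) : ∃ (F : Type) (_ : NormedAddCommGroup F)
    (_ : NormedSpace ℂ F) (_ : CompleteSpace F) (ι : F →ₗᵢ[ℂ] C(closedBall (0 : Cn d) τ, Cn n)),
    (∀ γ, ι γ ∈ DP4F d n τ) ∧ ∀ δ ∈ DP4F d n τ, ∃ γ, ι γ = δ :=
  ⟨DP4F d n τ, inferInstance, inferInstance, DP4_closed.completeSpace_coe, (DP4F d n τ).subtypeₗᵢ,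
    fun γ => γ.2, fun δ hδ => ⟨⟨δ, hδ⟩, rfl⟩⟩

end Aux

theorem exists_sol {d : ℕ} {Q : ℂ → Cn n → Cn n} {ρ : ℝ} (h : QS Q ρ)
    {P : ℂ → Cn d →L[ℂ] Cn n} (hP : Differentiable ℂ P) : ∃ u τ C, Sol Q ρ P u τ C := by
  obtain ⟨r, C, L, hr, hρ, hC, hL, hb⟩ := h.bounds
  obtain ⟨C₀, hC₀, hfix⟩ := dbar_fix hL
  obtain ⟨p, hp⟩ := (isCompact_closedBall (0 : ℂ) 1).exists_bound_of_continuousOn
    hP.continuous.continuousOn
  obtain ⟨τ, hτ, hτ1, hτ2⟩ := DP4_small p (C₀ * C) (half_pos hr)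
  rw [mul_assoc] at hτ2
  obtain ⟨F, _, _, _, ι, hι, hι'⟩ := DP4_space d n τ
  have hex : ∀ (ζ : ℂ) (γ : F), ∃ δ : F, ζ ∈ closedBall (0 : ℂ) 1 →
      γ ∈ closedBall (0 : F) (r / 2) → ∀ t, ι δ t = Q ζ (P ζ t + ι γ t) := fun ζ γ => by
    by_cases h1 : ζ ∈ closedBall (0 : ℂ) 1 ∧ γ ∈ closedBall (0 : F) (r / 2)
    · obtain ⟨δ, h2, hδ⟩ := DP4_op hρ hC (h.hol ζ h1.1) (fun u hu => (hb ζ h1.1 u hu).1)
        (hp ζ h1.1) hτ1 (hι γ) ((ι.norm_map γ).trans_le (mem_closedBall_zero_iff.mp h1.2))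
      obtain ⟨δ, rfl⟩ := hι' δ h2
      exact ⟨δ, fun _ _ => hδ⟩
    · exact ⟨0, fun h2 h3 => absurd ⟨h2, h3⟩ h1⟩
  choose N hN using hex
  obtain ⟨g, hg1, hg2, hg3, hg4⟩ := hfix F N (r / 2) (C * (p * τ) ^ 2) hτ2
    (DP4_cont ι h hρ hP.continuous hp hτ1 fun ζ hζ γ hγ => hN ζ γ hζ hγ)
    (fun ζ hζ => DP4_lip ι hL (fun u hu => (hb ζ hζ u hu).2) (hp ζ hζ) hτ1
      fun γ hγ => hN ζ γ hζ hγ)
    (fun ζ hζ => DP4_zero ι hr hC (fun u hu => (hb ζ hζ u hu).1) (hp ζ hζ) hτ1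
      fun γ hγ => hN ζ γ hζ hγ)
  exact ⟨_, _, _, DP4_sol ι hι hτ hρ hP hp hτ1 (fun ζ hζ γ hγ => hN ζ γ hζ hγ) hg1 hg2
    (fun ζ hζ => mem_closedBall_zero_iff.mpr ((hg3 ζ hζ).trans hτ2)) hg4⟩

end Vale.Agent.P272
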