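import Vale.Agent.P272.DP3
import Vale.Agent.P272.DP4
import Vale.Agent.P272.DF2

/-! P272, part D: discs with moving centre. -/

open MeasureTheory Set Filter Topology Metric Matrix
open scoped ContDiff ComplexConjugate ComplexOrder

noncomputable section

namespace Vale.Agent.P272

open Vale.Agent.P271

variable {n : ℕ} {X : Type} [TopologicalSpace X] [T2Space X] [CompactSpace X]
  [MeasurableSpace X] [BorelSpace X] {M : Model n X}
  {w η η₀ η₁ η₂ φ ψ : Frm M.toAtl} {K r : ℝ} {x : X} {f : ℂ → X}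

theorem Tube.null {W : M.ι → ℂ → En n} {E : ℂ → Cn n → X} {Q : ℂ → Cn n → Cn n} {ρ : ℝ}
    (h : Tube M.toAtl f W E Q ρ) {ζ : ℂ} (hζ : ζ ∈ closedBall (0 : ℂ) 1) :
    (∀ N, M.μ N = 0 → volume (ball (0 : Cn n) ρ ∩ E ζ ⁻¹' N) = 0) ∧
      ∀ S ⊆ ball (0 : Cn n) ρ, volume S = 0 → M.μ (E ζ '' S) = 0 := by
  refine ⟨fun N hN => ?_, fun S hS h0 => ?_⟩
  · obtain ⟨c, hc⟩ := h.linv ζ hζ
    refine measure_mono_null (t := ⋃ a, (fun z => c ((M.e a).symm z)) ''
      (M.e a '' (N ∩ E ζ '' ball 0 ρ ∩ (M.e a).source))) (fun u hu => ?_)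
      (measure_iUnion_null fun a => ?_)
    · obtain ⟨a, ha⟩ := M.cover (E ζ u)
      refine mem_iUnion.2 ⟨a, _, ⟨_, ⟨⟨hu.2, u, hu.1, rfl⟩, ha⟩, rfl⟩, ?_⟩
      simp only
      rw [(M.e a).left_inv ha, (hc u hu.1).1]
    · refine addHaar_image_eq_zero_of_differentiableOn_of_addHaar_eq_zero volume ?_
        ((null_iff M a inter_subset_right).1
          (measure_mono_null (inter_subset_left.trans inter_subset_left) hN))
      rintro _ ⟨_, ⟨⟨-, u, hu, rfl⟩, ha⟩, rfl⟩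
      exact (((hc u hu).2 a ha).restrictScalars ℝ).differentiableWithinAt
  · refine measure_mono_null (t := ⋃ a, E ζ '' (S ∩ E ζ ⁻¹' (M.e a).source)) ?_
      (measure_iUnion_null fun a => ?_)
    · rintro _ ⟨u, hu, rfl⟩
      obtain ⟨a, ha⟩ := M.cover (E ζ u)
      exact mem_iUnion.2 ⟨a, u, ⟨hu, ha⟩, rfl⟩
    · rw [null_iff M a (image_subset_iff.2 inter_subset_right), image_image]
      exact addHaar_image_eq_zero_of_differentiableOn_of_addHaar_eq_zero volume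
        (((h.hol ζ hζ a).mono (inter_subset_inter_left _ hS)).restrictScalars ℝ)
        (measure_mono_null inter_subset_left h0)

/-- The fibre of the tube over the centre is a neighbourhood of the centre. -/
theorem DFam1_nhds {W : M.ι → ℂ → En n} {E : ℂ → Cn n → X} {Q : ℂ → Cn n → Cn n} {ρ σ : ℝ}
    (hW : Frame M.toAtl f W) (h : Tube M.toAtl f W E Q ρ) (hσ : 0 < σ) :
    E 0 '' ball 0 σ ∈ 𝓝 (f 0) := by
  have h0 : (0 : ℂ) ∈ closedBall (0 : ℂ) 1 := mem_closedBall_self zero_le_one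
  obtain ⟨a, ha⟩ := M.cover (f 0)
  have hc : ContinuousOn (E 0) (ball 0 ρ) :=
    h.cont.comp (f := fun u : Cn n => ((0 : ℂ), u)) (by fun_prop) fun u hu => ⟨h0, hu⟩
  have hV := hc.isOpen_inter_preimage isOpen_ball (M.e a).open_source
  have hm : (0 : Cn n) ∈ ball (0 : Cn n) ρ ∩ E 0 ⁻¹' (M.e a).source :=
    ⟨mem_ball_self h.qs.pos, by rwa [mem_preimage, h.zero 0 h0]⟩
  have han := P278F.analyticOnNhd_of_differentiableOn hV (h.hol 0 h0 a) 0 hm
  obtain ⟨L, hL⟩ := hW.unit a 0 ⟨h0, ha⟩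
  have hs := han.hasStrictFDerivAt
  rw [(h.der a 0 ⟨h0, ha⟩).fderiv, ← hL] at hs
  have hmap := HasStrictFDerivAt.map_nhds_eq_of_equiv (f' := ContinuousLinearEquiv.ofUnit L) hs
  have h1 := image_mem_map (m := fun u => M.e a (E 0 u))
    (inter_mem (ball_mem_nhds (0 : Cn n) hσ) (hV.mem_nhds hm))
  rw [hmap, h.zero 0 h0] at h1
  filter_upwards [(M.e a).continuousAt ha h1, (M.e a).open_source.mem_nhds ha] with y hy hy'
  obtain ⟨u, hu, e⟩ := hy
  exact ⟨u, hu.1, (M.e a).injOn hu.2.2 hy' e⟩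

theorem fam_core (hf : Dc M.toAtl f) : ∃ (O : Set X) (F : X → ℂ → X), IsOpen O ∧ f 0 ∈ O ∧
    EqOn (F (f 0)) f (ball 0 1) ∧ (∀ y ∈ O, IsD M.toAtl (F y) (ball 0 1) ∧ F y 0 = y) ∧
    ContinuousOn (fun q : X × ℂ => F q.1 q.2) (O ×ˢ ball 0 1) ∧
    ∀ ζ ∈ ball (0 : ℂ) 1, ∀ N, M.μ N = 0 → M.μ (O ∩ (fun y => F y ζ) ⁻¹' N) = 0 := by
  have h0 : (0 : ℂ) ∈ closedBall (0 : ℂ) 1 := mem_closedBall_self zero_le_one
  obtain ⟨W, hW⟩ := exists_frame hf
  obtain ⟨E, Q, ρ, h⟩ := exists_tube hf hW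
  obtain ⟨u, τ, C, hu⟩ := exists_sol h.qs (P := fun _ => ContinuousLinearMap.id ℂ (Cn n))
    (differentiable_const _)
  obtain ⟨σ, hσ, hστ, hn⟩ := null_preimage (n := n) C hu.pos
  obtain ⟨c, hc⟩ := h.linv 0 h0
  have hτ : ball (0 : Cn n) σ ⊆ ball 0 τ := ball_subset_ball hστ
  have hρ : ball (0 : Cn n) σ ⊆ ball 0 ρ := fun t ht => by
    have := hu.mem 0 h0 t (hτ ht)
    rwa [hu.cen t (hτ ht)] at this
  have hO : ∀ y ∈ interior (E 0 '' ball 0 σ), c y ∈ ball (0 : Cn n) σ ∧ E 0 (c y) = y := by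
    intro y hy
    obtain ⟨t, ht, rfl⟩ := interior_subset hy
    rw [(hc t (hρ ht)).1]
    exact ⟨ht, rfl⟩
  have hcc : ContinuousOn c (interior (E 0 '' ball 0 σ)) := fun y hy => by
    obtain ⟨a, ha⟩ := M.cover y
    obtain ⟨h1, h2⟩ := hO y hy
    have h3 := (hc _ (hρ h1)).2 a (by rwa [h2])
    rw [h2] at h3
    refine ((h3.continuousAt.comp ((M.e a).continuousAt ha)).congr ?_).continuousWithinAt
    filter_upwards [(M.e a).open_source.mem_nhds ha] with z hz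
    simp only [Function.comp_apply]
    rw [(M.e a).left_inv hz]
  refine ⟨interior (E 0 '' ball 0 σ), fun y ζ => E ζ (u ζ (c y)), isOpen_interior,
    mem_interior_iff_mem_nhds.2 (DFam1_nhds hW h hσ), fun ζ hζ => ?_, fun y hy => ⟨?_, ?_⟩, ?_,
    fun ζ hζ N hN => ?_⟩
  · have h1 := (hc 0 (mem_ball_self h.qs.pos)).1
    have h2 := hu.quad ζ (ball_subset_closedBall hζ) 0 (mem_ball_self hu.pos)
    rw [h.zero 0 h0] at h1
    simp only [map_zero, sub_zero, norm_zero, ne_eq, OfNat.ofNat_ne_zero, not_false_eq_true,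
      zero_pow, mul_zero, norm_le_zero_iff] at h2
    simp only
    rw [h1, h2, h.zero ζ (ball_subset_closedBall hζ)]
  · exact h.isD _ (fun ζ hζ => hu.mem ζ (ball_subset_closedBall hζ) _ (hτ (hO y hy).1))
      (hu.db _ (hτ (hO y hy).1))
  · simp only
    rw [hu.cen _ (hτ (hO y hy).1)]
    exact (hO y hy).2
  · have h1 : ContinuousOn (fun q : X × ℂ => u q.2 (c q.1))
        (interior (E 0 '' ball 0 σ) ×ˢ ball 0 1) :=
      hu.cont.comp (f := fun q : X × ℂ => (q.2, c q.1))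
        (continuousOn_snd.prodMk (hcc.comp continuousOn_fst fun q hq => hq.1))
        fun q hq => ⟨ball_subset_closedBall hq.2, hτ (hO _ hq.1).1⟩
    exact h.cont.comp (f := fun q : X × ℂ => (q.2, u q.2 (c q.1))) (continuousOn_snd.prodMk h1)
      fun q hq => ⟨ball_subset_closedBall hq.2,
        hu.mem _ (ball_subset_closedBall hq.2) _ (hτ (hO _ hq.1).1)⟩
  · have hζ' := ball_subset_closedBall hζ
    refine measure_mono_null (fun y hy => ?_) ((h.null h0).2 _ (inter_subset_left.trans hρ)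
      (hn (u ζ) (hu.hol ζ hζ') (hu.quad ζ hζ') _ ((h.null hζ').1 N hN)))
    obtain ⟨h1, h2⟩ := hO y hy.1
    exact ⟨c y, ⟨h1, hu.mem ζ hζ' _ (hτ h1), hy.2⟩, h2⟩

end Vale.Agent.P272
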