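import Vale.Agent.P272.DDefs

/-! P272, part D: the boundary bump. -/

open MeasureTheory Set Filter Topology Metric Matrix
open scoped ContDiff ComplexConjugate ComplexOrder

noncomputable section

namespace Vale.Agent.P272

open Vale.Agent.P271

variable {ρ r : ℝ} {ξ ζ : ℂ}

lemma DR1_re (hξ : ‖ξ‖ = 1) (ρ : ℝ) (ζ : ℂ) : 1 + ρ - ‖ζ‖ ≤ (1 + (ρ : ℂ) - conj ξ * ζ).re := by
  have h := Complex.re_le_norm (conj ξ * ζ)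
  rw [norm_mul, Complex.norm_conj, hξ, one_mul] at h
  rw [Complex.sub_re, Complex.add_re, Complex.one_re, Complex.ofReal_re]
  linarith

lemma DR1_ne (hρ : 0 < ρ) (hξ : ‖ξ‖ = 1) (hζ : ζ ∈ ball (0 : ℂ) 1) :
    1 + (ρ : ℂ) - conj ξ * ζ ≠ 0 := by
  intro h
  have h1 := DR1_re hξ ρ ζ
  rw [h, Complex.zero_re] at h1
  rw [mem_ball_zero_iff] at hζ
  linarith

lemma DR1_kap (hρ : 0 < ρ) (hξ : ‖ξ‖ = 1) (hζ : ζ ∈ ball (0 : ℂ) 1) :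
    HasDerivAt (kap ρ ξ) ((ρ ^ 2 / 10 : ℝ) * conj ξ / (1 + ρ - conj ξ * ζ) ^ 2) ζ := by
  have h1 : HasDerivAt (fun z : ℂ => 1 + (ρ : ℂ) - conj ξ * z) (-(conj ξ * 1)) ζ :=
    ((hasDerivAt_id' ζ).const_mul (conj ξ)).const_sub _
  have h2 := (hasDerivAt_const ζ (((ρ ^ 2 / 10 : ℝ)) : ℂ)).fun_div h1 (DR1_ne hρ hξ hζ)
  refine h2.congr_deriv ?_
  ring

lemma DR1_der (hρ : 0 < ρ) (hξ : ‖ξ‖ = 1) (hζ : ζ ∈ ball (0 : ℂ) 1) :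
    HasDerivAt (bump ρ ξ) (Complex.exp (-kap ρ ξ ζ) - ζ * Complex.exp (-kap ρ ξ ζ) *
      ((ρ ^ 2 / 10 : ℝ) * conj ξ / (1 + ρ - conj ξ * ζ) ^ 2)) ζ := by
  have h := (hasDerivAt_id' ζ).fun_mul (DR1_kap hρ hξ hζ).fun_neg.cexp
  refine h.congr_deriv ?_
  ring

theorem differentiableOn_bump (hρ : 0 < ρ) (hξ : ‖ξ‖ = 1) :
    DifferentiableOn ℂ (bump ρ ξ) (ball 0 1) := by
  exact fun _ hζ => (DR1_der hρ hξ hζ).differentiableAt.differentiableWithinAt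

theorem continuousOn_kap (hρ : 0 < ρ) (hξ : ‖ξ‖ = 1) : ContinuousOn (kap ρ ξ) (ball 0 1) := by
  exact fun _ hζ => (DR1_kap hρ hξ hζ).continuousAt.continuousWithinAt

theorem kap_re_nonneg (hρ : 0 < ρ) (hξ : ‖ξ‖ = 1) (hζ : ζ ∈ ball (0 : ℂ) 1) :
    0 ≤ (kap ρ ξ ζ).re := by
  have h := DR1_re hξ ρ ζ
  rw [mem_ball_zero_iff] at hζ
  rw [kap, div_eq_mul_inv, Complex.re_ofReal_mul, Complex.inv_re]
  exact mul_nonneg (by positivity) (div_nonneg (by linarith) (Complex.normSq_nonneg _))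

theorem norm_bump (ρ : ℝ) (ξ ζ : ℂ) : ‖bump ρ ξ ζ‖ = ‖ζ‖ * Real.exp (-(kap ρ ξ ζ).re) := by
  rw [bump, norm_mul, Complex.norm_exp, Complex.neg_re]

lemma DR1_nk (hξ : ‖ξ‖ = 1) {d : ℝ} (hd : 0 < d) (h : d ≤ 1 + ρ - ‖ζ‖) :
    ‖kap ρ ξ ζ‖ ≤ ρ ^ 2 / 10 / d ∧
      ‖((ρ ^ 2 / 10 : ℝ) * conj ξ / (1 + ρ - conj ξ * ζ) ^ 2 : ℂ)‖ ≤ ρ ^ 2 / 10 / d ^ 2 := by
  have h1 : d ≤ ‖1 + (ρ : ℂ) - conj ξ * ζ‖ := h.trans ((DR1_re hξ ρ ζ).trans (Complex.re_le_norm _))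
  have h2 : ‖((ρ ^ 2 / 10 : ℝ) : ℂ)‖ = ρ ^ 2 / 10 := by
    rw [Complex.norm_real, Real.norm_of_nonneg (by positivity)]
  constructor
  · rw [kap, norm_div, h2]
    exact div_le_div_of_nonneg_left (by positivity) hd h1
  · rw [norm_div, norm_mul, h2, Complex.norm_conj, hξ, mul_one, norm_pow]
    exact div_le_div_of_nonneg_left (by positivity) (by positivity) (pow_le_pow_left₀ hd.le h1 2)

lemma DR1_est (hρ : 0 < ρ) (hρ1 : ρ ≤ 1) (hξ : ‖ξ‖ = 1) (hζ : ζ ∈ ball (0 : ℂ) 1) {d : ℝ}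
    (hd : 0 < d) (h : d ≤ 1 + ρ - ‖ζ‖) : ‖bump ρ ξ ζ - ζ‖ ≤ 2 * (ρ ^ 2 / 10 / d) ∧
      ‖deriv (bump ρ ξ) ζ - 1‖ ≤ 2 * (ρ ^ 2 / 10 / d) + ρ ^ 2 / 10 / d ^ 2 := by
  have hz := mem_ball_zero_iff.1 hζ
  have h1 : ‖-kap ρ ξ ζ‖ ≤ 1 := by
    rw [norm_neg]
    refine (DR1_nk hξ hρ (by linarith)).1.trans ?_
    rw [div_le_one hρ]
    nlinarith
  obtain ⟨h2, h3⟩ := DR1_nk hξ hd h
  have h4 := Complex.norm_exp_sub_one_le h1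
  rw [norm_neg] at h4
  have h5 : ‖ζ * Complex.exp (-kap ρ ξ ζ)‖ ≤ 1 := by
    refine (norm_bump ρ ξ ζ).trans_le (mul_le_one₀ hz.le (Real.exp_pos _).le ?_)
    exact Real.exp_le_one_iff.2 (neg_nonpos.2 (kap_re_nonneg hρ hξ hζ))
  constructor
  · rw [bump, ← mul_sub_one, norm_mul]
    nlinarith [norm_nonneg (Complex.exp (-kap ρ ξ ζ) - 1), norm_nonneg ζ]
  · rw [(DR1_der hρ hξ hζ).deriv, sub_right_comm]
    refine (norm_sub_le _ _).trans (add_le_add (by linarith) ?_)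
    rw [norm_mul]
    exact (mul_le_of_le_one_left (norm_nonneg _) h5).trans h3

theorem deriv_bump (hρ : 0 < ρ) (hρ1 : ρ ≤ 1) (hξ : ‖ξ‖ = 1) (hζ : ζ ∈ ball (0 : ℂ) 1) :
    ‖deriv (bump ρ ξ) ζ - 1‖ ≤ 1 / 2 := by
  have hz := mem_ball_zero_iff.1 hζ
  refine (DR1_est hρ hρ1 hξ hζ hρ (by linarith)).2.trans ?_
  have h : 2 * (ρ ^ 2 / 10 / ρ) + ρ ^ 2 / 10 / ρ ^ 2 = ρ / 5 + 1 / 10 := by
    field_simp
    ring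
  linarith

theorem injOn_bump (hρ : 0 < ρ) (hρ1 : ρ ≤ 1) (hξ : ‖ξ‖ = 1) : InjOn (bump ρ ξ) (ball 0 1) := by
  intro a ha b hb hab
  have h := (convex_ball (0 : ℂ) 1).norm_image_sub_le_of_norm_hasDerivWithin_le
    (f := fun z => bump ρ ξ z - z) (f' := fun z => deriv (bump ρ ξ) z - 1)
    (fun z hz => ((DR1_der hρ hξ hz).differentiableAt.hasDerivAt.fun_sub
      (hasDerivAt_id' z)).hasDerivWithinAt) (fun z hz => deriv_bump hρ hρ1 hξ hz) ha hb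
  rw [hab, sub_sub_sub_cancel_left, norm_sub_rev] at h
  exact (sub_eq_zero.1 (norm_le_zero_iff.1 (by linarith))).symm

theorem bump_close (h1 : r < 1) : ∃ C : ℝ, 0 < C ∧ ∀ (ρ : ℝ) (ξ ζ : ℂ), 0 < ρ → ρ ≤ 1 → ‖ξ‖ = 1 →
    ‖ζ‖ ≤ r → ‖bump ρ ξ ζ - ζ‖ ≤ C * ρ ^ 2 ∧ ‖deriv (bump ρ ξ) ζ - 1‖ ≤ C * ρ ^ 2 := by
  have hd : 0 < 1 - r := sub_pos.2 h1
  refine ⟨2 * (1 / 10 / (1 - r)) + 1 / 10 / (1 - r) ^ 2, by positivity,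
    fun ρ ξ ζ hρ hρ1 hξ hζ => ?_⟩
  obtain ⟨h2, h3⟩ := DR1_est hρ hρ1 hξ (mem_ball_zero_iff.2 (hζ.trans_lt h1)) hd (by linarith)
  have h4 : (2 * (1 / 10 / (1 - r)) + 1 / 10 / (1 - r) ^ 2) * ρ ^ 2 =
      2 * (ρ ^ 2 / 10 / (1 - r)) + ρ ^ 2 / 10 / (1 - r) ^ 2 := by ring
  rw [h4]
  exact ⟨h2.trans (le_add_of_nonneg_right (by positivity)), h3⟩

lemma DR1_unit (hξ : ‖ξ‖ = 1) : conj ξ * ξ = 1 := by
  rw [Complex.conj_mul', hξ, Complex.ofReal_one, one_pow]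

theorem kap_re_ge (hρ : 0 < ρ) (hξ : ‖ξ‖ = 1) (hζ : ζ ∈ ball (((1 - ρ : ℝ) : ℂ) * ξ) (ρ / 2)) :
    ρ / 50 ≤ (kap ρ ξ ζ).re := by
  have h1 : 1 + (ρ : ℂ) - conj ξ * ζ = (2 * ρ : ℝ) - conj ξ * (ζ - ((1 - ρ : ℝ) : ℂ) * ξ) := by
    push_cast
    linear_combination (ρ - 1 : ℂ) * DR1_unit hξ
  have h2 : ‖conj ξ * (ζ - ((1 - ρ : ℝ) : ℂ) * ξ)‖ < ρ / 2 := by
    rwa [norm_mul, Complex.norm_conj, hξ, one_mul, ← dist_eq_norm]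
  rw [kap, h1]
  generalize conj ξ * (ζ - ((1 - ρ : ℝ) : ℂ) * ξ) = z at h2
  have h3 : 3 * ρ / 2 ≤ (((2 * ρ : ℝ) : ℂ) - z).re := by
    rw [Complex.sub_re, Complex.ofReal_re]
    linarith [Complex.re_le_norm z]
  have h4 : ‖((2 * ρ : ℝ) : ℂ) - z‖ ≤ 5 * ρ / 2 := by
    refine (norm_sub_le _ _).trans ?_
    rw [Complex.norm_real, Real.norm_of_nonneg (by positivity)]
    linarith
  have h5 : 0 < ‖((2 * ρ : ℝ) : ℂ) - z‖ := lt_of_lt_of_le (by positivity)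
    (h3.trans (Complex.re_le_norm _))
  rw [div_eq_mul_inv (_ : ℂ), Complex.re_ofReal_mul, Complex.inv_re, Complex.normSq_eq_norm_sq,
    ← mul_div_assoc, le_div_iff₀ (by positivity)]
  have h6 := pow_le_pow_left₀ h5.le h4 2
  nlinarith [mul_le_mul_of_nonneg_left h6 hρ.le, mul_le_mul_of_nonneg_left h3 (sq_nonneg ρ),
    pow_pos hρ 3]

/-- Every point near the circle is the image of the centre of a bump. -/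
theorem bump_surj {ρ₀ : ℝ} (h0 : 0 < ρ₀) (h1 : ρ₀ ≤ 1 / 2) : ∃ s : ℝ, s < 1 ∧ ∀ z : ℂ, s ≤ ‖z‖ →
    ‖z‖ < 1 → ∃ (ρ : ℝ) (ξ : ℂ), 0 < ρ ∧ ρ ≤ ρ₀ ∧ ‖ξ‖ = 1 ∧
      bump ρ ξ (((1 - ρ : ℝ) : ℂ) * ξ) = z ∧ 1 - ‖z‖ ≤ 2 * ρ := by
  have hs : 0 < (1 - ρ₀) * Real.exp (-(ρ₀ / 20)) := mul_pos (by linarith) (Real.exp_pos _)
  refine ⟨(1 - ρ₀) * Real.exp (-(ρ₀ / 20)), ?_, fun z hz hz1 => ?_⟩
  · have h2 : Real.exp (-(ρ₀ / 20)) ≤ 1 := Real.exp_le_one_iff.2 (by linarith)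
    nlinarith
  have hc : ContinuousOn (fun t : ℝ => (1 - t) * Real.exp (-(t / 20))) (Icc 0 ρ₀) := by
    fun_prop
  obtain ⟨ρ, ⟨hρ0, hρ1⟩, hρ⟩ := intermediate_value_Icc' h0.le hc
    (show ‖z‖ ∈ Icc _ _ from ⟨hz, by simpa using hz1.le⟩)
  have hρ' : (1 - ρ) * Real.exp (-(ρ / 20)) = ‖z‖ := hρ
  have hp : 0 < ρ := lt_of_le_of_ne hρ0 fun h => by
    rw [← h] at hρ'
    simp at hρ'
    linarith
  have hz0 : (0 : ℝ) < ‖z‖ := hs.trans_le hz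
  have hξ : ‖z / (‖z‖ : ℂ)‖ = 1 := by
    rw [norm_div, Complex.norm_real, norm_norm, div_self hz0.ne']
  refine ⟨ρ, z / (‖z‖ : ℂ), hp, hρ1, hξ, ?_, ?_⟩
  · have h2 : kap ρ (z / (‖z‖ : ℂ)) (((1 - ρ : ℝ) : ℂ) * (z / (‖z‖ : ℂ))) = (ρ / 20 : ℝ) := by
      have h3 : (ρ : ℂ) ≠ 0 := Complex.ofReal_ne_zero.2 hp.ne'
      rw [kap, mul_left_comm, DR1_unit hξ]
      push_cast
      rw [show 1 + (ρ : ℂ) - (1 - ρ) * 1 = 2 * ρ by ring]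
      field_simp
      ring
    have h4 : (‖z‖ : ℂ) ≠ 0 := Complex.ofReal_ne_zero.2 hz0.ne'
    rw [bump, h2, ← Complex.ofReal_neg, ← Complex.ofReal_exp, mul_right_comm,
      ← Complex.ofReal_mul, hρ', mul_div_cancel₀ _ h4]
  · have h5 := Real.add_one_le_exp (-(ρ / 20))
    nlinarith

end Vale.Agent.P272
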