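import Vale.Agent.P272.DA3

/-! P272, part D: composition with a self-map of the disc. -/

open MeasureTheory Set Filter Topology Metric Matrix
open scoped ContDiff ComplexConjugate ComplexOrder

noncomputable section

namespace Vale.Agent.P272

open Vale.Agent.P271

variable {n : ℕ} {X : Type} [TopologicalSpace X] [T2Space X] [CompactSpace X] {A : Atl n X}
  {w η η₀ η₁ η₂ φ ψ : Frm A} {K r : ℝ} {x : X} {f g : ℂ → X} {U : Set ℂ} {ζ : ℂ}

lemma DR2_log {z : ℂ} (hz : z ∈ ball (0 : ℂ) 1) : 0 ≤ Real.log (1 / ‖z‖) := by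
  rw [one_div, Real.log_inv]
  exact neg_nonneg.2 (Real.log_nonpos (norm_nonneg _) (mem_ball_zero_iff.1 hz).le)

lemma DR2_map {m : ℂ → ℂ} {κ : ℂ → ℝ} (h0 : ∀ z ∈ ball (0 : ℂ) 1, 0 ≤ κ z)
    (he : ∀ z ∈ ball (0 : ℂ) 1, ‖m z‖ = ‖z‖ * Real.exp (-κ z)) :
    MapsTo m (ball 0 1) (ball 0 1) := fun z hz => by
  rw [mem_ball_zero_iff, he z hz]
  exact (mul_le_of_le_one_right (norm_nonneg _)
    (Real.exp_le_one_iff.2 (neg_nonpos.2 (h0 z hz)))).trans_lt (mem_ball_zero_iff.1 hz)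

lemma DR2_key (hw : Kae A w) (hf : Adm A w x f) {m : ℂ → ℂ} {κ : ℂ → ℝ}
    (hm : DifferentiableOn ℂ m (ball 0 1)) (hi : InjOn m (ball 0 1))
    (hκ : ContinuousOn κ (ball 0 1)) (h0 : ∀ z ∈ ball (0 : ℂ) 1, 0 ≤ κ z)
    (he : ∀ z ∈ ball (0 : ℂ) 1, ‖m z‖ = ‖z‖ * Real.exp (-κ z)) (hη : IsF A η) (hn : NnF A η) :
    IntegrableOn (fun z => Real.log (1 / ‖z‖) * den A η (fun z => f (m z)) z) (ball 0 1) ∧
      IntegrableOn (fun z => κ z * den A η (fun z => f (m z)) z) (ball 0 1) ∧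
      T A η (fun z => f (m z)) 1 +
        2 / Real.pi * ∫ z in ball (0 : ℂ) 1, κ z * den A η (fun z => f (m z)) z ≤ T A η f 1 := by
  have hmap := DR2_map h0 he
  have hG := hf.integrableOn hw hη one_pos le_rfl
  obtain ⟨c1, c2⟩ := cov isOpen_ball hm hi fun y => Real.log (1 / ‖y‖) * den A η f y
  have hH := c1.1 (hG.mono_set hmap.image_subset)
  have hD := (continuousOn_den hη (hf.1.comp hm hmap) isOpen_ball).aestronglyMeasurable
    (μ := volume) measurableSet_ball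
  have hae : ∀ᵐ z ∂(volume.restrict (ball (0 : ℂ) 1)), z ∈ ball (0 : ℂ) 1 ∧
      Real.log (1 / ‖m z‖) * den A η f (m z) * ‖deriv m z‖ ^ 2 =
        Real.log (1 / ‖z‖) * den A η (fun z => f (m z)) z +
          κ z * den A η (fun z => f (m z)) z := by
    filter_upwards [ae_restrict_mem measurableSet_ball,
      ae_restrict_of_ae (Measure.ae_ne volume (0 : ℂ))] with z hz hz0
    refine ⟨hz, ?_⟩
    rw [den_comp hη hf.1 (isOpen_ball.mem_nhds (hmap hz))
      (hm.differentiableAt (isOpen_ball.mem_nhds hz)), he z hz, one_div, one_div, Real.log_inv,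
      Real.log_inv, Real.log_mul (norm_ne_zero_iff.2 hz0) (Real.exp_pos _).ne', Real.log_exp]
    ring
  have ha : IntegrableOn (fun z => Real.log (1 / ‖z‖) * den A η (fun z => f (m z)) z)
      (ball 0 1) := by
    refine Integrable.mono' hH (AEStronglyMeasurable.mul
      (Measurable.aestronglyMeasurable (by fun_prop)) hD) (hae.mono fun z hz => ?_)
    rw [hz.2, Real.norm_of_nonneg (mul_nonneg (DR2_log hz.1) (den_nonneg hη hn _ _))]
    exact le_add_of_nonneg_right (mul_nonneg (h0 z hz.1) (den_nonneg hη hn _ _))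
  have hb : IntegrableOn (fun z => κ z * den A η (fun z => f (m z)) z) (ball 0 1) := by
    refine Integrable.mono' hH (AEStronglyMeasurable.mul
      (hκ.aestronglyMeasurable measurableSet_ball) hD) (hae.mono fun z hz => ?_)
    rw [hz.2, Real.norm_of_nonneg (mul_nonneg (h0 z hz.1) (den_nonneg hη hn _ _))]
    exact le_add_of_nonneg_left (mul_nonneg (DR2_log hz.1) (den_nonneg hη hn _ _))
  refine ⟨ha, hb, ?_⟩
  rw [T, T, ← mul_add, ← integral_add ha hb, ← integral_congr_ae (hae.mono fun z hz => hz.2),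
    ← c2]
  refine mul_le_mul_of_nonneg_left (setIntegral_mono_set hG ?_ hmap.image_subset.eventuallyLE)
    (by positivity)
  filter_upwards [ae_restrict_mem measurableSet_ball] with z hz
  exact mul_nonneg (DR2_log hz) (den_nonneg hη hn _ _)

theorem T_comp_le (hw : Kae A w) (hf : Adm A w x f) {m : ℂ → ℂ} {κ : ℂ → ℝ}
    (hm : DifferentiableOn ℂ m (ball 0 1)) (hi : InjOn m (ball 0 1))
    (hκ : ContinuousOn κ (ball 0 1)) (h0 : ∀ z ∈ ball (0 : ℂ) 1, 0 ≤ κ z)
    (he : ∀ z ∈ ball (0 : ℂ) 1, ‖m z‖ = ‖z‖ * Real.exp (-κ z)) :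
    Adm A w x (fun z => f (m z)) ∧ ∀ η, IsF A η → NnF A η →
      IntegrableOn (fun z => κ z * den A η (fun z => f (m z)) z) (ball 0 1) ∧
      T A η (fun z => f (m z)) 1 +
        2 / Real.pi * ∫ z in ball (0 : ℂ) 1, κ z * den A η (fun z => f (m z)) z ≤ T A η f 1 := by
  have hz : m 0 = 0 := norm_eq_zero.1 (by rw [he 0 (mem_ball_self one_pos), norm_zero, zero_mul])
  exact ⟨⟨hf.1.comp hm (DR2_map h0 he), (congrArg f hz).trans hf.2.1,
    (DR2_key hw hf hm hi hκ h0 he hw.1 fun a z hz => (hw.2 a z hz).posSemidef).1⟩,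
    fun η hη hn => (DR2_key hw hf hm hi hκ h0 he hη hn).2⟩

theorem T_comp_close (hφ : IsF A φ) (hf : IsD A f (ball 0 1)) (h0 : 0 < r) (h1 : r < 1) :
    ∃ C : ℝ, 0 < C ∧ ∀ (m : ℂ → ℂ) (ε : ℝ), DifferentiableOn ℂ m (ball 0 1) →
      MapsTo m (ball 0 1) (ball 0 1) → ε ≤ 1 →
      (∀ z ∈ ball (0 : ℂ) r, ‖m z‖ ≤ r ∧ ‖m z - z‖ ≤ ε ∧ ‖deriv m z - 1‖ ≤ ε) →
      |T A φ (fun z => f (m z)) r - T A φ f r| ≤ C * ε := by
  have hc : ContDiffOn ℝ 1 (den A φ f) (closedBall 0 r) := fun z hz =>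
    ((contDiffAt_den hφ hf (isOpen_ball.mem_nhds (closedBall_subset_ball h1 hz))).of_le
      (by exact_mod_cast le_top)).contDiffWithinAt
  obtain ⟨L, hL⟩ := hc.exists_lipschitzOnWith one_ne_zero (convex_closedBall _ _)
    (isCompact_closedBall _ _)
  obtain ⟨B, hB⟩ := (isCompact_closedBall (0 : ℂ) r).exists_bound_of_continuousOn hc.continuousOn
  have hB0 : 0 ≤ B := (norm_nonneg _).trans (hB 0 (mem_closedBall_self h0.le))
  refine ⟨L + 3 * B + 1, by positivity, fun m ε hm hmap hε h => ?_⟩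
  have hε0 : 0 ≤ ε := (norm_nonneg _).trans (h 0 (mem_ball_self h0)).2.1
  refine (T_close hφ (hf.comp hm hmap) hf h0 h1 (ε := (L + 3 * B + 1) * ε) fun z hz => ?_).trans
    (mul_le_of_le_one_right (by positivity) (pow_le_one₀ h0.le h1.le))
  obtain ⟨h2, h3, h4⟩ := h z hz
  have hz1 := ball_subset_ball h1.le hz
  have h5 := hL.dist_le_mul _ (mem_closedBall_zero_iff.2 h2) z (ball_subset_closedBall hz)
  have h6 := hB _ (mem_closedBall_zero_iff.2 h2)
  have h7 := abs_le.1 ((abs_norm_sub_norm_le (deriv m z) 1).trans h4)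
  rw [norm_one] at h7
  have h8 : |‖deriv m z‖ ^ 2 - 1| ≤ 3 * ε :=
    abs_le.2 ⟨by nlinarith [norm_nonneg (deriv m z)], by nlinarith [norm_nonneg (deriv m z)]⟩
  rw [Real.dist_eq, dist_eq_norm] at h5
  rw [den_comp hφ hf (isOpen_ball.mem_nhds (hmap hz1))
    (hm.differentiableAt (isOpen_ball.mem_nhds hz1)),
    show den A φ f (m z) * ‖deriv m z‖ ^ 2 - den A φ f z = den A φ f (m z) - den A φ f z +
      den A φ f (m z) * (‖deriv m z‖ ^ 2 - 1) by ring]
  refine (abs_add_le _ _).trans ?_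
  rw [abs_mul]
  have h9 := mul_le_mul h6 h8 (abs_nonneg _) hB0
  rw [Real.norm_eq_abs] at h9
  linarith [mul_le_mul_of_nonneg_left h3 L.coe_nonneg]

end Vale.Agent.P272
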