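import Vale.Agent.P272.DL
import Vale.Agent.P272.DR1
import Vale.Agent.P272.DR2

/-! P272, part D: the density of a minimiser near the circle. -/

open MeasureTheory Set Filter Topology Metric Matrix
open scoped ContDiff ComplexConjugate ComplexOrder

noncomputable section

namespace Vale.Agent.P272

open Vale.Agent.P271

variable {n : ℕ} {X : Type} [TopologicalSpace X] [T2Space X] [CompactSpace X] {A : Atl n X}
  {w η η₀ η₁ η₂ φ ψ : Frm A} {K r : ℝ} {x : X} {f g : ℂ → X} {U : Set ℂ} {ζ : ℂ}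

theorem dr3_le {ρ : ℝ} {ξ : ℂ} (hρ : 0 < ρ) (hξ : ‖ξ‖ = 1) (hζ : ζ ∈ ball (0 : ℂ) 1) :
    ‖bump ρ ξ ζ‖ ≤ ‖ζ‖ := by
  rw [norm_bump]
  exact mul_le_of_le_one_right (norm_nonneg _)
    (Real.exp_le_one_iff.2 (neg_nonpos.2 (kap_re_nonneg hρ hξ hζ)))

theorem dr3_maps {ρ : ℝ} {ξ : ℂ} (hρ : 0 < ρ) (hξ : ‖ξ‖ = 1) :
    MapsTo (bump ρ ξ) (ball 0 1) (ball 0 1) := fun _ hz =>
  mem_ball_zero_iff.2 ((dr3_le hρ hξ hz).trans_lt (mem_ball_zero_iff.1 hz))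

theorem dr3_close (hφ : IsF A φ) (hf : IsD A f (ball 0 1)) (h0 : 0 < r) (h1 : r < 1) :
    ∃ B E : ℝ, 0 < B ∧ 0 < E ∧ ∀ (ρ : ℝ) (ξ : ℂ), 0 < ρ → ρ ≤ 1 → B * ρ ≤ 1 → ‖ξ‖ = 1 →
      |T A φ (fun z => f (bump ρ ξ z)) r - T A φ f r| ≤ E * ρ ^ 2 := by
  obtain ⟨C, hC, H⟩ := T_comp_close hφ hf h0 h1
  obtain ⟨B, hB, H'⟩ := bump_close h1
  refine ⟨B, C * B, hB, mul_pos hC hB, fun ρ ξ a1 a2 a3 a4 => ?_⟩
  rw [mul_assoc]
  refine H _ _ (differentiableOn_bump a1 a4) (dr3_maps a1 a4) (by nlinarith) fun z hz => ?_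
  have hz' := (mem_ball_zero_iff.1 hz).le
  exact ⟨(dr3_le a1 a4 (ball_subset_ball h1.le hz)).trans hz', H' ρ ξ z a1 a2 a4 hz'⟩

/-- Minimality bounds the weighted area. -/
theorem dr3_int (hw : Kae A w) (h₀ : Kae A η₀) (h₁ : IsF A η₁) (h₂ : IsF A η₂) (h0 : 0 < r)
    (h1 : r < 1) (hm : IsMin A w η₀ η₁ η₂ r x f) :
    ∃ ρ₀ E : ℝ, 0 < ρ₀ ∧ ρ₀ ≤ 1 / 2 ∧ ∀ (ρ : ℝ) (ξ : ℂ), 0 < ρ → ρ ≤ ρ₀ → ‖ξ‖ = 1 →
      IntegrableOn (fun z => (kap ρ ξ z).re * den A η₀ (fun z => f (bump ρ ξ z)) z) (ball 0 1) ∧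
      ∫ z in ball (0 : ℂ) 1, (kap ρ ξ z).re * den A η₀ (fun z => f (bump ρ ξ z)) z ≤ E * ρ ^ 2 := by
  obtain ⟨B₁, E₁, b1, e1, H₁⟩ := dr3_close h₁ hm.1.1 h0 h1
  obtain ⟨B₂, E₂, b2, e2, H₂⟩ := dr3_close (r := 1 / 2) h₂ hm.1.1 (by norm_num) (by norm_num)
  have hs : 0 < 2 + B₁ + B₂ := by positivity
  refine ⟨1 / (2 + B₁ + B₂), Real.pi / 2 * (E₁ + E₂), by positivity,
    one_div_le_one_div_of_le two_pos (by linarith), fun ρ ξ a1 a2 a4 => ?_⟩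
  rw [le_div_iff₀ hs] at a2
  have c1 := mul_pos a1 b1
  have c2 := mul_pos a1 b2
  have a3 : ρ ≤ 1 := by linarith
  obtain ⟨g1, g2⟩ := T_comp_le hw hm.1 (differentiableOn_bump a1 a4) (injOn_bump a1 a3 a4)
    (κ := fun z => (kap ρ ξ z).re)
    (Complex.continuous_re.comp_continuousOn (continuousOn_kap a1 a4))
    (fun z hz => kap_re_nonneg a1 a4 hz) fun z _ => norm_bump ρ ξ z
  obtain ⟨g3, g4⟩ := g2 η₀ h₀.1 h₀.2.nn
  have g5 := hm.2 _ g1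
  have g6 := abs_le.1 (H₁ ρ ξ a1 a3 (by linarith) a4)
  have g7 := abs_le.1 (H₂ ρ ξ a1 a3 (by linarith) a4)
  refine ⟨g3, ?_⟩
  unfold Phi at g5
  have hp := Real.pi_pos
  refine le_of_mul_le_mul_left (a := 2 / Real.pi) ?_ (by positivity)
  rw [show 2 / Real.pi * (Real.pi / 2 * (E₁ + E₂) * ρ ^ 2) = E₁ * ρ ^ 2 + E₂ * ρ ^ 2 by
    field_simp]
  linarith [g6.1, g7.1]

theorem IsMin.den_bd (hw : Kae A w) (hK : Brody A w K) (h₀ : Kae A η₀) (h₁ : IsF A η₁)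
    (h₂ : IsF A η₂) (h0 : 0 < r) (h1 : r < 1) (hm : IsMin A w η₀ η₁ η₂ r x f) :
    ∃ C : ℝ, ∀ z ∈ ball (0 : ℂ) 1, den A w f z * (1 - ‖z‖) ≤ C := by
  have hf := hm.1.1
  obtain ⟨ρ₀, E, r0, r1, H⟩ := dr3_int hw h₀ h₁ h₂ h0 h1 hm
  obtain ⟨D, hD, HD⟩ := den_le h₀ hw.1
  obtain ⟨C, θ, hC, t0, t1, HS⟩ := submean hw hK
  obtain ⟨s, hs, Hs⟩ := bump_surj r0 r1
  obtain ⟨M, hM⟩ := (isCompact_closedBall (0 : ℂ) s).exists_bound_of_continuousOn
    ((continuousOn_den hw.1 hf isOpen_ball).mono (closedBall_subset_ball hs))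
  have nn := den_nonneg hw.1 hw.2.nn
  refine ⟨max M (8 * (4 * (C * (D * 50 * E)))), fun z hz => ?_⟩
  rcases le_total ‖z‖ s with h | h
  · refine le_max_of_le_left ((mul_le_of_le_one_right (nn f z) ?_).trans
      ((le_abs_self _).trans (hM z (mem_closedBall_zero_iff.2 h))))
    linarith [norm_nonneg z]
  refine le_max_of_le_right ?_
  obtain ⟨ρ, ξ, a1, a2, a3, a4, a5⟩ := Hs z h (mem_ball_zero_iff.1 hz)
  obtain ⟨i1, i2⟩ := H ρ ξ a1 a2 a3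
  set c : ℂ := ((1 - ρ : ℝ) : ℂ) * ξ with hc
  have a6 : ρ ≤ 1 := by linarith
  have hn : ‖c‖ = 1 - ρ := by
    rw [hc, norm_mul, a3, mul_one, Complex.norm_real, Real.norm_of_nonneg (by linarith)]
  have hsub : ball c (ρ / 2) ⊆ ball 0 1 := ball_subset_ball' (by
    rw [dist_zero_right, hn]
    linarith)
  have hsub' : ball c (θ * (ρ / 2)) ⊆ ball c (ρ / 2) :=
    ball_subset_ball (mul_le_of_le_one_left (by positivity) t1.le)
  have hc1 : c ∈ ball (0 : ℂ) 1 := hsub (mem_ball_self (by positivity))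
  have hg := hf.comp (differentiableOn_bump a1 a3) (dr3_maps a1 a3)
  have s1 := HS _ c (ρ / 2) (by positivity) (hg.mono hsub)
  have s2 := den_comp hw.1 hf (m := bump ρ ξ) (ζ := c)
    (isOpen_ball.mem_nhds (dr3_maps a1 a3 hc1))
    ((differentiableOn_bump a1 a3).differentiableAt (isOpen_ball.mem_nhds hc1))
  set g : ℂ → X := fun z => f (bump ρ ξ z)
  have n0 := den_nonneg h₀.1 h₀.2.nn g
  have s3 : ∫ y in ball c (θ * (ρ / 2)), den A w g y ≤ D * 50 / ρ * (E * ρ ^ 2) := by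
    refine le_trans ?_ (mul_le_mul_of_nonneg_left (le_trans (setIntegral_mono_set i1 ?_
      (hsub'.trans hsub).eventuallyLE) i2) (by positivity))
    · rw [← integral_const_mul]
      refine integral_mono_of_nonneg (.of_forall (nn g)) ((i1.mono_set (hsub'.trans hsub)).const_mul _)
        ((ae_restrict_iff' measurableSet_ball).2 (.of_forall fun y hy => ?_))
      refine ((le_abs_self _).trans (HD g y)).trans ?_
      calc D * den A η₀ g y = D * 50 / ρ * (ρ / 50 * den A η₀ g y) := by field_simp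
        _ ≤ _ := mul_le_mul_of_nonneg_left
          (mul_le_mul_of_nonneg_right (kap_re_ge a1 a3 (hsub' hy)) (n0 y)) (by positivity)
    · exact (ae_restrict_iff' measurableSet_ball).2
        (.of_forall fun y hy => mul_nonneg (kap_re_nonneg a1 a3 hy) (n0 y))
  have s4 : 1 / 2 ≤ ‖deriv (bump ρ ξ) c‖ := by
    have := norm_sub_norm_le 1 (deriv (bump ρ ξ) c)
    rw [norm_sub_rev, norm_one] at this
    linarith [deriv_bump a1 a6 a3 hc1]
  have s5 : den A w g c * ρ ≤ 4 * (C * (D * 50 * E)) := by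
    refine le_of_mul_le_mul_right (a := ρ / 4) ?_ (by positivity)
    refine le_trans (le_of_eq (by ring)) (s1.trans ((mul_le_mul_of_nonneg_left s3 hC.le).trans_eq ?_))
    field_simp
  rw [a4] at s2
  have s6 : den A w f z * (1 / 2) ^ 2 ≤ den A w g c := by
    rw [s2]
    exact mul_le_mul_of_nonneg_left (pow_le_pow_left₀ (by norm_num) s4 2) (nn f z)
  nlinarith [mul_le_mul_of_nonneg_left a5 (nn f z), mul_le_mul_of_nonneg_right s6 a1.le]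

end Vale.Agent.P272
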