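import Vale.Agent.P272.DM
import Vale.Agent.P272.DR3

/-! P272, part D: minimisers extend to the closed disc. -/

open MeasureTheory Set Filter Topology Metric Matrix
open scoped ContDiff ComplexConjugate ComplexOrder

noncomputable section

namespace Vale.Agent.P272

open Vale.Agent.P271

variable {n : ℕ} {X : Type} [TopologicalSpace X] [T2Space X] [CompactSpace X] {A : Atl n X}
  {w η η₀ η₁ η₂ φ ψ : Frm A} {K r : ℝ} {x : X} {f g : ℂ → X} {U : Set ℂ} {ζ : ℂ}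

theorem dr4_seg {R c C δ L : ℝ} {S : A.ι → Set (Cn n)} (hM : Marg A w R c S) (hw : Kae A w)
    (hf : IsD A f (ball 0 1)) (h : ∀ z ∈ ball (0 : ℂ) 1, den A w f z * (1 - ‖z‖) ≤ C) {ξ : ℂ}
    (hξ : ‖ξ‖ = 1) (d0 : 0 < δ) (d1 : δ ≤ 1) (hL : 0 < L) (hδ : 4 * δ * C ≤ c * L ^ 2) {a : A.ι}
    (ha : f (((1 - δ : ℝ) : ℂ) * ξ) ∈ (A.e a).source)
    (hS : closedBall (A.e a (f (((1 - δ : ℝ) : ℂ) * ξ))) (2 * L) ⊆ S a) {z : ℂ}
    (hz : z ∈ ball (0 : ℂ) 1) (hd : ‖z - ξ‖ ≤ δ) :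
    f z ∈ (A.e a).source ∧ ‖A.e a (f z) - A.e a (f (((1 - δ : ℝ) : ℂ) * ξ))‖ ≤ 2 * L := by
  set z₀ : ℂ := ((1 - δ : ℝ) : ℂ) * ξ with hz₀
  have hn : ‖z₀‖ = 1 - δ := by
    rw [hz₀, norm_mul, hξ, mul_one, Complex.norm_real, Real.norm_of_nonneg (by linarith)]
  have h0 : z₀ ∈ ball (0 : ℂ) 1 := mem_ball_zero_iff.2 (by linarith)
  have hz' := mem_ball_zero_iff.1 hz
  have hd' : ‖z - z₀‖ ≤ 2 * δ := by
    have e : z - z₀ = z - ξ + (δ : ℂ) * ξ := by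
      rw [hz₀]
      push_cast
      ring
    rw [e]
    refine (norm_add_le _ _).trans ?_
    rw [norm_mul, hξ, mul_one, Complex.norm_real, Real.norm_of_nonneg d0.le]
    linarith
  refine hM.seg hw.1 hf isOpen_ball ((convex_ball _ _).segment_subset h0 hz) ha hL hS fun t ht => ?_
  have e : z₀ + t • (z - z₀) = (1 - t) • z₀ + t • z := by
    rw [smul_sub, sub_smul, one_smul]
    ring
  have t1 : 0 < 1 - t := sub_pos.2 ht.2
  have h1 : ‖z₀ + t • (z - z₀)‖ ≤ (1 - t) * (1 - δ) + t := by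
    rw [e]
    refine (norm_add_le _ _).trans ?_
    rw [norm_smul, norm_smul, hn, Real.norm_of_nonneg t1.le, Real.norm_of_nonneg ht.1]
    nlinarith [ht.1]
  have h2 := h (z₀ + t • (z - z₀)) (mem_ball_zero_iff.2 (h1.trans_lt (by nlinarith)))
  have h3 := den_nonneg hw.1 hw.2.nn f (z₀ + t • (z - z₀))
  calc _ ≤ den A w f (z₀ + t • (z - z₀)) * (2 * δ) ^ 2 * (1 - t) := by gcongr
    _ = 4 * δ * (den A w f (z₀ + t • (z - z₀)) * ((1 - t) * δ)) := by ring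
    _ ≤ 4 * δ * C := by
      refine mul_le_mul_of_nonneg_left (le_trans (mul_le_mul_of_nonneg_left ?_ h3) h2) (by positivity)
      linarith
    _ ≤ _ := hδ

theorem dr4_delta {c C L δ₁ : ℝ} (hc : 0 < c) (hL : 0 < L) (h1 : 0 < δ₁) :
    ∃ δ, 0 < δ ∧ δ ≤ δ₁ ∧ 4 * δ * C ≤ c * L ^ 2 := by
  have hC : 0 < 4 * (|C| + 1) := by positivity
  refine ⟨min δ₁ (c * L ^ 2 / (4 * (|C| + 1))), by positivity, min_le_left _ _, ?_⟩
  have h2 := (le_div_iff₀ hC).1 (min_le_right δ₁ (c * L ^ 2 / (4 * (|C| + 1))))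
  have h3 : 0 < min δ₁ (c * L ^ 2 / (4 * (|C| + 1))) := by positivity
  nlinarith [le_abs_self C]

theorem dr4_lim (hw : Kae A w) (hf : IsD A f (ball 0 1)) {C : ℝ}
    (h : ∀ z ∈ ball (0 : ℂ) 1, den A w f z * (1 - ‖z‖) ≤ C) {ξ : ℂ} (hξ : ‖ξ‖ = 1) :
    ∃ y, Tendsto f (𝓝[ball 0 1] ξ) (𝓝 y) := by
  obtain ⟨R, c, S, hM⟩ := exists_marg hw
  have hR := hM.R_pos
  have : (𝓝[ball 0 1] ξ).NeBot := mem_closure_iff_nhdsWithin_neBot.1 (by
    rw [closure_ball _ one_ne_zero, mem_closedBall_zero_iff, hξ])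
  have ev : ∀ δ : ℝ, 0 < δ → ∀ᶠ z in 𝓝[ball 0 1] ξ, z ∈ ball (0 : ℂ) 1 ∧ ‖z - ξ‖ ≤ δ :=
    fun δ hδ => by
      filter_upwards [self_mem_nhdsWithin, nhdsWithin_le_nhds (closedBall_mem_nhds ξ hδ)]
        with z h1 h2 using ⟨h1, mem_closedBall_iff_norm.1 h2⟩
  obtain ⟨δ₁, d0, d1, d2⟩ := dr4_delta (C := C) (L := R / 4) hM.c_pos (by positivity) one_pos
  obtain ⟨a, ha, hS⟩ := hM.cov (f (((1 - δ₁ : ℝ) : ℂ) * ξ))
  have k1 := @dr4_seg n X _ _ _ A w f R c C δ₁ (R / 4) S hM hw hf h ξ hξ d0 d1 (by positivity) d2 a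
    ha ((closedBall_subset_closedBall (by linarith)).trans hS)
  have hc : Cauchy (map (fun z => A.e a (f z)) (𝓝[ball 0 1] ξ)) := by
    refine Metric.cauchy_iff.2 ⟨inferInstance, fun ε hε => ?_⟩
    have hL : 0 < min (R / 4) (ε / 5) := by positivity
    obtain ⟨δ, e0, e1, e2⟩ := dr4_delta (C := C) hM.c_pos hL d0
    have hn : ‖((1 - δ : ℝ) : ℂ) * ξ‖ = 1 - δ := by
      rw [norm_mul, hξ, mul_one, Complex.norm_real, Real.norm_of_nonneg (by linarith)]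
    have hn' : ‖((1 - δ : ℝ) : ℂ) * ξ - ξ‖ ≤ δ₁ := by
      rw [show ((1 - δ : ℝ) : ℂ) * ξ - ξ = -((δ : ℂ) * ξ) by push_cast; ring, norm_neg, norm_mul, hξ,
        mul_one, Complex.norm_real, Real.norm_of_nonneg e0.le]
      exact e1
    obtain ⟨k2, k3⟩ := k1 (mem_ball_zero_iff.2 (by linarith)) hn'
    have k4 := @dr4_seg n X _ _ _ A w f R c C δ _ S hM hw hf h ξ hξ e0 (e1.trans d1) hL e2 a k2
      ((closedBall_subset_closedBall' (by
        rw [dist_eq_norm]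
        linarith [min_le_left (R / 4) (ε / 5)])).trans hS)
    refine ⟨closedBall (A.e a (f (((1 - δ : ℝ) : ℂ) * ξ))) (2 * min (R / 4) (ε / 5)),
      (ev δ e0).mono fun z hz => mem_closedBall_iff_norm.2 (k4 hz.1 hz.2).2, fun p hp q hq => ?_⟩
    refine (dist_triangle_right p q _).trans_lt ((add_le_add hp hq).trans_lt ?_)
    linarith [min_le_right (R / 4) (ε / 5)]
  obtain ⟨y, hy⟩ := CompleteSpace.complete hc
  have hy' : y ∈ (A.e a).target := hM.sub a (hS (isClosed_closedBall.mem_of_tendsto hy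
    ((ev δ₁ d0).mono fun z hz => mem_closedBall_iff_norm.2 ((k1 hz.1 hz.2).2.trans (by linarith)))))
  refine ⟨(A.e a).symm y, (((A.e a).continuousAt_symm hy').tendsto.comp hy).congr' ?_⟩
  filter_upwards [ev δ₁ d0] with z hz using (A.e a).left_inv (k1 hz.1 hz.2).1

theorem exists_ext (hw : Kae A w) (hf : IsD A f (ball 0 1)) {C : ℝ}
    (h : ∀ z ∈ ball (0 : ℂ) 1, den A w f z * (1 - ‖z‖) ≤ C) :
    ∃ g, EqOn g f (ball 0 1) ∧ ContinuousOn g (closedBall 0 1) := by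
  refine ⟨extendFrom (ball 0 1) f, extendFrom_extends hf.1, continuousOn_extendFrom
    (closure_ball (0 : ℂ) one_ne_zero).ge fun z hz => ?_⟩
  rcases (mem_closedBall_zero_iff.1 hz).eq_or_lt with e | e
  · exact dr4_lim hw hf h e
  · exact ⟨f z, hf.1 z (mem_ball_zero_iff.2 e)⟩

/-- Minimisers exist and are continuous up to the boundary. -/
theorem exists_min (hw : Kae A w) (hK : Brody A w K) (h₀ : Kae A η₀) (h₁ : IsF A η₁)
    (h₂ : IsF A η₂) (h0 : 0 < r) (h1 : r < 1) (x : X) :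
    ∃ f, AdmC A w x f ∧ IsMin A w η₀ η₁ η₂ r x f := by
  obtain ⟨f, hm⟩ := exists_isMin hw hK h₀ h₁ h₂ h0 h1 x
  obtain ⟨C, hC⟩ := hm.den_bd hw hK h₀ h₁ h₂ h0 h1
  obtain ⟨g, e, hg⟩ := exists_ext hw hm.1.1 hC
  refine ⟨g, ⟨hm.1.congr e, hg⟩, hm.1.congr e, fun k hk => le_trans (le_of_eq ?_) (hm.2 k hk)⟩
  unfold Phi
  rw [T_congr e le_rfl, T_congr e h1.le, T_congr e (by norm_num)]

end Vale.Agent.P272
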