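import Vale.Agent.P272.DDefs

/-! P272, part D: lemmas with parameters. -/

open MeasureTheory Set Filter Topology Metric Matrix
open scoped ContDiff ComplexConjugate ComplexOrder

noncomputable section

namespace Vale.Agent.P272

open Vale.Agent.P271

variable {n : ℕ}

/-- The inverse function theorem with a continuous parameter. -/
theorem param_inv {Y : Type} [TopologicalSpace Y] {C : Y → Cn n → Cn n} {D : Y → Cn n → En n}
    {y₀ : Y} {z₀ : Cn n} (hd : ∀ᶠ q : Y × Cn n in 𝓝 (y₀, z₀), HasFDerivAt (C q.1) (D q.1 q.2) q.2)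
    (hD : ContinuousAt (fun q : Y × Cn n => D q.1 q.2) (y₀, z₀))
    (hC : ContinuousAt (fun y => C y z₀) y₀) (hu : IsUnit (D y₀ z₀)) :
    (∃ S ∈ 𝓝 (y₀, z₀), InjOn (fun q : Y × Cn n => (q.1, C q.1 q.2)) S) ∧
      𝓝 (y₀, C y₀ z₀) ≤ map (fun q : Y × Cn n => (q.1, C q.1 q.2)) (𝓝 (y₀, z₀)) := by
  obtain ⟨L, hL⟩ := hu
  obtain ⟨N, hN, hN0⟩ : ∃ N : NNReal, ‖((L⁻¹ : (En n)ˣ) : En n)‖ ≤ N ∧ 0 < N :=
    ⟨‖((L⁻¹ : (En n)ˣ) : En n)‖₊ + 1, le_add_of_nonneg_right zero_le_one, by positivity⟩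
  have hN1 : (0 : ℝ) < N := hN0
  have h1 : ∀ᶠ q : Y × Cn n in 𝓝 (y₀, z₀), ‖D q.1 q.2 - D y₀ z₀‖ ≤ (N⁻¹ / 2 : NNReal) := by
    simpa only [dist_eq_norm] using (Metric.tendsto_nhds.1 hD _
      (show (0 : ℝ) < (N⁻¹ / 2 : NNReal) by positivity)).mono fun q hq => hq.le
  have h2 := hd.and h1
  rw [nhds_prod_eq] at h2
  obtain ⟨V, hV, B, hB, hVB⟩ := eventually_prod_iff.1 h2
  obtain ⟨ε₀, hε₀, hB'⟩ := nhds_basis_closedBall.eventually_iff.1 hB
  have hA : ∀ y, V y → ApproximatesLinearOn (C y) (D y₀ z₀) (closedBall z₀ ε₀) (N⁻¹ / 2) :=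
    fun y hy a ha b hb => (convex_closedBall z₀ ε₀).norm_image_sub_le_of_norm_hasFDerivWithin_le'
      (fun z hz => (hVB hy (hB' hz)).1.hasFDerivWithinAt) (fun z hz => (hVB hy (hB' hz)).2) hb ha
  have hb : ∀ w, ‖((L⁻¹ : (En n)ˣ) : En n) w‖ ≤ N * ‖w‖ := fun w =>
    ContinuousLinearMap.le_of_opNorm_le _ hN w
  constructor
  · refine ⟨{y | V y} ×ˢ closedBall z₀ ε₀, prod_mem_nhds hV (closedBall_mem_nhds _ hε₀), ?_⟩
    rintro ⟨y, a⟩ ⟨hy, ha⟩ ⟨y', b⟩ ⟨-, hb'⟩ hab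
    obtain ⟨rfl, h3⟩ := Prod.mk.inj hab
    have h4 := hA y hy a ha b hb'
    have h5 := hb (D y₀ z₀ (a - b))
    rw [show C y a = C y b from h3, sub_self, zero_sub, norm_neg] at h4
    rw [← hL, ← ContinuousLinearMap.mul_apply, L.inv_mul, ContinuousLinearMap.one_apply, hL] at h5
    have h6 := mul_le_mul_of_nonneg_left h4 hN1.le
    push_cast at h6
    rw [← mul_assoc, mul_div_assoc', mul_inv_cancel₀ hN1.ne'] at h6
    rw [sub_eq_zero.1 (norm_le_zero_iff.1 (show ‖a - b‖ ≤ 0 by linarith))]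
  · refine le_map fun S hS => ?_
    rw [nhds_prod_eq] at hS
    obtain ⟨V', hV', B', hB1, hS'⟩ := mem_prod_iff.1 hS
    obtain ⟨ε, hε, hε'⟩ := nhds_basis_closedBall.mem_iff.1
      (inter_mem hB1 (closedBall_mem_nhds _ hε₀))
    have h7 : Tendsto (fun q : Y × Cn n => dist q.2 (C q.1 z₀)) (𝓝 (y₀, C y₀ z₀)) (𝓝 0) := by
      rw [← dist_self (C y₀ z₀)]
      exact continuousAt_snd.dist (hC.tendsto.comp continuousAt_fst)
    have h8 : 0 < ((N : ℝ)⁻¹ - (N⁻¹ / 2 : NNReal)) * ε := by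
      push_cast
      exact mul_pos (by linarith [inv_pos.2 hN1]) hε
    filter_upwards [h7.eventually (ge_mem_nhds h8),
      continuousAt_fst.eventually (hV.and hV')] with q h9 h10
    obtain ⟨z, hz, hz'⟩ := (hA q.1 h10.1).surjOn_closedBall_of_nonlinearRightInverse
      ⟨fun w => ((L⁻¹ : (En n)ˣ) : En n) w, N, hb, fun w => by
        rw [← hL, ← ContinuousLinearMap.mul_apply, L.mul_inv, ContinuousLinearMap.one_apply]⟩
      hε.le (fun z hz => (hε' hz).2) h9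
    exact ⟨(q.1, z), hS' ⟨h10.2, (hε' hz).1⟩, Prod.ext rfl hz'⟩

theorem QS.bounds {Q : ℂ → Cn n → Cn n} {ρ : ℝ} (h : QS Q ρ) : ∃ ρ' C L : ℝ, 0 < ρ' ∧ ρ' < ρ ∧
    0 ≤ C ∧ 0 ≤ L ∧ ∀ ζ ∈ closedBall (0 : ℂ) 1, ∀ u ∈ closedBall (0 : Cn n) ρ',
      ‖Q ζ u‖ ≤ C * ‖u‖ ^ 2 ∧
        ∀ v ∈ closedBall (0 : Cn n) ρ', ‖Q ζ u - Q ζ v‖ ≤ L * ‖u - v‖ := by
  have hρ := h.pos
  have hs : closedBall (0 : Cn n) (ρ / 2) ⊆ ball 0 ρ := closedBall_subset_ball (by linarith)
  obtain ⟨M, hM⟩ := ((isCompact_closedBall (0 : ℂ) 1).prod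
    (isCompact_closedBall (0 : Cn n) (ρ / 2))).exists_bound_of_continuousOn
      (h.cont.mono (prod_mono Subset.rfl hs))
  have hM0 : 0 ≤ M := (norm_nonneg _).trans
    (hM (0, 0) ⟨mem_closedBall_self zero_le_one, mem_closedBall_self (by linarith)⟩)
  refine ⟨ρ / 4, 4 * M / (ρ / 2) ^ 2, 2 * M / (ρ / 4), by positivity, by linarith, by positivity,
    by positivity, fun ζ hζ u hu => ⟨?_, fun v hv => ?_⟩⟩
  · have h1 := P278F.second_order ((h.hol ζ hζ).mono (ball_subset_closedBall.trans hs))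
      (fun z hz => hM (ζ, z) ⟨hζ, ball_subset_closedBall hz⟩)
      (closedBall_subset_ball (by linarith) hu)
    rwa [h.zero ζ hζ, (h.der ζ hζ).fderiv, ContinuousLinearMap.zero_apply, sub_zero, sub_zero,
      sub_zero] at h1
  · refine (convex_closedBall (0 : Cn n) (ρ / 4)).norm_image_sub_le_of_norm_fderiv_le (𝕜 := ℂ)
      (fun z hz => (h.hol ζ hζ).differentiableAt
        (isOpen_ball.mem_nhds (closedBall_subset_ball (by linarith) hz))) (fun z hz => ?_) hv hu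
    have h2 : ball z (ρ / 4) ⊆ closedBall 0 (ρ / 2) := ball_subset_closedBall.trans
      (closedBall_subset_closedBall' (by linarith [mem_closedBall.1 hz]))
    exact P278F.norm_fderiv_le (by positivity) ((h.hol ζ hζ).mono (h2.trans hs))
      fun w hw => hM (ζ, w) ⟨hζ, h2 hw⟩

lemma DP0_tube {Y : Type} {l : Filter Y} {K : Set ℂ} (hK : IsCompact K) {p : Y → ℂ → Prop}
    (h : ∀ z ∈ K, ∀ᶠ q : Y × ℂ in l ×ˢ 𝓝 z, p q.1 q.2) : ∀ᶠ y in l, ∀ z ∈ K, p y z := by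
  refine hK.induction_on (p := fun S => ∀ᶠ y in l, ∀ z ∈ S, p y z)
    (Eventually.of_forall fun _ _ hz => hz.elim)
    (fun S S' hS hS' => hS'.mono fun i hi z hz => hi z (hS hz))
    (fun S S' hS hS' => (hS.and hS').mono fun i hi z hz => hz.elim (hi.1 z) (hi.2 z))
    fun z hz => ?_
  obtain ⟨a, ha, b, hb, hab⟩ := eventually_prod_iff.1 (h z hz)
  exact ⟨_, mem_nhdsWithin_of_mem_nhds hb, ha.mono fun y hy z hz => hab hy hz⟩

/-- Derivatives of holomorphic functions depend continuously on parameters. -/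
theorem continuousOn_deriv_param {Y : Type} [TopologicalSpace Y] {S : Set Y} {U : Set ℂ}
    (hU : IsOpen U) {g : Y → ℂ → Cn n} (hc : ContinuousOn (fun q : Y × ℂ => g q.1 q.2) (S ×ˢ U))
    (hd : ∀ y ∈ S, DifferentiableOn ℂ (g y) U) :
    ContinuousOn (fun q : Y × ℂ => deriv (g q.1) q.2) (S ×ˢ U) := by
  rintro ⟨y₀, z₀⟩ ⟨hy₀, hz₀⟩
  obtain ⟨R, hR, hRU⟩ := nhds_basis_closedBall.mem_iff.1 (hU.mem_nhds hz₀)
  have h1 : Tendsto (fun q : Y × ℂ => deriv (g y₀) q.2) (𝓝[S ×ˢ U] (y₀, z₀))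
      (𝓝 (deriv (g y₀) z₀)) :=
    (((hd y₀ hy₀).deriv hU).continuousOn.continuousAt (hU.mem_nhds hz₀)).tendsto.comp
      (continuousAt_snd.mono_left nhdsWithin_le_nhds)
  refine h1.congr_dist (Metric.tendsto_nhds.2 fun ε hε => ?_)
  have h2 : ∀ᶠ y in 𝓝[S] y₀, ∀ z ∈ closedBall z₀ R, ‖g y₀ z - g y z‖ ≤ ε * R / 8 := by
    refine DP0_tube (isCompact_closedBall _ _) fun z hz => ?_
    have h3 : Tendsto (fun q : Y × ℂ => g y₀ q.2 - g q.1 q.2) (𝓝[S] y₀ ×ˢ 𝓝 z) (𝓝 0) := by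
      rw [← sub_self (g y₀ z)]
      refine (((hd y₀ hy₀).continuousOn.continuousAt (hU.mem_nhds (hRU hz))).tendsto.comp
        tendsto_snd).sub ?_
      have h4 := (hc (y₀, z) ⟨hy₀, hRU hz⟩).tendsto
      rwa [nhdsWithin_prod_eq, hU.nhdsWithin_eq (hRU hz)] at h4
    exact h3.norm.eventually (ge_mem_nhds (by rw [norm_zero]; positivity))
  rw [nhdsWithin_prod_eq]
  filter_upwards [(h2.and self_mem_nhdsWithin).prod_mk
    (mem_nhdsWithin_of_mem_nhds (ball_mem_nhds z₀ (half_pos hR)))] with q hq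
  have h5 : ball q.2 (R / 2) ⊆ closedBall z₀ R := ball_subset_closedBall.trans
    (closedBall_subset_closedBall' (by linarith [mem_ball.1 hq.2]))
  have h6 := hU.mem_nhds (hRU (h5 (mem_ball_self (half_pos hR))))
  have h7 := P278F.norm_fderiv_le (f := fun z => g y₀ z - g q.1 z) (half_pos hR)
    (((hd y₀ hy₀).fun_sub (hd q.1 hq.1.2)).mono (h5.trans hRU)) fun z hz => hq.1.1 z (h5 hz)
  rw [← norm_deriv_eq_norm_fderiv, deriv_fun_sub ((hd y₀ hy₀).differentiableAt h6)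
    ((hd q.1 hq.1.2).differentiableAt h6)] at h7
  rw [dist_zero_right, Real.norm_of_nonneg dist_nonneg, dist_eq_norm]
  refine h7.trans_lt ?_
  rw [div_lt_iff₀ (half_pos hR)]
  nlinarith [mul_pos hε hR]

/-- The lemma of Osgood. -/
theorem analyticOnNhd_of_sep {U V : Set ℂ} (hU : IsOpen U) (hV : IsOpen V) {g : ℂ × ℂ → Cn n}
    (hc : ContinuousOn g (U ×ˢ V)) (h1 : ∀ s ∈ V, DifferentiableOn ℂ (fun z => g (z, s)) U)
    (h2 : ∀ z ∈ U, DifferentiableOn ℂ (fun s => g (z, s)) V) : AnalyticOnNhd ℂ g (U ×ˢ V) := by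
  refine P278F.analyticOnNhd_of_differentiableOn (hU.prod hV) fun u hu => ?_
  have hn := (hU.prod hV).mem_nhds hu
  have c1 := continuousOn_deriv_param (g := fun s z => g (z, s)) hU
    (hc.comp continuous_swap.continuousOn fun q hq => ⟨hq.2, hq.1⟩) h1
  have c2 := continuousOn_deriv_param (g := fun z s => g (z, s)) hV hc h2
  have h := hasStrictFDerivAt_uncurry_coprod (𝕜 := ℂ) (u := u) (f := fun z s => g (z, s))
    (f₁ := fun z s => ContinuousLinearMap.toSpanSingleton ℂ (deriv (fun z => g (z, s)) z))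
    (f₂ := fun z s => ContinuousLinearMap.toSpanSingleton ℂ (deriv (fun s => g (z, s)) s))
    (mem_of_superset hn fun v hv =>
      ((h1 v.2 hv.2).differentiableAt (hU.mem_nhds hv.1)).hasDerivAt.hasFDerivAt)
    (mem_of_superset hn fun v hv =>
      ((h2 v.1 hv.1).differentiableAt (hV.mem_nhds hv.2)).hasDerivAt.hasFDerivAt)
    ((ContinuousLinearMap.toSpanSingletonLIE ℂ (Cn n)).continuous.continuousAt.comp
      ((c1.comp continuous_swap.continuousOn fun q hq => ⟨hq.2, hq.1⟩).continuousAt hn))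
    ((ContinuousLinearMap.toSpanSingletonLIE ℂ (Cn n)).continuous.continuousAt.comp
      (c2.continuousAt hn))
  exact h.hasFDerivAt.differentiableAt.differentiableWithinAt

lemma DP0_null {v : Cn n → Cn n} {s : Set (Cn n)} (hv : LipschitzOnWith 2 v s)
    (hs : volume s = 0) : volume (v '' s) = 0 := by
  refine Measure.absolutelyContinuous_isAddHaarMeasure volume
    (Measure.hausdorffMeasure (Module.finrank ℝ (Cn n))) (le_antisymm ?_ zero_le)
  refine (hv.hausdorffMeasure_image_le (Nat.cast_nonneg _)).trans_eq ?_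
  rw [Measure.absolutelyContinuous_isAddHaarMeasure
    (Measure.hausdorffMeasure (Module.finrank ℝ (Cn n))) volume hs, mul_zero]

/-- Maps close to the identity pull null sets back to null sets. -/
theorem null_preimage {τ : ℝ} (C : ℝ) (hτ : 0 < τ) : ∃ σ : ℝ, 0 < σ ∧ σ ≤ τ ∧
    ∀ u : Cn n → Cn n, DifferentiableOn ℂ u (ball 0 τ) →
      (∀ t ∈ ball (0 : Cn n) τ, ‖u t - t‖ ≤ C * ‖t‖ ^ 2) →
      ∀ N, volume N = 0 → volume (ball 0 σ ∩ u ⁻¹' N) = 0 := by
  obtain ⟨σ, hσ, h1, h2⟩ : ∃ σ : ℝ, 0 < σ ∧ 2 * σ ≤ τ ∧ 16 * |C| * σ ≤ 1 := by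
    refine ⟨min (τ / 2) (1 / (16 * |C| + 1)), by positivity,
      by linarith [min_le_left (τ / 2) (1 / (16 * |C| + 1))], ?_⟩
    refine (mul_le_mul_of_nonneg_left (min_le_right _ _) (by positivity)).trans ?_
    rw [mul_one_div, div_le_one (by positivity)]
    linarith
  refine ⟨σ, hσ, by linarith, fun u hu hb N hN => ?_⟩
  have h3 : ∀ a ∈ ball (0 : Cn n) σ, ∀ b ∈ ball (0 : Cn n) σ, ‖a - b‖ ≤ 2 * ‖u a - u b‖ := by
    intro a ha b hb'
    have h4 := (convex_ball (0 : Cn n) σ).norm_image_sub_le_of_norm_fderiv_le (𝕜 := ℂ)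
      (f := fun t => u t - t) (C := 1 / 2) (fun z hz => (hu.differentiableAt
        (isOpen_ball.mem_nhds (ball_subset_ball (by linarith) hz))).fun_sub differentiableAt_fun_id)
      (fun z hz => by
        have h5 : ball z σ ⊆ ball 0 (2 * σ) := ball_subset_ball' (by linarith [mem_ball.1 hz])
        have h6 := h5.trans (ball_subset_ball h1)
        refine (P278F.norm_fderiv_le (M := |C| * (2 * σ) ^ 2) hσ
          ((hu.mono h6).fun_sub differentiableOn_id) fun w hw => (hb w (h6 hw)).trans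
            (mul_le_mul (le_abs_self C) (pow_le_pow_left₀ (norm_nonneg _)
              (mem_ball_zero_iff.1 (h5 hw)).le 2) (by positivity) (abs_nonneg _))).trans ?_
        rw [div_le_iff₀ hσ]
        nlinarith) hb' ha
    have h7 := norm_sub_le (u a - u b) (u a - a - (u b - b))
    rw [show u a - u b - (u a - a - (u b - b)) = a - b by abel] at h7
    linarith
  have hi : InjOn u (ball 0 σ) := fun a ha b hb' hab => by
    have h8 := h3 a ha b hb'
    rw [hab, sub_self, norm_zero, mul_zero] at h8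
    exact sub_eq_zero.1 (norm_le_zero_iff.1 h8)
  refine measure_mono_null (t := Function.invFunOn u (ball 0 σ) '' (N ∩ u '' ball 0 σ))
    (fun a ha => ⟨u a, ⟨ha.2, a, ha.1, rfl⟩, hi.leftInvOn_invFunOn ha.1⟩) (DP0_null
      (LipschitzOnWith.of_dist_le_mul ?_) (measure_mono_null inter_subset_left hN))
  rintro _ ⟨-, a, ha, rfl⟩ _ ⟨-, b, hb', rfl⟩
  rw [hi.leftInvOn_invFunOn ha, hi.leftInvOn_invFunOn hb', dist_eq_norm, dist_eq_norm]
  exact h3 a ha b hb'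

end Vale.Agent.P272
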