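import Vale.Agent.P272.DA3
import Vale.Agent.P272.DP0

/-! P272, part D: families of discs. -/

open MeasureTheory Set Filter Topology Metric Matrix
open scoped ContDiff ComplexConjugate ComplexOrder

set_option linter.unusedSectionVars false

noncomputable section

namespace Vale.Agent.P272

open Vale.Agent.P271

variable {n : ℕ} {X : Type} [TopologicalSpace X] [T2Space X] [CompactSpace X] {A : Atl n X}
  {w η η₀ η₁ η₂ φ ψ : Frm A} {K r : ℝ} {x : X} {f g : ℂ → X} {U : Set ℂ} {ζ : ℂ}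

theorem DV1_box {Y : Type} [TopologicalSpace Y] {S : Set Y} {Z : Y → ℂ → X}
    (hc : ContinuousOn (fun q : Y × ℂ => Z q.1 q.2) (S ×ˢ U)) {q₀ : Y × ℂ} (hq : q₀ ∈ S ×ˢ U) :
    ∃ (a : A.ι) (u : Set Y) (v : Set ℂ), IsOpen u ∧ IsOpen v ∧ q₀.1 ∈ u ∧ q₀.2 ∈ v ∧
      (∀ y ∈ S ∩ u, ∀ z ∈ U ∩ v, Z y z ∈ (A.e a).source) ∧
      ContinuousOn (fun q : Y × ℂ => A.e a (Z q.1 q.2)) ((S ∩ u) ×ˢ (U ∩ v)) := by
  obtain ⟨W, h1, h2, h3⟩ := mem_nhdsWithin.1 ((hc q₀ hq).preimage_mem_nhdsWithin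
    ((A.e _).open_source.mem_nhds (ch_mem A (Z q₀.1 q₀.2))))
  obtain ⟨u, v, h4, h5, h6, h7, h8⟩ := isOpen_prod_iff.1 h1 q₀.1 q₀.2 h2
  have h9 : ∀ y ∈ S ∩ u, ∀ z ∈ U ∩ v, Z y z ∈ (A.e (ch A (Z q₀.1 q₀.2))).source :=
    fun y hy z hz => h3 (a := (y, z)) ⟨h8 ⟨hy.2, hz.2⟩, hy.1, hz.1⟩
  exact ⟨_, u, v, h4, h5, h6, h7, h9, (A.e _).continuousOn.comp
    (hc.mono (prod_mono inter_subset_left inter_subset_left)) fun q hq => h9 _ hq.1 _ hq.2⟩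

theorem DV1_hq : Continuous fun p : Mx n × Cn n => hq p.1 p.2 := by
  unfold hq
  fun_prop

theorem den_cont_param {Y : Type} [TopologicalSpace Y] {S : Set Y} {Z : Y → ℂ → X} (hφ : IsF A φ)
    (hU : IsOpen U) (hc : ContinuousOn (fun q : Y × ℂ => Z q.1 q.2) (S ×ˢ U))
    (hd : ∀ y ∈ S, IsD A (Z y) U) :
    ContinuousOn (fun q : Y × ℂ => den A φ (Z q.1) q.2) (S ×ˢ U) := by
  intro q₀ hq₀
  obtain ⟨a, u, v, hu, hv, h1, h2, h3, h4⟩ := DV1_box (A := A) hc hq₀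
  have h5 := continuousOn_deriv_param (g := fun y z => A.e a (Z y z)) (hU.inter hv) h4
    fun y hy => ((hd y hy.1).2 a).mono fun z hz => ⟨hz.1, h3 y hy z hz⟩
  have h6 : ContinuousOn (fun q : Y × ℂ => LM (φ a) (A.e a (Z q.1 q.2))) ((S ∩ u) ×ˢ (U ∩ v)) :=
    continuousOn_pi.2 fun j => continuousOn_pi.2 fun k q hq =>
      (contDiffAt_LM (hφ.smAt ((A.e a).map_source (h3 _ hq.1 _ hq.2))) j k).continuousAt
        |>.comp_continuousWithinAt (f := fun q : Y × ℂ => A.e a (Z q.1 q.2)) (h4 q hq)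
  have h7 : ContinuousOn (fun q : Y × ℂ => den A φ (Z q.1) q.2) ((S ∩ u) ×ˢ (U ∩ v)) :=
    (DV1_hq.comp_continuousOn (h6.prodMk h5)).congr fun q hq =>
      den_eq hφ (hd _ hq.1.1) (hU.mem_nhds hq.2.1) (h3 _ hq.1 _ hq.2)
  refine (h7 q₀ ⟨⟨hq₀.1, h1⟩, hq₀.2, h2⟩).mono_of_mem_nhdsWithin ?_
  rw [← prod_inter_prod]
  exact inter_mem_nhdsWithin _ ((hu.prod hv).mem_nhds ⟨h1, h2⟩)

theorem T_cont_param {Y : Type} [TopologicalSpace Y] {S : Set Y} {Z : Y → ℂ → X} (hφ : IsF A φ)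
    (hc : ContinuousOn (fun q : Y × ℂ => Z q.1 q.2) (S ×ˢ ball 0 1))
    (hd : ∀ y ∈ S, IsD A (Z y) (ball 0 1)) (h0 : 0 < r) (h1 : r < 1) :
    ContinuousOn (fun y => T A φ (Z y) r) S := by
  intro y₀ hy₀
  have h2 := den_cont_param hφ isOpen_ball hc hd
  refine Metric.tendsto_nhds.2 fun ε hε => ?_
  have h3 := (isCompact_closedBall (0 : ℂ) r).eventually_forall_of_forall_eventually (x₀ := y₀)
    (P := fun y z => (y, z) ∈ S ×ˢ ball (0 : ℂ) 1 →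
      |den A φ (Z y) z - den A φ (Z y₀) z| < ε / 2) fun z hz => by
      have hz' := closedBall_subset_ball h1 hz
      have h5 : ContinuousWithinAt (fun q : Y × ℂ => den A φ (Z y₀) q.2) (S ×ˢ ball 0 1) (y₀, z) :=
        ContinuousAt.comp_continuousWithinAt (g := den A φ (Z y₀)) (f := fun q : Y × ℂ => q.2)
          ((continuousOn_den hφ (hd y₀ hy₀) isOpen_ball).continuousAt (isOpen_ball.mem_nhds hz'))
          continuousWithinAt_snd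
      have h4 : ContinuousWithinAt (fun q : Y × ℂ => |den A φ (Z q.1) q.2 - den A φ (Z y₀) q.2|)
          (S ×ˢ ball 0 1) (y₀, z) := ((h2 (y₀, z) ⟨hy₀, hz'⟩).sub h5).abs
      exact eventually_nhdsWithin_iff.1 (h4.eventually_lt_const (by simpa using hε))
  filter_upwards [nhdsWithin_le_nhds h3, self_mem_nhdsWithin] with y h4 hy
  have h5 := T_close hφ (hd y hy) (hd y₀ hy₀) h0 h1 fun z hz =>
    (h4 z (ball_subset_closedBall hz) ⟨hy, ball_subset_ball h1.le hz⟩).le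
  rw [Real.dist_eq]
  have h6 : r ^ 2 ≤ 1 := pow_le_one₀ h0.le h1.le
  nlinarith

/-- Near a point the two densities of a family are Laplacians of one smooth function. -/
theorem Fam2.pot {Z : ℂ → ℂ → X} {τ : ℝ} (hZ : Fam2 A Z τ) (hφ : IsF A φ) {q₀ : ℂ × ℂ}
    (hq : q₀ ∈ ball (0 : ℂ) 1 ×ˢ ball (0 : ℂ) τ) : ∃ G : ℂ × ℂ → ℝ, ContDiffAt ℝ ∞ G q₀ ∧
      ∀ᶠ q in 𝓝 q₀, L1 G q = 4 * den A φ (fun z => Z z q.2) q.1 ∧
        L2 G q = 4 * den A φ (Z q.1) q.2 := by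
  obtain ⟨a, u, v, hu, hv, h1, h2, h3, h4⟩ :=
    DV1_box (A := A) hZ.cont (q₀ := q₀) ⟨ball_subset_closedBall hq.1, hq.2⟩
  have hs : ball (0 : ℂ) 1 ∩ u ⊆ closedBall 0 1 ∩ u := inter_subset_inter_left _ ball_subset_closedBall
  have h5 := analyticOnNhd_of_sep (g := fun q => A.e a (Z q.1 q.2)) (isOpen_ball.inter hu)
    (isOpen_ball.inter hv) (h4.mono (prod_mono hs subset_rfl))
    (fun s h => ((hZ.hol₁ s h.1).2 a).mono fun z hz => ⟨hz.1, h3 z (hs hz) s h⟩)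
    fun z hz => ((hZ.hol₂ z (hs hz).1).2 a).mono fun s h => ⟨h.1, h3 z (hs hz) s h⟩
  have h6 : q₀ ∈ (ball (0 : ℂ) 1 ∩ u) ×ˢ (ball (0 : ℂ) τ ∩ v) := ⟨⟨hq.1, h1⟩, hq.2, h2⟩
  refine ⟨fun q => φ a (A.e a (Z q.1 q.2)), (hφ.smAt ((A.e a).map_source
    (h3 _ (hs h6.1) _ h6.2))).comp q₀ (((h5 q₀ h6).contDiffAt (n := ∞)).restrict_scalars ℝ), ?_⟩
  filter_upwards [((isOpen_ball.inter hu).prod (isOpen_ball.inter hv)).mem_nhds h6] with q h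
  exact ⟨den_lap hφ (hZ.hol₁ _ h.2.1) (isOpen_ball.mem_nhds h.1.1) (h3 _ (hs h.1) _ h.2),
    den_lap hφ (hZ.hol₂ _ (hs h.1).1) (isOpen_ball.mem_nhds h.2.1) (h3 _ (hs h.1) _ h.2)⟩

end Vale.Agent.P272
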