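import Vale.Agent.P272.DFam1
import Vale.Agent.P272.DV1
import Vale.Agent.P272.DR4

/-! P272, part D: families and the value function. -/

open MeasureTheory Set Filter Topology Metric Matrix
open scoped ContDiff ComplexConjugate ComplexOrder

noncomputable section

namespace Vale.Agent.P272

open Vale.Agent.P271

variable {n : ℕ} {X : Type} [TopologicalSpace X] [T2Space X] [CompactSpace X]
  [MeasurableSpace X] [BorelSpace X] {M : Model n X}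
  {w η η₀ η₁ η₂ φ ψ : Frm M.toAtl} {K r : ℝ} {x : X} {f : ℂ → X}

/-- A slightly smaller disc has almost the same value. -/
theorem DFam2_near (hw : Kae M.toAtl w) (h₀ : IsF M.toAtl η₀) (h₁ : IsF M.toAtl η₁)
    (h₂ : IsF M.toAtl η₂) (h0 : 0 < r) (h1 : r < 1) (hf : Adm M.toAtl w x f) {δ : ℝ} (hδ : 0 < δ) :
    ∃ s ∈ Ioo (0 : ℝ) 1, T M.toAtl η₀ f (s * 1) - T M.toAtl η₁ f (s * r) -
      T M.toAtl η₂ f (s * (1 / 2)) < Phi M.toAtl η₀ η₁ η₂ r f + δ := by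
  have key : ∀ φ, IsF M.toAtl φ → ∀ t : ℝ, 0 < t → t ≤ 1 →
      Tendsto (fun s => T M.toAtl φ f (s * t)) (𝓝[Ioo 0 1] 1) (𝓝 (T M.toAtl φ f t)) := by
    intro φ hφ t ht ht1
    refine (continuousOn_T hw hf hφ t ⟨ht, ht1⟩).tendsto.comp (tendsto_nhdsWithin_iff.2 ⟨?_, ?_⟩)
    · exact (((continuous_id.mul continuous_const).tendsto' 1 t (one_mul t)).mono_left
        nhdsWithin_le_nhds)
    · filter_upwards [self_mem_nhdsWithin] with s hs
      exact ⟨mul_pos hs.1 ht, mul_le_one₀ hs.2.le ht.le ht1⟩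
  have h3 := ((key η₀ h₀ 1 one_pos le_rfl).sub (key η₁ h₁ r h0 h1.le)).sub
    (key η₂ h₂ (1 / 2) (by norm_num) (by norm_num))
  have : (𝓝[Ioo (0 : ℝ) 1] 1).NeBot := right_nhdsWithin_Ioo_neBot one_pos
  obtain ⟨s, hs, hs'⟩ := ((h3.eventually (gt_mem_nhds (lt_add_of_pos_right _ hδ))).and
    self_mem_nhdsWithin).exists
  exact ⟨s, hs', hs⟩

/-- A disc continuous up to the boundary moves with its centre. -/
theorem exists_fam (hw : Kae M.toAtl w) (h₀ : Kae M.toAtl η₀) (h₁ : IsF M.toAtl η₁)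
    (h₂ : IsF M.toAtl η₂) (h0 : 0 < r) (h1 : r < 1) (hf : AdmC M.toAtl w x f) {δ : ℝ}
    (hδ : 0 < δ) : ∃ O F, x ∈ O ∧ Fam M w O F ∧
      ∀ y ∈ O, Phi M.toAtl η₀ η₁ η₂ r (F y) ≤ Phi M.toAtl η₀ η₁ η₂ r f + δ := by
  obtain ⟨O, F, hO, hx, he, hd, hc, hn⟩ := fam_core hf.dc
  obtain ⟨s, ⟨s0, s1⟩, hs⟩ := DFam2_near hw h₀.1 h₁ h₂ h0 h1 hf.1 hδ
  rw [hf.1.2.1] at hx he
  have lt : ∀ t : ℝ, t ≤ 1 → s * t < 1 := fun t ht =>
    (mul_le_of_le_one_right s0.le ht).trans_lt s1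
  have ct : ∀ φ, IsF M.toAtl φ → ∀ t : ℝ, 0 < t → t ≤ 1 →
      ContinuousOn (fun y => T M.toAtl φ (F y) (s * t)) O := fun φ hφ t ht ht1 =>
    T_cont_param hφ hc (fun y hy => (hd y hy).1) (mul_pos s0 ht) (lt t ht1)
  have c1 := ((ct η₀ h₀.1 1 one_pos le_rfl).sub (ct η₁ h₁ r h0 h1.le)).sub
    (ct η₂ h₂ (1 / 2) (by norm_num) (by norm_num))
  have c2 := ct w hw.1 1 one_pos le_rfl
  have o1 := c1.isOpen_inter_preimage hO (isOpen_Iio (a := Phi M.toAtl η₀ η₁ η₂ r f + δ))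
  have o2 := c2.isOpen_inter_preimage hO (isOpen_Iio (a := T M.toAtl w (F x) (s * 1) + 1))
  have hm : MapsTo (fun z : ℂ => (s : ℂ) * z) (ball 0 1) (ball 0 1) := fun z hz => by
    rw [mem_ball_zero_iff] at *
    rw [norm_mul, Complex.norm_real, Real.norm_of_nonneg s0.le]
    exact lt _ hz.le
  obtain ⟨O', hO', sub, hx', p1, p2⟩ : ∃ O' : Set X, IsOpen O' ∧ O' ⊆ O ∧ x ∈ O' ∧
      (∀ y ∈ O', T M.toAtl η₀ (F y) (s * 1) - T M.toAtl η₁ (F y) (s * r) -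
        T M.toAtl η₂ (F y) (s * (1 / 2)) < Phi M.toAtl η₀ η₁ η₂ r f + δ) ∧
      ∀ y ∈ O', T M.toAtl w (F y) (s * 1) < T M.toAtl w (F x) (s * 1) + 1 := by
    refine ⟨_, o1.inter o2, fun y hy => hy.1.1,
      ⟨⟨hx, ?_⟩, hx, lt_add_one (T M.toAtl w (F x) (s * 1))⟩, fun y hy => hy.1.2, fun y hy => hy.2.2⟩
    change T M.toAtl η₀ (F x) (s * 1) - T M.toAtl η₁ (F x) (s * r) -
      T M.toAtl η₂ (F x) (s * (1 / 2)) < _
    rwa [T_congr he (lt 1 le_rfl).le, T_congr he (lt r h1.le).le,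
      T_congr he (lt (1 / 2) (by norm_num)).le]
  have adm : ∀ y ∈ O', Adm M.toAtl w y fun z => F y (s * z) := fun y hy => by
    have := (admC_dilate hw.1 (hd y (sub hy)).1 s0 s1).1
    rwa [(hd y (sub hy)).2] at this
  have cont : ContinuousOn (fun q : X × ℂ => F q.1 (s * q.2)) (O' ×ˢ ball 0 1) :=
    hc.comp (f := fun q : X × ℂ => (q.1, (s : ℂ) * q.2)) (by fun_prop)
      fun q hq => ⟨sub hq.1, hm hq.2⟩
  refine ⟨O', fun y z => F y (s * z), hx', ⟨hO', adm, cont,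
    den_cont_param (Z := fun y z => F y (s * z)) hw.1 isOpen_ball cont fun y hy => (adm y hy).1,
    ⟨T M.toAtl w (F x) (s * 1) + 1, fun y hy => ?_⟩, fun ζ hζ N hN => ?_⟩, fun y hy => ?_⟩
  · rw [T_dilate hw.1 (hd y (sub hy)).1 s0 s1.le one_pos le_rfl]
    exact (p2 y hy).le
  · exact measure_mono_null (inter_subset_inter_left _ sub) (hn _ (hm hζ) N hN)
  · have hy' := (hd y (sub hy)).1
    rw [Phi, T_dilate h₀.1 hy' s0 s1.le one_pos le_rfl, T_dilate h₁ hy' s0 s1.le h0 h1.le,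
      T_dilate h₂ hy' s0 s1.le (by norm_num) (by norm_num)]
    exact (p1 y hy).le

theorem continuous_val (hw : Kae M.toAtl w) (hK : Brody M.toAtl w K) (h₀ : Kae M.toAtl η₀)
    (h₁ : IsF M.toAtl η₁) (h₂ : IsF M.toAtl η₂) (h0 : 0 < r) (h1 : r < 1) :
    Continuous (val M.toAtl w η₀ η₁ η₂ r) := by
  refine continuous_iff_lower_upperSemicontinuous.2 ⟨lsc_val hw hK h₀ h₁ h₂ h0 h1, fun x b hb => ?_⟩
  obtain ⟨f, hf, hm⟩ := exists_min hw hK h₀ h₁ h₂ h0 h1 x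
  have hb' : Phi M.toAtl η₀ η₁ η₂ r f < b := (val_eq hm).symm.trans_lt hb
  obtain ⟨O, F, hx, hF, h⟩ := exists_fam hw h₀ h₁ h₂ h0 h1 hf (half_pos (sub_pos.2 hb'))
  filter_upwards [hF.isOpen.mem_nhds hx] with y hy
  exact ((val_le hw hK h₀ h₁ h₂ h0 h1 (hF.adm y hy)).trans (h y hy)).trans_lt (by linarith)

end Vale.Agent.P272
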