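import Vale.Agent.P272.DZ4

/-! P272, part D: from the second variation to determinants. -/

open MeasureTheory Set Filter Topology Metric Matrix
open scoped ContDiff ComplexConjugate ComplexOrder

noncomputable section

namespace Vale.Agent.P272

open Vale.Agent.P271

variable {n : ℕ}

theorem DI1_hq_smul (H : Mx n) (c : ℂ) (v : Cn n) : hq H (c • v) = ‖c‖ ^ 2 * hq H v := by
  rw [hq, hq, star_smul, mulVec_smul, smul_dotProduct, dotProduct_smul, smul_eq_mul, smul_eq_mul,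
    ← mul_assoc, Complex.star_def, Complex.conj_mul', ← Complex.ofReal_pow, Complex.re_ofReal_mul]

theorem DI1_cont {H : ℂ → Mx n} {s : Set ℂ} (hc : ContinuousOn H s) {p : ℂ → Cn n}
    (hp : Continuous p) : ContinuousOn (fun ζ => hq (H ζ) (p ζ)) s := by
  rw [continuousOn_iff_continuous_domRestrict] at hc ⊢
  have h' : Continuous fun z : s => p z := hp.comp continuous_subtype_val
  exact Complex.continuous_re.comp (h'.star.dotProduct (hc.matrix_mulVec h'))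

theorem DI1_sum {H G : ℂ → Mx n} {ρ : ℝ} (hρ : 0 < ρ) (hc : ContinuousOn H (sphere 0 ρ))
    (hG : Ent G) :
    ∑ i, Real.circleAverage (fun ζ => hq (H ζ) (ζ • fun j => G ζ j i)) 0 ρ =
      ρ ^ 2 * Real.circleAverage (fun ζ => ((G ζ)ᴴ * H ζ * G ζ).trace.re) 0 ρ := by
  have hi : ∀ i ∈ (Finset.univ : Finset (Fin n)),
      CircleIntegrable (fun ζ => hq (H ζ) (ζ • fun j => G ζ j i)) 0 ρ := fun i _ =>
    (DI1_cont hc (p := fun ζ => ζ • fun j => G ζ j i) (continuous_id.smul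
      (continuous_pi fun j => (hG j i).continuous))).circleIntegrable hρ.le
  rw [← Real.circleAverage_fun_sum hi, ← smul_eq_mul, ← Real.circleAverage_fun_smul]
  refine Real.circleAverage_congr_sphere fun ζ hζ => ?_
  rw [abs_of_pos hρ, mem_sphere_zero_iff_norm] at hζ
  simp only [DI1_hq_smul, hζ, smul_eq_mul]
  rw [← Finset.mul_sum, hq_sum]

theorem logdet_ineq (hn : 0 < n) {H₀ H₁ : ℂ → Mx n} {ρ : ℝ} (hρ : 0 < ρ)
    (c₀ : ContinuousOn H₀ (sphere 0 1)) (p₀ : ∀ ζ ∈ sphere (0 : ℂ) 1, (H₀ ζ).PosDef)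
    (c₁ : ContinuousOn H₁ (sphere 0 ρ)) (p₁ : ∀ ζ ∈ sphere (0 : ℂ) ρ, (H₁ ζ).PosDef)
    (h : ∀ p : ℂ → Cn n, Differentiable ℂ p → p 0 = 0 →
      Real.circleAverage (fun ζ => hq (H₁ ζ) (p ζ)) 0 ρ ≤
        Real.circleAverage (fun ζ => hq (H₀ ζ) (p ζ)) 0 1) :
    Real.circleAverage (fun ζ => Real.log (H₁ ζ).det.re) 0 ρ + n * Real.log (ρ ^ 2) ≤
      Real.circleAverage (fun ζ => Real.log (H₀ ζ).det.re) 0 1 := by
  refine le_of_forall_pos_le_add fun δ hδ => ?_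
  obtain ⟨G, hG, h0, h1, h2⟩ := szego hn c₀ p₀ hδ
  have hn' : (0 : ℝ) < n := by exact_mod_cast hn
  have hρ2 : 0 < ρ ^ 2 := by positivity
  have h3 := Finset.sum_le_sum fun (i : Fin n) (_ : i ∈ Finset.univ) =>
    h (fun ζ => ζ • fun j => G ζ j i)
      (differentiable_id.smul (differentiable_pi.2 fun j => hG j i)) (zero_smul _ _)
  rw [DI1_sum hρ c₁ hG, DI1_sum one_pos c₀ hG, one_pow, one_mul] at h3
  have h4 := mul_le_mul_of_nonneg_left
    (avg_logdet_le hn hρ c₁ p₁ hG h0 (-Real.log (ρ ^ 2))) hρ2.le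
  have h5 := (h4.trans h3).trans h1
  rw [Real.exp_neg, Real.exp_log hρ2] at h5
  obtain ⟨a, ha⟩ : ∃ a, a = Real.log (‖(G 0).det‖ ^ 2) := ⟨_, rfl⟩
  obtain ⟨b, hb⟩ : ∃ b, b = Real.circleAverage (fun ζ => Real.log (H₁ ζ).det.re) 0 ρ := ⟨_, rfl⟩
  obtain ⟨c, hc⟩ : ∃ c, c = Real.log (ρ ^ 2) := ⟨_, rfl⟩
  rw [← ha] at h2
  rw [← ha, ← hb, ← hc] at h5
  rw [← hb, ← hc]
  have e : ρ ^ 2 * (n * (ρ ^ 2)⁻¹ * (1 + ((a + b) / n - -c))) = n + (a + b + n * c) := by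
    field_simp
    ring
  rw [e] at h5
  linarith

end Vale.Agent.P272
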