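import Vale.Agent.P272.DV4
import Vale.Agent.P272.DI1
import Vale.Agent.P272.DR4

/-! P272, part D: the determinant and trace inequalities. -/

open MeasureTheory Set Filter Topology Metric Matrix
open scoped ContDiff ComplexConjugate ComplexOrder

noncomputable section

namespace Vale.Agent.P272

open Vale.Agent.P271

variable {n : ℕ} {X : Type} [TopologicalSpace X] [T2Space X] [CompactSpace X]
  [MeasurableSpace X] [BorelSpace X] {M : Model n X}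
  {w η η₀ η₁ η₂ φ ψ : Frm M.toAtl} {K r : ℝ} {x : X} {f : ℂ → X}


theorem DI2_sub {s : ℝ} (h0 : 0 < s) (h1 : s ≤ 1) : sphere (0 : ℂ) s ⊆ closedBall 0 1 :=
  sphere_subset_closedBall.trans (closedBall_subset_closedBall h1)

theorem DI2_int {v : ℂ → ℝ} (hv : ContinuousOn v (closedBall 0 1)) {s : ℝ} (h0 : 0 < s)
    (h1 : s ≤ 1) : CircleIntegrable v 0 s :=
  (hv.mono (DI2_sub h0 h1)).circleIntegrable h0.le

omit [T2Space X] [CompactSpace X] [BorelSpace X] in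
theorem DI2_int' {u : X → ℝ} (hu : M.Sm u) (hf : AdmC M.toAtl w x f) {s : ℝ} (h0 : 0 < s)
    (h1 : s ≤ 1) : CircleIntegrable (fun ζ => u (f ζ)) 0 s :=
  DI2_int (hu.continuous.comp_continuousOn hf.2) h0 h1

theorem det_of_var {W : M.ι → ℂ → En n} (hn : 0 < n) (hw : Kae M.toAtl w) (h₀ : Kae M.toAtl η₀)
    (h₁ : Kae M.toAtl η₁) (h0 : 0 < r) (h1 : r < 1) (hf : AdmC M.toAtl w x f)
    (hW : Frame M.toAtl f W) (h : ∀ p : ℂ → Cn n, Differentiable ℂ p → p 0 = 0 →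
      mq M.toAtl f W η₁ p r ≤ mq M.toAtl f W η₀ p 1) :
    av (fun p => Real.log (dt M η₁ p)) f r - av (fun p => Real.log (dt M η₀ p)) f 1 +
      n * Real.log (r ^ 2) ≤ T M.toAtl (th M) f 1 - T M.toAtl (th M) f r := by

  obtain ⟨v, hv, h2, h3⟩ := log_det_Hm hw hf hW
  have h4 : ∀ η, Kae M.toAtl η → ∀ s, 0 < s → s ≤ 1 →
      Real.circleAverage (fun ζ => Real.log (Hm M.toAtl f W η ζ).det.re) 0 s =
        av (fun p => Real.log (dt M η p)) f s + Real.circleAverage v 0 s := by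
    intro η hη s s0 s1
    rw [av, ← Real.circleAverage_fun_add (DI2_int' (sm_log_dt hη) hf s0 s1) (DI2_int hv s0 s1)]
    refine Real.circleAverage_congr_sphere fun ζ hζ => ?_
    rw [abs_of_pos s0] at hζ
    exact h2 η hη ζ (DI2_sub s0 s1 hζ)
  have h5 := logdet_ineq hn h0
    ((continuousOn_Hm hf.dc hW h₀.1).mono (DI2_sub one_pos le_rfl))
    (fun ζ hζ => Hm_posDef hW h₀ (DI2_sub one_pos le_rfl hζ))
    ((continuousOn_Hm hf.dc hW h₁.1).mono (DI2_sub h0 h1.le))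
    (fun ζ hζ => Hm_posDef hW h₁ (DI2_sub h0 h1.le hζ)) h
  rw [h4 _ h₁ r h0 h1.le, h4 _ h₀ 1 one_pos le_rfl] at h5
  rw [h3 1 ⟨one_pos, le_rfl⟩, h3 r ⟨h0, h1.le⟩]
  linarith

/-- The determinant inequality. -/
theorem det_ineq (hn : 0 < n) (hw : Kae M.toAtl w) (h₀ : Kae M.toAtl η₀) (h₁ : IsF M.toAtl η₁)
    (n₁ : NnF M.toAtl η₁) (h₂ : Kae M.toAtl η₂) (h0 : 0 < r) (h1 : r < 1)
    (hf : AdmC M.toAtl w x f) (hm : IsMin M.toAtl w η₀ η₁ η₂ r x f) :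
    av (fun p => Real.log (dt M η₂ p)) f (1 / 2) - av (fun p => Real.log (dt M η₀ p)) f 1 -
      n * Real.log 4 ≤ T M.toAtl (th M) f 1 - T M.toAtl (th M) f (1 / 2) := by

  obtain ⟨W, hW⟩ := exists_frame hf.dc
  have h2 := det_of_var (r := 1 / 2) hn hw h₀ h₂ (by norm_num) (by norm_num) hf hW
    fun p hp hp0 => by
      have h3 := var_ineq hw h₀.1 h₁ h₂.1 h0 h1 hf hm hW hp hp0
      have h4 := mq_nonneg (f := f) (W := W) h₁ n₁ p r
      linarith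
  have h3 : Real.log ((1 / 2 : ℝ) ^ 2) = -Real.log 4 := by
    rw [← Real.log_inv]
    norm_num
  rw [h3] at h2
  linarith

theorem log_dt_sub (h₀ : Kae M.toAtl η₀) (h₁ : Kae M.toAtl η₁) (p : X) :
    Real.log (dt M η₀ p) - Real.log (dt M η₁ p) ≤ trF M.toAtl η₁ (η₀ - η₁) p := by

  have p₀ := (posF_iff h₀.1).1 h₀.2 p
  have p₁ := (posF_iff h₁.1).1 h₁.2 p
  have hk := Api_k_pos M (ch_mem M.toAtl p)
  rw [trF_sub _ h₀.1 h₁.1, trF_self h₁, dt, dt, Real.log_div (det_re_pos p₀).ne' hk.ne',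
    Real.log_div (det_re_pos p₁).ne' hk.ne']
  have := log_det_ratio p₁ p₀
  rw [trF]
  linarith


omit [T2Space X] [CompactSpace X] [BorelSpace X] in
theorem DI2_trF {ζ : Frm M.toAtl} (hη : Kae M.toAtl η) {t : ℝ} (ht : 0 < t) (p : X) :
    trF M.toAtl (t • η) ζ p = t⁻¹ * trF M.toAtl η ζ p := by
  have p₁ := (posF_iff hη.1).1 hη.2 p
  have h1 : ((t : ℂ) • GM M.toAtl η p)⁻¹ = ((t⁻¹ : ℝ) : ℂ) • (GM M.toAtl η p)⁻¹ := by
    refine Matrix.inv_eq_left_inv ?_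
    rw [Matrix.smul_mul, Matrix.mul_smul, smul_smul, Matrix.nonsing_inv_mul _
      ((Matrix.isUnit_iff_isUnit_det _).1 p₁.isUnit), ← Complex.ofReal_mul,
      inv_mul_cancel₀ ht.ne', Complex.ofReal_one, one_smul]
  rw [trF, trF, GM_smul hη.1, h1, Matrix.smul_mul, Matrix.trace_smul, smul_eq_mul,
    Complex.re_ofReal_mul]

theorem DI2_key {ζ : Frm M.toAtl} (hn : 0 < n) (hw : Kae M.toAtl w) (hη : Kae M.toAtl η)
    (hζ : IsF M.toAtl ζ) {t : ℝ} (ht : 0 < t) (h₀ : Kae M.toAtl (t • η + ζ)) :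
    ∃ C : ℝ, 0 < C ∧ ∀ r f, 0 < r → r < 1 → AdmC M.toAtl w x f →
      IsMin M.toAtl w (t • η + ζ) (t • η) 0 r x f →
      t * (n * Real.log (r ^ 2)) - C * (t * (T M.toAtl η f 1 - T M.toAtl η f r)) ≤
        av (trF M.toAtl η ζ) f 1 := by
  have h₁ := hη.smul ht
  have hL := sm_log_dt h₁
  have hθ := (isF_th M).add (isF_ddc hL)
  obtain ⟨C, hC, hC1, -⟩ := exists_le hη hθ
  refine ⟨C, hC, fun r f h0 h1 hf hm => ?_⟩
  obtain ⟨W, hW⟩ := exists_frame hf.dc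
  have h2 := det_of_var hn hw h₀ h₁ h0 h1 hf hW fun p hp hp0 => by
    have h3 := var_ineq hw h₀.1 h₁.1 isF_zero h0 h1 hf hm hW hp hp0
    have h4 := mq_nonneg (f := f) (W := W) isF_zero nnF_zero p (1 / 2)
    linarith
  have h3 := T_mono hw hf.1 ((hη.1.smul C).sub hθ) hC1.nn h0 h1.le le_rfl
  rw [T_sub hw hf.1 (hη.1.smul C) hθ h0 h1.le, T_sub hw hf.1 (hη.1.smul C) hθ one_pos le_rfl,
    T_add hw hf.1 (isF_th M) (isF_ddc hL) h0 h1.le,
    T_add hw hf.1 (isF_th M) (isF_ddc hL) one_pos le_rfl, T_smul hη.1, T_smul hη.1,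
    T_ddc hw hf.1 hL h0 h1, T_ddc_one hw hf hL] at h3
  have i₀ := DI2_int' (sm_log_dt h₀) hf one_pos le_rfl
  have i₁ := DI2_int' hL hf one_pos le_rfl
  have i₂ := DI2_int' (sm_trF h₁ hζ) hf one_pos le_rfl
  have h4 := Real.circleAverage_mono (i₀.sub i₁) i₂ fun z _ => by
    have := log_dt_sub h₀ h₁ (f z)
    rwa [add_sub_cancel_left] at this
  rw [Real.circleAverage_sub i₀ i₁] at h4
  have h5 : Real.circleAverage (fun z => trF M.toAtl (t • η) ζ (f z)) 0 1 =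
      t⁻¹ * av (trF M.toAtl η ζ) f 1 := by
    rw [av, ← smul_eq_mul, ← Real.circleAverage_fun_smul]
    simp only [DI2_trF hη ht, smul_eq_mul]
  rw [h5] at h4
  have h6 : n * Real.log (r ^ 2) - C * (T M.toAtl η f 1 - T M.toAtl η f r) ≤
      t⁻¹ * av (trF M.toAtl η ζ) f 1 := by
    simp only [av] at h2 h3 h4 ⊢
    linarith
  have h7 := mul_le_mul_of_nonneg_left h6 ht.le
  rw [← mul_assoc, mul_inv_cancel₀ ht.ne', one_mul] at h7
  linarith

/-- The trace inequality. -/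
theorem tr_ineq {ζ : Frm M.toAtl} (hn : 0 < n) (hw : Kae M.toAtl w) (hK : Brody M.toAtl w K)
    (hη : Kae M.toAtl η) (hζ : IsF M.toAtl ζ) {C : ℝ}
    (hC : ∀ g, AdmC M.toAtl w x g → -C ≤ T M.toAtl ζ g 1) {δ : ℝ}
    (hδ : 0 < δ) : ∃ f, AdmC M.toAtl w x f ∧ T M.toAtl ζ f 1 ≤ δ ∧
      -δ ≤ av (trF M.toAtl η ζ) f 1 := by

  obtain ⟨t, ht, -, ht1⟩ := exists_le hη hζ
  have h₀ : Kae M.toAtl (t • η + ζ) := ⟨(hη.1.smul t).add hζ, ht1⟩
  have h₁ := hη.smul ht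
  obtain ⟨C₁, hC₁, key⟩ := DI2_key (x := x) hn hw hη hζ ht h₀
  have hP : ∀ r g, 0 < r → r < 1 → Adm M.toAtl w x g → Phi M.toAtl (t • η + ζ) (t • η) 0 r g =
      T M.toAtl ζ g 1 + t * (T M.toAtl η g 1 - T M.toAtl η g r) := fun r g h0 h1 hg => by
    rw [Phi, T_add hw hg h₁.1 hζ one_pos le_rfl, T_smul hη.1, T_smul hη.1, T_zero]
    ring
  have hε : 0 < δ / (1 + 2 * C₁) := by positivity
  have hε' : δ / (1 + 2 * C₁) * (1 + 2 * C₁) = δ := by field_simp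
  generalize δ / (1 + 2 * C₁) = ε at hε hε'
  have hb : BddBelow ((fun g => T M.toAtl ζ g 1) '' {g | AdmC M.toAtl w x g}) :=
    ⟨-C, by
      rintro _ ⟨g, hg, rfl⟩
      exact hC g hg⟩
  obtain ⟨_, ⟨g, hg, rfl⟩, hg'⟩ := Real.lt_sInf_add_pos
    (s := (fun g => T M.toAtl ζ g 1) '' {g | AdmC M.toAtl w x g})
    ⟨_, _, admC_const w x, rfl⟩ hε
  have e1 : ∀ᶠ r in 𝓝[<] (1 : ℝ), t * (T M.toAtl η g 1 - T M.toAtl η g r) < ε := by
    have := ((T_tendsto hw hg.1 hη.1).const_sub (T M.toAtl η g 1)).const_mul t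
    rw [sub_self, mul_zero] at this
    exact this.eventually (gt_mem_nhds hε)
  have e2 : ∀ᶠ r in 𝓝[<] (1 : ℝ), -ε < t * (n * Real.log (r ^ 2)) := by
    have h1 : ContinuousAt (fun r : ℝ => t * (n * Real.log (r ^ 2))) 1 :=
      continuousAt_const.mul (continuousAt_const.mul
        ((continuousAt_id.pow 2).log (by simp)))
    refine (h1.tendsto.mono_left nhdsWithin_le_nhds).eventually (lt_mem_nhds ?_)
    simpa using hε
  obtain ⟨r, ⟨r1, r2⟩, r3⟩ := ((e1.and e2).and (Ioo_mem_nhdsLT (zero_lt_one' ℝ))).exists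
  obtain ⟨f, hf, hm⟩ := exists_min hw hK h₀ h₁.1 isF_zero r3.1 r3.2 x
  have h2 := hm.2 g hg.1
  have h3 := hm.2 _ (admC_const w x).1
  rw [hP r f r3.1 r3.2 hf.1, hP r _ r3.1 r3.2 (admC_const w x).1, T_const, T_const, T_const] at h3
  rw [hP r f r3.1 r3.2 hf.1, hP r g r3.1 r3.2 hg.1] at h2
  have h4 := csInf_le hb ⟨f, hf, rfl⟩
  have h5 := mul_nonneg ht.le
    (sub_nonneg.2 (T_mono hw hf.1 hη.1 hη.2.nn r3.1 r3.2.le le_rfl))
  have h6 := key r f r3.1 r3.2 hf hm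
  refine ⟨f, hf, by linarith, ?_⟩
  have h7 : t * (T M.toAtl η f 1 - T M.toAtl η f r) ≤ 2 * ε := by
    beta_reduce at h4 hg'
    linarith
  have h8 := mul_le_mul_of_nonneg_left h7 hC₁.le
  nlinarith

end Vale.Agent.P272
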