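import Vale.Agent.P272.DT
import Vale.Agent.P272.DA3

/-! P272, part D: forms in a frame. -/

open MeasureTheory Set Filter Topology Metric Matrix
open scoped ContDiff ComplexConjugate ComplexOrder

noncomputable section

namespace Vale.Agent.P272

open Vale.Agent.P271

variable {n : ℕ} {X : Type} [TopologicalSpace X] [T2Space X] [CompactSpace X] {A : Atl n X}
  {f : ℂ → X} {W : A.ι → ℂ → En n} {μ : A.ι → ℂ → ℝ} {E : ℂ → Cn n → X} {ρ : ℝ}

variable {φ : Frm A} {ζ : ℂ}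

theorem Hm_eq (hW : Frame A f W) (hφ : IsF A φ) {a : A.ι} (h : ζ ∈ dom A f a) :
    Hm A f W φ ζ = (mt (W a ζ))ᴴ * LM (φ a) (A.e a (f ζ)) * mt (W a ζ) := by
  rw [Hm, hW.tr a _ ζ h ⟨h.1, ch_mem A _⟩, mt_mul, mt_gm, ApiA_rep hφ h.2, conjTranspose_mul]
  simp only [Matrix.mul_assoc]

theorem hq_Hm (hW : Frame A f W) (hφ : IsF A φ) {a : A.ι} (h : ζ ∈ dom A f a) (v : Cn n) :
    hq (Hm A f W φ ζ) v = hq (LM (φ a) (A.e a (f ζ))) (W a ζ v) := by
  rw [Hm_eq hW hφ h, DA1_conj, mt_mulVec]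

theorem continuousOn_Hm (hf : Dc A f) (hW : Frame A f W) (hφ : IsF A φ) :
    ContinuousOn (Hm A f W φ) (closedBall 0 1) := by
  intro ζ hζ
  have h : ζ ∈ dom A f (ch A (f ζ)) := ⟨hζ, ch_mem A _⟩
  generalize ch A (f ζ) = a at h
  have h1 : Continuous fun q : Mx n × Mx n => q.1ᴴ * q.2 * q.1 :=
    (continuous_fst.matrix_conjTranspose.matrix_mul continuous_snd).matrix_mul continuous_fst
  have h2 : ContinuousAt (fun p => LM (φ a) (A.e a p)) (f ζ) :=
    ContinuousAt.comp (g := LM (φ a)) (continuousAt_pi.2 fun j => continuousAt_pi.2 fun k =>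
      (contDiffAt_LM (hφ.smAt ((A.e a).map_source h.2)) j k).continuousAt)
      ((A.e a).continuousAt h.2)
  have h3 := h1.continuousAt.comp_continuousWithinAt
    ((continuous_mt.continuousAt.comp_continuousWithinAt
      ((hW.cont a ζ h).mono_of_mem_nhdsWithin (hf.dom_mem h))).prodMk
      (h2.comp_continuousWithinAt (hf.2 ζ hζ)))
  refine h3.congr_of_eventuallyEq ?_ (Hm_eq hW hφ h)
  filter_upwards [hf.dom_mem h] with z hz using Hm_eq hW hφ hz

theorem Hm_posDef (hW : Frame A f W) (hφ : Kae A φ) (h : ζ ∈ closedBall (0 : ℂ) 1) :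
    (Hm A f W φ ζ).PosDef := by
  have h1 := (isUnit_iff_isUnit_det _).2
    (isUnit_iff_ne_zero.2 (mt_det_ne (hW.unit _ ζ ⟨h, ch_mem A _⟩)))
  rw [Hm, ← star_eq_conjTranspose, h1.posDef_star_left_conjugate_iff]
  exact (posF_iff hφ.1).1 hφ.2 _

theorem mq_nonneg (hφ : IsF A φ) (h : NnF A φ) (p : ℂ → Cn n) (r : ℝ) : 0 ≤ mq A f W φ p r := by
  refine Real.circleAverage_nonneg_of_nonneg fun ζ _ => ?_
  rw [Hm, DA1_conj]
  exact (Complex.nonneg_iff.1 (((nnF_iff hφ).1 h _).dotProduct_mulVec_nonneg _)).1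

theorem DJ_v [MeasurableSpace X] {M : Model n X} {W : M.ι → ℂ → En n} {η : Frm M.toAtl}
    (hW : Frame M.toAtl f W) (hη : Kae M.toAtl η) {a : M.ι} (h : ζ ∈ dom M.toAtl f a) :
    Real.log (Hm M.toAtl f W η ζ).det.re - Real.log (dt M η (f ζ)) =
      th M a (M.e a (f ζ)) + Real.log ‖(mt (W a ζ)).det ^ 2‖ := by
  have h1 := (det_re_pos (hη.2 a _ ((M.e a).map_source h.2))).ne'
  rw [Hm_eq hW hη.1 h, det_conj, Complex.re_ofReal_mul, dt_eq hη.1 h.2, norm_pow,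
    Real.log_mul (pow_ne_zero _ (norm_ne_zero_iff.2 (mt_det_ne (hW.unit a ζ h)))) h1,
    Real.log_div h1 (Api_k_pos M h.2).ne', th, Atl.loc, (M.e a).left_inv h.2]
  ring

theorem log_det_Hm [MeasurableSpace X] {M : Model n X} {w : Frm M.toAtl} {x : X}
    {W : M.ι → ℂ → En n} (hw : Kae M.toAtl w) (hf : AdmC M.toAtl w x f) (hW : Frame M.toAtl f W) :
    ∃ v : ℂ → ℝ, ContinuousOn v (closedBall 0 1) ∧
      (∀ η, Kae M.toAtl η → ∀ ζ ∈ closedBall (0 : ℂ) 1,
        Real.log (Hm M.toAtl f W η ζ).det.re = Real.log (dt M η (f ζ)) + v ζ) ∧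
      ∀ s ∈ Ioc (0 : ℝ) 1, T M.toAtl (th M) f s = Real.circleAverage v 0 s - v 0 := by
  have hc : ContinuousOn
      (fun ζ => Real.log (Hm M.toAtl f W w ζ).det.re - Real.log (dt M w (f ζ))) (closedBall 0 1) :=
    (((Complex.continuous_re.comp continuous_id.matrix_det).comp_continuousOn
      (continuousOn_Hm hf.dc hW hw.1)).log fun ζ hζ => (det_re_pos (Hm_posDef hW hw hζ)).ne').sub
      ((Atl.Sm.continuous (sm_log_dt hw)).comp_continuousOn hf.2)
  have hv : ∀ z ∈ ball (0 : ℂ) 1, ContDiffAt ℝ 2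
      (fun ζ => Real.log (Hm M.toAtl f W w ζ).det.re - Real.log (dt M w (f ζ))) z ∧
      Laplacian.laplacian (fun ζ => Real.log (Hm M.toAtl f W w ζ).det.re -
        Real.log (dt M w (f ζ))) z = 4 * den M.toAtl (th M) f z := by
    intro z hz
    have ha := ch_mem M.toAtl (f z)
    generalize ch M.toAtl (f z) = a at ha
    have hU := isOpen_ball.mem_nhds hz
    have h1 : ball 0 1 ∩ f ⁻¹' (M.e a).source ∈ 𝓝 z := inter_mem hU
      ((hf.1.1.1.continuousAt hU).preimage_mem_nhds ((M.e a).open_source.mem_nhds ha))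
    have h2 := (((differentiable_det_mt.comp_differentiableOn (hW.hol a)).analyticAt h1).pow
      2).harmonicAt_log_norm
      (pow_ne_zero _ (mt_det_ne (hW.unit a z ⟨ball_subset_closedBall hz, ha⟩)))
    have h3 : ContDiffAt ℝ 2 (fun ζ => th M a (M.e a (f ζ))) z :=
      (((isF_th M).smAt ((M.e a).map_source ha)).comp z
        (DA1_sm (hf.1.1.analyticAt hU ha))).of_le (WithTop.coe_le_coe.2 (le_top : (2 : ℕ∞) ≤ ⊤))
    have h4 : (fun ζ => Real.log (Hm M.toAtl f W w ζ).det.re - Real.log (dt M w (f ζ))) =ᶠ[𝓝 z]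
        (fun ζ => th M a (M.e a (f ζ))) + fun ζ =>
          Real.log ‖(((fun L : En n => (mt L).det) ∘ W a) ^ 2) ζ‖ := by
      filter_upwards [h1] with y hy using DJ_v hW hw ⟨ball_subset_closedBall hy.1, hy.2⟩
    refine ⟨(h3.add h2.1).congr_of_eventuallyEq h4, ?_⟩
    rw [(InnerProductSpace.laplacian_congr_nhds h4).eq_of_nhds, h3.laplacian_add h2.1,
      h2.2.eq_of_nhds, den_lap (isF_th M) hf.1.1 hU ha, Pi.zero_apply, add_zero]
  refine ⟨_, hc, fun η hη ζ hζ => ?_, fun s hs => ?_⟩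
  · have h1 : ζ ∈ dom M.toAtl f (ch M.toAtl (f ζ)) := ⟨hζ, ch_mem _ _⟩
    rw [DJ_v hW hw h1, ← DJ_v hW hη h1]
    ring
  · rcases hs.2.eq_or_lt with rfl | h1
    · exact T_pot_one hw hf.1 (isF_th M) hv hc
    · exact T_pot (isF_th M) hf.1.1 hv hs.1 h1

end Vale.Agent.P272
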