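import Vale.Agent.P272.DA3

/-! P272, part D: discs with bounded density stay in a chart. -/

open MeasureTheory Set Filter Topology Metric Matrix
open scoped ContDiff ComplexConjugate ComplexOrder

noncomputable section

namespace Vale.Agent.P272

open Vale.Agent.P271

variable {n : ℕ} {X : Type} [TopologicalSpace X] [T2Space X] [CompactSpace X] {A : Atl n X}
  {w η η₀ η₁ η₂ φ ψ : Frm A} {K r : ℝ} {x : X} {f g : ℂ → X} {U : Set ℂ} {ζ : ℂ}

theorem DL_rot (F : ℂ → ℂ) {a : ℂ} (ha : ‖a‖ = 1) (r : ℝ) :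
    ∫ v in ball (0 : ℂ) r, F (a * v) = ∫ v in ball (0 : ℂ) r, F v := by
  have ha0 : a ≠ 0 := fun h => by simp [h] at ha
  have h1 : MeasurePreserving (fun z : ℂ => a * z) :=
    (rotation ⟨a, by simpa [Submonoid.unitSphere] using ha⟩).measurePreserving
  have h3 : MeasurableEmbedding (fun v : ℂ => a * v) :=
    (Homeomorph.mulLeft₀ a ha0).measurableEmbedding
  have h4 := h1.setIntegral_preimage_emb h3 F (ball 0 r)
  have h5 : (fun v : ℂ => a * v) ⁻¹' ball 0 r = ball 0 r := by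
    ext v
    simp [ha]
  rwa [h5] at h4

theorem DL_mean0 {F : ℂ → ℂ} {r r' : ℝ} (hr' : r < r') (hF : DifferentiableOn ℂ F (ball 0 r')) :
    ∫ v in ball (0 : ℂ) r, F v = volume.real (ball (0 : ℂ) r) * F 0 := by
  have hn : ∀ θ : ℝ, ‖circleMap 0 1 θ‖ = 1 := fun θ => by simp
  have hmem : ∀ a v : ℂ, ‖a‖ ≤ 1 → ‖v‖ ≤ r → a * v ∈ ball (0 : ℂ) r' := by
    intro a v ha hv
    rw [mem_ball_zero_iff, norm_mul]
    exact (mul_le_of_le_one_left (norm_nonneg _) ha).trans_lt (hv.trans_lt hr')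
  have hc : ContinuousOn (fun p : ℝ × ℂ => F (circleMap 0 1 p.1 * p.2))
      (Icc 0 (2 * Real.pi) ×ˢ closedBall 0 r) := by
    refine hF.continuousOn.comp (Continuous.continuousOn ?_) fun p hp => ?_
    · exact ((continuous_circleMap 0 1).comp continuous_fst).mul continuous_snd
    · exact hmem _ _ (hn _).le (mem_closedBall_zero_iff.1 hp.2)
  have hi : Integrable (Function.uncurry fun (θ : ℝ) (v : ℂ) => F (circleMap 0 1 θ * v))
      ((volume.restrict (uIoc 0 (2 * Real.pi))).prod (volume.restrict (ball 0 r))) := by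
    rw [Measure.prod_restrict, uIoc_of_le Real.two_pi_pos.le]
    exact (hc.integrableOn_compact (isCompact_Icc.prod (isCompact_closedBall _ _))).mono_set
      (prod_mono Ioc_subset_Icc_self ball_subset_closedBall)
  have h1 := intervalIntegral_integral_swap hi
  have h2 : ∀ v ∈ ball (0 : ℂ) r,
      ∫ θ in (0 : ℝ)..2 * Real.pi, F (circleMap 0 1 θ * v) = (2 * Real.pi : ℝ) * F 0 := by
    intro v hv
    have hv' : ‖v‖ ≤ r := (mem_ball_zero_iff.1 hv).le
    have hd : DifferentiableOn ℂ (fun t : ℂ => F (t * v)) (closedBall 0 1) :=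
      hF.comp (by fun_prop) fun t ht => hmem _ _ (mem_closedBall_zero_iff.1 ht) hv'
    have h3 : Real.circleAverage (fun t : ℂ => F (t * v)) 0 1 = F ((0 : ℂ) * v) := by
      refine DiffContOnCl.circleAverage (f := fun t : ℂ => F (t * v)) ?_
      rw [abs_one]
      refine DifferentiableOn.diffContOnCl ?_
      rwa [closure_ball _ one_ne_zero]
    rw [Real.circleAverage_def, zero_mul, Complex.real_smul] at h3
    rw [← h3, ← mul_assoc, ← Complex.ofReal_mul, mul_inv_cancel₀ Real.two_pi_pos.ne',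
      Complex.ofReal_one, one_mul]
  rw [setIntegral_congr_fun measurableSet_ball h2, setIntegral_const] at h1
  simp only [DL_rot F (hn _) r, intervalIntegral.integral_const, sub_zero,
    Complex.real_smul] at h1
  have h4 : ((2 * Real.pi : ℝ) : ℂ) ≠ 0 := Complex.ofReal_ne_zero.2 Real.two_pi_pos.ne'
  refine mul_left_cancel₀ h4 (h1.trans ?_)
  ring

theorem DL_mean {h : ℂ → ℂ} {c : ℂ} {r r' : ℝ} (hr : 0 < r) (hr' : r < r')
    (hh : DifferentiableOn ℂ h (ball c r')) :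
    Real.pi * r ^ 2 * ‖h c‖ ^ 2 ≤ ∫ z in ball c r, ‖h z‖ ^ 2 := by
  have h1 := (measurePreserving_add_left (volume : Measure ℂ) c).setIntegral_preimage_emb
    (measurableEmbedding_addLeft c) (h ^ 2) (ball c r)
  have h2 : ∀ s : ℝ, (fun v : ℂ => c + v) ⁻¹' ball c s = ball 0 s := fun s => by
    ext v
    simp [dist_eq_norm]
  have h3 : DifferentiableOn ℂ (fun v : ℂ => (h ^ 2) (c + v)) (ball 0 r') :=
    (hh.pow 2).comp (by fun_prop) fun v hv => by
      rw [← h2] at hv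
      exact hv
  have h4 := norm_integral_le_integral_norm (μ := volume.restrict (ball c r)) (h ^ 2)
  have h5 : volume.real (ball (0 : ℂ) r) = Real.pi * r ^ 2 := by
    rw [Measure.real, Complex.volume_ball, ENNReal.toReal_mul, ENNReal.toReal_pow,
      ENNReal.toReal_ofReal hr.le, ENNReal.coe_toReal, NNReal.coe_real_pi, mul_comm]
  rw [← h1, h2, DL_mean0 hr' h3, add_zero, norm_mul, Complex.norm_real,
    Real.norm_of_nonneg measureReal_nonneg, h5] at h4
  simpa only [Pi.pow_apply, norm_pow] using h4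

theorem DL_hq1 (t : ℝ) (v : Cn n) : hq ((t : ℂ) • (1 : Mx n)) v = t * ∑ j, ‖v j‖ ^ 2 := by
  have h : star v ⬝ᵥ v = ((∑ j, ‖v j‖ ^ 2 : ℝ) : ℂ) := by
    simp only [dotProduct, Pi.star_apply, Complex.ofReal_sum, Complex.ofReal_pow]
    exact Finset.sum_congr rfl fun j _ => by rw [Complex.star_def, Complex.conj_mul']
  rw [hq, smul_mulVec, one_mulVec, dotProduct_smul, h, smul_eq_mul, ← Complex.ofReal_mul,
    Complex.ofReal_re]

theorem DL_le {H H' : Mx n} (h : (H - H').PosSemidef) (v : Cn n) : hq H' v ≤ hq H v := by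
  have h1 := h.re_dotProduct_nonneg v
  rw [sub_mulVec, dotProduct_sub, map_sub] at h1
  exact sub_nonneg.1 h1

omit [T2Space X] [CompactSpace X] in
theorem DL_bd {R c : ℝ} {S : A.ι → Set (Cn n)} (hM : Marg A w R c S) (hw : IsF A w)
    (hf : IsD A f U) (hU : U ∈ 𝓝 ζ) {a : A.ι} (ha : f ζ ∈ (A.e a).source)
    (hS : A.e a (f ζ) ∈ S a) :
    c * ∑ j, ‖deriv (fun z => A.e a (f z)) ζ j‖ ^ 2 ≤ den A w f ζ ∧
      den A w f ζ ≤ c⁻¹ * ∑ j, ‖deriv (fun z => A.e a (f z)) ζ j‖ ^ 2 := by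
  rw [den_eq hw hf hU ha, ← DL_hq1, ← DL_hq1]
  exact ⟨DL_le (hM.ell a _ hS).1 _, DL_le (hM.ell a _ hS).2 _⟩

theorem DL_n1 (v : Cn n) : ‖v‖ ^ 2 ≤ ∑ j, ‖v j‖ ^ 2 := by
  have h0 : 0 ≤ ∑ j, ‖v j‖ ^ 2 := Finset.sum_nonneg fun j _ => sq_nonneg _
  rw [← Real.le_sqrt (norm_nonneg _) h0, pi_norm_le_iff_of_nonneg (Real.sqrt_nonneg _)]
  intro j
  rw [Real.le_sqrt (norm_nonneg _) h0]
  exact Finset.single_le_sum (f := fun j => ‖v j‖ ^ 2) (fun j _ => sq_nonneg _)
    (Finset.mem_univ j)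

theorem DL_n2 (v : Cn n) : ∑ j, ‖v j‖ ^ 2 ≤ n * ‖v‖ ^ 2 := by
  have h := Finset.sum_le_card_nsmul Finset.univ (fun j => ‖v j‖ ^ 2) (‖v‖ ^ 2)
    fun j _ => pow_le_pow_left₀ (norm_nonneg _) (norm_le_pi_norm v j) 2
  simpa using h

theorem Marg.den_bd {R c : ℝ} {S : A.ι → Set (Cn n)} (hM : Marg A w R c S) (hw : IsF A w)
    (hf : IsD A f U) (hU : U ∈ 𝓝 ζ) {a : A.ι} (ha : f ζ ∈ (A.e a).source)
    (hS : A.e a (f ζ) ∈ S a) :
    c * ‖deriv (fun z => A.e a (f z)) ζ‖ ^ 2 ≤ den A w f ζ ∧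
      den A w f ζ ≤ n / c * ‖deriv (fun z => A.e a (f z)) ζ‖ ^ 2 := by
  obtain ⟨h1, h2⟩ := DL_bd hM hw hf hU ha hS
  have hc := hM.c_pos
  refine ⟨(mul_le_mul_of_nonneg_left (DL_n1 _) hc.le).trans h1, h2.trans ?_⟩
  refine (mul_le_mul_of_nonneg_left (DL_n2 _) (inv_pos.2 hc).le).trans_eq ?_
  ring

/-- The length of the image of a segment. -/
theorem Marg.seg {R c : ℝ} {S : A.ι → Set (Cn n)} (hM : Marg A w R c S) (hw : IsF A w)
    (hf : IsD A f U) (hU : IsOpen U) {z₀ z₁ : ℂ} (hs : segment ℝ z₀ z₁ ⊆ U) {a : A.ι}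
    (ha : f z₀ ∈ (A.e a).source) {L : ℝ} (hL : 0 < L)
    (hS : closedBall (A.e a (f z₀)) (2 * L) ⊆ S a)
    (h : ∀ t ∈ Ico (0 : ℝ) 1,
      den A w f (z₀ + t • (z₁ - z₀)) * ‖z₁ - z₀‖ ^ 2 * (1 - t) ≤ c * L ^ 2) :
    f z₁ ∈ (A.e a).source ∧ ‖A.e a (f z₁) - A.e a (f z₀)‖ ≤ 2 * L := by
  have hc := hM.c_pos
  set p₀ := A.e a (f z₀) with hp₀
  set γ : ℝ → ℂ := fun t => z₀ + t • (z₁ - z₀) with hγ
  have hγc : Continuous γ := by fun_prop
  have hγU : ∀ t ∈ Icc (0 : ℝ) 1, γ t ∈ U := fun t ht => hs (by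
    rw [segment_eq_image']
    exact ⟨t, ht, rfl⟩)
  have hT : closedBall p₀ (2 * L) ⊆ (A.e a).target := hS.trans (hM.sub a)
  set D := (A.e a).symm '' closedBall p₀ (2 * L) with hD
  have hDc : IsClosed D :=
    ((isCompact_closedBall _ _).image_of_continuousOn
      ((A.e a).continuousOn_symm.mono hT)).isClosed
  have hD1 : ∀ y ∈ D, y ∈ (A.e a).source ∧ A.e a y ∈ closedBall p₀ (2 * L) := by
    rintro y ⟨v, hv, rfl⟩
    exact ⟨(A.e a).map_target (hT hv), by rwa [(A.e a).right_inv (hT hv)]⟩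
  have hD2 : ∀ y ∈ (A.e a).source, A.e a y ∈ closedBall p₀ (2 * L) → y ∈ D :=
    fun y hy hv => ⟨_, hv, (A.e a).left_inv hy⟩
  have hγ0 : γ 0 = z₀ := by simp [hγ]
  have hγ1 : γ 1 = z₁ := by simp [hγ]
  have key : Icc (0 : ℝ) 1 ⊆ {t | f (γ t) ∈ D} := by
    refine IsClosed.Icc_subset_of_forall_mem_nhdsGT_of_Icc_subset ?_ ?_ ?_
    · rw [inter_comm]
      exact (hf.1.comp hγc.continuousOn hγU).preimage_isClosed_of_isClosed isClosed_Icc hDc
    · change f (γ 0) ∈ D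
      rw [hγ0]
      exact hD2 _ ha (mem_closedBall_self (by positivity))
    · intro t ht hsub
      have hI : ∀ u ∈ Icc 0 t, u ∈ Icc (0 : ℝ) 1 := fun u hu => ⟨hu.1, hu.2.trans ht.2.le⟩
      have hder : ∀ u ∈ Icc 0 t, HasDerivAt (fun u => A.e a (f (γ u)) - p₀)
          ((z₁ - z₀) • deriv (fun z => A.e a (f z)) (γ u)) u := by
        intro u hu
        have h1 := (hf.analyticAt (hU.mem_nhds (hγU u (hI u hu)))
          (hD1 _ (hsub hu)).1).differentiableAt.hasDerivAt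
        have h2 : HasDerivAt γ (z₁ - z₀) u := by
          have h3 := ((hasDerivAt_id u).smul_const (z₁ - z₀)).const_add z₀
          rwa [one_smul] at h3
        exact ((h1.hasFDerivAt.restrictScalars ℝ).comp_hasDerivAt u h2).sub_const p₀
      have hB : ∀ u ∈ Ico 0 t, HasDerivWithinAt (fun u : ℝ => 2 * L * (1 - √(1 - u)))
          (L / √(1 - u)) (Ici u) u := by
        intro u hu
        have h1 : 0 < 1 - u := by linarith [hu.2, ht.2]
        have h2 := ((((hasDerivAt_id u).const_sub 1).sqrt h1.ne').const_sub 1).const_mul (2 * L)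
        refine (h2.congr_deriv ?_).hasDerivWithinAt
        have h3 := Real.sqrt_pos.2 h1
        simp only [id]
        field_simp
      have hbd : ∀ u ∈ Ico 0 t,
          ‖(z₁ - z₀) • deriv (fun z => A.e a (f z)) (γ u)‖ ≤ L / √(1 - u) := by
        intro u hu
        have hu' : u ∈ Icc 0 t := Ico_subset_Icc_self hu
        have h1 : 0 < 1 - u := by linarith [hu.2, ht.2]
        have h2 := (hM.den_bd hw hf (hU.mem_nhds (hγU u (hI u hu'))) (hD1 _ (hsub hu')).1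
          (hS (hD1 _ (hsub hu')).2)).1
        have h3 := h u ⟨hu.1, hu.2.trans ht.2⟩
        have h4 := (mul_le_mul_of_nonneg_right h2
          (mul_nonneg (sq_nonneg ‖z₁ - z₀‖) h1.le)).trans ((mul_assoc _ _ _).symm.trans_le h3)
        rw [mul_assoc] at h4
        have h5 := le_of_mul_le_mul_left h4 hc
        rw [le_div_iff₀ (Real.sqrt_pos.2 h1), norm_smul]
        refine abs_le_of_sq_le_sq' ?_ hL.le |>.2
        rw [mul_pow, mul_pow, Real.sq_sqrt h1.le]
        linarith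
      have hb := image_norm_le_of_norm_deriv_right_le_deriv_boundary'
        (fun u hu => (hder u hu).continuousAt.continuousWithinAt)
        (fun u hu => (hder u (Ico_subset_Icc_self hu)).hasDerivWithinAt)
        (B := fun u : ℝ => 2 * L * (1 - √(1 - u))) (by simp [hγ0, hp₀]) (by fun_prop) hB hbd
        (right_mem_Icc.2 ht.1)
      have hlt : ‖A.e a (f (γ t)) - p₀‖ < 2 * L := by
        refine hb.trans_lt ?_
        have h3 := Real.sqrt_pos.2 (sub_pos.2 ht.2)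
        nlinarith
      have htI : t ∈ Icc 0 t := right_mem_Icc.2 ht.1
      have c1 : ContinuousAt (fun u => f (γ u)) t :=
        (hf.1.continuousAt (hU.mem_nhds (hγU t (hI t htI)))).comp hγc.continuousAt
      have e1 := c1.eventually ((A.e a).open_source.mem_nhds (hD1 _ (hsub htI)).1)
      have e2 := (hder t htI).continuousAt.norm.eventually (Iio_mem_nhds hlt)
      refine mem_nhdsWithin_of_mem_nhds ?_
      filter_upwards [e1, e2] with u h1 h2
      exact hD2 _ h1 (mem_closedBall_iff_norm.2 (le_of_lt h2))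
  have h1 : f (γ 1) ∈ D := key (right_mem_Icc.2 zero_le_one)
  rw [hγ1] at h1
  exact ⟨(hD1 _ h1).1, mem_closedBall_iff_norm.1 (hD1 _ h1).2⟩

/-- A small disc is mapped to one chart. -/
theorem Marg.small {R c : ℝ} {S : A.ι → Set (Cn n)} (hM : Marg A w R c S) (hw : IsF A w)
    {z₀ : ℂ} {ρ B : ℝ} (hf : IsD A f (ball z₀ ρ)) (hB : ∀ z ∈ ball z₀ ρ, den A w f z ≤ B)
    (hρ : 4 * B * ρ ^ 2 ≤ c * R ^ 2) :
    ∃ a, ∀ z ∈ ball z₀ ρ, f z ∈ (A.e a).source ∧ A.e a (f z) ∈ S a := by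
  obtain ⟨a, ha, hS⟩ := hM.cov (f z₀)
  refine ⟨a, fun z hz => ?_⟩
  have hρ0 : 0 < ρ := pos_of_mem_ball hz
  have hR := hM.R_pos
  have hc := hM.c_pos
  have h0 : z₀ ∈ ball z₀ ρ := mem_ball_self hρ0
  have hB0 : 0 ≤ B := (le_trans (by positivity) (hM.den_bd hw hf (isOpen_ball.mem_nhds h0) ha
    (hS (mem_closedBall_self hR.le))).1).trans (hB _ h0)
  have hseg : segment ℝ z₀ z ⊆ ball z₀ ρ := (convex_ball z₀ ρ).segment_subset h0 hz
  have e : 2 * (R / 2) = R := by ring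
  have h := hM.seg hw hf isOpen_ball hseg ha (half_pos hR) (by rwa [e]) fun t ht => by
    have h1 : z₀ + t • (z - z₀) ∈ ball z₀ ρ := hseg (by
      rw [segment_eq_image']
      exact ⟨t, Ico_subset_Icc_self ht, rfl⟩)
    have h2 : ‖z - z₀‖ ^ 2 ≤ ρ ^ 2 :=
      pow_le_pow_left₀ (norm_nonneg _) (mem_ball_iff_norm.1 hz).le 2
    have h3 : ‖z - z₀‖ ^ 2 * (1 - t) ≤ ρ ^ 2 :=
      (mul_le_of_le_one_right (sq_nonneg _) (by linarith [ht.1])).trans h2
    have h4 := (mul_le_mul_of_nonneg_right (hB _ h1)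
      (mul_nonneg (sq_nonneg ‖z - z₀‖) (sub_nonneg.2 ht.2.le))).trans
      (mul_le_mul_of_nonneg_left h3 hB0)
    rw [mul_assoc]
    linarith
  rw [e] at h
  exact ⟨h.1, hS (mem_closedBall_iff_norm.2 h.2)⟩

/-- The sub-mean value inequality for the density. -/
theorem submean (hw : Kae A w) (hK : Brody A w K) : ∃ C θ : ℝ, 0 < C ∧ 0 < θ ∧ θ < 1 ∧
    ∀ (f : ℂ → X) (z₀ : ℂ) (ρ : ℝ), 0 < ρ → IsD A f (ball z₀ ρ) →
      den A w f z₀ * ρ ^ 2 ≤ C * ∫ z in ball z₀ (θ * ρ), den A w f z := by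
  obtain ⟨R, c, S, hM⟩ := exists_marg hw
  have hR := hM.R_pos
  have hc := hM.c_pos
  have hK1 : 0 < |K| + 1 := by positivity
  set τ := min (1 / 2) (c * R ^ 2 / (16 * (|K| + 1))) with hτ
  have hτ0 : 0 < τ := lt_min (by norm_num) (by positivity)
  have hτ1 : τ ≤ 1 / 2 := min_le_left _ _
  have hτ2 : τ * (16 * (|K| + 1)) ≤ c * R ^ 2 := (le_div_iff₀ (by positivity)).1 (min_le_right _ _)
  have hpi := Real.pi_pos
  refine ⟨c⁻¹ * c⁻¹ / (Real.pi * (τ / 2) ^ 2), τ / 2, by positivity, by positivity, by linarith,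
    fun f z₀ ρ hρ hf => ?_⟩
  have hτρ : τ * ρ ≤ ρ / 2 := by nlinarith
  have hsub : ball z₀ (τ * ρ) ⊆ ball z₀ ρ := ball_subset_ball (by linarith)
  have hB : ∀ z ∈ ball z₀ (τ * ρ), den A w f z ≤ (|K| + 1) / (ρ / 2) ^ 2 := by
    intro z hz
    have h1 : ball z (ρ / 2) ⊆ ball z₀ ρ := ball_subset_ball' (by
      have := mem_ball.1 hz
      linarith)
    refine (den_brody hw hK (half_pos hρ) (hf.mono h1)).trans ?_
    exact div_le_div_of_nonneg_right ((le_abs_self K).trans (by linarith)) (sq_nonneg _)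
  obtain ⟨a, ha⟩ := hM.small hw.1 (hf.mono hsub) hB (by
    have e : 4 * ((|K| + 1) / (ρ / 2) ^ 2) * (τ * ρ) ^ 2 = τ * (τ * (16 * (|K| + 1))) := by
      field_simp
      ring
    rw [e]
    exact (mul_le_of_le_one_left (by positivity) (by linarith)).trans hτ2)
  have hr : 0 < τ / 2 * ρ := by positivity
  have hr' : τ / 2 * ρ < τ * ρ := by nlinarith [mul_pos hτ0 hρ]
  have hnb : ∀ z ∈ ball z₀ (τ * ρ), ball z₀ ρ ∈ 𝓝 z := fun z hz =>
    isOpen_ball.mem_nhds (hsub hz)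
  have hd : ∀ j, DifferentiableOn ℂ (fun z => deriv (fun z => A.e a (f z)) z j)
      (ball z₀ (τ * ρ)) := fun j z hz =>
    (differentiableAt_pi.1 (hf.analyticAt (hnb z hz) (ha z hz).1).deriv.differentiableAt
      j).differentiableWithinAt
  have hcb : closedBall z₀ (τ / 2 * ρ) ⊆ ball z₀ (τ * ρ) := closedBall_subset_ball hr'
  have hi : ∀ j, IntegrableOn (fun z => ‖deriv (fun z => A.e a (f z)) z j‖ ^ 2)
      (ball z₀ (τ / 2 * ρ)) := fun j =>
    ((((hd j).continuousOn.mono hcb).norm.pow 2).integrableOn_compact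
      (isCompact_closedBall _ _)).mono_set ball_subset_closedBall
  have hi' : IntegrableOn (den A w f) (ball z₀ (τ / 2 * ρ)) :=
    (((continuousOn_den hw.1 hf isOpen_ball).mono (hcb.trans hsub)).integrableOn_compact
      (isCompact_closedBall _ _)).mono_set ball_subset_closedBall
  have h1 : Real.pi * (τ / 2 * ρ) ^ 2 * ∑ j, ‖deriv (fun z => A.e a (f z)) z₀ j‖ ^ 2 ≤
      ∫ z in ball z₀ (τ / 2 * ρ), ∑ j, ‖deriv (fun z => A.e a (f z)) z j‖ ^ 2 := by
    rw [Finset.mul_sum, integral_finsetSum _ fun j _ => hi j]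
    exact Finset.sum_le_sum fun j _ => DL_mean hr hr' (hd j)
  have h2 : c * ∫ z in ball z₀ (τ / 2 * ρ), ∑ j, ‖deriv (fun z => A.e a (f z)) z j‖ ^ 2 ≤
      ∫ z in ball z₀ (τ / 2 * ρ), den A w f z := by
    rw [← integral_const_mul]
    refine setIntegral_mono_on ((integrable_finsetSum _ fun j _ => hi j).const_mul c) hi'
      measurableSet_ball fun z hz => ?_
    have hz' := hcb (ball_subset_closedBall hz)
    exact (DL_bd hM hw.1 hf (hnb z hz') (ha z hz').1 (ha z hz').2).1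
  have h0 : z₀ ∈ ball z₀ (τ * ρ) := mem_ball_self (by positivity)
  have h3 := (DL_bd hM hw.1 hf (hnb z₀ h0) (ha z₀ h0).1 (ha z₀ h0).2).2
  have h4 := (mul_le_mul_of_nonneg_left h1 hc.le).trans h2
  refine (mul_le_mul_of_nonneg_right h3 (sq_nonneg ρ)).trans ?_
  refine le_trans (le_of_eq ?_) (mul_le_mul_of_nonneg_left h4 (by positivity))
  field_simp

end Vale.Agent.P272
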