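import Vale.Agent.P272.DC

/-! P272, part D: existence of minimisers. -/

open MeasureTheory Set Filter Topology Metric Matrix
open scoped ContDiff ComplexConjugate ComplexOrder

noncomputable section

namespace Vale.Agent.P272

open Vale.Agent.P271

variable {n : ℕ} {X : Type} [TopologicalSpace X] [T2Space X] [CompactSpace X] {A : Atl n X}
  {w η η₀ η₁ η₂ φ ψ : Frm A} {K r : ℝ} {x : X} {f g : ℂ → X} {U : Set ℂ} {ζ : ℂ}

lemma DM_nn (h : Kae A η) : NnF A η := fun a z hz => (h.2 a z hz).posSemidef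

theorem Phi_bdd (hw : Kae A w) (hK : Brody A w K) (h₀ : Kae A η₀) (h₁ : IsF A η₁) (h₂ : IsF A η₂)
    (h0 : 0 < r) (h1 : r < 1) : ∃ C, ∀ x f, Adm A w x f → -C ≤ Phi A η₀ η₁ η₂ r f := by
  obtain ⟨C₁, hC₁⟩ := T_bdd hw hK h₁ h0 h1
  obtain ⟨C₂, hC₂⟩ := T_bdd hw hK h₂ (r := 1 / 2) (by norm_num) (by norm_num)
  refine ⟨C₁ + C₂, fun x f hf => ?_⟩
  have h3 := T_nonneg h₀.1 (DM_nn h₀) f 1
  rw [Phi]
  linarith [(abs_le.1 (hC₁ x f hf)).2, (abs_le.1 (hC₂ x f hf)).2]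

lemma DM_tendsto (hφ : IsF A φ) {I : Type} {l : Filter I} {F : I → ℂ → X}
    (hF : ∀ i, IsD A (F i) (ball 0 1)) (hf : IsD A f (ball 0 1))
    (h : ∀ z₀ ∈ ball (0 : ℂ) 1, ∀ ε > (0 : ℝ), ∃ ρ > (0 : ℝ), ∀ᶠ i in l,
      ∀ z ∈ ball z₀ ρ, |den A φ (F i) z - den A φ f z| ≤ ε) (h0 : 0 < r) (h1 : r < 1) :
    Tendsto (fun i => T A φ (F i) r) l (𝓝 (T A φ f r)) := by
  refine Metric.tendsto_nhds.2 fun ε hε => ?_
  have h2 : ∀ᶠ i in l, ∀ z ∈ closedBall (0 : ℂ) r, |den A φ (F i) z - den A φ f z| ≤ ε := by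
    refine (isCompact_closedBall (0 : ℂ) r).induction_on
      (p := fun S => ∀ᶠ i in l, ∀ z ∈ S, |den A φ (F i) z - den A φ f z| ≤ ε)
      (Eventually.of_forall fun _ _ hz => hz.elim)
      (fun S S' hS hS' => hS'.mono fun i hi z hz => hi z (hS hz))
      (fun S S' hS hS' => (hS.and hS').mono fun i hi z hz => hz.elim (hi.1 z) (hi.2 z))
      fun z hz => ?_
    obtain ⟨ρ, hρ, h3⟩ := h z (closedBall_subset_ball h1 hz) ε hε
    exact ⟨_, mem_nhdsWithin_of_mem_nhds (ball_mem_nhds z hρ), h3⟩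
  refine h2.mono fun i hi => ?_
  rw [Real.dist_eq]
  refine (T_close hφ (hF i) hf h0 h1 fun z hz => hi z (ball_subset_closedBall hz)).trans_lt ?_
  exact mul_lt_of_lt_one_right hε (pow_lt_one₀ h0.le h1 two_ne_zero)

lemma DM_sub {z : ℂ} {ρ : ℝ} (h : ‖z‖ + ρ ≤ 1) : ball z ρ ⊆ ball (0 : ℂ) 1 :=
  ball_subset_ball' (by rwa [dist_zero_right, add_comm])

theorem lsc_Phi (hw : Kae A w) (hK : Brody A w K) (h₀ : Kae A η₀) (h₁ : IsF A η₁) (h₂ : IsF A η₂)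
    (h0 : 0 < r) (h1 : r < 1) {I : Type} (𝒰 : Ultrafilter I) {y : I → X} {F : I → ℂ → X}
    (hF : ∀ i, Adm A w (y i) (F i)) (hy : Tendsto y 𝒰 (𝓝 x)) {b₀ : ℝ}
    (hb : ∀ᶠ i in (𝒰 : Filter I), Phi A η₀ η₁ η₂ r (F i) ≤ b₀) :
    ∃ f, Adm A w x f ∧ ∀ b, (∀ᶠ i in (𝒰 : Filter I), Phi A η₀ η₁ η₂ r (F i) ≤ b) →
      Phi A η₀ η₁ η₂ r f ≤ b := by
  obtain ⟨f, hf, hlim, hden⟩ := limit_disc hw 𝒰 (U := ball 0 1) (F := F) fun z₀ hz₀ => by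
    have hz := mem_ball_zero_iff.1 hz₀
    have hρ : 0 < (1 - ‖z₀‖) / 2 := by linarith
    refine ⟨_, hρ, K / ((1 - ‖z₀‖) / 2) ^ 2, Eventually.of_forall fun i =>
      ⟨(hF i).1.mono (DM_sub (by linarith)), fun z hz' => den_brody hw hK hρ
        ((hF i).1.mono (DM_sub ?_))⟩⟩
    have h2 := norm_sub_norm_le z z₀
    rw [mem_ball, dist_eq_norm] at hz'
    linarith
  have hx : f 0 = x := tendsto_nhds_unique (hlim 0 (mem_ball_self one_pos))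
    (hy.congr fun i => (hF i).2.1.symm)
  have key : ∀ b, (∀ᶠ i in (𝒰 : Filter I), Phi A η₀ η₁ η₂ r (F i) ≤ b) →
      ∀ s ∈ Ioo (0 : ℝ) 1, T A η₀ f s ≤ b + T A η₁ f r + T A η₂ f (1 / 2) := by
    intro b hb s hs
    have t0 := DM_tendsto h₀.1 (fun i => (hF i).1) hf (hden _ h₀.1) hs.1 hs.2
    have t1 := DM_tendsto h₁ (fun i => (hF i).1) hf (hden _ h₁) h0 h1
    have t2 := DM_tendsto h₂ (fun i => (hF i).1) hf (hden _ h₂) (r := 1 / 2) (by norm_num)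
      (by norm_num)
    have h3 := le_of_tendsto ((t0.sub t1).sub t2) (b := b) (hb.mono fun i hi => by
      have h4 := T_mono hw (hF i) h₀.1 (DM_nn h₀) hs.1 hs.2.le le_rfl
      rw [Phi] at hi
      linarith)
    linarith
  have ha : Adm A w x f :=
    ⟨hf, hx, (adm_of_bdd h₀ hf (key b₀ hb)).integrableOn h₀ hw.1 one_pos le_rfl⟩
  refine ⟨f, ha, fun b hb' => ?_⟩
  have h5 := le_of_tendsto (T_tendsto hw ha h₀.1)
    (mem_of_superset (Ioo_mem_nhdsLT one_pos) (key b hb'))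
  rw [Phi]
  linarith

theorem exists_isMin (hw : Kae A w) (hK : Brody A w K) (h₀ : Kae A η₀) (h₁ : IsF A η₁)
    (h₂ : IsF A η₂) (h0 : 0 < r) (h1 : r < 1) (x : X) : ∃ f, IsMin A w η₀ η₁ η₂ r x f := by
  obtain ⟨C, hC⟩ := Phi_bdd hw hK h₀ h₁ h₂ h0 h1
  have hB : BddBelow (Phi A η₀ η₁ η₂ r '' {g | Adm A w x g}) :=
    ⟨-C, by rintro _ ⟨g, hg, rfl⟩; exact hC x g hg⟩
  obtain ⟨u, hu, ht, hm⟩ := exists_seq_tendsto_sInf
    (S := Phi A η₀ η₁ η₂ r '' {g | Adm A w x g}) ⟨_, fun _ => x, (admC_const w x).1, rfl⟩ hB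
  choose F hF hFu using hm
  obtain ⟨f, hf, h⟩ := lsc_Phi hw hK h₀ h₁ h₂ h0 h1 (hyperfilter ℕ) (y := fun _ => x) hF
    tendsto_const_nhds (b₀ := u 0)
    (Eventually.of_forall fun i => (hFu i).trans_le (hu (Nat.zero_le i)))
  refine ⟨f, hf, fun g hg => le_trans (le_of_forall_gt_imp_ge_of_dense fun b hb => h b ?_)
    (csInf_le hB ⟨g, hg, rfl⟩)⟩
  exact ((ht.eventually (gt_mem_nhds hb)).filter_mono Nat.hyperfilter_le_atTop).mono fun i hi =>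
    (hFu i).trans_le hi.le

theorem val_eq (h : IsMin A w η₀ η₁ η₂ r x f) :
    val A w η₀ η₁ η₂ r x = Phi A η₀ η₁ η₂ r f := by
  exact IsLeast.csInf_eq ⟨⟨f, h.1, rfl⟩, by rintro _ ⟨g, hg, rfl⟩; exact h.2 g hg⟩

theorem val_le (hw : Kae A w) (hK : Brody A w K) (h₀ : Kae A η₀) (h₁ : IsF A η₁) (h₂ : IsF A η₂)
    (h0 : 0 < r) (h1 : r < 1) (hf : Adm A w x f) :
    val A w η₀ η₁ η₂ r x ≤ Phi A η₀ η₁ η₂ r f := by
  obtain ⟨g, hg⟩ := exists_isMin hw hK h₀ h₁ h₂ h0 h1 x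
  exact (val_eq hg).trans_le (hg.2 f hf)

theorem lsc_val (hw : Kae A w) (hK : Brody A w K) (h₀ : Kae A η₀) (h₁ : IsF A η₁) (h₂ : IsF A η₂)
    (h0 : 0 < r) (h1 : r < 1) : LowerSemicontinuous (val A w η₀ η₁ η₂ r) := by
  intro x b hb
  by_contra hc
  have hne : (𝓝 x ⊓ 𝓟 {y | ¬b < val A w η₀ η₁ η₂ r y}).NeBot :=
    frequently_iff_neBot.1 (not_eventually.1 hc)
  choose F hF using exists_isMin hw hK h₀ h₁ h₂ h0 h1
  have hle := Ultrafilter.of_le (𝓝 x ⊓ 𝓟 {y | ¬b < val A w η₀ η₁ η₂ r y})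
  have hev := Eventually.mono (p := fun y => ¬b < val A w η₀ η₁ η₂ r y)
    (le_principal_iff.1 (hle.trans inf_le_right)) fun y hy =>
      (val_eq (hF y)).symm.trans_le (not_lt.1 hy)
  obtain ⟨f, hf, h⟩ := lsc_Phi hw hK h₀ h₁ h₂ h0 h1 _ (y := fun y => y) (fun y => (hF y).1)
    (hle.trans inf_le_left) hev
  exact absurd ((val_le hw hK h₀ h₁ h₂ h0 h1 hf).trans (h b hev)) (not_le.2 hb)

end Vale.Agent.P272
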