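import Vale.Agent.P272.DT2
import Vale.Agent.P272.DP0

/-! P272, part D: the uniform inverse of the coordinates. -/

open MeasureTheory Set Filter Topology Metric Matrix
open scoped ContDiff ComplexConjugate ComplexOrder

noncomputable section

namespace Vale.Agent.P272

open Vale.Agent.P271

variable {n : ℕ} {X : Type} [TopologicalSpace X] [T2Space X] [CompactSpace X] {A : Atl n X}
  {f : ℂ → X} {W : A.ι → ℂ → En n} {μ : A.ι → ℂ → ℝ} {E : ℂ → Cn n → X} {ρ : ℝ}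

/-- The good pairs. -/
def DP1_good (A : Atl n X) (W : A.ι → ℂ → En n) (μ : A.ι → ℂ → ℝ) :
    Set (closedBall (0 : ℂ) 1 × X) :=
  {q | (q.1.1, q.2) ∈ tdom A μ ∧ ∀ a, q.2 ∈ (A.e a).source → IsUnit (dcc A W μ a q.1 q.2)}

/-- The coordinates together with the parameter. -/
def DP1_map (A : Atl n X) (f : ℂ → X) (W : A.ι → ℂ → En n) (μ : A.ι → ℂ → ℝ)
    (q : closedBall (0 : ℂ) 1 × X) : closedBall (0 : ℂ) 1 × Cn n := (q.1, cc A f W μ q.1 q.2)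

omit [T2Space X] [CompactSpace X] in
lemma DP1_tend {q : closedBall (0 : ℂ) 1 × X} {T : Set (ℂ × X)}
    (h : ∀ᶠ p : closedBall (0 : ℂ) 1 × X in 𝓝 q, (p.1.1, p.2) ∈ T) :
    Tendsto (fun p : closedBall (0 : ℂ) 1 × X => (p.1.1, p.2)) (𝓝 q) (𝓝[T] (q.1.1, q.2)) :=
  tendsto_nhdsWithin_iff.2 ⟨Continuous.tendsto (by fun_prop) q, h⟩

lemma DP1_tdom {q : closedBall (0 : ℂ) 1 × X} (h : (q.1.1, q.2) ∈ tdom A μ) :
    ∀ᶠ p : closedBall (0 : ℂ) 1 × X in 𝓝 q, (p.1.1, p.2) ∈ tdom A μ :=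
  (DP1_tend (T := closedBall 0 1 ×ˢ univ)
    (Eventually.of_forall fun p => ⟨p.1.2, mem_univ _⟩)).eventually (tdom_mem h)

lemma DP1_cc (hf : Dc A f) (hW : Frame A f W) (hμ : Part A f (src A) μ)
    {q : closedBall (0 : ℂ) 1 × X} (h : (q.1.1, q.2) ∈ tdom A μ) :
    ContinuousAt (fun p : closedBall (0 : ℂ) 1 × X => cc A f W μ p.1 p.2) q := by
  have h1 := Tendsto.comp ((continuousOn_cc hf hW hμ).1 _ h) (DP1_tend (DP1_tdom h))
  rw [Function.comp_def] at h1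
  exact h1

lemma DP1_dcc (hf : Dc A f) (hW : Frame A f W) (hμ : Part A f (src A) μ)
    {q : closedBall (0 : ℂ) 1 × X} (h : (q.1.1, q.2) ∈ tdom A μ) {a : A.ι}
    (ha : q.2 ∈ (A.e a).source) :
    ContinuousAt (fun p : closedBall (0 : ℂ) 1 × X => dcc A W μ a p.1 p.2) q := by
  have h1 := Tendsto.comp (continuousOn_dcc hf hW hμ a (q.1.1, q.2) ⟨h, ha⟩) (DP1_tend
    ((DP1_tdom h).and (continuousAt_snd.eventually ((A.e a).open_source.mem_nhds ha))))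
  rw [Function.comp_def] at h1
  exact h1

lemma DP1_tr {ζ : ℂ} {y : X} (h : (ζ, y) ∈ tdom A μ) {a b : A.ι} (ha : y ∈ (A.e a).source)
    (hb : y ∈ (A.e b).source) : dcc A W μ b ζ y = dcc A W μ a ζ y * gm A b a y := by
  rw [dcc, dcc, Finset.sum_mul]
  refine Finset.sum_congr rfl fun c _ => ContinuousLinearMap.ext fun v => ?_
  by_cases hc : ζ ∈ tsupport (μ c)
  · rw [← gm_mul hb ha (h.2 c hc)]
    rfl
  · rw [image_eq_zero_of_notMem_tsupport hc, Complex.ofReal_zero, ContinuousLinearMap.mul_apply,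
      ContinuousLinearMap.smul_apply, ContinuousLinearMap.smul_apply, zero_smul, zero_smul]

lemma DP1_open (hf : Dc A f) (hW : Frame A f W) (hμ : Part A f (src A) μ) :
    IsOpen (DP1_good A W μ) := by
  refine isOpen_iff_mem_nhds.2 fun q hq => ?_
  obtain ⟨a, ha⟩ := A.cover q.2
  filter_upwards [DP1_tdom hq.1, continuousAt_snd.eventually ((A.e a).open_source.mem_nhds ha),
    (DP1_dcc hf hW hμ hq.1 ha).eventually (Units.isOpen.mem_nhds (hq.2 a ha))] with p h1 h2 h3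
  refine ⟨h1, fun b hb => ?_⟩
  rw [DP1_tr h1 h2 hb]
  exact IsUnit.mul h3 (gm_unit hb h2)

lemma DP1_loc (hf : Dc A f) (hW : Frame A f W) (hμ : Part A f (src A) μ)
    {q : closedBall (0 : ℂ) 1 × X} (hq : q ∈ DP1_good A W μ) :
    (∃ S ∈ 𝓝 q, InjOn (DP1_map A f W μ) S) ∧
      𝓝 (DP1_map A f W μ q) ≤ map (DP1_map A f W μ) (𝓝 q) := by
  obtain ⟨ζ, y⟩ := q
  obtain ⟨a, ha⟩ := A.cover y
  have e1 : (A.e a).symm (A.e a y) = y := (A.e a).left_inv ha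
  have ht := (A.e a).map_source ha
  have hΘ : Tendsto (fun p : closedBall (0 : ℂ) 1 × Cn n => (p.1, (A.e a).symm p.2))
      (𝓝 (ζ, A.e a y)) (𝓝 (ζ, y)) :=
    continuousAt_fst.prodMk_nhds (((A.e a).tendsto_symm ha).comp continuousAt_snd)
  obtain ⟨⟨S, hS, hi⟩, hle⟩ := param_inv (y₀ := ζ) (z₀ := A.e a y)
    (C := fun (z : closedBall (0 : ℂ) 1) v => cc A f W μ z ((A.e a).symm v))
    (D := fun (z : closedBall (0 : ℂ) 1) v => dcc A W μ a z ((A.e a).symm v))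
    (by
      filter_upwards [hΘ.eventually (DP1_tdom hq.1),
        continuousAt_snd.eventually ((A.e a).open_target.mem_nhds ht)] with p h1 h2
      have h3 := hasFDerivAt_cc (f := f) (W := W) h1 ((A.e a).map_target h2)
      rwa [(A.e a).right_inv h2] at h3)
    (by
      have h1 := (DP1_dcc hf hW hμ hq.1 ha).tendsto.comp hΘ
      rw [Function.comp_def] at h1
      rw [ContinuousAt, e1]
      exact h1)
    (by
      have h1 := (DP1_cc hf hW hμ hq.1).tendsto.comp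
        ((tendsto_id (x := 𝓝 ζ)).prodMk_nhds (tendsto_const_nhds (x := y)))
      rw [Function.comp_def] at h1
      rw [e1]
      exact h1)
    (by
      rw [e1]
      exact hq.2 a ha)
  constructor
  · refine ⟨{p | p.2 ∈ (A.e a).source ∧ (p.1, A.e a p.2) ∈ S},
      (continuousAt_snd.eventually ((A.e a).open_source.mem_nhds ha)).and
        ((continuousAt_fst.prodMk_nhds (((A.e a).continuousAt ha).tendsto.comp
          (continuous_snd.tendsto (ζ, y)))).eventually hS), fun p hp p' hp' h => ?_⟩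
    have h1 := hi hp.2 hp'.2 (by
      simp only [(A.e a).left_inv hp.1, (A.e a).left_inv hp'.1]
      exact h)
    exact Prod.ext (Prod.mk.inj h1).1 ((A.e a).injOn hp.1 hp'.1 (Prod.mk.inj h1).2)
  · rw [e1] at hle
    exact hle.trans (map_mono (m := DP1_map A f W μ) hΘ)

theorem exists_inv (hf : Dc A f) (hW : Frame A f W) (hμ : Part A f (src A) μ) :
    ∃ E ρ, Inv A f W μ E ρ := by
  classical
  have hΓ : ∀ ζ : closedBall (0 : ℂ) 1, (ζ, f ζ) ∈ DP1_good A W μ := fun ζ =>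
    ⟨self_mem_tdom hμ ζ.2, fun a ha => by
      rw [dcc_self hW hμ ⟨ζ.2, ha⟩]
      exact isUnit_ringInverse.2 (hW.unit a ζ ⟨ζ.2, ha⟩)⟩
  obtain ⟨t, ht, hΓt, hi⟩ := Set.InjOn.exists_isOpen_superset (f := DP1_map A f W μ)
    (s := range fun ζ : closedBall (0 : ℂ) 1 => (ζ, f ζ))
    (by
      rintro _ ⟨ζ, rfl⟩ _ ⟨ζ', rfl⟩ h
      rw [show ζ = ζ' from congrArg Prod.fst h])
    (isCompact_range (continuous_id.prodMk hf.2.restrict))
    (by
      rintro _ ⟨ζ, rfl⟩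
      exact continuousAt_fst.prodMk (DP1_cc hf hW hμ (hΓ ζ).1))
    (by
      rintro _ ⟨ζ, rfl⟩
      exact (DP1_loc hf hW hμ (hΓ ζ)).1)
  obtain ⟨Ω, hΩ⟩ : ∃ Ω, Ω = t ∩ DP1_good A W μ := ⟨_, rfl⟩
  have ho : IsOpen Ω := hΩ ▸ ht.inter (DP1_open hf hW hμ)
  have hg : Ω ⊆ DP1_good A W μ := hΩ ▸ inter_subset_right
  have hi' : InjOn (DP1_map A f W μ) Ω := hi.mono (hΩ ▸ inter_subset_left)
  have hΓ' : ∀ ζ : closedBall (0 : ℂ) 1, (ζ, f ζ) ∈ Ω := fun ζ => hΩ ▸ ⟨hΓt ⟨ζ, rfl⟩, hΓ ζ⟩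
  have h0 : ∀ ζ : closedBall (0 : ℂ) 1, DP1_map A f W μ (ζ, f ζ) = (ζ, 0) := fun ζ =>
    Prod.ext rfl (cc_self ζ)
  have him : IsOpen (DP1_map A f W μ '' Ω) := isOpen_iff_mem_nhds.2 (by
    rintro _ ⟨q, hq, rfl⟩
    exact (DP1_loc hf hW hμ (hg hq)).2 (image_mem_map (ho.mem_nhds hq)))
  obtain ⟨U, V, -, hV, hU, hV0, hUV⟩ := generalized_tube_lemma isCompact_univ
    (isCompact_singleton (x := (0 : Cn n))) him (by
      rintro ⟨ζ, _⟩ ⟨-, rfl⟩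
      exact ⟨_, hΓ' ζ, h0 ζ⟩)
  obtain ⟨ρ, hρ, hρV⟩ := Metric.isOpen_iff.1 hV 0 (hV0 rfl)
  haveI : Nonempty (closedBall (0 : ℂ) 1 × X) := ⟨(⟨0, mem_closedBall_self zero_le_one⟩, f 0)⟩
  obtain ⟨G, hG⟩ : ∃ G, G = Function.invFunOn (DP1_map A f W μ) Ω := ⟨_, rfl⟩
  have hl : LeftInvOn G (DP1_map A f W μ) Ω := hG ▸ hi'.leftInvOn_invFunOn
  have hm : ∀ ζ, ∀ u ∈ ball (0 : Cn n) ρ, (ζ, u) ∈ DP1_map A f W μ '' Ω := fun ζ u hu =>
    hUV ⟨hU (mem_univ _), hρV hu⟩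
  have hc : ContinuousOn G (DP1_map A f W μ '' Ω) := by
    rintro _ ⟨q, hq, rfl⟩
    refine ContinuousAt.continuousWithinAt ?_
    rw [ContinuousAt, hl hq]
    refine Tendsto.mono_left (tendsto_map' ?_) (DP1_loc hf hW hμ (hg hq)).2
    exact tendsto_id.congr' (mem_of_superset (ho.mem_nhds hq) fun p hp => (hl hp).symm)
  have key : ∀ ζ, ∀ u ∈ ball (0 : Cn n) ρ, (ζ, (G (ζ, u)).2) ∈ DP1_good A W μ ∧
      cc A f W μ ζ (G (ζ, u)).2 = u := fun ζ u hu => by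
    obtain ⟨⟨ζ', y⟩, hq, h⟩ := hm ζ u hu
    obtain ⟨rfl, h2⟩ := Prod.mk.inj h
    rw [← h, hl hq]
    exact ⟨hg hq, h2⟩
  refine ⟨fun ζ u => if h : ζ ∈ closedBall (0 : ℂ) 1 then (G (⟨ζ, h⟩, u)).2 else f ζ, ρ, hρ, ?_,
    fun ζ hζ => ?_, fun ζ hζ u hu => ?_, fun a ζ hζ ha u hu => ?_, fun ζ hζ u hu a ha => ?_⟩
  · rw [continuousOn_iff_continuous_restrict]
    refine (continuous_snd.comp (hc.comp_continuous
      (f := fun q : ↥(closedBall (0 : ℂ) 1 ×ˢ ball (0 : Cn n) ρ) =>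
        ((⟨q.1.1, q.2.1⟩ : closedBall (0 : ℂ) 1), q.1.2)) (by fun_prop)
      fun q => hm _ _ q.2.2)).congr fun q => ?_
    exact (dif_pos (t := fun h => (G (⟨q.1.1, h⟩, q.1.2)).2) q.2.1).symm
  · rw [dif_pos hζ, ← h0, hl (hΓ' _)]
  · rw [dif_pos hζ]
    exact (key ⟨ζ, hζ⟩ u hu).2
  · rw [dif_pos hζ]
    exact (key ⟨ζ, hζ⟩ u hu).1.1.2 a ha
  · rw [dif_pos hζ] at ha ⊢
    rw [(hasFDerivAt_cc (key ⟨ζ, hζ⟩ u hu).1.1 ha).fderiv]
    exact (key ⟨ζ, hζ⟩ u hu).1.2 a ha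

end Vale.Agent.P272
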