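import Vale.Agent.P272.DT2
import Vale.Agent.P272.DP0

/-! P272, part D: properties of the inverse. -/

open MeasureTheory Set Filter Topology Metric Matrix
open scoped ContDiff ComplexConjugate ComplexOrder

noncomputable section

namespace Vale.Agent.P272

open Vale.Agent.P271

variable {n : ℕ} {X : Type} [TopologicalSpace X] [T2Space X] [CompactSpace X] {A : Atl n X}
  {f : ℂ → X} {W : A.ι → ℂ → En n} {μ : A.ι → ℂ → ℝ} {E : ℂ → Cn n → X} {ρ : ℝ}

theorem Inv.tdom (h : Inv A f W μ E ρ) {ζ : ℂ} (hζ : ζ ∈ closedBall (0 : ℂ) 1) {u : Cn n}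
    (hu : u ∈ ball (0 : Cn n) ρ) : (ζ, E ζ u) ∈ tdom A μ := ⟨hζ, fun b hb => h.mem b ζ hζ hb u hu⟩

theorem DP2_cont (h : Inv A f W μ E ρ) {ζ : ℂ} (hζ : ζ ∈ closedBall (0 : ℂ) 1) {u : Cn n}
    (hu : u ∈ ball (0 : Cn n) ρ) : ContinuousAt (E ζ) u := by
  have h1 : ContinuousOn (E ζ) (ball 0 ρ) :=
    h.cont.comp (f := fun v : Cn n => (ζ, v)) (by fun_prop) fun v hv => ⟨hζ, hv⟩
  exact h1.continuousAt (isOpen_ball.mem_nhds hu)

theorem DP2_ev (h : Inv A f W μ E ρ) {ζ : ℂ} (hζ : ζ ∈ closedBall (0 : ℂ) 1) {u : Cn n}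
    (hu : u ∈ ball (0 : Cn n) ρ) {a : A.ι} (ha : E ζ u ∈ (A.e a).source) :
    ∀ᶠ v in 𝓝 u, (A.e a).symm (A.e a (E ζ v)) = E ζ v := by
  filter_upwards [(DP2_cont h hζ hu).preimage_mem_nhds ((A.e a).open_source.mem_nhds ha)]
    with v hv using (A.e a).left_inv hv

theorem Inv.hasFDerivAt (h : Inv A f W μ E ρ) {ζ : ℂ} (hζ : ζ ∈ closedBall (0 : ℂ) 1) {u : Cn n}
    (hu : u ∈ ball (0 : Cn n) ρ) {a : A.ι} (ha : E ζ u ∈ (A.e a).source) :
    IsUnit (dcc A W μ a ζ (E ζ u)) ∧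
      HasFDerivAt (fun v => A.e a (E ζ v)) (Ring.inverse (dcc A W μ a ζ (E ζ u))) u := by
  have hc := hasFDerivAt_cc (f := f) (W := W) (h.tdom hζ hu) ha
  have hU : IsUnit (dcc A W μ a ζ (E ζ u)) := hc.fderiv ▸ h.unit ζ hζ u hu a ha
  refine ⟨hU, ?_⟩
  have hg : ContinuousAt (fun v => A.e a (E ζ v)) u :=
    ((A.e a).continuousAt ha).comp (DP2_cont h hζ hu)
  have key := HasFDerivAt.of_comp_of_leftInverse (g := fun v => A.e a (E ζ v))
    (f'symm := Ring.inverse (dcc A W μ a ζ (E ζ u))) hg hc (hasFDerivAt_id u) (by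
      filter_upwards [DP2_ev h hζ hu ha, isOpen_ball.mem_nhds hu] with v h1 h2
      simp only [Function.comp, h1, id]
      exact h.inv ζ hζ v h2) (fun v => by
      rw [← mul_apply_eq_comp, Ring.inverse_mul_cancel _ hU]
      rfl)
  rwa [ContinuousLinearMap.comp_id] at key

theorem Inv.der (h : Inv A f W μ E ρ) (hW : Frame A f W) (hμ : Part A f (src A) μ) {a : A.ι}
    {ζ : ℂ} (hζ : ζ ∈ dom A f a) : HasFDerivAt (fun u => A.e a (E ζ u)) (W a ζ) 0 := by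
  have h0 := h.zero ζ hζ.1
  have h1 := (h.hasFDerivAt hζ.1 (mem_ball_self h.pos) (a := a) (by rw [h0]; exact hζ.2)).2
  rwa [h0, dcc_self hW hμ hζ, Ring.inverse_inverse (hW.unit a ζ hζ)] at h1

theorem Inv.qs (h : Inv A f W μ E ρ) (hf : Dc A f) (hW : Frame A f W) (hμ : Part A f (src A) μ) :
    QS (fun ζ u => qq A f W μ ζ (E ζ u)) ρ := by
  refine ⟨h.pos, ?_, fun ζ hζ u hu => ?_, fun ζ hζ => ?_, fun ζ hζ => ?_⟩
  · exact (continuousOn_cc hf hW hμ).2.comp (f := fun q : ℂ × Cn n => (q.1, E q.1 q.2))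
      (continuousOn_fst.prodMk h.cont) fun q hq => h.tdom hq.1 hq.2
  · obtain ⟨a, ha⟩ := A.cover (E ζ u)
    have h1 := (analyticAt_cc (f := f) (W := W) (h.tdom hζ hu) ha).2.differentiableAt
    have h2 := h1.comp u (h.hasFDerivAt hζ hu ha).2.differentiableAt
    refine (h2.congr_of_eventuallyEq ?_).differentiableWithinAt
    filter_upwards [DP2_ev h hζ hu ha] with v hv
    simp only [Function.comp, hv]
  · simp only [h.zero ζ hζ, qq_self]
  · obtain ⟨a, ha⟩ := A.cover (f ζ)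
    have h0 := h.zero ζ hζ
    have h1 := hasFDerivAt_qq_self hW hμ (a := a) ⟨hζ, ha⟩
    have h3 := h.der hW hμ (a := a) ⟨hζ, ha⟩
    have h1' : HasFDerivAt (fun z => qq A f W μ ζ ((A.e a).symm z)) (0 : En n)
        (A.e a (E ζ 0)) := by rwa [h0]
    have h2 := h1'.comp 0 h3
    rw [ContinuousLinearMap.zero_comp] at h2
    refine h2.congr_of_eventuallyEq ?_
    filter_upwards [DP2_ev h hζ (mem_ball_self h.pos) (a := a) (by rw [h0]; exact ha)] with v hv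
    simp only [Function.comp, hv]

end Vale.Agent.P272
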