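import Vale.Agent.P272.DS1

/-! P272, part D: the chain rule for the weak `dbar` equation. -/

open MeasureTheory Set Filter Topology Metric Matrix
open scoped ContDiff ComplexConjugate ComplexOrder

noncomputable section

namespace Vale.Agent.P272

open Vale.Agent.P271

variable {F G : Type} [NormedAddCommGroup F] [NormedSpace ℂ F] [NormedAddCommGroup G]
  [NormedSpace ℂ G] {u u' β β' : ℂ → F} {ζ : ℂ}

theorem DS1b_part {Ψ : ℂ × F → G} {a : F} (hΨ : DifferentiableAt ℝ Ψ (ζ, a))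
    (hc : DifferentiableAt ℂ (fun y => Ψ (ζ, y)) a) :
    dbar (fun y => Ψ (y, a)) ζ = (2 : ℂ)⁻¹ • (fderiv ℝ Ψ (ζ, a) (1, 0) +
      Complex.I • fderiv ℝ Ψ (ζ, a) (Complex.I, 0)) ∧
    ∀ w, fderiv ℂ (fun y => Ψ (ζ, y)) a w = fderiv ℝ Ψ (ζ, a) (0, w) := by
  have h1 : HasFDerivAt (fun y => Ψ (y, a)) _ ζ :=
    hΨ.hasFDerivAt.comp ζ (hasFDerivAt_prodMk_left ζ a)
  have h2 : HasFDerivAt (fun y => Ψ (ζ, y)) _ a :=
    hΨ.hasFDerivAt.comp a (hasFDerivAt_prodMk_right ζ a)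
  refine ⟨by rw [dbar, h1.fderiv]; rfl, fun w => ?_⟩
  exact DFunLike.congr_fun ((hc.hasFDerivAt.restrictScalars ℝ).unique h2) w

theorem DS1b_comp {Ψ : ℂ × F → G} (hu : DifferentiableAt ℝ u ζ)
    (hΨ : DifferentiableAt ℝ Ψ (ζ, u ζ)) (hc : DifferentiableAt ℂ (fun y => Ψ (ζ, y)) (u ζ)) :
    dbar (fun z => Ψ (z, u z)) ζ =
      dbar (fun y => Ψ (y, u ζ)) ζ + fderiv ℂ (fun y => Ψ (ζ, y)) (u ζ) (dbar u ζ) := by
  have h1 : HasFDerivAt (fun z => Ψ (z, u z)) _ ζ :=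
    hΨ.hasFDerivAt.comp ζ ((hasFDerivAt_id ζ).prodMk hu.hasFDerivAt)
  have h2 : ∀ e, fderiv ℝ (fun z => Ψ (z, u z)) ζ e = fderiv ℝ Ψ (ζ, u ζ) (e, 0) +
      fderiv ℂ (fun y => Ψ (ζ, y)) (u ζ) (fderiv ℝ u ζ e) := fun e => by
    rw [h1.fderiv, (DS1b_part hΨ hc).2, ← map_add, Prod.mk_add_mk, add_zero, zero_add]
    rfl
  rw [(DS1b_part hΨ hc).1, dbar, dbar, h2, h2, map_smul, map_add, map_smul]
  module

theorem DBAt.comp [FiniteDimensional ℂ F] (h : DBAt u β ζ) {Ψ : ℂ × F → G}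
    (hΨ : ContDiffAt ℝ 1 Ψ (ζ, u ζ))
    (hc : ∀ᶠ q in 𝓝 (ζ, u ζ), DifferentiableAt ℂ (fun y => Ψ (q.1, y)) q.2) :
    DBAt (fun z => Ψ (z, u z))
      (fun z => dbar (fun y => Ψ (y, u z)) z + fderiv ℂ (fun y => Ψ (z, y)) (u z) (β z)) ζ := by
  have := FiniteDimensional.proper ℂ F
  obtain ⟨U, hU, h1⟩ := hΨ.contDiffOn le_rfl (by simp)
  obtain ⟨r, hr, hb⟩ := Metric.eventually_nhds_iff_ball.1 (hc.and hU)
  replace h1 : ContDiffOn ℝ 1 Ψ (ball (ζ, u ζ) r) := h1.mono fun q hq => (hb q hq).2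
  have hd : ∀ q ∈ ball (ζ, u ζ) r, DifferentiableAt ℝ Ψ q := fun q hq =>
    (h1.contDiffAt (isOpen_ball.mem_nhds hq)).differentiableAt one_ne_zero
  have hK := closedBall_subset_ball (x := (ζ, u ζ)) (half_lt_self hr)
  have h2 : ContinuousOn (fun x : (ℂ × F) × F => fderiv ℝ Ψ x.1)
      (closedBall (ζ, u ζ) (r / 2) ×ˢ closedBall (β ζ) 2) :=
    (h1.continuousOn_fderiv_of_isOpen isOpen_ball le_rfl).comp continuousOn_fst fun x hx => hK hx.1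
  have h3 : ContinuousOn (fun x : (ℂ × F) × F => (Ψ x.1, (2 : ℂ)⁻¹ • (fderiv ℝ Ψ x.1 (1, 0) +
      Complex.I • fderiv ℝ Ψ x.1 (Complex.I, 0)) + fderiv ℝ Ψ x.1 (0, x.2)))
      (closedBall (ζ, u ζ) (r / 2) ×ˢ closedBall (β ζ) 2) :=
    (h1.continuousOn.comp continuousOn_fst fun x hx => hK hx.1).prodMk
      ((((h2.clm_apply continuousOn_const).add ((h2.clm_apply continuousOn_const).const_smul
        Complex.I)).const_smul (2 : ℂ)⁻¹).add (h2.clm_apply (continuousOn_const.prodMk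
          continuousOn_snd)))
  have h4 := Metric.uniformContinuousOn_iff_le.1 (((isCompact_closedBall _ _).prod
    (isCompact_closedBall _ _)).uniformContinuousOn_of_continuous h3)
  obtain ⟨ρ, hρ, hp, h⟩ := DS1_shrink h (((h.continuousAt.1.eventually (closedBall_mem_nhds _
    (half_pos (half_pos hr)))).and (h.continuousAt.2.eventually (closedBall_mem_nhds _
      one_pos))).and (closedBall_mem_nhds ζ (half_pos hr)))
  refine ⟨ρ, hρ, fun ε hε => ?_⟩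
  obtain ⟨δ, hδ, h5⟩ := h4 ε hε
  obtain ⟨v, h6, h7⟩ := h (min δ (min 1 (r / 2 / 2))) (by positivity)
  simp only [le_min_iff, ← dist_eq_norm] at h7
  have m1 : ∀ z ∈ ball ζ ρ, (z, v z) ∈ closedBall (ζ, u ζ) (r / 2) := fun z hz =>
    max_le (hp z hz).2 ((dist_triangle _ _ _).trans
      ((add_le_add (h7 z hz).1.2.2 (hp z hz).1.1).trans_eq (add_halves _)))
  have m2 : ∀ z ∈ ball ζ ρ, (z, u z) ∈ closedBall (ζ, u ζ) (r / 2) := fun z hz =>
    max_le (hp z hz).2 (le_trans (hp z hz).1.1 (half_le_self (half_pos hr).le))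
  refine ⟨fun z => Ψ (z, v z), h1.comp (contDiffOn_id.prodMk h6) fun z hz => hK (m1 z hz),
    fun z hz => ?_⟩
  have h8 := h5 ((z, v z), dbar v z) ⟨m1 z hz, (dist_triangle _ _ _).trans
      ((add_le_add (h7 z hz).2.2.1 (hp z hz).1.2).trans_eq one_add_one_eq_two)⟩
    ((z, u z), β z) ⟨m2 z hz, le_trans (hp z hz).1.2 one_le_two⟩
    (max_le (max_le ((dist_self z).trans_le hδ.le) (h7 z hz).1.1) (h7 z hz).2.1)
  have e1 := DS1b_part (hd _ (hK (m1 z hz))) (hb _ (hK (m1 z hz))).1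
  have e2 := DS1b_part (hd _ (hK (m2 z hz))) (hb _ (hK (m2 z hz))).1
  rw [DS1b_comp (DS1_diff h6 hz) (hd _ (hK (m1 z hz))) (hb _ (hK (m1 z hz))).1, e1.1, e1.2]
  simp only [e2.1, e2.2, ← dist_eq_norm]
  exact max_le_iff.1 h8

/-- The chain rule for differentiable functions. -/
theorem dbar_comp {Ψ : ℂ × F → G} (hu : DifferentiableAt ℝ u ζ)
    (hΨ : DifferentiableAt ℝ Ψ (ζ, u ζ)) (hc : DifferentiableAt ℂ (fun y => Ψ (ζ, y)) (u ζ)) :
    dbar (fun z => Ψ (z, u z)) ζ =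
      dbar (fun y => Ψ (y, u ζ)) ζ + fderiv ℂ (fun y => Ψ (ζ, y)) (u ζ) (dbar u ζ) := by
  exact DS1b_comp hu hΨ hc

end Vale.Agent.P272
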