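import Vale.Agent.P272.DP1
import Vale.Agent.P272.DP2
import Vale.Agent.P272.DS1b

/-! P272, part D: the tube. -/

open MeasureTheory Set Filter Topology Metric Matrix
open scoped ContDiff ComplexConjugate ComplexOrder

noncomputable section

namespace Vale.Agent.P272

open Vale.Agent.P271

variable {n : ℕ} {X : Type} [TopologicalSpace X] [T2Space X] [CompactSpace X] {A : Atl n X}
  {f : ℂ → X} {W : A.ι → ℂ → En n} {μ : A.ι → ℂ → ℝ} {E : ℂ → Cn n → X} {ρ : ℝ}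

theorem DP3_inv {V : Type} [NormedAddCommGroup V] [NormedSpace ℝ V] [FiniteDimensional ℝ V]
    {Φ g : V → V} {p : V} (hΦ : ContDiffAt ℝ 1 Φ (g p))
    (hi : Function.Injective (fderiv ℝ Φ (g p))) (hg : ContinuousAt g p)
    (hr : ∀ᶠ q in 𝓝 p, Φ (g q) = q) : ContDiffAt ℝ 1 g p := by
  have := FiniteDimensional.complete ℝ V
  have hd : HasFDerivAt Φ ((LinearEquiv.ofInjectiveEndo (fderiv ℝ Φ (g p)).toLinearMap
      hi).toContinuousLinearEquiv : V →L[ℝ] V) (g p) :=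
    (hΦ.differentiableAt one_ne_zero).hasFDerivAt
  have h1 := hΦ.to_localInverse hd one_ne_zero
  rw [hr.self_of_nhds] at h1
  refine h1.congr_of_eventuallyEq ?_
  filter_upwards [hg.eventually (hΦ.hasStrictFDerivAt' hd one_ne_zero).eventually_left_inverse, hr]
    with q h2 h3
  rw [h3] at h2
  exact h2.symm

theorem DP3_canc {L : En n} (hU : IsUnit L) (y : Cn n) : (Ring.inverse L : En n) (L y) = y := by
  rw [← mul_apply_eq_comp, Ring.inverse_mul_cancel _ hU]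
  rfl

theorem DP3_cont (h : Inv A f W μ E ρ) {ζ : ℂ} (hζ : ζ ∈ ball (0 : ℂ) 1) {u : Cn n}
    (hu : u ∈ ball (0 : Cn n) ρ) : ContinuousAt (fun q : ℂ × Cn n => E q.1 q.2) (ζ, u) :=
  h.cont.continuousAt (prod_mem_nhds (closedBall_mem_nhds_of_mem hζ) (isOpen_ball.mem_nhds hu))

theorem DP3_ev (h : Inv A f W μ E ρ) {ζ : ℂ} (hζ : ζ ∈ ball (0 : ℂ) 1) {u : Cn n}
    (hu : u ∈ ball (0 : Cn n) ρ) {a : A.ι} (ha : E ζ u ∈ (A.e a).source) :
    ∀ᶠ q : ℂ × Cn n in 𝓝 (ζ, u), q.1 ∈ ball (0 : ℂ) 1 ∧ q.2 ∈ ball (0 : Cn n) ρ ∧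
      E q.1 q.2 ∈ (A.e a).source := by
  filter_upwards [(DP3_cont h hζ hu).preimage_mem_nhds ((A.e a).open_source.mem_nhds ha),
    prod_mem_nhds (isOpen_ball.mem_nhds hζ) (isOpen_ball.mem_nhds hu)] with q h1 h2
  exact ⟨h2.1, h2.2, h1⟩

theorem Inv.contDiffAt (h : Inv A f W μ E ρ) (hf : Dc A f) (hW : Frame A f W)
    (hμ : Part A f (src A) μ) {ζ : ℂ} (hζ : ζ ∈ ball (0 : ℂ) 1) {u : Cn n}
    (hu : u ∈ ball (0 : Cn n) ρ) {a : A.ι} (ha : E ζ u ∈ (A.e a).source) :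
    ContDiffAt ℝ 1 (fun q : ℂ × Cn n => A.e a (E q.1 q.2)) (ζ, u) ∧
      dbar (fun z => A.e a (E z u)) ζ +
        fderiv ℂ (fun v => A.e a (E ζ v)) u (qq A f W μ ζ (E ζ u)) = 0 := by
  have hζ' := ball_subset_closedBall hζ
  have ht := h.tdom hζ' hu
  obtain ⟨hc, hq⟩ := contDiffAt_cc hf hW hμ hζ ht ha
  have hcc := hasFDerivAt_cc (f := f) (W := W) ht ha
  obtain ⟨hU, hE⟩ := h.hasFDerivAt hζ' hu ha
  have hc1 : ContDiffAt ℝ 1 (fun q : ℂ × Cn n => cc A f W μ q.1 ((A.e a).symm q.2))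
      (ζ, A.e a (E ζ u)) := hc.of_le (by exact_mod_cast le_top)
  have hcd := hc1.differentiableAt one_ne_zero
  have hev : ∀ᶠ q : ℂ × Cn n in 𝓝 (ζ, u),
      cc A f W μ q.1 ((A.e a).symm (A.e a (E q.1 q.2))) = q.2 := by
    filter_upwards [DP3_ev h hζ hu ha] with q hq
    rw [(A.e a).left_inv hq.2.2]
    exact h.inv _ (ball_subset_closedBall hq.1) _ hq.2.1
  have h1 : ContDiffAt ℝ 1 (fun q : ℂ × Cn n => (q.1, A.e a (E q.1 q.2))) (ζ, u) := by
    refine DP3_inv (Φ := fun q : ℂ × Cn n => (q.1, cc A f W μ q.1 ((A.e a).symm q.2)))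
      (contDiffAt_fst.prodMk hc1) ?_ (continuousAt_fst.prodMk
        (ContinuousAt.comp (f := fun q : ℂ × Cn n => E q.1 q.2) ((A.e a).continuousAt ha)
          (DP3_cont h hζ hu))) (hev.mono fun q hq => Prod.ext rfl hq)
    rw [(hasFDerivAt_fst.prodMk hcd.hasFDerivAt).fderiv, injective_iff_map_eq_zero]
    rintro ⟨x, y⟩ hxy
    have hx : x = 0 := congrArg Prod.fst hxy
    subst hx
    have h2 := (hcd.hasFDerivAt.comp (A.e a (E ζ u))
      (hasFDerivAt_prodMk_right (𝕜 := ℝ) ζ (A.e a (E ζ u)))).unique (hcc.restrictScalars ℝ)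
    have h3 : dcc A W μ a ζ (E ζ u) y = 0 :=
      (congrArg (fun L : Cn n →L[ℝ] Cn n => L y) h2).symm.trans (congrArg Prod.snd hxy)
    exact Prod.ext rfl ((DP3_canc hU y).symm.trans (by rw [h3, map_zero]; rfl))
  refine ⟨h1.snd, ?_⟩
  have h2 : DifferentiableAt ℝ (fun z => A.e a (E z u)) ζ :=
    (h1.snd.differentiableAt one_ne_zero).comp ζ (f := fun z : ℂ => (z, u)) (by fun_prop)
  have h3 := dbar_comp (u := fun z => A.e a (E z u))
    (Ψ := fun q : ℂ × Cn n => cc A f W μ q.1 ((A.e a).symm q.2)) h2 hcd hcc.differentiableAt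
  have h4 : (fun z => cc A f W μ z ((A.e a).symm (A.e a (E z u)))) =ᶠ[𝓝 ζ] fun _ => u :=
    (show ContinuousAt (fun z : ℂ => (z, u)) ζ by fun_prop).eventually hev
  have h5 : dbar (fun z => cc A f W μ z ((A.e a).symm (A.e a (E z u)))) ζ = 0 := by
    rw [dbar, h4.fderiv_eq]
    simp
  simp only [h5, (A.e a).left_inv ha, hq, hcc.fderiv] at h3
  rw [hE.fderiv, add_comm, ← DP3_canc hU (dbar _ ζ), ← map_add, ← h3, map_zero]

theorem Inv.isD (h : Inv A f W μ E ρ) (hf : Dc A f) (hW : Frame A f W) (hμ : Part A f (src A) μ)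
    {u : ℂ → Cn n} (hm : MapsTo u (ball 0 1) (ball 0 ρ))
    (hu : DB u fun ζ => qq A f W μ ζ (E ζ (u ζ))) : IsD A (fun ζ => E ζ (u ζ)) (ball 0 1) := by
  refine isD_of_local fun ζ hζ => ?_
  have h1 := hu ζ hζ
  have h2 : ContinuousAt (fun z => (z, u z)) ζ := continuousAt_id.prodMk h1.continuousAt.1
  obtain ⟨a, ha⟩ := A.cover (E ζ (u ζ))
  have hev := DP3_ev h hζ (hm hζ) ha
  refine ⟨ContinuousAt.comp (f := fun z => (z, u z)) (DP3_cont h hζ (hm hζ)) h2, a, ha, ?_⟩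
  have h3 := h1.comp (Ψ := fun q : ℂ × Cn n => A.e a (E q.1 q.2))
    (h.contDiffAt hf hW hμ hζ (hm hζ) ha).1 (hev.mono fun q hq =>
      (h.hasFDerivAt (ball_subset_closedBall hq.1) hq.2.1 hq.2.2).2.differentiableAt)
  refine (h3.analyticAt ?_).differentiableAt
  filter_upwards [h2.eventually hev] with z hz
  exact (h.contDiffAt hf hW hμ hz.1 hz.2.1 hz.2.2).2

theorem exists_tube (hf : Dc A f) (hW : Frame A f W) : ∃ E Q ρ, Tube A f W E Q ρ := by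
  obtain ⟨μ, hμ⟩ := exists_part (A := A) hf.2 (V := src A) (fun a => (A.e a).open_source) A.cover
  obtain ⟨E, ρ, h⟩ := exists_inv hf hW hμ
  refine ⟨E, _, ρ, h.qs hf hW hμ, h.cont, h.zero, fun ζ hζ a u hu =>
    (h.hasFDerivAt hζ hu.1 hu.2).2.differentiableAt.differentiableWithinAt,
    fun a ζ hζ => h.der hW hμ hζ, fun ζ hζ => ⟨cc A f W μ ζ, fun u hu => ⟨h.inv ζ hζ u hu,
      fun a ha => (hasFDerivAt_cc (h.tdom hζ hu) ha).differentiableAt⟩⟩,
    fun u hm hu => h.isD hf hW hμ hm hu⟩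

end Vale.Agent.P272
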