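import Vale.Agent.P272.DP3
import Vale.Agent.P272.DP4
import Vale.Agent.P272.DJ

/-! P272, part D: one parameter families with a given tangent. -/

open MeasureTheory Set Filter Topology Metric Matrix
open scoped ContDiff ComplexConjugate ComplexOrder

noncomputable section

namespace Vale.Agent.P272

open Vale.Agent.P271

variable {n : ℕ} {X : Type} [TopologicalSpace X] [T2Space X] [CompactSpace X] {A : Atl n X}
  {f : ℂ → X} {W : A.ι → ℂ → En n} {μ : A.ι → ℂ → ℝ} {E : ℂ → Cn n → X} {ρ : ℝ}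

theorem exists_fam2 (hf : Dc A f) (hW : Frame A f W) {p : ℂ → Cn n} (hp : Differentiable ℂ p)
    (h0 : p 0 = 0) : ∃ Z τ, Fam2 A Z τ ∧ (∀ ζ ∈ closedBall (0 : ℂ) 1, Z ζ 0 = f ζ) ∧
      (∀ s ∈ ball (0 : ℂ) τ, Z 0 s = f 0) ∧ ∀ φ, IsF A φ → ∀ ζ ∈ closedBall (0 : ℂ) 1,
        den A φ (Z ζ) 0 = hq (Hm A f W φ ζ) (p ζ) := by
  obtain ⟨E, Q, ρ, hE⟩ := exists_tube hf hW
  let i : ℂ →L[ℂ] Cn 1 := ContinuousLinearMap.pi fun _ => ContinuousLinearMap.id ℂ ℂ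
  let P : ℂ → Cn 1 →L[ℂ] Cn n := fun ζ =>
    (ContinuousLinearMap.proj 0 : Cn 1 →L[ℂ] ℂ).smulRight (p ζ)
  have hP : Differentiable ℂ P := ((ContinuousLinearMap.smulRightL ℂ (Cn 1) (Cn n)
    (ContinuousLinearMap.proj 0)).differentiable).comp hp
  obtain ⟨u, τ, C, hu⟩ := exists_sol hE.qs hP
  have hi : MapsTo i (ball 0 τ) (ball 0 τ) := fun s hs => by
    rw [mem_ball_zero_iff] at hs ⊢
    exact (pi_norm_lt_iff hu.pos).2 fun _ => hs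
  have hz : ∀ ζ ∈ closedBall (0 : ℂ) 1, u ζ 0 = 0 := fun ζ hζ => by
    simpa using hu.quad ζ hζ 0 (mem_ball_self hu.pos)
  have h1 : ∀ ζ ∈ closedBall (0 : ℂ) 1, E ζ (u ζ (i 0)) = f ζ := fun ζ hζ => by
    rw [map_zero, hz ζ hζ, hE.zero ζ hζ]
  have h2 : ContinuousOn (fun q : ℂ × ℂ => E q.1 (u q.1 (i q.2))) (closedBall 0 1 ×ˢ ball 0 τ) :=
    hE.cont.comp (f := fun q : ℂ × ℂ => (q.1, u q.1 (i q.2))) (continuousOn_fst.prodMk
      (hu.cont.comp (f := fun q : ℂ × ℂ => (q.1, i q.2)) (by fun_prop) fun q hq =>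
        ⟨hq.1, hi hq.2⟩)) fun q hq => ⟨hq.1, hu.mem _ hq.1 _ (hi hq.2)⟩
  have h3 : ∀ ζ ∈ closedBall (0 : ℂ) 1, IsD A (fun s => E ζ (u ζ (i s))) (ball 0 τ) :=
    fun ζ hζ => ⟨h2.comp (f := fun s => (ζ, s)) (by fun_prop) fun s hs => ⟨hζ, hs⟩, fun a =>
      (hE.hol ζ hζ a).comp (f := fun s => u ζ (i s))
        (((hu.hol ζ hζ).comp i.differentiableOn hi).mono inter_subset_left)
        fun s hs => ⟨hu.mem ζ hζ _ (hi hs.1), hs.2⟩⟩
  refine ⟨fun ζ s => E ζ (u ζ (i s)), τ, ⟨hu.pos, h2, fun s hs => hE.isD _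
    (fun ζ hζ => hu.mem ζ (ball_subset_closedBall hζ) _ (hi hs)) (hu.db _ (hi hs)), h3⟩, h1,
    fun s hs => ?_, fun φ hφ ζ hζ => ?_⟩
  · have h4 : u 0 (i s) = 0 := by
      rw [hu.cen _ (hi hs)]
      simp [P, h0]
    beta_reduce
    rw [h4, hE.zero 0 (mem_closedBall_self zero_le_one)]
  · have ha : ζ ∈ dom A f (ch A (f ζ)) := ⟨hζ, ch_mem A _⟩
    generalize ch A (f ζ) = a at ha
    have h4 : HasFDerivAt (u ζ) (P ζ) (i 0) := by
      rw [map_zero]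
      refine P278F.hasFDerivAt_of_sq (C := C) hu.pos fun t ht => ?_
      rw [hz ζ hζ, sub_zero, sub_zero]
      exact hu.quad ζ hζ t ht
    have h5 : HasFDerivAt (fun v => A.e a (E ζ v)) (W a ζ) (u ζ (i 0)) := by
      rw [map_zero, hz ζ hζ]
      exact hE.der a ζ ha
    have h6 : deriv (fun s => A.e a (E ζ (u ζ (i s)))) 0 = W a ζ (P ζ (i 1)) :=
      (HasFDerivAt.comp_hasDerivAt (l := fun v => A.e a (E ζ v)) (f := u ζ ∘ i) 0 h5
        (h4.comp_hasDerivAt 0 i.hasFDerivAt.hasDerivAt)).deriv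
    rw [den_eq hφ (h3 ζ hζ) (ball_mem_nhds 0 hu.pos) (a := a) (by rw [h1 ζ hζ]; exact ha.2),
      hq_Hm hW hφ ha, h6, h1 ζ hζ]
    simp [P, i]

end Vale.Agent.P272
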