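import Vale.Agent.P272.DA3

/-! P272, part D: automorphisms of the disc. -/

open MeasureTheory Set Filter Topology Metric Matrix
open scoped ContDiff ComplexConjugate ComplexOrder

noncomputable section

namespace Vale.Agent.P272

open Vale.Agent.P271

variable {n : ℕ} {X : Type} [TopologicalSpace X] [T2Space X] [CompactSpace X] {A : Atl n X}
  {w η η₀ η₁ η₂ φ ψ : Frm A} {K r : ℝ} {x : X} {f g : ℂ → X} {U : Set ℂ} {ζ : ℂ}

theorem DRc1_diff {a : ℂ} (ha : ‖a‖ < 1) : DifferentiableOn ℂ (mob 1 a) (ball 0 1) :=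
  fun _ hz => (mob_analyticAt ha (mem_ball_zero_iff.1 hz).le).differentiableAt.differentiableWithinAt

theorem DRc1_maps {a : ℂ} (ha : ‖a‖ < 1) : MapsTo (mob 1 a) (ball 0 1) (ball 0 1) :=
  fun _ hz => mem_ball_zero_iff.2 (mob_lt ha (mem_ball_zero_iff.1 hz))

theorem DRc1_image {a : ℂ} (ha : ‖a‖ < 1) : mob 1 a '' ball (0 : ℂ) 1 = ball 0 1 := by
  have ha' : ‖-a‖ < 1 := by rwa [norm_neg]
  refine Subset.antisymm (DRc1_maps ha).image_subset fun z hz => ?_
  have h := mob_mob ha' (mem_ball_zero_iff.1 hz).le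
  rw [neg_neg] at h
  exact ⟨_, DRc1_maps ha' hz, h⟩

theorem DRc1_inj {a : ℂ} (ha : ‖a‖ < 1) : InjOn (mob 1 a) (ball (0 : ℂ) 1) := fun y hy z hz h => by
  rw [← mob_mob ha (mem_ball_zero_iff.1 hy).le, h, mob_mob ha (mem_ball_zero_iff.1 hz).le]

theorem isD_mob (hf : IsD A f (ball 0 1)) {a : ℂ} (ha : ‖a‖ < 1) :
    IsD A (fun z => f (mob 1 a z)) (ball 0 1) :=
  hf.comp (DRc1_diff ha) (DRc1_maps ha)

theorem mob_int (hφ : IsF A φ) (hf : IsD A f (ball 0 1)) {a : ℂ} (ha : ‖a‖ < 1) (Ψ : ℝ → ℝ) :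
    (IntegrableOn (fun z => Ψ (Real.log (1 / ‖z‖)) * den A φ (fun z => f (mob 1 a z)) z) (ball 0 1) ↔
      IntegrableOn (fun z => Ψ (gr 1 a z) * den A φ f z) (ball 0 1)) ∧
    ∫ z in ball (0 : ℂ) 1, Ψ (Real.log (1 / ‖z‖)) * den A φ (fun z => f (mob 1 a z)) z =
      ∫ z in ball (0 : ℂ) 1, Ψ (gr 1 a z) * den A φ f z := by
  have h := cov isOpen_ball (DRc1_diff ha) (DRc1_inj ha) fun z => Ψ (gr 1 a z) * den A φ f z
  rw [DRc1_image ha] at h
  have e : EqOn (fun z => Ψ (Real.log (1 / ‖z‖)) * den A φ (fun z => f (mob 1 a z)) z)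
      (fun z => Ψ (gr 1 a (mob 1 a z)) * den A φ f (mob 1 a z) * ‖deriv (mob 1 a) z‖ ^ 2)
      (ball 0 1) := fun z hz => by
    have hz' := mem_ball_zero_iff.1 hz
    simp only
    rw [gr_mob ha hz', den_comp hφ hf (isOpen_ball.mem_nhds (DRc1_maps ha hz))
      (mob_analyticAt ha hz'.le).differentiableAt, mul_assoc]
  exact ⟨(integrableOn_congr_fun e measurableSet_ball).trans h.1.symm,
    (setIntegral_congr_fun measurableSet_ball e).trans h.2.symm⟩

/-- The mean of the Green function over a circle of poles. -/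
theorem avg_gr {z : ℂ} (hz : ‖z‖ < 1) {s : ℝ} (h0 : 0 < s) (h1 : s < 1) :
    CircleIntegrable (fun a => gr 1 a z) 0 s ∧
      Real.circleAverage (fun a => gr 1 a z) 0 s = Real.log (1 / max ‖z‖ s) := by
  have hne : ∀ a ∈ closedBall (0 : ℂ) |s|, 1 - conj z * a ≠ 0 := fun a ha => by
    rw [abs_of_pos h0, mem_closedBall_zero_iff] at ha
    have := mob_den (r := 1) (t := -z) (w := a) (by rwa [norm_neg]) (ha.trans h1.le)
    simpa [sub_eq_add_neg] using this
  have e : (fun a => Real.log ‖1 - conj z * a‖ - Real.log ‖a - z‖) =ᶠ[codiscreteWithin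
      (sphere (0 : ℂ) |s|)] fun a => gr 1 a z := by
    filter_upwards [compl_singleton_mem_codiscreteWithin z,
      self_mem_codiscreteWithin (sphere (0 : ℂ) |s|)] with a ha hs
    have h2 : ‖((1 : ℝ) : ℂ) ^ 2 - conj a * z‖ = ‖1 - conj z * a‖ := by
      rw [← Complex.norm_conj]
      simp [mul_comm]
    have h3 : ‖a - z‖ ≠ 0 := norm_ne_zero_iff.2 (sub_ne_zero.2 ha)
    unfold gr
    rw [h2, one_mul, norm_sub_rev z a,
      Real.log_div (norm_ne_zero_iff.2 (hne a (sphere_subset_closedBall hs))) h3]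
  have i1 : CircleIntegrable (fun a => Real.log ‖1 - conj z * a‖) 0 s :=
    ContinuousOn.circleIntegrable' (ContinuousOn.log (by fun_prop) fun a ha =>
      norm_ne_zero_iff.2 (hne a (sphere_subset_closedBall ha)))
  have i2 : CircleIntegrable (fun a => Real.log ‖a - z‖) 0 s :=
    circleIntegrable_log_norm_sub_const s
  refine ⟨(i1.sub i2).congr_codiscreteWithin e, ?_⟩
  rw [← Real.circleAverage_congr_codiscreteWithin e h0.ne', Real.circleAverage_fun_sub i1 i2,
    AnalyticOnNhd.circleAverage_log_norm_of_ne_zero (g := fun a => 1 - conj z * a)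
      (fun a _ => by fun_prop) hne,
    circleAverage_log_norm_sub_const_eq_log_radius_add_posLog h0.ne']
  simp only [mul_zero, sub_zero, norm_one, Real.log_one, zero_sub, norm_neg, one_div, Real.log_inv,
    neg_inj]
  rcases le_total ‖z‖ s with h | h
  · rw [max_eq_right h, Real.posLog_eq_zero_iff _ |>.2, add_zero]
    rw [abs_of_nonneg (by positivity), inv_mul_le_iff₀ h0, mul_one]
    exact h
  · have h4 : 0 < ‖z‖ := h0.trans_le h
    rw [max_eq_left h, Real.posLog_eq_log, Real.log_mul (inv_ne_zero h0.ne') h4.ne', Real.log_inv]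
    · ring
    · rw [abs_of_nonneg (by positivity), le_inv_mul_iff₀ h0, mul_one]
      exact h

end Vale.Agent.P272
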