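import Vale.Agent.P272.DRc1

/-! P272, part D: recentring. -/

open MeasureTheory Set Filter Topology Metric Matrix
open scoped ContDiff ComplexConjugate ComplexOrder

noncomputable section

namespace Vale.Agent.P272

open Vale.Agent.P271

variable {n : ℕ} {X : Type} [TopologicalSpace X] [T2Space X] [CompactSpace X] {A : Atl n X}
  {w η η₀ η₁ η₂ φ ψ : Frm A} {K r : ℝ} {x : X} {f g : ℂ → X} {U : Set ℂ} {ζ : ℂ}

/-- The measure on the angles. -/
abbrev DRc2m : Measure ℝ := volume.restrict (Ioc 0 (2 * Real.pi))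

/-- The Green function with pole on the circle of radius one half. -/
def DRc2g (θ : ℝ) (z : ℂ) : ℝ := gr 1 (circleMap 0 (1 / 2) θ) z

theorem DRc2_norm (θ : ℝ) : ‖circleMap 0 (1 / 2) θ‖ < 1 := by
  rw [norm_circleMap_zero, abs_of_pos (by norm_num)]
  norm_num

theorem DRc2_meas : Measurable fun q : ℝ × ℂ => DRc2g q.1 q.2 := by
  have h : Continuous fun q : ℝ × ℂ => circleMap 0 (1 / 2) q.1 :=
    (continuous_circleMap 0 (1 / 2)).comp continuous_fst
  unfold DRc2g gr
  refine Real.measurable_log.comp (Measurable.div (Continuous.measurable ?_)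
    (Continuous.measurable ?_))
  · exact (continuous_const.sub ((Complex.continuous_conj.comp h).mul continuous_snd)).norm
  · exact continuous_const.mul (continuous_snd.sub h).norm

theorem DRc2_nonneg (θ : ℝ) {z : ℂ} (hz : z ∈ ball (0 : ℂ) 1) : 0 ≤ DRc2g θ z :=
  gr_nonneg (DRc2_norm θ) (mem_ball_zero_iff.1 hz)

theorem DRc2_avg {z : ℂ} (hz : z ∈ ball (0 : ℂ) 1) :
    Integrable (fun θ => DRc2g θ z) DRc2m ∧
      ∫ θ, DRc2g θ z ∂DRc2m = 2 * Real.pi * Real.log (1 / max ‖z‖ (1 / 2)) := by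
  obtain ⟨h1, h2⟩ := avg_gr (mem_ball_zero_iff.1 hz) (s := 1 / 2) (by norm_num) (by norm_num)
  have hp := Real.two_pi_pos
  refine ⟨(intervalIntegrable_iff_integrableOn_Ioc_of_le hp.le).1 h1, ?_⟩
  rw [← h2, Real.circleAverage_def, intervalIntegral.integral_of_le hp.le, smul_eq_mul,
    mul_inv_cancel_left₀ hp.ne']
  rfl

theorem DRc2_log {t : ℝ} (h : 0 < t) :
    Real.log (1 / max t (1 / 2)) = min (Real.log (1 / t)) (-Real.log (1 / 2)) := by
  simp only [one_div, Real.log_inv, neg_neg]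
  rcases le_total t 2⁻¹ with h1 | h1
  · have := Real.log_le_log h h1
    rw [Real.log_inv] at this
    rw [max_eq_right h1, Real.log_inv, neg_neg, min_eq_right (by linarith)]
  · have := Real.log_le_log (by norm_num) h1
    rw [Real.log_inv] at this
    rw [max_eq_left h1, min_eq_left (by linarith)]

theorem DRc2_pos {z : ℂ} (hz : z ∈ ball (0 : ℂ) 1) (h : z ≠ 0) : 0 ≤ Real.log (1 / ‖z‖) :=
  Real.log_nonneg ((one_le_div (norm_pos_iff.2 h)).2 (mem_ball_zero_iff.1 hz).le)

theorem DRc2_ae : ∀ᵐ z ∂(volume.restrict (ball (0 : ℂ) 1)), z ∈ ball (0 : ℂ) 1 ∧ z ≠ 0 :=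
  (ae_restrict_mem measurableSet_ball).and (ae_restrict_of_ae (Measure.ae_ne volume 0))

theorem DRc2_den (hφ : IsF A φ) (hf : IsD A f (ball 0 1)) :
    AEStronglyMeasurable (den A φ f) (volume.restrict (ball (0 : ℂ) 1)) :=
  (continuousOn_den hφ hf isOpen_ball).aestronglyMeasurable measurableSet_ball

/-- Kernels that are dominated by the logarithm. -/
theorem DRc2_ker (hw : Kae A w) (hf : Adm A w x f) (hφ : IsF A φ) {k : ℂ → ℝ} (hk : Measurable k)
    (h : ∀ z ∈ ball (0 : ℂ) 1, z ≠ 0 → |k z| ≤ Real.log (1 / ‖z‖)) :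
    IntegrableOn (fun z => k z * den A φ f z) (ball (0 : ℂ) 1) := by
  refine Integrable.mono (hf.integrableOn hw hφ one_pos le_rfl)
    (hk.aestronglyMeasurable.mul (DRc2_den hφ hf.1)) ?_
  filter_upwards [DRc2_ae] with z hz
  rw [norm_mul, norm_mul]
  exact mul_le_mul_of_nonneg_right ((h z hz.1 hz.2).trans (le_abs_self _)) (norm_nonneg _)

theorem DRc2_half : Real.log (1 / 2) ≤ 0 := Real.log_nonpos (by norm_num) (by norm_num)

theorem DRc2_kL (hw : Kae A w) (hf : Adm A w x f) (hφ : IsF A φ) :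
    IntegrableOn (fun z : ℂ => Real.log (1 / max ‖z‖ (1 / 2)) * den A φ f z) (ball (0 : ℂ) 1) := by
  refine DRc2_ker hw hf hφ (by fun_prop) fun z hz h => ?_
  rw [DRc2_log (norm_pos_iff.2 h),
    abs_of_nonneg (le_min (DRc2_pos hz h) (neg_nonneg.2 DRc2_half))]
  exact min_le_left _ _

theorem DRc2_kM (hw : Kae A w) (hf : Adm A w x f) (hφ : IsF A φ) {c : ℝ} (hc : c ≤ 0) :
    IntegrableOn (fun z : ℂ => max (Real.log (1 / ‖z‖) + c) 0 * den A φ f z) (ball (0 : ℂ) 1) := by
  refine DRc2_ker hw hf hφ (by fun_prop) fun z hz h => ?_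
  rw [abs_of_nonneg (le_max_right _ _)]
  exact max_le (by linarith) (DRc2_pos hz h)

theorem DRc2_int (hw : Kae A w) (hf : Adm A w x f) (hφ : IsF A φ) {Ψ : ℝ → ℝ} (hΨ : Measurable Ψ)
    (h : ∀ t, 0 ≤ t → |Ψ t| ≤ t) :
    Integrable (fun q : ℝ × ℂ => Ψ (DRc2g q.1 q.2) * den A φ f q.2)
      (DRc2m.prod (volume.restrict (ball (0 : ℂ) 1))) := by
  have hm : AEStronglyMeasurable (fun q : ℝ × ℂ => Ψ (DRc2g q.1 q.2) * den A φ f q.2)
      (DRc2m.prod (volume.restrict (ball (0 : ℂ) 1))) :=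
    (hΨ.comp DRc2_meas).aestronglyMeasurable.mul (DRc2_den hφ hf.1).comp_snd
  have hi : ∀ z ∈ ball (0 : ℂ) 1, Integrable (fun θ => Ψ (DRc2g θ z)) DRc2m := fun z hz =>
    (DRc2_avg hz).1.mono' (hΨ.comp (DRc2_meas.comp measurable_prodMk_right)).aestronglyMeasurable
      (Eventually.of_forall fun θ => h _ (DRc2_nonneg θ hz))
  refine (integrable_prod_iff' hm).2 ⟨?_, ?_⟩
  · filter_upwards [DRc2_ae] with z hz
    exact (hi z hz.1).mul_const _
  · refine ((DRc2_kL hw hf hφ).norm.const_mul (2 * Real.pi)).mono'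
      hm.prod_swap.norm.integral_prod_right' ?_
    filter_upwards [DRc2_ae] with z hz
    simp only [norm_mul, integral_mul_const]
    rw [norm_norm, ← mul_assoc]
    refine mul_le_mul_of_nonneg_right ?_ (norm_nonneg _)
    rw [Real.norm_of_nonneg (integral_nonneg fun _ => norm_nonneg _)]
    refine (integral_mono (hi z hz.1).norm (DRc2_avg hz.1).1 fun θ =>
      h _ (DRc2_nonneg θ hz.1)).trans ?_
    rw [(DRc2_avg hz.1).2]
    exact mul_le_mul_of_nonneg_left (le_abs_self _) Real.two_pi_pos.le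

/-- Recentring at the points of the circle of radius one half. -/
theorem recenter (hw : Kae A w) (h₀ : IsF A η₀) (h₁ : IsF A η₁) (n₁ : NnF A η₁) (h0 : 1 / 2 ≤ r)
    (h1 : r < 1) (hf : Adm A w x f) {u : X → ℝ} (hu : Continuous u)
    (h : ∀ y g, Adm A w y g → u y ≤ T A η₀ g 1 - T A η₁ g r) :
    av u f (1 / 2) ≤ (T A η₀ f 1 - T A η₀ f (1 / 2)) - (T A η₁ f r - T A η₁ f (1 / 2)) := by
  have hr : 0 < r := by linarith
  have hl : Real.log r ≤ 0 := Real.log_nonpos hr.le h1.le
  have hp := Real.two_pi_pos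
  have hπ := Real.pi_pos
  have hid : ∀ t : ℝ, 0 ≤ t → |id t| ≤ t := fun t ht => (abs_of_nonneg ht).le
  have hmx : ∀ t : ℝ, 0 ≤ t → |max (t + Real.log r) 0| ≤ t := fun t ht => by
    rw [abs_of_nonneg (le_max_right _ _)]
    exact max_le (by linarith) ht
  have iw := DRc2_int hw hf hw.1 measurable_id hid
  have i0 := DRc2_int hw hf h₀ measurable_id hid
  have i1 := DRc2_int hw hf h₁ (Ψ := fun t => max (t + Real.log r) 0) (by fun_prop) hmx
  have key : ∀ᵐ θ ∂DRc2m, u (f (circleMap 0 (1 / 2) θ)) ≤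
      2 / Real.pi * (∫ z in ball (0 : ℂ) 1, DRc2g θ z * den A η₀ f z) -
      2 / Real.pi * ∫ z in ball (0 : ℂ) 1, max (DRc2g θ z + Real.log r) 0 * den A η₁ f z := by
    filter_upwards [iw.prod_right_ae] with θ hθ
    have ha := DRc2_norm θ
    have h2 := h _ _ ⟨isD_mob hf.1 ha, congrArg f (mob_zero ha),
      (mob_int hw.1 hf.1 ha id).1.2 hθ⟩
    rw [T_eq_max η₁ _ hr h1.le, (mob_int h₁ hf.1 ha fun t => max (t + Real.log r) 0).2, T] at h2
    exact h2.trans_eq (congrArg (fun t => 2 / Real.pi * t - _) (mob_int h₀ hf.1 ha id).2)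
  have cu : Continuous fun θ => u (f (circleMap 0 (1 / 2) θ)) :=
    hu.comp (hf.1.1.comp_continuous (continuous_circleMap 0 (1 / 2)) fun θ =>
      mem_ball_zero_iff.2 (DRc2_norm θ))
  have j0 := i0.integral_prod_left.const_mul (2 / Real.pi)
  have j1 := i1.integral_prod_left.const_mul (2 / Real.pi)
  have m := integral_mono_ae (cu.integrableOn_Ioc (μ := volume)) (j0.sub j1) key
  have s0 := integral_integral_swap (f := fun θ z => DRc2g θ z * den A η₀ f z) i0
  have s1 := integral_integral_swap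
    (f := fun θ z => max (DRc2g θ z + Real.log r) 0 * den A η₁ f z) i1
  have e0 : ∫ z in ball (0 : ℂ) 1, ∫ θ, DRc2g θ z * den A η₀ f z ∂DRc2m =
      2 * Real.pi * ((∫ z in ball (0 : ℂ) 1, Real.log (1 / ‖z‖) * den A η₀ f z) -
        ∫ z in ball (0 : ℂ) 1, max (Real.log (1 / ‖z‖) + Real.log (1 / 2)) 0 * den A η₀ f z) := by
    rw [← integral_sub (hf.integrableOn hw h₀ one_pos le_rfl) (DRc2_kM hw hf h₀ DRc2_half),
      ← integral_const_mul]
    refine integral_congr_ae ?_
    filter_upwards [DRc2_ae] with z hz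
    rw [integral_mul_const, (DRc2_avg hz.1).2, DRc2_log (norm_pos_iff.2 hz.2), ← sub_mul, mul_assoc]
    congr 2
    rcases le_total (Real.log (1 / ‖z‖)) (-Real.log (1 / 2)) with h2 | h2
    · rw [min_eq_left h2, max_eq_right (by linarith), sub_zero]
    · rw [min_eq_right h2, max_eq_left (by linarith)]
      ring
  have e1 : 2 * Real.pi *
      ((∫ z in ball (0 : ℂ) 1, max (Real.log (1 / ‖z‖) + Real.log r) 0 * den A η₁ f z) -
        ∫ z in ball (0 : ℂ) 1, max (Real.log (1 / ‖z‖) + Real.log (1 / 2)) 0 * den A η₁ f z) ≤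
      ∫ z in ball (0 : ℂ) 1, ∫ θ, max (DRc2g θ z + Real.log r) 0 * den A η₁ f z ∂DRc2m := by
    have k := (DRc2_kM hw hf h₁ hl).sub (DRc2_kM hw hf h₁ DRc2_half)
    rw [← integral_sub (DRc2_kM hw hf h₁ hl) (DRc2_kM hw hf h₁ DRc2_half), ← integral_const_mul]
    refine integral_mono_ae (k.const_mul _) i1.integral_prod_right ?_
    filter_upwards [DRc2_ae] with z hz
    rw [integral_mul_const, ← sub_mul, ← mul_assoc]
    refine mul_le_mul_of_nonneg_right ?_ (den_nonneg h₁ n₁ f z)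
    obtain ⟨a1, a2⟩ := DRc2_avg hz.1
    have a3 := a1.add (integrable_const (Real.log r))
    have a4 : ∫ θ, DRc2g θ z + Real.log r ∂DRc2m ≤ ∫ θ, max (DRc2g θ z + Real.log r) 0 ∂DRc2m :=
      integral_mono a3 a3.pos_part fun θ => le_max_left _ _
    have a5 : 0 ≤ ∫ θ, max (DRc2g θ z + Real.log r) 0 ∂DRc2m :=
      integral_nonneg fun θ => le_max_right _ _
    rw [integral_add a1 (integrable_const _), a2, DRc2_log (norm_pos_iff.2 hz.2), integral_const,
      measureReal_restrict_apply_univ, Real.volume_real_Ioc_of_le hp.le, sub_zero, smul_eq_mul,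
      ← mul_add] at a4
    refine le_trans ?_ (max_le a4 a5)
    rw [← mul_zero (2 * Real.pi), ← mul_max_of_nonneg _ _ hp.le, mul_zero]
    refine mul_le_mul_of_nonneg_left ?_ hp.le
    rcases le_total (Real.log (1 / ‖z‖)) (-Real.log (1 / 2)) with h2 | h2
    · rw [min_eq_left h2]
      linarith [le_max_right (Real.log (1 / ‖z‖) + Real.log (1 / 2)) 0]
    · rw [min_eq_right h2, max_eq_left (show 0 ≤ Real.log (1 / ‖z‖) + Real.log (1 / 2) by linarith),
        sub_le_iff_le_add]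
      refine max_le ?_ ?_
      · linarith [le_max_left (-Real.log (1 / 2) + Real.log r) 0]
      · linarith [le_max_right (-Real.log (1 / 2) + Real.log r) 0]
  simp only [Pi.sub_apply, id] at m j0 j1
  rw [integral_sub j0 j1, integral_const_mul, integral_const_mul, s0, s1, e0] at m
  rw [av, Real.circleAverage_def, intervalIntegral.integral_of_le hp.le, smul_eq_mul,
    inv_mul_le_iff₀ hp, T_eq_max η₀ f (r := 1 / 2) (by norm_num) (by norm_num),
    T_eq_max η₁ f (r := 1 / 2) (by norm_num) (by norm_num), T_eq_max η₁ f hr h1.le, T]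
  have h3 := mul_le_mul_of_nonneg_left e1 (show 0 ≤ 2 / Real.pi by positivity)
  linarith

end Vale.Agent.P272
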