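import Vale.Agent.P272.DDefs

/-! P272, part D: calculus of the weak `dbar` equation. -/

open MeasureTheory Set Filter Topology Metric Matrix
open scoped ContDiff ComplexConjugate ComplexOrder

noncomputable section

namespace Vale.Agent.P272

open Vale.Agent.P271

variable {F G : Type} [NormedAddCommGroup F] [NormedSpace ℂ F] [NormedAddCommGroup G]
  [NormedSpace ℂ G] {u u' β β' : ℂ → F} {ζ : ℂ}

theorem DS1_shrink (h : DBAt u β ζ) {p : ℂ → Prop} (hp : ∀ᶠ z in 𝓝 ζ, p z) :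
    ∃ ρ > (0 : ℝ), (∀ z ∈ ball ζ ρ, p z) ∧ ∀ ε > (0 : ℝ), ∃ v : ℂ → F,
      ContDiffOn ℝ 1 v (ball ζ ρ) ∧ ∀ z ∈ ball ζ ρ, ‖v z - u z‖ ≤ ε ∧ ‖dbar v z - β z‖ ≤ ε := by
  obtain ⟨ρ, hρ, h⟩ := h
  obtain ⟨r, hr, hb⟩ := Metric.eventually_nhds_iff_ball.1 hp
  refine ⟨min ρ r, lt_min hρ hr, fun z hz => hb z (ball_subset_ball (min_le_right _ _) hz),
    fun ε hε => ?_⟩
  obtain ⟨v, h1, h2⟩ := h ε hε
  exact ⟨v, h1.mono (ball_subset_ball (min_le_left _ _)),
    fun z hz => h2 z (ball_subset_ball (min_le_left _ _) hz)⟩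

theorem DS1_congr (h : DBAt u β ζ) (h1 : u' =ᶠ[𝓝 ζ] u) (h2 : β' =ᶠ[𝓝 ζ] β) : DBAt u' β' ζ := by
  obtain ⟨ρ, hρ, hp, h⟩ := DS1_shrink h (h1.and h2)
  refine ⟨ρ, hρ, fun ε hε => (h ε hε).imp fun v hv => ⟨hv.1, fun z hz => ?_⟩⟩
  rw [(hp z hz).1, (hp z hz).2]
  exact hv.2 z hz

theorem DS1_diff {ρ : ℝ} (h : ContDiffOn ℝ 1 u (ball ζ ρ)) {z : ℂ} (hz : z ∈ ball ζ ρ) :
    DifferentiableAt ℝ u z :=
  (h.contDiffAt (isOpen_ball.mem_nhds hz)).differentiableAt one_ne_zero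

theorem DS1_cont {ρ : ℝ} (h : ContDiffOn ℝ 1 u (ball ζ ρ)) : ContinuousOn (dbar u) (ball ζ ρ) :=
  have h1 := h.continuousOn_fderiv_of_isOpen isOpen_ball le_rfl
  ((h1.clm_apply continuousOn_const).add
    ((h1.clm_apply continuousOn_const).const_smul Complex.I)).const_smul (2 : ℂ)⁻¹

theorem DS1_approx {s : Set ℂ}
    (h : ∀ ε > (0 : ℝ), ∃ v, ContinuousOn v s ∧ ∀ z ∈ s, ‖v z - u z‖ ≤ ε) : ContinuousOn u s :=
  continuousOn_of_uniform_approx_of_continuousOn fun U hU => by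
    obtain ⟨ε, hε, h1⟩ := Metric.mem_uniformity_dist.1 hU
    obtain ⟨v, h2, h3⟩ := h (ε / 2) (half_pos hε)
    exact ⟨v, h2, fun z hz => h1 (by
      rw [dist_comm, dist_eq_norm]; exact (h3 z hz).trans_lt (half_lt_self hε))⟩

theorem DS1_est {R : Type} [NormedRing R] {a b a' b' : R} {δ B : ℝ} (h : ‖a - b‖ ≤ δ)
    (h' : ‖a' - b'‖ ≤ δ) (hb : ‖b‖ ≤ B) (hb' : ‖b'‖ ≤ B) (hδ : δ ≤ 1) :
    ‖a * a' - b * b'‖ ≤ δ * (2 * B + 1) := by
  have e : a * a' - b * b' = (a - b) * (a' - b') + (a - b) * b' + b * (a' - b') := by noncomm_ring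
  have h0 := (norm_nonneg _).trans h
  have h1 := (norm_mul_le _ _).trans (mul_le_mul h (h'.trans hδ) (norm_nonneg _) h0)
  have h2 := (norm_mul_le _ _).trans (mul_le_mul h hb' (norm_nonneg _) h0)
  have h3 := (norm_mul_le _ _).trans (mul_le_mul hb h' (norm_nonneg _) ((norm_nonneg _).trans hb))
  rw [e]
  linarith [norm_add₃_le (a := (a - b) * (a' - b')) (b := (a - b) * b') (c := b * (a' - b'))]

theorem DS1_side {s : Set ℂ} (hu : ContinuousOn u s) (hu' : ContinuousOn u' s) {ε a b : ℝ}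
    (h : ∀ z ∈ s, ‖u' z - u z‖ ≤ ε) {γ : ℝ → ℂ} (hγ : Continuous γ) (hs : ∀ x ∈ uIcc a b, γ x ∈ s) :
    ‖(∫ x in a..b, u' (γ x)) - ∫ x in a..b, u (γ x)‖ ≤ ε * |b - a| := by
  rw [← intervalIntegral.integral_sub (hu'.comp' hγ.continuousOn hs).intervalIntegrable
    (hu.comp' hγ.continuousOn hs).intervalIntegrable]
  exact intervalIntegral.norm_integral_le_of_norm_le_const fun x hx =>
    h _ (hs x (uIoc_subset_uIcc hx))

theorem DS1_rect [CompleteSpace F] {ρ ε : ℝ} (h : ContDiffOn ℝ 1 u (ball ζ ρ))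
    (hε : ∀ z ∈ ball ζ ρ, ‖dbar u z‖ ≤ ε) {z w : ℂ} (hs : Complex.Rectangle z w ⊆ ball ζ ρ) :
    ‖Complex.wedgeIntegral z w u + Complex.wedgeIntegral w z u‖ ≤
      2 * ε * |w.im - z.im| * |w.re - z.re| := by
  have e : ∀ y, Complex.I • fderiv ℝ u y 1 - fderiv ℝ u y Complex.I = (2 * Complex.I) • dbar u y :=
    fun y => by
      rw [dbar, smul_smul, mul_right_comm, mul_inv_cancel₀ two_ne_zero, one_mul, smul_add, smul_smul,
        Complex.I_mul_I, neg_one_smul, sub_eq_add_neg]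
  rw [Complex.wedgeIntegral_add_wedgeIntegral_eq,
    Complex.integral_boundary_rect_of_hasFDerivAt_real_off_countable u (fderiv ℝ u) z w ∅
      countable_empty (h.continuousOn.mono hs) (fun x hx => (DS1_diff h (hs
        ⟨Ioo_subset_Icc_self hx.1.1, Ioo_subset_Icc_self hx.1.2⟩)).hasFDerivAt) ?_]
  · refine intervalIntegral.norm_integral_le_of_norm_le_const fun x hx =>
      intervalIntegral.norm_integral_le_of_norm_le_const fun y hy => ?_
    rw [e, norm_smul, norm_mul, Complex.norm_I, mul_one, Complex.norm_two]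
    exact mul_le_mul_of_nonneg_left (hε _ (hs (Complex.mem_reProdIm.2
      ⟨by simpa using uIoc_subset_uIcc hx, by simpa using uIoc_subset_uIcc hy⟩))) zero_le_two
  · simp only [e]
    exact (((DS1_cont h).mono hs).const_smul _).integrableOn_compact
      (isCompact_uIcc.reProdIm isCompact_uIcc)

theorem DBAt.of_contDiffAt (h : ContDiffAt ℝ 1 u ζ) : DBAt u (dbar u) ζ := by
  obtain ⟨U, hU, h1⟩ := h.contDiffOn le_rfl (by simp)
  obtain ⟨ρ, hρ, h2⟩ := Metric.mem_nhds_iff.1 hU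
  exact ⟨ρ, hρ, fun ε hε => ⟨u, h1.mono h2, fun z _ => by
    rw [sub_self, sub_self, norm_zero]; exact ⟨hε.le, hε.le⟩⟩⟩

theorem dbar_of_differentiableAt (h : DifferentiableAt ℂ u ζ) : dbar u ζ = 0 := by
  have e : fderiv ℂ u ζ Complex.I = Complex.I • fderiv ℂ u ζ 1 := by
    rw [← map_smul, smul_eq_mul, mul_one]
  rw [dbar, h.fderiv_restrictScalars ℝ, ContinuousLinearMap.coe_restrictScalars', e, smul_smul,
    Complex.I_mul_I, neg_one_smul, add_neg_cancel, smul_zero]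

theorem DBAt.of_hol [CompleteSpace F] {U : Set ℂ} (h : DifferentiableOn ℂ u U) (hU : U ∈ 𝓝 ζ) :
    DBAt u (fun _ => 0) ζ := by
  have h1 := h.analyticAt hU
  exact DS1_congr (DBAt.of_contDiffAt (h1.contDiffAt.restrict_scalars ℝ)) EventuallyEq.rfl
    (h1.eventually_analyticAt.mono fun z hz => (dbar_of_differentiableAt hz.differentiableAt).symm)

theorem DBAt.congr (h : DBAt u β ζ) (h1 : u' =ᶠ[𝓝 ζ] u) (h2 : β' =ᶠ[𝓝 ζ] β) : DBAt u' β' ζ := by
  exact DS1_congr h h1 h2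

theorem DBAt.eventually (h : DBAt u β ζ) : ∀ᶠ z in 𝓝 ζ, DBAt u β z := by
  obtain ⟨ρ, hρ, h⟩ := h
  filter_upwards [ball_mem_nhds ζ hρ] with z hz
  obtain ⟨r, hr, h1⟩ := Metric.isOpen_iff.1 isOpen_ball z hz
  exact ⟨r, hr, fun ε hε => (h ε hε).imp fun v hv => ⟨hv.1.mono h1, fun y hy => hv.2 y (h1 hy)⟩⟩

theorem DBAt.continuousAt (h : DBAt u β ζ) : ContinuousAt u ζ ∧ ContinuousAt β ζ := by
  obtain ⟨ρ, hρ, h⟩ := h
  exact ⟨(DS1_approx fun ε hε => (h ε hε).elim fun v hv =>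
      ⟨v, hv.1.continuousOn, fun z hz => (hv.2 z hz).1⟩).continuousAt (ball_mem_nhds ζ hρ),
    (DS1_approx fun ε hε => (h ε hε).elim fun v hv =>
      ⟨dbar v, DS1_cont hv.1, fun z hz => (hv.2 z hz).2⟩).continuousAt (ball_mem_nhds ζ hρ)⟩

theorem DBAt.add (h : DBAt u β ζ) (h' : DBAt u' β' ζ) :
    DBAt (fun z => u z + u' z) (fun z => β z + β' z) ζ := by
  obtain ⟨r, hr, h'⟩ := h'
  obtain ⟨ρ, hρ, hp, h⟩ := DS1_shrink h (ball_mem_nhds ζ hr)
  refine ⟨ρ, hρ, fun ε hε => ?_⟩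
  obtain ⟨v, h1, h2⟩ := h _ (half_pos hε)
  obtain ⟨v', h1', h2'⟩ := h' _ (half_pos hε)
  refine ⟨fun z => v z + v' z, h1.add (h1'.mono hp), fun z hz => ?_⟩
  have e : dbar (fun z => v z + v' z) z = dbar v z + dbar v' z := by
    rw [dbar, dbar, dbar, fderiv_fun_add (DS1_diff h1 hz) (DS1_diff h1' (hp z hz)),
      _root_.add_apply, _root_.add_apply]
    module
  rw [e, add_sub_add_comm, add_sub_add_comm]
  exact ⟨(norm_add_le_of_le (h2 z hz).1 (h2' z (hp z hz)).1).trans_eq (add_halves ε),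
    (norm_add_le_of_le (h2 z hz).2 (h2' z (hp z hz)).2).trans_eq (add_halves ε)⟩

theorem DBAt.clm (h : DBAt u β ζ) (L : F →L[ℂ] G) :
    DBAt (fun z => L (u z)) (fun z => L (β z)) ζ := by
  obtain ⟨ρ, hρ, h⟩ := h
  refine ⟨ρ, hρ, fun ε hε => ?_⟩
  have hL : 0 < ‖L‖ + 1 := by positivity
  obtain ⟨v, h1, h2⟩ := h _ (div_pos hε hL)
  refine ⟨fun z => L (v z), (L.restrictScalars ℝ).contDiff.comp_contDiffOn h1, fun z hz => ?_⟩
  have e : dbar (fun z => L (v z)) z = L (dbar v z) := by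
    have e1 : HasFDerivAt (fun z => L (v z)) _ z :=
      (L.restrictScalars ℝ).hasFDerivAt.comp z (DS1_diff h1 hz).hasFDerivAt
    rw [dbar, dbar, e1.fderiv, map_smul, map_add, map_smul]
    rfl
  have k : ∀ x, ‖x‖ ≤ ε / (‖L‖ + 1) → ‖L x‖ ≤ ε := fun x hx =>
    (L.le_opNorm x).trans ((mul_le_mul (le_add_of_nonneg_right zero_le_one) hx (norm_nonneg _)
      hL.le).trans_eq (mul_div_cancel₀ _ hL.ne'))
  rw [e, ← map_sub, ← map_sub]
  exact ⟨k _ (h2 z hz).1, k _ (h2 z hz).2⟩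

theorem DBAt.mul {R : Type} [NormedRing R] [NormedAlgebra ℂ R] {u u' β β' : ℂ → R}
    (h : DBAt u β ζ) (h' : DBAt u' β' ζ) :
    DBAt (fun z => u z * u' z) (fun z => β z * u' z + u z * β' z) ζ := by
  have k : ∀ {f : ℂ → R}, ContinuousAt f ζ → ∀ᶠ z in 𝓝 ζ, ‖f z‖ < ‖f ζ‖ + 1 := fun hf =>
    hf.norm.eventually_lt_const (lt_add_one _)
  have hb := ((k h.continuousAt.1).and (k h.continuousAt.2)).and
    ((k h'.continuousAt.1).and (k h'.continuousAt.2))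
  obtain ⟨r, hr, h'⟩ := h'
  obtain ⟨ρ, hρ, hp, h⟩ := DS1_shrink h (hb.and (ball_mem_nhds ζ hr))
  refine ⟨ρ, hρ, fun ε hε => ?_⟩
  set B := ‖u ζ‖ + ‖β ζ‖ + ‖u' ζ‖ + ‖β' ζ‖ + 1 with hB
  have hB' : 0 < 2 * B + 1 := by positivity
  set δ := min 1 (ε / 2 / (2 * B + 1)) with hδ
  have hδ0 : 0 < δ := lt_min one_pos (by positivity)
  have hδ1 : δ * (2 * B + 1) ≤ ε / 2 := (le_div_iff₀ hB').1 (min_le_right _ _)
  obtain ⟨v, h1, h2⟩ := h δ hδ0
  obtain ⟨v', h1', h2'⟩ := h' δ hδ0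
  refine ⟨fun z => v z * v' z, h1.mul (h1'.mono fun z hz => (hp z hz).2), fun z hz => ?_⟩
  obtain ⟨⟨⟨a1, a2⟩, a3, a4⟩, hz'⟩ := hp z hz
  have e : dbar (fun z => v z * v' z) z = dbar v z * v' z + v z * dbar v' z := by
    rw [dbar, dbar, dbar, fderiv_fun_mul' (DS1_diff h1 hz) (DS1_diff h1' hz')]
    simp only [_root_.add_apply, _root_.smul_apply, smul_eq_mul, MulOpposite.smul_eq_mul_unop,
      MulOpposite.unop_op, smul_add, add_mul, mul_add, smul_mul_assoc, mul_smul_comm]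
    abel
  have n1 := norm_nonneg (u ζ)
  have n2 := norm_nonneg (β ζ)
  have n3 := norm_nonneg (u' ζ)
  have n4 := norm_nonneg (β' ζ)
  rw [e, add_sub_add_comm]
  exact ⟨(DS1_est (B := B) (h2 z hz).1 (h2' z hz').1 (by linarith) (by linarith)
      (min_le_left _ _)).trans (hδ1.trans (half_le_self hε.le)),
    (norm_add_le_of_le (DS1_est (B := B) (h2 z hz).2 (h2' z hz').1 (by linarith) (by linarith)
      (min_le_left _ _)) (DS1_est (B := B) (h2 z hz).1 (h2' z hz').2 (by linarith) (by linarith)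
      (min_le_left _ _))).trans (by linarith)⟩

/-- Weak solutions of the homogeneous equation are holomorphic. -/
theorem DBAt.analyticAt [CompleteSpace F] (h : DBAt u β ζ) (h0 : ∀ᶠ z in 𝓝 ζ, β z = 0) :
    AnalyticAt ℂ u ζ := by
  obtain ⟨ρ, hρ, hp, h⟩ := DS1_shrink h h0
  have hu : ContinuousOn u (ball ζ ρ) := DS1_approx fun ε hε => (h ε hε).elim fun v hv =>
    ⟨v, hv.1.continuousOn, fun z hz => (hv.2 z hz).1⟩
  refine ((Complex.isConservativeOn_and_continuousOn_iff_isDifferentiableOn isOpen_ball).1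
    ⟨fun z w hs => ?_, hu⟩).analyticAt (ball_mem_nhds ζ hρ)
  rw [← add_eq_zero_iff_eq_neg, ← norm_le_zero_iff]
  set a := |w.re - z.re| with ha
  set b := |w.im - z.im| with hb
  have hC : 0 < 2 * b * a + 2 * a + 2 * b + 1 := by positivity
  refine le_of_forall_pos_le_add fun ε hε => ?_
  obtain ⟨v, h1, h2⟩ := h _ (div_pos hε hC)
  have h3 := DS1_rect h1 (fun y hy => by simpa only [hp y hy, sub_zero] using (h2 y hy).2) hs
  have s := fun {c d : ℝ} {γ : ℝ → ℂ} => DS1_side (a := c) (b := d) (γ := γ) hu h1.continuousOn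
    fun y hy => (h2 y hy).1
  have m : ∀ x ∈ uIcc z.re w.re, ∀ y ∈ uIcc z.im w.im, (x : ℂ) + y * Complex.I ∈ ball ζ ρ :=
    fun x hx y hy => hs (Complex.mem_reProdIm.2 ⟨by simpa using hx, by simpa using hy⟩)
  have s1 := s (γ := fun x => x + z.im * Complex.I) (by fun_prop) fun x hx =>
    m x hx _ left_mem_uIcc
  have s2 := s (γ := fun x => x + w.im * Complex.I) (by fun_prop) fun x hx =>
    m x hx _ right_mem_uIcc
  have s3 := s (γ := fun y => w.re + y * Complex.I) (by fun_prop) fun y hy =>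
    m _ right_mem_uIcc y hy
  have s4 := s (γ := fun y => z.re + y * Complex.I) (by fun_prop) fun y hy =>
    m _ left_mem_uIcc y hy
  rw [Complex.wedgeIntegral_add_wedgeIntegral_eq] at h3 ⊢
  have k : ∀ p q r t p' q' r' t' : F, ‖p - q + Complex.I • r - Complex.I • t‖ ≤
      ‖p' - q' + Complex.I • r' - Complex.I • t'‖ +
        (‖p' - p‖ + ‖q' - q‖ + ‖r' - r‖ + ‖t' - t‖) := fun p q r t p' q' r' t' => by
    have e : p - q + Complex.I • r - Complex.I • t = (p' - q' + Complex.I • r' - Complex.I • t') -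
        ((p' - p) - (q' - q) + Complex.I • (r' - r) - Complex.I • (t' - t)) := by module
    rw [e]
    refine norm_sub_le_of_le le_rfl (norm_sub_le_of_le (norm_add_le_of_le (norm_sub_le _ _) ?_) ?_)
    all_goals rw [norm_smul, Complex.norm_I, one_mul]
  have e : ε / (2 * b * a + 2 * a + 2 * b + 1) * (2 * b * a + 2 * a + 2 * b + 1) = ε :=
    div_mul_cancel₀ _ hC.ne'
  refine (k _ _ _ _ _ _ _ _).trans ((add_le_add h3 (add_le_add (add_le_add (add_le_add s1 s2) s3)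
    s4)).trans ?_)
  rw [← ha, ← hb]
  linarith [div_pos hε hC]

end Vale.Agent.P272
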