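import Vale.Agent.P272.DDefs

/-! P272, part D: bounds for the weighted Cauchy transform. -/

open MeasureTheory Set Filter Topology Metric Matrix
open scoped ContDiff ComplexConjugate ComplexOrder

noncomputable section

namespace Vale.Agent.P272

open Vale.Agent.P271

variable {F G : Type} [NormedAddCommGroup F] [NormedSpace ℂ F] [NormedAddCommGroup G]
  [NormedSpace ℂ G] {u u' β β' : ℂ → F} {ζ : ℂ}

theorem ds2_loc : LocallyIntegrable (fun y : ℂ => y⁻¹) volume :=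
  locallyIntegrable_of_norm_le_rpow (C := 1) (α := 1) (by simp) (by simp)
    (ae_of_all _ fun y => by simp [Real.rpow_neg_one]) measurable_inv.aestronglyMeasurable

theorem ds2_inv (R : ℝ) : IntegrableOn (fun y : ℂ => ‖y‖⁻¹) (ball 0 R) := by
  have := ((ds2_loc.integrableOn_isCompact (isCompact_closedBall 0 R)).mono_set
    ball_subset_closedBall).norm
  simp only [norm_inv] at this
  exact this

theorem ds2_shift {φ : ℂ → ℝ} {R : ℝ} (h0 : ∀ y, 0 ≤ φ y) (hi : IntegrableOn φ (ball 0 R))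
    (hR : ‖ζ‖ + 1 ≤ R) : IntegrableOn (fun z => φ (ζ - z)) (ball 0 1) ∧
      ∫ z in ball (0 : ℂ) 1, φ (ζ - z) ≤ ∫ y in ball (0 : ℂ) R, φ y := by
  have mp := Measure.measurePreserving_sub_left (volume : Measure ℂ) ζ
  have me : MeasurableEmbedding fun z : ℂ => ζ - z := measurableEmbedding_subLeft ζ
  have h1 : IntegrableOn (fun z => φ (ζ - z)) ((fun z => ζ - z) ⁻¹' ball 0 R) :=
    (mp.integrableOn_comp_preimage me).2 hi
  have hs : ball (0 : ℂ) 1 ⊆ (fun z => ζ - z) ⁻¹' ball 0 R := fun z hz => by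
    rw [mem_preimage, mem_ball_zero_iff]
    linarith [norm_sub_le ζ z, mem_ball_zero_iff.1 hz]
  refine ⟨h1.mono_set hs, ?_⟩
  rw [← mp.setIntegral_preimage_emb me φ]
  exact setIntegral_mono_set h1 (ae_of_all _ fun z => h0 _) hs.eventuallyLE

theorem ds2_exp (m : ℝ) {z : ℂ} (hz : ‖z‖ ≤ 1) (y : ℂ) :
    ‖Complex.exp (m * conj z * y)‖ ≤ Real.exp (|m| * ‖y‖) := by
  refine (Complex.norm_exp_le_exp_norm _).trans (Real.exp_le_exp.2 ?_)
  rw [norm_mul, norm_mul, Complex.norm_real, Complex.norm_conj, Real.norm_eq_abs]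
  exact mul_le_mul_of_nonneg_right (mul_le_of_le_one_right (abs_nonneg m) hz) (norm_nonneg y)

theorem ds2_bd (m : ℝ) {z y : ℂ} {v : F} {R b : ℝ} (hz : ‖z‖ ≤ 1) (hy : ‖y‖ ≤ R) (hv : ‖v‖ ≤ b) :
    ‖(Complex.exp (m * conj z * y) / y) • v‖ ≤ Real.exp (|m| * R) * b * ‖y‖⁻¹ := by
  rw [norm_smul, norm_div, div_eq_mul_inv, mul_right_comm]
  refine mul_le_mul_of_nonneg_right (mul_le_mul ((ds2_exp m hz y).trans (Real.exp_le_exp.2
    (mul_le_mul_of_nonneg_left hy (abs_nonneg m)))) hv (norm_nonneg _) (Real.exp_pos _).le) ?_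
  positivity

theorem ds2_meas (hβ : ContinuousOn β (closedBall 0 1)) {k : ℂ → ℂ} (hk : Measurable k) :
    AEStronglyMeasurable (fun z => k z • β z) (volume.restrict (ball 0 1)) :=
  hk.aestronglyMeasurable.smul
    ((hβ.mono ball_subset_closedBall).aestronglyMeasurable measurableSet_ball)

theorem ds2_pi (v : F) : ‖(Real.pi : ℂ)⁻¹ • v‖ ≤ ‖v‖ := by
  rw [norm_smul, norm_inv, Complex.norm_real, Real.norm_of_nonneg Real.pi_pos.le]
  exact mul_le_of_le_one_left (norm_nonneg _)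
    (inv_le_one_of_one_le₀ (by linarith [Real.pi_gt_three]))

theorem ds2_re (m : ℝ) (z ζ : ℂ) : ‖Complex.exp (m * conj z * (ζ - z))‖ *
    Real.exp (m * ‖z‖ ^ 2 / 2) = Real.exp (m * ‖ζ‖ ^ 2 / 2) * Real.exp (-(m * ‖ζ - z‖ ^ 2 / 2)) := by
  rw [Complex.norm_exp, ← Real.exp_add, ← Real.exp_add]
  congr 1
  simp only [Complex.sq_norm, Complex.normSq_apply, Complex.mul_re, Complex.mul_im,
    Complex.ofReal_re, Complex.ofReal_im, Complex.conj_re, Complex.conj_im, Complex.sub_re,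
    Complex.sub_im]
  ring

theorem ds2_lim : Tendsto (fun n : ℕ => ∫ y in ball (0 : ℂ) 2,
    Real.exp (-(n * ‖y‖ ^ 2 / 2)) * ‖y‖⁻¹) atTop (𝓝 0) := by
  have h := tendsto_integral_of_dominated_convergence (μ := volume.restrict (ball (0 : ℂ) 2))
    (F := fun (n : ℕ) y => Real.exp (-(n * ‖y‖ ^ 2 / 2)) * ‖y‖⁻¹) (f := fun _ => 0)
    (fun y => ‖y‖⁻¹) (fun n => Measurable.aestronglyMeasurable (by fun_prop)) (ds2_inv 2)
    (fun n => ae_of_all _ fun y => by
      rw [Real.norm_of_nonneg (by positivity)]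
      exact mul_le_of_le_one_left (by positivity)
        (Real.exp_le_one_iff.2 (neg_nonpos.2 (by positivity))))
    (ae_of_all _ fun y => by
      rcases eq_or_ne y 0 with rfl | hy
      · simp
      have hp : 0 < ‖y‖ ^ 2 / 2 := by positivity
      have h1 := (Real.tendsto_exp_neg_atTop_nhds_zero.comp
        (tendsto_natCast_atTop_atTop.atTop_mul_const hp)).mul_const ‖y‖⁻¹
      rw [zero_mul] at h1
      simpa only [Function.comp_def, mul_div_assoc] using h1)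
  simpa using h

theorem integrableOn_Tm (hβ : ContinuousOn β (closedBall 0 1)) (m : ℝ) (ζ : ℂ) :
    IntegrableOn (fun z => (Complex.exp (m * conj z * (ζ - z)) / (ζ - z)) • β z) (ball 0 1) := by
  obtain ⟨b, hb⟩ := (isCompact_closedBall (0 : ℂ) 1).exists_bound_of_continuousOn hβ
  refine Integrable.mono' ((ds2_shift (fun y => by positivity) (ds2_inv (‖ζ‖ + 1))
    le_rfl).1.const_mul (Real.exp (|m| * (‖ζ‖ + 1)) * b)) (ds2_meas hβ (by fun_prop))
    ((ae_restrict_mem measurableSet_ball).mono fun z hz => ?_)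
  have h1 := (mem_ball_zero_iff.1 hz).le
  exact ds2_bd m h1 (by linarith [norm_sub_le ζ z]) (hb z (ball_subset_closedBall hz))

theorem Tm_sub (hβ : ContinuousOn β (closedBall 0 1)) (hβ' : ContinuousOn β' (closedBall 0 1))
    (m : ℝ) (ζ : ℂ) : Tm m (fun z => β z - β' z) ζ = Tm m β ζ - Tm m β' ζ := by
  unfold Tm
  simp only [smul_sub]
  rw [integral_sub (integrableOn_Tm hβ m ζ) (integrableOn_Tm hβ' m ζ), smul_sub]

theorem continuous_Tm (hβ : ContinuousOn β (closedBall 0 1)) (m : ℝ) : Continuous (Tm m β) := by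
  obtain ⟨b, hb⟩ := (isCompact_closedBall (0 : ℂ) 1).exists_bound_of_continuousOn hβ
  have b0 : 0 ≤ b := (norm_nonneg _).trans (hb 0 (mem_closedBall_self zero_le_one))
  obtain ⟨K, hK⟩ : ∃ K : ℂ → ℂ → F, K = fun ζ y => (ball (0 : ℂ) 1).indicator
    (fun z => (Complex.exp (m * conj z * (ζ - z)) / (ζ - z)) • β z) (ζ - y) := ⟨_, rfl⟩
  have k1 : ∀ ζ y, ζ - y ∈ ball (0 : ℂ) 1 →
      K ζ y = (Complex.exp (m * conj (ζ - y) * y) / y) • β (ζ - y) := fun ζ y h => by
    simp only [hK, indicator_of_mem h, sub_sub_cancel]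
  have k2 : ∀ ζ y, ζ - y ∉ ball (0 : ℂ) 1 → K ζ y = 0 := fun ζ y h => by
    simp only [hK, indicator_of_notMem h]
  have e : Tm m β = fun ζ => (Real.pi : ℂ)⁻¹ • ∫ y, K ζ y := by
    funext ζ
    rw [Tm, ← integral_indicator measurableSet_ball, hK]
    simp only
    rw [integral_sub_left_eq_self]
  rw [e]
  refine Continuous.const_smul (continuous_iff_continuousAt.2 fun ζ₀ => ?_) _
  refine continuousAt_of_dominated (bound := (ball (0 : ℂ) (‖ζ₀‖ + 2)).indicator
    fun y => Real.exp (|m| * (‖ζ₀‖ + 2)) * b * ‖y‖⁻¹) (.of_forall fun ζ => ?_) ?_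
    ((integrable_indicator_iff measurableSet_ball).2 ((ds2_inv _).const_mul _)) ?_
  · rw [hK]
    exact (((integrable_indicator_iff measurableSet_ball).2
      (integrableOn_Tm hβ m ζ)).comp_sub_left ζ).1
  · filter_upwards [ball_mem_nhds ζ₀ one_pos] with ζ hζ
    refine ae_of_all _ fun y => ?_
    by_cases h : ζ - y ∈ ball (0 : ℂ) 1
    · have h1 := mem_ball_zero_iff.1 h
      have h2 : ‖y‖ < ‖ζ₀‖ + 2 := by
        have a1 := norm_sub_norm_le y ζ
        have a2 := norm_sub_norm_le ζ ζ₀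
        rw [norm_sub_rev] at a1
        linarith [mem_ball_iff_norm.1 hζ]
      rw [k1 ζ y h, indicator_of_mem (mem_ball_zero_iff.2 h2)]
      exact ds2_bd m h1.le h2.le (hb _ (ball_subset_closedBall h))
    · rw [k2 ζ y h, norm_zero]
      exact indicator_nonneg (fun _ _ => by positivity) y
  · have h0 : ∀ᵐ y : ℂ, y ∉ sphere ζ₀ 1 := compl_mem_ae_iff.2 (Measure.addHaar_sphere _ _ _)
    filter_upwards [h0] with y hy
    have c1 : ContinuousAt (fun ζ : ℂ => ζ - y) ζ₀ := by fun_prop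
    rw [mem_sphere_iff_norm, norm_sub_rev] at hy
    rcases lt_or_gt_of_ne hy with h | h
    · have h1 : ball (0 : ℂ) 1 ∈ 𝓝 (ζ₀ - y) := isOpen_ball.mem_nhds (mem_ball_zero_iff.2 h)
      have c2 : ContinuousAt (fun ζ => β (ζ - y)) ζ₀ :=
        ContinuousAt.comp (g := β) (f := fun ζ => ζ - y)
          (hβ.continuousAt (mem_of_superset h1 ball_subset_closedBall)) c1
      refine ContinuousAt.congr (f := fun ζ => (Complex.exp (m * conj (ζ - y) * y) / y) • β (ζ - y))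
        (ContinuousAt.smul (by fun_prop) c2) ?_
      filter_upwards [c1 h1] with ζ hζ using (k1 ζ y hζ).symm
    · refine ContinuousAt.congr (f := fun _ => 0) continuousAt_const ?_
      filter_upwards [c1.norm.eventually (lt_mem_nhds h)] with ζ hζ
      exact (k2 ζ y fun g => absurd (mem_ball_zero_iff.1 g) (not_lt.2 hζ.le)).symm

theorem Tm_small {ε : ℝ} (hε : 0 < ε) : ∃ m : ℝ, 0 ≤ m ∧ ∀ (F : Type) [NormedAddCommGroup F]
    [NormedSpace ℂ F] (β : ℂ → F) (b : ℝ),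
    (∀ z ∈ ball (0 : ℂ) 1, ‖β z‖ ≤ b * Real.exp (m * ‖z‖ ^ 2 / 2)) →
      ∀ ζ ∈ closedBall (0 : ℂ) 1, ‖Tm m β ζ‖ ≤ ε * b * Real.exp (m * ‖ζ‖ ^ 2 / 2) := by
  obtain ⟨n, hn⟩ := (ds2_lim.eventually (ge_mem_nhds hε)).exists
  refine ⟨n, n.cast_nonneg, fun F _ _ β b hb ζ hζ => ?_⟩
  have b0 : 0 ≤ b := by simpa using (norm_nonneg _).trans (hb 0 (mem_ball_self one_pos))
  have i0 : IntegrableOn (fun y : ℂ => Real.exp (-(n * ‖y‖ ^ 2 / 2)) * ‖y‖⁻¹) (ball 0 2) :=
    (ds2_inv 2).bdd_mul (c := 1) (Measurable.aestronglyMeasurable (by fun_prop))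
      (ae_of_all _ fun y => by
        rw [Real.norm_of_nonneg (Real.exp_pos _).le]
        exact Real.exp_le_one_iff.2 (neg_nonpos.2 (by positivity)))
  obtain ⟨i1, i2⟩ := ds2_shift (ζ := ζ) (fun y => by positivity) i0
    (by linarith [mem_closedBall_zero_iff.1 hζ])
  refine (ds2_pi _).trans ((norm_integral_le_of_norm_le
    (i1.const_mul (b * Real.exp (n * ‖ζ‖ ^ 2 / 2)))
    ((ae_restrict_mem measurableSet_ball).mono fun z hz => ?_)).trans ?_)
  · rw [norm_smul, norm_div, div_eq_mul_inv]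
    have h1 := mul_le_mul_of_nonneg_left (hb z hz)
      (show 0 ≤ ‖Complex.exp ((n : ℝ) * conj z * (ζ - z))‖ * ‖ζ - z‖⁻¹ by positivity)
    refine h1.trans (le_of_eq ?_)
    linear_combination (b * ‖ζ - z‖⁻¹) * ds2_re n z ζ
  · rw [integral_const_mul, mul_comm, mul_assoc]
    exact mul_le_mul_of_nonneg_right (i2.trans hn) (by positivity)

theorem Tm_bdd (m : ℝ) : ∃ C : ℝ, 0 < C ∧ ∀ (β : ℂ → F) (b : ℝ),
    (∀ z ∈ ball (0 : ℂ) 1, ‖β z‖ ≤ b) → ∀ ζ ∈ closedBall (0 : ℂ) 1, ‖Tm m β ζ‖ ≤ C * b := by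
  have J0 : 0 ≤ ∫ y in ball (0 : ℂ) 2, ‖y‖⁻¹ := integral_nonneg fun y => by positivity
  refine ⟨Real.exp (|m| * 2) * (1 + ∫ y in ball (0 : ℂ) 2, ‖y‖⁻¹), by positivity,
    fun β b hb ζ hζ => ?_⟩
  have b0 : 0 ≤ b := (norm_nonneg _).trans (hb 0 (mem_ball_self one_pos))
  have z1 := mem_closedBall_zero_iff.1 hζ
  obtain ⟨i1, i2⟩ := ds2_shift (ζ := ζ) (fun y => by positivity) (ds2_inv 2) (by linarith)
  refine (ds2_pi _).trans ((norm_integral_le_of_norm_le (i1.const_mul (Real.exp (|m| * 2) * b))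
    ((ae_restrict_mem measurableSet_ball).mono fun z hz => ?_)).trans ?_)
  · have h1 := (mem_ball_zero_iff.1 hz).le
    exact ds2_bd m h1 (by linarith [norm_sub_le ζ z]) (hb z hz)
  · rw [integral_const_mul, mul_right_comm]
    exact mul_le_mul_of_nonneg_right
      (mul_le_mul_of_nonneg_left (by linarith) (Real.exp_pos _).le) b0

end Vale.Agent.P272
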