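import Vale.Agent.P272.DS1
import Vale.Agent.P272.DS2
import Vale.Agent.P136.Pomp

/-! P272, part D: the weighted Cauchy transform solves the `dbar` equation. -/

open MeasureTheory Set Filter Topology Metric Matrix
open scoped ContDiff ComplexConjugate ComplexOrder

noncomputable section

namespace Vale.Agent.P272

open Vale.Agent.P271

variable {F G : Type} [NormedAddCommGroup F] [NormedSpace ℂ F] [NormedAddCommGroup G]
  [NormedSpace ℂ G] {u u' β β' : ℂ → F} {ζ : ℂ}

/-- Holomorphic dependence on a parameter. -/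
theorem ds3_hol {k k' : ℂ → ℂ → ℂ} {K s : Set ℂ} {c : ℂ} {r : ℝ} (hK : IsCompact K)
    (hs : MeasurableSet s) (hsK : s ⊆ K) (hβ : ContinuousOn β K)
    (h0 : ∀ ζ ∈ ball c r, ContinuousOn (k ζ) K)
    (h1 : ContinuousOn (fun p : ℂ × ℂ => k' p.1 p.2) (closedBall c r ×ˢ K))
    (hd : ∀ ζ ∈ ball c r, ∀ z ∈ K, HasDerivAt (fun ζ => k ζ z) (k' ζ z) ζ) :
    DifferentiableOn ℂ (fun ζ => ∫ z in s, k ζ z • β z) (ball c r) := by
  intro ζ hζ
  obtain ⟨A, hA⟩ := ((isCompact_closedBall c r).prod hK).exists_bound_of_continuousOn h1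
  have hn : ball c r ∈ 𝓝 ζ := isOpen_ball.mem_nhds hζ
  have i0 : ∀ ζ ∈ ball c r, IntegrableOn (fun z => k ζ z • β z) s := fun ζ hζ =>
    (((h0 ζ hζ).smul hβ).integrableOn_compact hK).mono_set hsK
  have c1 : ContinuousOn (k' ζ) K :=
    h1.comp (f := fun z => (ζ, z)) (by fun_prop) fun z hz => ⟨ball_subset_closedBall hζ, hz⟩
  refine (hasDerivAt_integral_of_dominated_loc_of_deriv_le (μ := volume.restrict s)
    (F := fun ζ z => k ζ z • β z) (F' := fun ζ z => k' ζ z • β z) (bound := fun z => A * ‖β z‖) hn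
    (mem_of_superset hn fun x hx => (i0 x hx).1) (i0 ζ hζ)
    (((c1.smul hβ).integrableOn_compact hK).mono_set hsK).1
    ((ae_restrict_mem hs).mono fun z hz x hx => ?_)
    (((hβ.norm.integrableOn_compact hK).mono_set hsK).const_mul A)
    ((ae_restrict_mem hs).mono fun z hz x hx =>
      (hd x hx z (hsK hz)).smul_const _)).2.differentiableAt.differentiableWithinAt
  rw [norm_smul]
  exact mul_le_mul_of_nonneg_right (hA (x, z) ⟨ball_subset_closedBall hx, hsK hz⟩) (norm_nonneg _)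

theorem ds3_T0 (β : ℂ → F) (ζ : ℂ) :
    Tm 0 β ζ = (Real.pi : ℂ)⁻¹ • ∫ z in ball (0 : ℂ) 1, (ζ - z)⁻¹ • β z := by
  simp [Tm]

/-- The Cauchy transform of a smooth function with compact support. -/
theorem cauchy_smooth [CompleteSpace F] (hβ : ContDiff ℝ 1 β) (hc : HasCompactSupport β) :
    ContDiff ℝ 1 (fun ζ => (Real.pi : ℂ)⁻¹ • ∫ z, (ζ - z)⁻¹ • β z) ∧
      ∀ ζ, dbar (fun ζ => (Real.pi : ℂ)⁻¹ • ∫ z, (ζ - z)⁻¹ • β z) ζ = β ζ := by
  obtain ⟨L, hL⟩ : ∃ L : ℂ →L[ℝ] F →L[ℝ] F, L = ContinuousLinearMap.lsmul ℝ ℂ := ⟨_, rfl⟩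
  have hL' : ∀ c v, L c v = c • v := fun c v => by rw [hL]; rfl
  have e : (fun ζ => (Real.pi : ℂ)⁻¹ • ∫ z, (ζ - z)⁻¹ • β z) =
      fun ζ => (Real.pi : ℂ)⁻¹ • convolution (fun y : ℂ => y⁻¹) β L volume ζ := by
    funext ζ
    rw [convolution_def, ← integral_sub_left_eq_self _ volume ζ]
    simp only [hL', sub_sub_cancel]
  rw [e]
  refine ⟨(hc.contDiff_convolution_right L (n := 1) ds2_loc hβ).const_smul _, fun ζ => ?_⟩
  have hD : Continuous (fderiv ℝ β) := hβ.continuous_fderiv one_ne_zero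
  have h1 := (hc.hasFDerivAt_convolution_right L ds2_loc hβ ζ).const_smul (Real.pi : ℂ)⁻¹
  have h2 : ∀ v, fderiv ℝ (fun ζ => (Real.pi : ℂ)⁻¹ •
      convolution (fun y : ℂ => y⁻¹) β L volume ζ) ζ v =
      (Real.pi : ℂ)⁻¹ • ∫ y, y⁻¹ • fderiv ℝ β (ζ - y) v := fun v => by
    rw [show (fun ζ => (Real.pi : ℂ)⁻¹ • convolution (fun y : ℂ => y⁻¹) β L volume ζ) =
      (Real.pi : ℂ)⁻¹ • convolution (fun y : ℂ => y⁻¹) β L volume from rfl, h1.fderiv,
      _root_.smul_apply, convolution_precompR_apply L ds2_loc (hc.fderiv ℝ) hD, convolution_def]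
    simp only [hL']
  have i : ∀ v, Integrable fun y : ℂ => y⁻¹ • fderiv ℝ β (ζ - y) v := fun v => by
    have := (hc.fderiv_apply ℝ v).convolutionExists_right L ds2_loc
      (hD.clm_apply continuous_const) ζ
    simpa only [ConvolutionExistsAt, hL'] using this
  have h3 : ∀ y v, fderiv ℝ (fun y => β (ζ - y)) y v = -fderiv ℝ β (ζ - y) v := fun y v => by
    have := ((hβ.differentiable one_ne_zero (ζ - y)).hasFDerivAt.comp y
      ((hasFDerivAt_id y).const_sub ζ)).fderiv
    rw [show (fun y => β (ζ - y)) = β ∘ HSub.hSub ζ from rfl, this]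
    simp
  have h4 := P136.pomp (H := fun y => β (ζ - y)) (hβ.comp (contDiff_const.sub contDiff_id))
    (hc.comp_homeomorph (Homeomorph.subLeft ζ))
  have e2 : ∀ y : ℂ, y⁻¹ • (-fderiv ℝ β (ζ - y) 1 + Complex.I • -fderiv ℝ β (ζ - y) Complex.I) =
      -(y⁻¹ • fderiv ℝ β (ζ - y) 1 + Complex.I • y⁻¹ • fderiv ℝ β (ζ - y) Complex.I) := fun y => by
    module
  simp only [h3, e2, sub_zero] at h4
  have i2 : Integrable fun y : ℂ => Complex.I • y⁻¹ • fderiv ℝ β (ζ - y) Complex.I :=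
    (i Complex.I).smul Complex.I
  rw [integral_neg, neg_smul, neg_inj, integral_add (i 1) i2, integral_smul] at h4
  have hp : (Real.pi : ℂ) ≠ 0 := Complex.ofReal_ne_zero.2 Real.pi_ne_zero
  rw [dbar, h2, h2, smul_comm Complex.I, ← smul_add, h4, smul_smul, smul_smul,
    show (2 : ℂ)⁻¹ * (Real.pi : ℂ)⁻¹ * (2 * Real.pi) = 1 by field_simp, one_smul]

theorem ds3_far (hβ : ContinuousOn β (closedBall 0 1)) {c : ℂ} {r : ℝ} (hr : 0 < r)
    (h0 : ∀ z ∈ ball c (2 * r), β z = 0) : DifferentiableOn ℂ (Tm 0 β) (ball c r) := by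
  have ne : ∀ ζ ∈ closedBall c r, ∀ z ∈ closedBall (0 : ℂ) 1 \ ball c (2 * r), ζ - z ≠ 0 :=
    fun ζ hζ z hz h => hz.2 (sub_eq_zero.1 h ▸ closedBall_subset_ball (by linarith) hζ)
  have h := ds3_hol (k := fun ζ z => (ζ - z)⁻¹) (k' := fun ζ z => -1 / (ζ - z) ^ 2)
    (s := ball 0 1 \ ball c (2 * r)) ((isCompact_closedBall (0 : ℂ) 1).diff isOpen_ball)
    (measurableSet_ball.diff measurableSet_ball) (sdiff_subset_sdiff_left ball_subset_closedBall)
    (hβ.mono sdiff_subset)
    (fun ζ hζ => ContinuousOn.inv₀ (by fun_prop) (ne ζ (ball_subset_closedBall hζ)))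
    (ContinuousOn.div (by fun_prop) (by fun_prop) fun p hp => pow_ne_zero 2 (ne _ hp.1 _ hp.2))
    fun ζ hζ z hz => ((hasDerivAt_id ζ).sub_const z).inv (ne ζ (ball_subset_closedBall hζ) z hz)
  refine (h.const_smul (Real.pi : ℂ)⁻¹).congr fun ζ _ => ?_
  rw [ds3_T0, Pi.smul_apply]
  congr 1
  refine setIntegral_eq_of_subset_of_forall_sdiff_eq_zero measurableSet_ball sdiff_subset
    fun z hz => ?_
  rw [h0 z (by_contra fun g => hz.2 ⟨hz.1, g⟩), smul_zero]

theorem db_T0 [CompleteSpace F] (hβ : ContinuousOn β (closedBall 0 1)) : DB (Tm 0 β) β := by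
  intro c hc
  obtain ⟨r, hr⟩ : ∃ r, r = (1 - ‖c‖) / 4 := ⟨_, rfl⟩
  have c1 := mem_ball_zero_iff.1 hc
  have r0 : 0 < r := by linarith
  have hs : closedBall c (3 * r) ⊆ ball 0 1 :=
    closedBall_subset_ball' (by rw [dist_zero_right]; linarith)
  let b : ContDiffBump c := ⟨2 * r, 3 * r, by linarith, by linarith⟩
  have bs : tsupport b ⊆ ball 0 1 := by rw [b.tsupport_eq]; exact hs
  have b0 : ∀ z, z ∉ ball (0 : ℂ) 1 → b z = 0 := fun z hz =>
    image_eq_zero_of_notMem_tsupport fun h => hz (bs h)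
  have g1 : Continuous fun z => b z • β z :=
    (b.continuous.continuousOn.smul (hβ.mono ball_subset_closedBall)).continuous_of_tsupport_subset
      isOpen_ball ((tsupport_smul_subset_left b β).trans bs)
  have g2 : UniformContinuous fun z => b z • β z :=
    HasCompactSupport.uniformContinuous_of_continuous b.hasCompactSupport.smul_right g1
  have g3 : Continuous fun z => b z • b z • β z := b.continuous.smul g1
  obtain ⟨C, C0, hC⟩ := Tm_bdd (F := F) 0
  have h1 : DBAt (Tm 0 fun z => b z • b z • β z) (fun z => b z • b z • β z) c := by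
    refine ⟨r, r0, fun ε hε => ?_⟩
    obtain ⟨g, hg, hg'⟩ := g2.exists_contDiff_dist_le (div_pos hε (add_pos C0 one_pos))
    have s1 : ContDiff ℝ 1 fun z => b z • g z := b.contDiff.smul (hg.of_le (by simp))
    obtain ⟨a1, a2⟩ := cauchy_smooth s1 b.hasCompactSupport.smul_right
    have e : (fun ζ => (Real.pi : ℂ)⁻¹ • ∫ z, (ζ - z)⁻¹ • b z • g z) = Tm 0 fun z => b z • g z := by
      funext ζ
      rw [ds3_T0, setIntegral_eq_integral_of_forall_compl_eq_zero fun z hz => by
        rw [b0 z hz, zero_smul, smul_zero]]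
    rw [e] at a1 a2
    have d : ∀ z, ‖b z • g z - b z • b z • β z‖ ≤ ε / (C + 1) := fun z => by
      rw [← smul_sub, norm_smul, Real.norm_of_nonneg b.nonneg, ← dist_eq_norm]
      exact (mul_le_of_le_one_left dist_nonneg b.le_one).trans (hg' z).le
    have d1 : ε / (C + 1) * (C + 1) = ε := div_mul_cancel₀ _ (by positivity)
    have d2 : 0 < ε / (C + 1) := by positivity
    refine ⟨_, a1.contDiffOn, fun ζ hζ => ⟨?_, ?_⟩⟩
    · rw [← Tm_sub s1.continuous.continuousOn g3.continuousOn]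
      refine (hC _ _ (fun z _ => d z) ζ (ball_subset_closedBall (hs (ball_subset_closedBall
        (ball_subset_ball (by linarith) hζ))))).trans ?_
      linarith
    · rw [a2]
      nlinarith [d ζ]
  have z0 : ∀ z ∈ ball c (2 * r), β z - b z • b z • β z = 0 := fun z hz => by
    rw [b.one_of_mem_closedBall (ball_subset_closedBall hz), one_smul, one_smul, sub_self]
  have h2 := DBAt.of_hol (ds3_far (hβ.sub g3.continuousOn) r0 z0) (ball_mem_nhds c r0)
  refine (h1.add h2).congr (.of_forall fun ζ => ?_) ?_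
  · have := Tm_sub hβ g3.continuousOn 0 ζ
    simp only
    rw [show Tm 0 (β - fun z => b z • b z • β z) ζ = _ from this, add_sub_cancel]
  · filter_upwards [ball_mem_nhds c (show 0 < 2 * r by linarith)] with z hz
    rw [add_zero]
    exact sub_eq_zero.1 (z0 z hz)

theorem differentiable_Tm_sub [CompleteSpace F] (hβ : ContinuousOn β (closedBall 0 1)) (m : ℝ) :
    Differentiable ℂ fun ζ => Tm m β ζ - Tm 0 β ζ := by
  obtain ⟨E, hE⟩ : ∃ E, E = dslope Complex.exp 0 := ⟨_, rfl⟩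
  have d1 : Differentiable ℂ E := by
    rw [hE, ← differentiableOn_univ, Complex.differentiableOn_dslope univ_mem]
    exact Complex.differentiable_exp.differentiableOn
  have c0 := d1.continuous
  have c1 : Continuous (deriv E) := d1.contDiff.continuous_deriv le_rfl
  have e1 : ∀ w, w * E w = Complex.exp w - 1 := fun w => by
    have := sub_smul_dslope Complex.exp 0 w
    rwa [sub_zero, Complex.exp_zero, smul_eq_mul, ← hE] at this
  intro c
  have h := ds3_hol (c := c) (r := 1) (k := fun ζ z => m * conj z * E (m * conj z * (ζ - z)))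
    (k' := fun ζ z => m * conj z * (deriv E (m * conj z * (ζ - z)) * (m * conj z * 1)))
    (isCompact_closedBall (0 : ℂ) 1) measurableSet_ball ball_subset_closedBall hβ
    (fun ζ _ => by fun_prop) (by fun_prop) fun ζ _ z _ =>
      ((d1 _).hasDerivAt.comp ζ (((hasDerivAt_id ζ).sub_const z).const_mul _)).const_mul _
  refine ((h.const_smul (Real.pi : ℂ)⁻¹).congr fun ζ _ => ?_).differentiableAt
    (ball_mem_nhds c one_pos)
  rw [Tm, Tm, ← smul_sub, ← integral_sub (integrableOn_Tm hβ m ζ) (integrableOn_Tm hβ 0 ζ),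
    Pi.smul_apply]
  congr 1
  refine integral_congr_ae (ae_restrict_of_ae ?_)
  have h0 : ∀ᵐ z : ℂ, z ≠ ζ := by simp [ae_iff]
  filter_upwards [h0] with z hz
  have hn : ζ - z ≠ 0 := sub_ne_zero.2 hz.symm
  rw [← sub_smul, ← sub_div, Complex.ofReal_zero, zero_mul, zero_mul, Complex.exp_zero, ← e1]
  congr 1
  field_simp

theorem db_Tm [CompleteSpace F] (hβ : ContinuousOn β (closedBall 0 1)) (m : ℝ) :
    DB (Tm m β) β := by
  intro ζ hζ
  refine ((db_T0 hβ ζ hζ).add (DBAt.of_hol (differentiable_Tm_sub hβ m).differentiableOn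
    univ_mem)).congr (.of_forall fun z => ?_) (.of_forall fun z => ?_)
  · simp
  · simp

end Vale.Agent.P272
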