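import Vale.Agent.P272.DA1

/-! P272, part D: transition maps, frames, partitions. -/

open MeasureTheory Set Filter Topology Metric Matrix
open scoped ContDiff ComplexConjugate ComplexOrder

noncomputable section

namespace Vale.Agent.P272

open Vale.Agent.P271

variable {n : ℕ} {X : Type} [TopologicalSpace X] [T2Space X] [CompactSpace X] {A : Atl n X}
  {f : ℂ → X} {W : A.ι → ℂ → En n} {μ : A.ι → ℂ → ℝ} {E : ℂ → Cn n → X} {ρ : ℝ}

theorem mt_mulVec (L : En n) (v : Cn n) : mt L *ᵥ v = L v :=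
  LinearMap.toMatrix'_mulVec (L : Cn n →ₗ[ℂ] Cn n) v

theorem mt_mul (L L' : En n) : mt (L * L') = mt L * mt L' := by
  ext j k
  exact congrFun (mt_mulVec L (L' (Pi.single k 1))).symm j

theorem mt_one : mt (1 : En n) = 1 := by
  ext j k
  simp [mt, one_apply, Pi.single_apply]

theorem mt_gm (a b : A.ι) (p : X) : mt (gm A a b p) = DM (A.tr a b) (A.e a p) := rfl

theorem mt_det_ne {L : En n} (h : IsUnit L) : (mt L).det ≠ 0 := by
  obtain ⟨L', h⟩ := h.exists_right_inv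
  exact left_ne_zero_of_mul_eq_one (b := (mt L').det) (by rw [← det_mul, ← mt_mul, h, mt_one, det_one])

theorem continuous_mt : Continuous (mt : En n → Mx n) :=
  continuous_matrix fun j _ => (continuous_apply j).comp (continuous_id.clm_apply continuous_const)

theorem differentiable_det_mt : Differentiable ℂ fun L : En n => (mt L).det := by
  simp only [det_apply', mt, of_apply]
  fun_prop

theorem analyticAt_tr {a b : A.ι} {p : X} (ha : p ∈ (A.e a).source) (hb : p ∈ (A.e b).source) :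
    AnalyticAt ℂ (A.tr a b) (A.e a p) :=
  A.hol a b _ ⟨(A.e a).map_source ha, by rw [mem_preimage, (A.e a).left_inv ha]; exact hb⟩

theorem gm_self {a : A.ι} {p : X} (ha : p ∈ (A.e a).source) : gm A a a p = 1 := by
  have e : A.tr a a =ᶠ[𝓝 (A.e a p)] id :=
    Filter.eventually_of_mem ((A.e a).open_target.mem_nhds ((A.e a).map_source ha))
      fun z hz => (A.e a).right_inv hz
  rw [gm, e.fderiv_eq, fderiv_id]
  rfl

theorem gm_mul {a b c : A.ι} {p : X} (ha : p ∈ (A.e a).source) (hb : p ∈ (A.e b).source)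
    (hc : p ∈ (A.e c).source) : gm A b c p * gm A a b p = gm A a c p := by
  have e0 : A.tr a b (A.e a p) = A.e b p := by simp only [Atl.tr, (A.e a).left_inv ha]
  have e : A.tr a c =ᶠ[𝓝 (A.e a p)] A.tr b c ∘ A.tr a b := by
    have h := (A.e a).continuousAt_symm ((A.e a).map_source ha)
    filter_upwards [h.preimage_mem_nhds (by
      rw [(A.e a).left_inv ha]; exact (A.e b).open_source.mem_nhds hb)] with z hz
    simp only [Atl.tr, Function.comp, (A.e b).left_inv hz]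
  rw [gm, gm, gm, e.fderiv_eq, fderiv_comp _ (e0 ▸ (analyticAt_tr hb hc).differentiableAt)
    (analyticAt_tr ha hb).differentiableAt, e0]
  rfl

theorem gm_unit {a b : A.ι} {p : X} (ha : p ∈ (A.e a).source) (hb : p ∈ (A.e b).source) :
    IsUnit (gm A a b p) :=
  ⟨⟨gm A a b p, gm A b a p, (gm_mul hb ha hb).trans (gm_self hb),
    (gm_mul ha hb ha).trans (gm_self ha)⟩, rfl⟩

theorem continuousOn_gm (a b : A.ι) :
    ContinuousOn (gm A a b) ((A.e a).source ∩ (A.e b).source) := fun _ hp =>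
  ((analyticAt_tr hp.1 hp.2).fderiv.continuousAt.comp
    ((A.e a).continuousAt hp.1)).continuousWithinAt

theorem IsD.analyticAt_gm {U : Set ℂ} {ζ : ℂ} (hf : IsD A f U) (hU : U ∈ 𝓝 ζ) {a b : A.ι}
    (ha : f ζ ∈ (A.e a).source) (hb : f ζ ∈ (A.e b).source) :
    AnalyticAt ℂ (fun z => gm A a b (f z)) ζ :=
  (analyticAt_tr ha hb).fderiv.comp (f := fun z => A.e a (f z)) (hf.analyticAt hU ha)

theorem Dc.dom_mem (hf : Dc A f) {a : A.ι} {ζ : ℂ} (h : ζ ∈ dom A f a) :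
    dom A f a ∈ 𝓝[closedBall 0 1] ζ :=
  inter_mem self_mem_nhdsWithin
    ((hf.2 ζ h.1).preimage_mem_nhdsWithin ((A.e a).open_source.mem_nhds h.2))

theorem Frame.analyticAt (hW : Frame A f W) (hf : Dc A f) {a : A.ι} {ζ : ℂ}
    (h : ζ ∈ ball (0 : ℂ) 1) (ha : f ζ ∈ (A.e a).source) :
    AnalyticAt ℂ (W a) ζ ∧ AnalyticAt ℂ (fun z => Ring.inverse (W a z)) ζ := by
  have hU := isOpen_ball.mem_nhds h
  have h1 := (hW.hol a).analyticAt (inter_mem hU
    ((hf.1.1.continuousAt hU).preimage_mem_nhds ((A.e a).open_source.mem_nhds ha)))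
  obtain ⟨u, hu⟩ := hW.unit a ζ ⟨ball_subset_closedBall h, ha⟩
  exact ⟨h1, (analyticAt_inverse u).comp_of_eq h1 hu.symm⟩

theorem Frame.cont_inv (hW : Frame A f W) (a : A.ι) :
    ContinuousOn (fun z => Ring.inverse (W a z)) (dom A f a) := fun ζ h => by
  obtain ⟨u, hu⟩ := hW.unit a ζ h
  exact ContinuousAt.comp_continuousWithinAt (g := Ring.inverse)
    (hu ▸ NormedRing.inverse_continuousAt u) (hW.cont a ζ h)

theorem Frame.inv_tr (hW : Frame A f W) {a b : A.ι} {ζ : ℂ} (ha : ζ ∈ dom A f a)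
    (hb : ζ ∈ dom A f b) : Ring.inverse (W b ζ) * gm A a b (f ζ) = Ring.inverse (W a ζ) := by
  obtain ⟨u, hu⟩ := hW.unit a ζ ha
  obtain ⟨v, hv⟩ := gm_unit (A := A) ha.2 hb.2
  rw [hW.tr a b ζ ha hb, ← hu, ← hv, ← Units.val_mul, Ring.inverse_unit, Ring.inverse_unit,
    _root_.mul_inv_rev, Units.val_mul, Units.inv_mul_cancel_right]

theorem exists_part (hf : ContinuousOn f (closedBall 0 1)) {V : A.ι → Set X}
    (hV : ∀ a, IsOpen (V a)) (hc : ∀ p, ∃ a, p ∈ V a) : ∃ μ, Part A f V μ := by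
  choose U hU hU' using fun a => continuousOn_iff'.1 hf (V a) (hV a)
  obtain ⟨m, hm⟩ := SmoothPartitionOfUnity.exists_isSubordinate (modelWithCornersSelf ℝ ℂ)
    (isClosed_closedBall (x := (0 : ℂ)) (ε := 1)) U hU fun ζ hζ => by
      obtain ⟨a, ha⟩ := hc (f ζ)
      exact mem_iUnion.2 ⟨a, ((hU' a).subset ⟨ha, hζ⟩).1⟩
  exact ⟨fun a => m a, fun a => (m a).contMDiff.contDiff, m.nonneg, fun ζ hζ =>
    (finsum_eq_sum_of_fintype _).symm.trans (m.sum_eq_one hζ),
    fun a ζ hζ h => ((hU' a).symm.subset ⟨hm a h, hζ⟩).1⟩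

theorem DT_sm {m : ℂ → ℝ} (h : ContDiff ℝ ∞ m) : ContDiff ℝ ∞ fun z => (m z : ℂ) :=
  Complex.ofRealCLM.contDiff.comp h

theorem DT_cd {m : ℂ → ℂ} (h : ContDiff ℝ ∞ m) : ContDiff ℝ ∞ (dbar m) := by
  have h1 := h.fderiv_right (m := ∞) le_rfl
  exact ((h1.clm_apply contDiff_const).add
    ((h1.clm_apply contDiff_const).const_smul Complex.I)).const_smul (2 : ℂ)⁻¹

theorem DT_sum {F ι : Type} [NormedAddCommGroup F] [NormedSpace ℂ F] [Fintype ι]
    {h : ι → ℂ → F} {ζ : ℂ} (hh : ∀ i, DifferentiableAt ℝ (h i) ζ) :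
    dbar (fun z => ∑ i, h i z) ζ = ∑ i, dbar (h i) ζ := by
  simp only [dbar, fderiv_fun_sum fun i _ => hh i, _root_.sum_apply, Finset.smul_sum,
    ← Finset.sum_add_distrib]

theorem Part.sum_dbar {V : A.ι → Set X} (h : Part A f V μ) {ζ : ℂ}
    (hζ : ζ ∈ closedBall (0 : ℂ) 1) : ∑ a, dbar (fun z => (μ a z : ℂ)) ζ = 0 := by
  have hc := fun a => DT_cd (DT_sm (h.sm a))
  rw [← closure_ball _ one_ne_zero] at hζ
  refine (isClosed_eq (continuous_finsetSum _ fun a _ => (hc a).continuous)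
    continuous_const).closure_subset_iff.2 (fun z hz => ?_) hζ
  have e : (fun z => ∑ a, (μ a z : ℂ)) =ᶠ[𝓝 z] fun _ => 1 :=
    Filter.eventually_of_mem (isOpen_ball.mem_nhds hz) fun y hy => by
      simp only [← Complex.ofReal_sum, h.sum y (ball_subset_closedBall hy), Complex.ofReal_one]
  rw [mem_ofPred_eq, ← DT_sum fun a => (DT_sm (h.sm a)).differentiable (by simp) z, dbar, e.fderiv_eq]
  simp

theorem Part.contDiff_dbar {V : A.ι → Set X} (h : Part A f V μ) (a : A.ι) :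
    ContDiff ℝ ∞ (dbar fun z => (μ a z : ℂ)) :=
  DT_cd (DT_sm (h.sm a))

theorem dbar_off {m : ℂ → ℝ} {ζ : ℂ} (h : ζ ∉ tsupport m) :
    ∀ᶠ z in 𝓝 ζ, m z = 0 ∧ dbar (fun z => (m z : ℂ)) z = 0 := by
  filter_upwards [(notMem_tsupport_iff_eventuallyEq.1 h).eventually_nhds] with z hz
  have e : (fun z => (m z : ℂ)) =ᶠ[𝓝 z] fun _ => 0 := hz.mono fun y hy => by simp [hy]
  refine ⟨hz.self_of_nhds, ?_⟩
  rw [dbar, e.fderiv_eq]
  simp

theorem dbar_smul_hol {F : Type} [NormedAddCommGroup F] [NormedSpace ℂ F] {m : ℂ → ℂ} {h : ℂ → F}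
    {ζ : ℂ} (hm : DifferentiableAt ℝ m ζ) (hh : DifferentiableAt ℂ h ζ) :
    dbar (fun z => m z • h z) ζ = dbar m ζ • h ζ := by
  have h1 := hh.hasFDerivAt.restrictScalars ℝ
  have h2 : fderiv ℂ h ζ Complex.I = Complex.I • fderiv ℂ h ζ 1 := by
    rw [← map_smul, smul_eq_mul, mul_one]
  rw [dbar, dbar, (hm.hasFDerivAt.fun_smul h1).fderiv]
  simp only [_root_.add_apply, _root_.smul_apply,
    ContinuousLinearMap.smulRight_apply, ContinuousLinearMap.coe_restrictScalars', h2, smul_eq_mul]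
  match_scalars
  · linear_combination (2⁻¹ * m ζ) * Complex.I_mul_I
  · ring

theorem dbar_sum {F ι : Type} [NormedAddCommGroup F] [NormedSpace ℂ F] [Fintype ι]
    {h : ι → ℂ → F} {ζ : ℂ} (hh : ∀ i, DifferentiableAt ℝ (h i) ζ) :
    dbar (fun z => ∑ i, h i z) ζ = ∑ i, dbar (h i) ζ :=
  DT_sum hh

end Vale.Agent.P272
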