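import Vale.Agent.P272.DT

/-! P272, part D: the coordinates centred on the disc. -/

set_option maxSynthPendingDepth 3

open MeasureTheory Set Filter Topology Metric Matrix
open scoped ContDiff ComplexConjugate ComplexOrder

noncomputable section

namespace Vale.Agent.P272

open Vale.Agent.P271

variable {n : ℕ} {X : Type} [TopologicalSpace X] [T2Space X] [CompactSpace X] {A : Atl n X}
  {f : ℂ → X} {W : A.ι → ℂ → En n} {μ : A.ι → ℂ → ℝ} {E : ℂ → Cn n → X} {ρ : ℝ}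

/-- The domain of the coordinates. -/
def tdom (A : Atl n X) (μ : A.ι → ℂ → ℝ) : Set (ℂ × X) :=
  {q | q.1 ∈ closedBall (0 : ℂ) 1 ∧ ∀ b, q.1 ∈ tsupport (μ b) → q.2 ∈ (A.e b).source}

/-- The derivative of the coordinates in the chart `a`. -/
def dcc (A : Atl n X) (W : A.ι → ℂ → En n) (μ : A.ι → ℂ → ℝ) (a : A.ι) (ζ : ℂ) (y : X) : En n :=
  ∑ b, (μ b ζ : ℂ) • (Ring.inverse (W b ζ) * gm A a b y)

theorem cc_self (ζ : ℂ) : cc A f W μ ζ (f ζ) = 0 := by simp [cc]

theorem qq_self (ζ : ℂ) : qq A f W μ ζ (f ζ) = 0 := by simp [qq]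

theorem self_mem_tdom (hμ : Part A f (src A) μ) {ζ : ℂ} (h : ζ ∈ closedBall (0 : ℂ) 1) :
    (ζ, f ζ) ∈ tdom A μ := ⟨h, fun b hb => hμ.supp b ζ h hb⟩

theorem tdom_mem {q : ℂ × X} (h : q ∈ tdom A μ) :
    tdom A μ ∈ 𝓝[closedBall 0 1 ×ˢ univ] q := by
  have h1 : ∀ b, ∀ᶠ p : ℂ × X in 𝓝 q, p.1 ∈ tsupport (μ b) → p.2 ∈ (A.e b).source := fun b => by
    by_cases hb : q.1 ∈ tsupport (μ b)
    · filter_upwards [continuous_snd.continuousAt.preimage_mem_nhds
        ((A.e b).open_source.mem_nhds (h.2 b hb))] with p hp _ using hp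
    · filter_upwards [continuous_fst.continuousAt.preimage_mem_nhds
        ((isClosed_tsupport (μ b)).isOpen_compl.mem_nhds hb)] with p hp h2 using absurd h2 hp
  filter_upwards [self_mem_nhdsWithin, mem_nhdsWithin_of_mem_nhds (eventually_all.2 h1)] with p hp h2
  exact ⟨hp.1, h2⟩

theorem DT2_z1 {m : ℂ → ℝ} {ζ : ℂ} (h : ζ ∉ tsupport m) : (m ζ : ℂ) = 0 := by
  rw [(dbar_off h).self_of_nhds.1, Complex.ofReal_zero]

theorem DT2_z2 {m : ℂ → ℝ} {ζ : ℂ} (h : ζ ∉ tsupport m) : dbar (fun z => (m z : ℂ)) ζ = 0 :=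
  (dbar_off h).self_of_nhds.2

theorem DT2_term {ζ : ℂ} {y : X} (h : (ζ, y) ∈ tdom A μ) {a : A.ι} (ha : y ∈ (A.e a).source)
    {c : A.ι → ℂ} (hc : ∀ b, ζ ∉ tsupport (μ b) → c b = 0) (L : A.ι → En n) (v : A.ι → Cn n) :
    AnalyticAt ℂ (fun z => ∑ b, c b • L b (A.tr a b z - v b)) (A.e a y) ∧
      HasFDerivAt (fun z => ∑ b, c b • L b (A.tr a b z - v b))
        (∑ b, c b • (L b * gm A a b y)) (A.e a y) := by
  refine ⟨Finset.analyticAt_fun_sum _ fun b _ => ?_, HasFDerivAt.fun_sum fun b _ => ?_⟩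
  · by_cases hb : ζ ∈ tsupport (μ b)
    · exact (((L b).analyticAt _).comp ((analyticAt_tr ha (h.2 b hb)).sub
        analyticAt_const)).const_smul (c := c b)
    · simp only [hc b hb, zero_smul]
      exact analyticAt_const
  · by_cases hb : ζ ∈ tsupport (μ b)
    · exact ((L b).hasFDerivAt.comp _
        ((analyticAt_tr ha (h.2 b hb)).differentiableAt.hasFDerivAt.sub_const _)).const_smul (c b)
    · simp only [hc b hb, zero_smul]
      exact hasFDerivAt_const _ _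

theorem analyticAt_cc {ζ : ℂ} {y : X} (h : (ζ, y) ∈ tdom A μ) {a : A.ι}
    (ha : y ∈ (A.e a).source) :
    AnalyticAt ℂ (fun z => cc A f W μ ζ ((A.e a).symm z)) (A.e a y) ∧
      AnalyticAt ℂ (fun z => qq A f W μ ζ ((A.e a).symm z)) (A.e a y) :=
  ⟨(DT2_term h ha (fun _ => DT2_z1) _ _).1, (DT2_term h ha (fun _ => DT2_z2) _ _).1⟩

theorem hasFDerivAt_cc {ζ : ℂ} {y : X} (h : (ζ, y) ∈ tdom A μ) {a : A.ι}
    (ha : y ∈ (A.e a).source) :
    HasFDerivAt (fun z => cc A f W μ ζ ((A.e a).symm z)) (dcc A W μ a ζ y) (A.e a y) :=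
  (DT2_term h ha (fun _ => DT2_z1) _ _).2

theorem DT2_self (hW : Frame A f W) (hμ : Part A f (src A) μ) {a : A.ι} {ζ : ℂ}
    (h : ζ ∈ dom A f a) {c : A.ι → ℂ} (hc : ∀ b, ζ ∉ tsupport (μ b) → c b = 0) :
    ∑ b, c b • (Ring.inverse (W b ζ) * gm A a b (f ζ)) = (∑ b, c b) • Ring.inverse (W a ζ) := by
  rw [Finset.sum_smul]
  refine Finset.sum_congr rfl fun b _ => ?_
  by_cases hb : ζ ∈ tsupport (μ b)
  · rw [hW.inv_tr h ⟨h.1, hμ.supp b ζ h.1 hb⟩]
  · simp only [hc b hb, zero_smul]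

theorem dcc_self (hW : Frame A f W) (hμ : Part A f (src A) μ) {a : A.ι} {ζ : ℂ}
    (h : ζ ∈ dom A f a) : dcc A W μ a ζ (f ζ) = Ring.inverse (W a ζ) := by
  rw [dcc, DT2_self hW hμ h fun _ => DT2_z1, ← Complex.ofReal_sum, hμ.sum ζ h.1]
  simp

theorem hasFDerivAt_qq_self (hW : Frame A f W) (hμ : Part A f (src A) μ) {a : A.ι} {ζ : ℂ}
    (h : ζ ∈ dom A f a) :
    HasFDerivAt (fun z => qq A f W μ ζ ((A.e a).symm z)) (0 : En n) (A.e a (f ζ)) := by
  have := (DT2_term (self_mem_tdom hμ h.1) h.2 (fun _ => DT2_z2) (fun b => Ring.inverse (W b ζ))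
    fun b => A.e b (f ζ)).2
  rw [DT2_self hW hμ h fun _ => DT2_z2, hμ.sum_dbar h.1, zero_smul] at this
  exact this

theorem DT2_cont {G : Type} [NormedAddCommGroup G] [NormedSpace ℂ G] {c : A.ι → ℂ → ℂ}
    (hc : ∀ b, Continuous (c b)) (h0 : ∀ b z, z ∉ tsupport (μ b) → ∀ᶠ w in 𝓝 z, c b w = 0)
    {F : A.ι → ℂ × X → G} {S : Set (ℂ × X)}
    (hF : ∀ b, ∀ q ∈ S, q.1 ∈ tsupport (μ b) → ContinuousWithinAt (F b) S q) :
    ContinuousOn (fun q : ℂ × X => ∑ b, c b q.1 • F b q) S := by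
  refine continuousOn_finset_sum _ fun b _ q hq => ?_
  by_cases hb : q.1 ∈ tsupport (μ b)
  · exact ((hc b).comp continuous_fst).continuousWithinAt.smul (hF b q hq hb)
  · refine (ContinuousAt.congr (continuousAt_const (y := (0 : G))) ?_).continuousWithinAt
    filter_upwards [continuous_fst.continuousAt.eventually (h0 b _ hb)] with p hp
    rw [hp, zero_smul]

theorem DT2_inv (hf : Dc A f) (hW : Frame A f W) {S : Set (ℂ × X)}
    (hS : ∀ q ∈ S, q.1 ∈ closedBall (0 : ℂ) 1) {b : A.ι} {q : ℂ × X} (h : q.1 ∈ dom A f b) :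
    ContinuousWithinAt (fun q : ℂ × X => Ring.inverse (W b q.1)) S q :=
  ((hW.cont_inv b _ h).mono_of_mem_nhdsWithin (hf.dom_mem h)).comp continuousWithinAt_fst hS

theorem continuousOn_cc (hf : Dc A f) (hW : Frame A f W) (hμ : Part A f (src A) μ) :
    ContinuousOn (fun q : ℂ × X => cc A f W μ q.1 q.2) (tdom A μ) ∧
      ContinuousOn (fun q : ℂ × X => qq A f W μ q.1 q.2) (tdom A μ) := by
  have key : ∀ b, ∀ q ∈ tdom A μ, q.1 ∈ tsupport (μ b) → ContinuousWithinAt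
      (fun q : ℂ × X => Ring.inverse (W b q.1) (A.e b q.2 - A.e b (f q.1))) (tdom A μ) q := by
    intro b q hq hb
    have h1 := hμ.supp b _ hq.1 hb
    refine (DT2_inv hf hW (fun _ h => h.1) ⟨hq.1, h1⟩).clm_apply (ContinuousWithinAt.sub ?_ ?_)
    · exact (((A.e b).continuousAt (hq.2 b hb)).comp continuousAt_snd).continuousWithinAt
    · exact ContinuousAt.comp_continuousWithinAt (f := fun q : ℂ × X => f q.1)
        ((A.e b).continuousAt h1) ((hf.2 _ hq.1).comp continuousWithinAt_fst fun _ h => h.1)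
  exact ⟨DT2_cont (c := fun b z => (μ b z : ℂ))
      (fun b => Complex.continuous_ofReal.comp (hμ.sm b).continuous)
      (fun b z hz => (dbar_off hz).mono fun _ h => by simp only [h.1, Complex.ofReal_zero]) key,
    DT2_cont (c := fun b => dbar fun z => (μ b z : ℂ)) (fun b => (hμ.contDiff_dbar b).continuous)
      (fun b z hz => (dbar_off hz).mono fun _ h => h.2) key⟩

theorem continuousOn_dcc (hf : Dc A f) (hW : Frame A f W) (hμ : Part A f (src A) μ) (a : A.ι) :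
    ContinuousOn (fun q : ℂ × X => dcc A W μ a q.1 q.2)
      (tdom A μ ∩ {q | q.2 ∈ (A.e a).source}) := by
  refine DT2_cont (μ := μ) (c := fun b z => (μ b z : ℂ))
    (fun b => Complex.continuous_ofReal.comp (hμ.sm b).continuous)
    (fun b z hz => (dbar_off hz).mono fun _ h => by simp only [h.1, Complex.ofReal_zero])
    fun b q hq hb => ?_
  refine (DT2_inv hf hW (fun _ h => h.1.1) ⟨hq.1.1, hμ.supp b _ hq.1.1 hb⟩).mul ?_
  exact (((continuousOn_gm a b).continuousAt (((A.e a).open_source.inter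
    (A.e b).open_source).mem_nhds ⟨hq.2, hq.1.2 b hb⟩)).comp continuousAt_snd).continuousWithinAt

theorem contDiffAt_cc (hf : Dc A f) (hW : Frame A f W) (hμ : Part A f (src A) μ) {ζ : ℂ} {y : X}
    (hζ : ζ ∈ ball (0 : ℂ) 1) (h : (ζ, y) ∈ tdom A μ) {a : A.ι} (ha : y ∈ (A.e a).source) :
    ContDiffAt ℝ ∞ (fun q : ℂ × Cn n => cc A f W μ q.1 ((A.e a).symm q.2)) (ζ, A.e a y) ∧
      dbar (fun z => cc A f W μ z y) ζ = qq A f W μ ζ y := by
  have hm : ∀ b, ContDiff ℝ ∞ fun z => (μ b z : ℂ) := fun b =>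
    Complex.ofRealCLM.contDiff.comp (hμ.sm b)
  have h1 : ∀ b, ζ ∈ tsupport (μ b) → AnalyticAt ℂ (fun z => Ring.inverse (W b z)) ζ ∧
      AnalyticAt ℂ (fun z => A.e b (f z)) ζ := fun b hb =>
    ⟨(hW.analyticAt hf hζ (hμ.supp b _ h.1 hb)).2,
      hf.1.analyticAt (isOpen_ball.mem_nhds hζ) (hμ.supp b _ h.1 hb)⟩
  constructor
  · refine ContDiffAt.sum fun b _ => ?_
    by_cases hb : ζ ∈ tsupport (μ b)
    · have k : ContDiffAt ℂ ∞ (fun q : ℂ × Cn n =>
          Ring.inverse (W b q.1) (A.tr a b q.2 - A.e b (f q.1))) (ζ, A.e a y) :=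
        (ContDiffAt.comp (f := Prod.fst) (ζ, A.e a y) (h1 b hb).1.contDiffAt
          contDiffAt_fst).clm_apply
          ((ContDiffAt.comp (f := Prod.snd) (ζ, A.e a y) (analyticAt_tr ha (h.2 b hb)).contDiffAt
            contDiffAt_snd).sub
            (ContDiffAt.comp (f := Prod.fst) (ζ, A.e a y) (h1 b hb).2.contDiffAt contDiffAt_fst))
      exact ((hm b).comp contDiff_fst).contDiffAt.smul (k.restrict_scalars ℝ)
    · refine (contDiffAt_const (c := (0 : Cn n))).congr_of_eventuallyEq ?_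
      filter_upwards [(continuous_fst.continuousAt (x := (ζ, A.e a y))).eventually (dbar_off hb)]
        with p hp
      rw [hp.1, Complex.ofReal_zero, zero_smul]
  · have k : ∀ b, DifferentiableAt ℝ
        (fun z => (μ b z : ℂ) • Ring.inverse (W b z) (A.e b y - A.e b (f z))) ζ ∧
        dbar (fun z => (μ b z : ℂ) • Ring.inverse (W b z) (A.e b y - A.e b (f z))) ζ =
          dbar (fun z => (μ b z : ℂ)) ζ • Ring.inverse (W b ζ) (A.e b y - A.e b (f ζ)) := by
      intro b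
      by_cases hb : ζ ∈ tsupport (μ b)
      · have k1 : DifferentiableAt ℂ (fun z => Ring.inverse (W b z) (A.e b y - A.e b (f z))) ζ :=
          (h1 b hb).1.differentiableAt.clm_apply ((h1 b hb).2.differentiableAt.const_sub _)
        have k2 := (hm b).differentiable (by simp) ζ
        exact ⟨k2.smul (k1.restrictScalars ℝ), dbar_smul_hol k2 k1⟩
      · have e : (fun z => (μ b z : ℂ) • Ring.inverse (W b z) (A.e b y - A.e b (f z))) =ᶠ[𝓝 ζ]
            fun _ => 0 := by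
          filter_upwards [dbar_off hb] with p hp
          rw [hp.1, Complex.ofReal_zero, zero_smul]
        refine ⟨(differentiableAt_const _).congr_of_eventuallyEq e, ?_⟩
        rw [DT2_z2 hb, zero_smul]
        rw [dbar, e.fderiv_eq]
        simp
    exact (dbar_sum fun b => (k b).1).trans (Finset.sum_congr rfl fun b _ => (k b).2)

end Vale.Agent.P272
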