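import Vale.Agent.P272.DV1

/-! P272, part D: the two Laplacians commute. -/

open MeasureTheory Set Filter Topology Metric Matrix
open scoped ContDiff ComplexConjugate ComplexOrder

set_option linter.unusedSectionVars false

noncomputable section

namespace Vale.Agent.P272

open Vale.Agent.P271

variable {n : ℕ} {X : Type} [TopologicalSpace X] [T2Space X] [CompactSpace X] {A : Atl n X}
  {w η η₀ η₁ η₂ φ ψ : Frm A} {K r : ℝ} {x : X} {f g : ℂ → X} {U : Set ℂ} {ζ : ℂ}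

section Aux
variable {G H : ℂ × ℂ → ℝ} {q : ℂ × ℂ}

/-- The derivative in a direction. -/
def DV2d (v : ℂ × ℂ) (G : ℂ × ℂ → ℝ) (q : ℂ × ℂ) : ℝ := fderiv ℝ G q v

/-- The sum of two second derivatives. -/
def DV2m (a b : ℂ × ℂ) (G : ℂ × ℂ → ℝ) : ℂ × ℂ → ℝ := DV2d a (DV2d a G) + DV2d b (DV2d b G)

theorem DV2_two : (2 : WithTop ℕ∞) ≤ ∞ := WithTop.coe_le_coe.2 (le_top (a := (2 : ℕ∞)))

theorem DV2_ev (h : ContDiffAt ℝ ∞ G q) : ∀ᶠ p in 𝓝 q, ContDiffAt ℝ 2 G p :=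
  (h.of_le DV2_two).eventually (by simp)

theorem DV2d_congr (v : ℂ × ℂ) (h : G =ᶠ[𝓝 q] H) : DV2d v G =ᶠ[𝓝 q] DV2d v H :=
  (h.fderiv (𝕜 := ℝ)).mono fun _ e => congrArg (fun L : ℂ × ℂ →L[ℝ] ℝ => L v) e

theorem DV2d_sm (v : ℂ × ℂ) (h : ContDiffAt ℝ ∞ G q) : ContDiffAt ℝ ∞ (DV2d v G) q :=
  (h.fderiv_right (m := ∞) (by simp)).clm_apply contDiffAt_const

theorem DV2d_add (v : ℂ × ℂ) (h : ContDiffAt ℝ ∞ G q) (h' : ContDiffAt ℝ ∞ H q) :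
    DV2d v (G + H) =ᶠ[𝓝 q] DV2d v G + DV2d v H := by
  filter_upwards [DV2_ev h, DV2_ev h'] with p h1 h2
  simp only [DV2d, Pi.add_apply]
  rw [fderiv_add (h1.differentiableAt (by simp)) (h2.differentiableAt (by simp))]
  rfl

theorem DV2d_two (v w : ℂ × ℂ) (h : ContDiffAt ℝ 2 G q) :
    DV2d v (DV2d w G) q = fderiv ℝ (fderiv ℝ G) q v w := by
  have h1 : DifferentiableAt ℝ (fderiv ℝ G) q :=
    (h.fderiv_right (m := 1) (by norm_num)).differentiableAt (by simp)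
  exact congrArg (fun L : ℂ × ℂ →L[ℝ] ℝ => L v)
    ((ContinuousLinearMap.apply ℝ ℝ w).hasFDerivAt.comp q h1.hasFDerivAt).fderiv

theorem DV2d_comm (v w : ℂ × ℂ) (h : ContDiffAt ℝ ∞ G q) :
    DV2d v (DV2d w G) =ᶠ[𝓝 q] DV2d w (DV2d v G) := by
  filter_upwards [DV2_ev h] with p h1
  rw [DV2d_two v w h1, DV2d_two w v h1]
  exact (h1.isSymmSndFDerivAt (by simp)).eq v w

theorem DV2m_congr (a b : ℂ × ℂ) (h : G =ᶠ[𝓝 q] H) : DV2m a b G =ᶠ[𝓝 q] DV2m a b H :=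
  (DV2d_congr a (DV2d_congr a h)).add (DV2d_congr b (DV2d_congr b h))

theorem DV2m_sm (a b : ℂ × ℂ) (h : ContDiffAt ℝ ∞ G q) : ContDiffAt ℝ ∞ (DV2m a b G) q :=
  (DV2d_sm a (DV2d_sm a h)).add (DV2d_sm b (DV2d_sm b h))

theorem DV2dd_add (v : ℂ × ℂ) (h : ContDiffAt ℝ ∞ G q) (h' : ContDiffAt ℝ ∞ H q) :
    DV2d v (DV2d v (G + H)) =ᶠ[𝓝 q] DV2d v (DV2d v G) + DV2d v (DV2d v H) :=
  (DV2d_congr v (DV2d_add v h h')).trans (DV2d_add v (DV2d_sm v h) (DV2d_sm v h'))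

theorem DV2dd_comm (v w : ℂ × ℂ) (h : ContDiffAt ℝ ∞ G q) :
    DV2d v (DV2d w (DV2d w G)) =ᶠ[𝓝 q] DV2d w (DV2d w (DV2d v G)) :=
  (DV2d_comm v w (DV2d_sm w h)).trans (DV2d_congr w (DV2d_comm v w h))

theorem DV2dddd (v w : ℂ × ℂ) (h : ContDiffAt ℝ ∞ G q) :
    DV2d v (DV2d v (DV2d w (DV2d w G))) =ᶠ[𝓝 q] DV2d w (DV2d w (DV2d v (DV2d v G))) :=
  (DV2d_congr v (DV2dd_comm v w h)).trans (DV2dd_comm v w (DV2d_sm v h))

theorem DV2m_comm (a b c d : ℂ × ℂ) (h : ContDiffAt ℝ ∞ G q) :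
    DV2m a b (DV2m c d G) q = DV2m c d (DV2m a b G) q := by
  have s := fun v => DV2d_sm v (DV2d_sm v h)
  have e := fun v w u => (DV2dd_add v (s w) (s u)).eq_of_nhds
  simp only [DV2m, Pi.add_apply, e]
  rw [(DV2dddd a c h).eq_of_nhds, (DV2dddd a d h).eq_of_nhds, (DV2dddd b c h).eq_of_nhds,
    (DV2dddd b d h).eq_of_nhds]
  ring

theorem DV2_line {p : ℂ × ℂ} (L : ℂ →L[ℝ] ℂ × ℂ) {z : ℂ} (h : ContDiffAt ℝ 2 G (L z + p)) :
    Laplacian.laplacian (fun y => G (L y + p)) z = DV2m (L 1) (L Complex.I) G (L z + p) := by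
  have hL : ∀ y, HasFDerivAt (fun y => L y + p) L y := fun y => L.hasFDerivAt.add_const p
  have h1 : DifferentiableAt ℝ (fderiv ℝ G) (L z + p) :=
    (h.fderiv_right (m := 1) (by norm_num)).differentiableAt (by simp)
  have h2 : fderiv ℝ (fun y => G (L y + p)) =ᶠ[𝓝 z] fun y => (fderiv ℝ G (L y + p)).comp L := by
    filter_upwards [(hL z).continuousAt.eventually (h.eventually (by simp))] with y hy
    exact ((hy.differentiableAt (by simp)).hasFDerivAt.comp y (hL y)).fderiv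
  have h3 := ((h1.hasFDerivAt.comp z (hL z)).clm_comp (hasFDerivAt_const L z)).fderiv
  rw [InnerProductSpace.laplacian_eq_iteratedFDeriv_complexPlane]
  simp only [iteratedFDeriv_two_apply, Matrix.cons_val_zero, Matrix.cons_val_one, DV2m,
    Pi.add_apply, DV2d_two _ _ h]
  rw [h2.fderiv_eq]
  simp only [Function.comp_apply] at h3
  rw [h3]
  simp

theorem DV2_L1 (h : ContDiffAt ℝ ∞ G q) : L1 G =ᶠ[𝓝 q] DV2m (1, 0) (Complex.I, 0) G := by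
  filter_upwards [DV2_ev h] with p h1
  have h2 := DV2_line (G := G) (p := (0, p.2)) (ContinuousLinearMap.inl ℝ ℂ ℂ) (z := p.1)
    (by simpa using h1)
  simpa [L1] using h2

theorem DV2_L2 (h : ContDiffAt ℝ ∞ G q) : L2 G =ᶠ[𝓝 q] DV2m (0, 1) (0, Complex.I) G := by
  filter_upwards [DV2_ev h] with p h1
  have h2 := DV2_line (G := G) (p := (p.1, 0)) (ContinuousLinearMap.inr ℝ ℂ ℂ) (z := p.2)
    (by simpa using h1)
  simpa [L2] using h2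

theorem DV2_s1 (h : ContDiffAt ℝ ∞ G q) : ContDiffAt ℝ 2 (fun z => G (z, q.2)) q.1 :=
  ContDiffAt.comp (g := G) q.1 (h.of_le DV2_two)
    (contDiffAt_id.prodMk contDiffAt_const)

theorem DV2_s2 (h : ContDiffAt ℝ ∞ G q) : ContDiffAt ℝ 2 (fun z => G (q.1, z)) q.2 :=
  ContDiffAt.comp (g := G) q.2 (h.of_le DV2_two)
    (contDiffAt_const.prodMk contDiffAt_id)

end Aux

theorem contDiffAt_L {G : ℂ × ℂ → ℝ} {q : ℂ × ℂ} (h : ContDiffAt ℝ ∞ G q) :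
    ContDiffAt ℝ ∞ (L1 G) q ∧ ContDiffAt ℝ ∞ (L2 G) q :=
  ⟨(DV2m_sm _ _ h).congr_of_eventuallyEq (DV2_L1 h),
    (DV2m_sm _ _ h).congr_of_eventuallyEq (DV2_L2 h)⟩

theorem L_congr {G H : ℂ × ℂ → ℝ} {q : ℂ × ℂ} (h : G =ᶠ[𝓝 q] H) :
    L1 G q = L1 H q ∧ L2 G q = L2 H q :=
  ⟨(InnerProductSpace.laplacian_congr_nhds (h.comp_tendsto
      (Continuous.prodMk_left q.2).continuousAt)).eq_of_nhds,
    (InnerProductSpace.laplacian_congr_nhds (h.comp_tendsto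
      (Continuous.prodMk_right q.1).continuousAt)).eq_of_nhds⟩

theorem L_comm {G : ℂ × ℂ → ℝ} {q : ℂ × ℂ} (h : ContDiffAt ℝ ∞ G q) :
    L1 (L2 G) q = L2 (L1 G) q := by
  rw [(DV2_L1 (contDiffAt_L h).2).eq_of_nhds, (DV2_L2 (contDiffAt_L h).1).eq_of_nhds,
    (DV2m_congr _ _ (DV2_L1 h)).eq_of_nhds, (DV2m_congr _ _ (DV2_L2 h)).eq_of_nhds,
    DV2m_comm _ _ _ _ h]

theorem Fam2.lap {Z : ℂ → ℂ → X} {τ : ℝ} (hZ : Fam2 A Z τ) (hφ : IsF A φ) :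
    ∃ h : ℂ × ℂ → ℝ, ContinuousOn h (ball 0 1 ×ˢ ball 0 τ) ∧
      ∀ z ∈ ball (0 : ℂ) 1, ∀ s ∈ ball (0 : ℂ) τ,
        ContDiffAt ℝ 2 (fun t => den A φ (fun y => Z y t) z) s ∧
        ContDiffAt ℝ 2 (fun y => den A φ (Z y) s) z ∧
        Laplacian.laplacian (fun t => den A φ (fun y => Z y t) z) s = h (z, s) ∧
        Laplacian.laplacian (fun y => den A φ (Z y) s) z = h (z, s) := by
  have key : ∀ q ∈ ball (0 : ℂ) 1 ×ˢ ball (0 : ℂ) τ,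
      ContDiffAt ℝ ∞ (fun p : ℂ × ℂ => den A φ (fun y => Z y p.2) p.1) q ∧
      ContDiffAt ℝ ∞ (fun p : ℂ × ℂ => den A φ (Z p.1) p.2) q ∧
      L1 (fun p : ℂ × ℂ => den A φ (Z p.1) p.2) q =
        L2 (fun p : ℂ × ℂ => den A φ (fun y => Z y p.2) p.1) q := fun q hq => by
    obtain ⟨G, hG, h⟩ := hZ.pot hφ hq
    have e1 : (fun p : ℂ × ℂ => den A φ (fun y => Z y p.2) p.1) =ᶠ[𝓝 q] (4⁻¹ : ℝ) • L1 G :=
      h.mono fun p hp => by simp [hp.1]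
    have e2 : (fun p : ℂ × ℂ => den A φ (Z p.1) p.2) =ᶠ[𝓝 q] (4⁻¹ : ℝ) • L2 G :=
      h.mono fun p hp => by simp [hp.2]
    refine ⟨((contDiffAt_L hG).1.const_smul (4⁻¹ : ℝ)).congr_of_eventuallyEq e1,
      ((contDiffAt_L hG).2.const_smul (4⁻¹ : ℝ)).congr_of_eventuallyEq e2, ?_⟩
    rw [(L_congr e1).2, (L_congr e2).1]
    exact (InnerProductSpace.laplacian_smul (4⁻¹ : ℝ) (DV2_s1 (contDiffAt_L hG).2)).trans
      ((congrArg _ (L_comm hG)).trans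
        (InnerProductSpace.laplacian_smul (4⁻¹ : ℝ) (DV2_s2 (contDiffAt_L hG).1)).symm)
  refine ⟨L2 fun p : ℂ × ℂ => den A φ (fun y => Z y p.2) p.1,
    fun q hq => (contDiffAt_L (key q hq).1).2.continuousAt.continuousWithinAt, fun z hz s hs => ?_⟩
  obtain ⟨h1, h2, h3⟩ := key (z, s) ⟨hz, hs⟩
  exact ⟨DV2_s2 h1, DV2_s1 h2, rfl, h3⟩

end Vale.Agent.P272
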