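import Vale.Agent.P272.DV2

/-! P272, part D: the characteristic along a family. -/

open MeasureTheory Set Filter Topology Metric Matrix
open scoped ContDiff ComplexConjugate ComplexOrder

noncomputable section

namespace Vale.Agent.P272

open Vale.Agent.P271

variable {n : ℕ} {X : Type} [TopologicalSpace X] [T2Space X] [CompactSpace X] {A : Atl n X}
  {w η η₀ η₁ η₂ φ ψ : Frm A} {K r : ℝ} {x : X} {f g : ℂ → X} {U : Set ℂ} {ζ : ℂ}

theorem DV3_int {α : Type} [MeasurableSpace α] [MetricSpace α] [BorelSpace α]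
    [SecondCountableTopology α] {μ : Measure α} [SFinite μ] {S L : Set α} (hS : MeasurableSet S)
    (hL : IsCompact L) (hSL : S ⊆ L) {k : α → ℝ} (hk : IntegrableOn k S μ) (hr : 0 < r)
    {H : α × ℂ → ℝ} (hH : ContinuousOn H (L ×ˢ closedBall 0 r)) :
    Integrable (fun p : α × ℂ => k p.1 * Real.log (r / ‖p.2‖) * H p)
      ((μ.restrict S).prod (volume.restrict (ball (0 : ℂ) r))) := by
  obtain ⟨C, hC⟩ := (hL.prod (isCompact_closedBall (0 : ℂ) r)).exists_bound_of_continuousOn hH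
  have hs : S ×ˢ ball (0 : ℂ) r ⊆ L ×ˢ closedBall 0 r := prod_mono hSL ball_subset_closedBall
  have hm : MeasurableSet (S ×ˢ ball (0 : ℂ) r) := hS.prod measurableSet_ball
  refine (Integrable.mul_prod hk (integrableOn_log hr)).mul_bdd (c := C) ?_ ?_
  · rw [Measure.prod_restrict]
    exact (hH.mono hs).aestronglyMeasurable hm
  · rw [Measure.prod_restrict]
    exact (ae_restrict_iff' hm).2 (Eventually.of_forall fun p hp => hC p (hs hp))

theorem DV3_swap {σ : ℝ} (hr : 0 < r) (hσ : 0 < σ) {G : ℂ × ℂ → ℝ}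
    (hG : ContinuousOn G (closedBall 0 r ×ˢ closedBall 0 σ)) :
    Real.circleAverage (fun s => ∫ z in ball (0 : ℂ) r, Real.log (r / ‖z‖) * G (z, s)) 0 σ =
      ∫ z in ball (0 : ℂ) r, Real.log (r / ‖z‖) * Real.circleAverage (fun s => G (z, s)) 0 σ := by
  have hc : ContinuousOn (fun p : ℝ × ℂ => G (p.2, circleMap 0 σ p.1))
      (uIcc 0 (2 * Real.pi) ×ˢ closedBall 0 r) := by
    refine hG.comp (Continuous.continuousOn (by fun_prop)) fun p hp => ⟨hp.2, ?_⟩
    exact circleMap_mem_closedBall 0 hσ.le _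
  have hi := DV3_int (μ := (volume : Measure ℝ)) (k := fun _ => 1) measurableSet_uIoc isCompact_uIcc
    uIoc_subset_uIcc (integrableOn_const (by simp [uIoc])) hr hc
  simp only [one_mul] at hi
  have hs := intervalIntegral_integral_swap
    (f := fun (θ : ℝ) (z : ℂ) => Real.log (r / ‖z‖) * G (z, circleMap 0 σ θ)) hi
  simp only [Real.circleAverage_def, smul_eq_mul]
  rw [hs, ← integral_const_mul]
  refine integral_congr_ae (Eventually.of_forall fun z => ?_)
  simp only [intervalIntegral.integral_const_mul]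
  ring

theorem DV3_avg {τ : ℝ} {E : ℂ × ℂ → ℝ} (hE : ContinuousOn E (closedBall 0 1 ×ˢ ball 0 τ)) :
    ContinuousOn (fun q : ℝ × ℂ => Real.circleAverage (fun y => E (y, q.2)) 0 q.1)
      (Icc 0 1 ×ˢ ball 0 τ) := by
  rw [continuousOn_iff_continuous_domRestrict]
  refine (intervalIntegral.continuous_parametric_intervalIntegral_of_continuous'
    (f := fun (q : (Icc (0 : ℝ) 1 ×ˢ ball (0 : ℂ) τ : Set (ℝ × ℂ))) (θ : ℝ) =>
      E (circleMap 0 q.1.1 θ, q.1.2)) ?_ 0 (2 * Real.pi)).const_smul (2 * Real.pi)⁻¹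
  refine hE.comp_continuous (by fun_prop) fun p => ⟨?_, p.1.2.2⟩
  exact closedBall_subset_closedBall p.1.2.1.2 (circleMap_mem_closedBall 0 p.1.2.1.1 _)

theorem Fam2.cont₁ {Z : ℂ → ℂ → X} {τ : ℝ} (hZ : Fam2 A Z τ) :
    ContinuousOn (fun q : ℂ × ℂ => Z q.2 q.1) (ball 0 τ ×ˢ ball 0 1) :=
  hZ.cont.comp continuous_swap.continuousOn fun _ hq => ⟨ball_subset_closedBall hq.2, hq.1⟩

theorem DV3_key {σ : ℝ} (h0 : 0 < r) (hσ : 0 < σ) {D E h : ℂ × ℂ → ℝ}
    (hD : ContinuousOn D (closedBall 0 r ×ˢ closedBall 0 σ))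
    (hc : ContinuousOn h (closedBall 0 r ×ˢ closedBall 0 σ))
    (e1 : ∀ z ∈ ball (0 : ℂ) r, Real.circleAverage (fun s => D (z, s)) 0 σ - D (z, 0) =
      1 / (2 * Real.pi) * ∫ s in ball (0 : ℂ) σ, Real.log (σ / ‖s‖) * h (z, s))
    (e2 : ∀ s ∈ ball (0 : ℂ) σ, Real.circleAverage (fun y => E (y, s)) 0 r - E (0, s) =
      1 / (2 * Real.pi) * ∫ z in ball (0 : ℂ) r, Real.log (r / ‖z‖) * h (z, s)) :
    Real.circleAverage (fun s => ∫ z in ball (0 : ℂ) r, Real.log (r / ‖z‖) * D (z, s)) 0 σ -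
      ∫ z in ball (0 : ℂ) r, Real.log (r / ‖z‖) * D (z, 0) =
      ∫ s in ball (0 : ℂ) σ, Real.log (σ / ‖s‖) *
        (Real.circleAverage (fun y => E (y, s)) 0 r - E (0, s)) := by
  have hi := DV3_int (μ := (volume : Measure ℂ)) measurableSet_ball (isCompact_closedBall 0 r)
    ball_subset_closedBall (integrableOn_log h0) hσ hc
  have hs := integral_integral_swap
    (f := fun (z s : ℂ) => Real.log (r / ‖z‖) * Real.log (σ / ‖s‖) * h (z, s)) hi
  have i0 : IntegrableOn (fun z => Real.log (r / ‖z‖) * D (z, 0)) (ball (0 : ℂ) r) :=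
    greenX1_int h0 (hD.comp (f := fun z : ℂ => (z, (0 : ℂ))) (Continuous.continuousOn (by fun_prop))
      fun z hz => ⟨hz, mem_closedBall_self hσ.le⟩)
  have i1 : IntegrableOn (fun z => ∫ s in ball (0 : ℂ) σ,
      Real.log (r / ‖z‖) * Real.log (σ / ‖s‖) * h (z, s)) (ball (0 : ℂ) r) :=
    hi.integral_prod_left
  have e4 : ∫ z in ball (0 : ℂ) r, Real.log (r / ‖z‖) *
        Real.circleAverage (fun s => D (z, s)) 0 σ =
      (∫ z in ball (0 : ℂ) r, Real.log (r / ‖z‖) * D (z, 0)) +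
        1 / (2 * Real.pi) * ∫ z in ball (0 : ℂ) r, ∫ s in ball (0 : ℂ) σ,
          Real.log (r / ‖z‖) * Real.log (σ / ‖s‖) * h (z, s) := by
    rw [← integral_const_mul, ← integral_add i0 (i1.const_mul _)]
    refine setIntegral_congr_fun measurableSet_ball fun z hz => ?_
    simp only [eq_add_of_sub_eq (e1 z hz), mul_assoc, integral_const_mul]
    ring
  have e5 : ∫ s in ball (0 : ℂ) σ, Real.log (σ / ‖s‖) *
        (Real.circleAverage (fun y => E (y, s)) 0 r - E (0, s)) =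
      1 / (2 * Real.pi) * ∫ s in ball (0 : ℂ) σ, ∫ z in ball (0 : ℂ) r,
          Real.log (r / ‖z‖) * Real.log (σ / ‖s‖) * h (z, s) := by
    rw [← integral_const_mul]
    refine setIntegral_congr_fun measurableSet_ball fun s hs => ?_
    have : ∀ z : ℂ, Real.log (r / ‖z‖) * Real.log (σ / ‖s‖) * h (z, s) =
        Real.log (σ / ‖s‖) * (Real.log (r / ‖z‖) * h (z, s)) := fun z => by ring
    simp only [e2 s hs, this, integral_const_mul]
    ring
  rw [DV3_swap h0 hσ hD, e4, e5, hs]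
  ring

theorem Fam2.avg_T {Z : ℂ → ℂ → X} {τ σ : ℝ} (hZ : Fam2 A Z τ) (hφ : IsF A φ) (h0 : 0 < r)
    (h1 : r < 1) (hσ : 0 < σ) (hτ : σ < τ) :
    Real.circleAverage (fun s => T A φ (fun y => Z y s) r) 0 σ - T A φ (fun y => Z y 0) r =
      2 / Real.pi * ∫ s in ball (0 : ℂ) σ, Real.log (σ / ‖s‖) *
        (Real.circleAverage (fun y => den A φ (Z y) s) 0 r - den A φ (Z 0) s) := by
  obtain ⟨h, hc, hh⟩ := hZ.lap hφ
  have br : closedBall (0 : ℂ) r ⊆ ball 0 1 := closedBall_subset_ball h1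
  have bσ : closedBall (0 : ℂ) σ ⊆ ball 0 τ := closedBall_subset_ball hτ
  have hD0 := den_cont_param (Z := fun s y => Z y s) hφ isOpen_ball hZ.cont₁ hZ.hol₁
  have hD := hD0.comp (f := Prod.swap) (s := closedBall 0 r ×ˢ closedBall 0 σ)
    continuous_swap.continuousOn fun _ hq => ⟨bσ hq.2, br hq.1⟩
  have key := DV3_key h0 hσ (D := fun q : ℂ × ℂ => den A φ (fun y => Z y q.2) q.1)
    (E := fun q : ℂ × ℂ => den A φ (Z q.1) q.2) hD (hc.mono (prod_mono br bσ))
    (fun z hz => by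
      have hz' := br (ball_subset_closedBall hz)
      have := green_jensen hσ fun s hs => (hh z hz' s (bσ hs)).1
      rwa [setIntegral_congr_fun measurableSet_ball (g := fun s => Real.log (σ / ‖s‖) * h (z, s))
        fun s hs => congrArg _ (hh z hz' s (bσ (ball_subset_closedBall hs))).2.2.1] at this)
    (fun s hs => by
      have hs' := bσ (ball_subset_closedBall hs)
      have := green_jensen h0 fun z hz => (hh z (br hz) s hs').2.1
      rwa [setIntegral_congr_fun measurableSet_ball (g := fun z => Real.log (r / ‖z‖) * h (z, s))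
        fun z hz => congrArg _ (hh z (br (ball_subset_closedBall hz)) s hs').2.2.2] at this)
  have e3 := Real.circleAverage_fun_smul (a := 2 / Real.pi) (c := 0) (R := σ)
    (f := fun s => ∫ z in ball (0 : ℂ) r, Real.log (r / ‖z‖) * den A φ (fun y => Z y s) z)
  simp only [smul_eq_mul] at e3
  simp only [T]
  rw [e3, ← key]
  ring

end Vale.Agent.P272
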