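import Vale.Agent.P272.DV3
import Vale.Agent.P272.DP5
import Vale.Agent.P272.DF2

/-! P272, part D: the second variation. -/

open MeasureTheory Set Filter Topology Metric Matrix
open scoped ContDiff ComplexConjugate ComplexOrder

noncomputable section

namespace Vale.Agent.P272

open Vale.Agent.P271

variable {n : ℕ} {X : Type} [TopologicalSpace X] [T2Space X] [CompactSpace X] {A : Atl n X}
  {w η η₀ η₁ η₂ φ ψ : Frm A} {K r : ℝ} {x : X} {f g : ℂ → X} {U : Set ℂ} {ζ : ℂ}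

theorem DV4_cont {Z : ℂ → ℂ → X} {τ t : ℝ} (hZ : Fam2 A Z τ) (hφ : IsF A φ) (h0 : 0 ≤ t)
    (h1 : t ≤ 1) : ContinuousOn (fun q : ℝ × ℂ =>
      Real.circleAverage (fun y => den A φ (Z y) q.2) 0 (q.1 * t)) (Icc 0 1 ×ˢ ball 0 τ) := by
  have h := DV3_avg (den_cont_param (S := closedBall 0 1) hφ isOpen_ball hZ.cont hZ.hol₂)
  exact h.comp (f := fun q : ℝ × ℂ => (q.1 * t, q.2)) (Continuous.continuousOn (by fun_prop))
    fun q hq => ⟨⟨mul_nonneg hq.1.1 h0, mul_le_one₀ hq.1.2 h0 h1⟩, hq.2⟩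

theorem DV4_one {Z : ℂ → ℂ → X} {τ σ ρ t : ℝ} (hZ : Fam2 A Z τ) (hφ : IsF A φ)
    (hx : ∀ s ∈ ball (0 : ℂ) τ, Z 0 s = x) (h0 : 0 < t) (h1 : t ≤ 1) (hρ : 0 < ρ) (hρ1 : ρ < 1)
    (hσ : 0 < σ) (hτ : σ < τ) :
    CircleIntegrable (fun s => T A φ (fun y => Z y s) (ρ * t)) 0 σ ∧
    IntegrableOn (fun s : ℂ => Real.log (σ / ‖s‖) *
      Real.circleAverage (fun y => den A φ (Z y) s) 0 (ρ * t)) (ball 0 σ) ∧
    Real.circleAverage (fun s => T A φ (fun y => Z y s) (ρ * t)) 0 σ =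
      T A φ (fun y => Z y 0) (ρ * t) + 2 / Real.pi * ∫ s in ball (0 : ℂ) σ, Real.log (σ / ‖s‖) *
        Real.circleAverage (fun y => den A φ (Z y) s) 0 (ρ * t) := by
  have a0 : 0 < ρ * t := mul_pos hρ h0
  have a1 : ρ * t < 1 := mul_lt_one_of_nonneg_of_lt_one_left hρ.le hρ1 h1
  have bσ : closedBall (0 : ℂ) σ ⊆ ball 0 τ := closedBall_subset_ball hτ
  refine ⟨ContinuousOn.circleIntegrable hσ.le ?_, greenX1_int hσ ?_, ?_⟩
  · exact (T_cont_param (Z := fun s y => Z y s) hφ hZ.cont₁ hZ.hol₁ a0 a1).mono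
      (sphere_subset_closedBall.trans bσ)
  · exact (DV4_cont hZ hφ h0.le h1).comp (f := fun s : ℂ => (ρ, s))
      (Continuous.continuousOn (by fun_prop)) fun s hs => ⟨⟨hρ.le, hρ1.le⟩, bσ hs⟩
  · have h := hZ.avg_T hφ a0 a1 hσ hτ
    have e : ∀ s ∈ ball (0 : ℂ) σ, den A φ (Z 0) s = 0 := fun s hs => by
      rw [den_congr (g := fun _ => x), den_const]
      filter_upwards [isOpen_ball.mem_nhds (bσ (ball_subset_closedBall hs))] with u hu
      exact hx u hu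
    rw [setIntegral_congr_fun measurableSet_ball (g := fun s : ℂ => Real.log (σ / ‖s‖) *
      Real.circleAverage (fun y => den A φ (Z y) s) 0 (ρ * t))
      fun s hs => by simp only [e s hs, sub_zero]] at h
    linarith

theorem DV4_lim {Z : ℂ → ℂ → X} {t : ℝ} (hw : Kae A w) (hφ : IsF A φ) (ha : Adm A w x f)
    (hf : ∀ ζ ∈ closedBall (0 : ℂ) 1, Z ζ 0 = f ζ) (h0 : 0 < t) (h1 : t ≤ 1) :
    Tendsto (fun ρ : ℝ => T A φ (fun y => Z y 0) (ρ * t)) (𝓝[Ioo 0 1] 1) (𝓝 (T A φ f t)) := by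
  have hc := (continuousOn_T hw ha hφ) t ⟨h0, h1⟩
  have ht : Tendsto (fun ρ : ℝ => ρ * t) (𝓝[Ioo 0 1] 1) (𝓝[Ioc 0 1] t) := by
    refine tendsto_nhdsWithin_iff.2 ⟨?_, ?_⟩
    · have : Tendsto (fun ρ : ℝ => ρ * t) (𝓝 1) (𝓝 (1 * t)) :=
        (continuous_id.mul continuous_const).tendsto 1
      rw [one_mul] at this
      exact this.mono_left nhdsWithin_le_nhds
    · filter_upwards [self_mem_nhdsWithin] with ρ hρ
      exact ⟨mul_pos hρ.1 h0, mul_le_one₀ hρ.2.le h0.le h1⟩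
  refine (hc.tendsto.comp ht).congr' ?_
  filter_upwards [self_mem_nhdsWithin] with ρ hρ
  exact (T_congr (fun z hz => hf z (ball_subset_closedBall hz))
    (mul_le_one₀ hρ.2.le h0.le h1)).symm

theorem DV4_near {τ c : ℝ} (hτ : 0 < τ) {B : ℝ × ℂ → ℝ}
    (hB : ContinuousOn B (Icc 0 1 ×ˢ ball 0 τ)) (hc : B (1, 0) < c) :
    ∃ σ : ℝ, 0 < σ ∧ σ < τ ∧ ∀ᶠ ρ in 𝓝[Ioo 0 1] (1 : ℝ), ∀ s ∈ ball (0 : ℂ) σ, B (ρ, s) ≤ c := by
  have h := (hB (1, 0) ⟨⟨zero_le_one, le_rfl⟩, mem_ball_self hτ⟩).eventually (gt_mem_nhds hc)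
  obtain ⟨δ, hδ, h⟩ := Metric.mem_nhdsWithin_iff.1 h
  refine ⟨min δ (τ / 2), lt_min hδ (half_pos hτ), (min_le_right _ _).trans_lt (half_lt_self hτ), ?_⟩
  filter_upwards [self_mem_nhdsWithin, mem_nhdsWithin_of_mem_nhds (ball_mem_nhds (1 : ℝ) hδ)]
    with ρ hρ hρ' s hs
  refine le_of_lt (h ⟨?_, ⟨hρ.1.le, hρ.2.le⟩, ?_⟩)
  · rw [← ball_prod_same]
    exact ⟨hρ', ball_subset_ball (min_le_left _ _) hs⟩
  · exact ball_subset_ball ((min_le_right _ _).trans (half_le_self hτ.le)) hs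

theorem second_var {Z : ℂ → ℂ → X} {τ : ℝ} (hw : Kae A w) (h₀ : IsF A η₀) (h₁ : IsF A η₁)
    (h₂ : IsF A η₂) (h0 : 0 < r) (h1 : r < 1) (hm : IsMin A w η₀ η₁ η₂ r x f) (hZ : Fam2 A Z τ)
    (hf : ∀ ζ ∈ closedBall (0 : ℂ) 1, Z ζ 0 = f ζ) (hx : ∀ s ∈ ball (0 : ℂ) τ, Z 0 s = x) :
    Real.circleAverage (fun y => den A η₁ (Z y) 0) 0 r +
      Real.circleAverage (fun y => den A η₂ (Z y) 0) 0 (1 / 2) ≤
      Real.circleAverage (fun y => den A η₀ (Z y) 0) 0 1 := by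
  by_contra hcon
  have q0 : (0 : ℝ) < 1 / 2 := by norm_num
  have q1 : (1 / 2 : ℝ) ≤ 1 := by norm_num
  obtain ⟨c, hc1, hc0⟩ := exists_between (sub_neg.2 (not_le.1 hcon))
  have hB := ((DV4_cont hZ h₀ zero_le_one le_rfl).sub (DV4_cont hZ h₁ h0.le h1.le)).sub
    (DV4_cont hZ h₂ q0.le q1)
  obtain ⟨σ, hσ, hτ, hev⟩ := DV4_near (c := c) hZ.pos hB (by
    simp only [Pi.sub_apply, one_mul]
    linarith)
  have bσ : closedBall (0 : ℂ) σ ⊆ ball 0 τ := closedBall_subset_ball hτ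
  have hlim := ((DV4_lim hw h₀ hm.1 hf one_pos le_rfl).sub (DV4_lim hw h₁ hm.1 hf h0 h1.le)).sub
    (DV4_lim hw h₂ hm.1 hf q0 q1)
  have hne : (𝓝[Ioo 0 1] (1 : ℝ)).NeBot := right_nhdsWithin_Ioo_neBot zero_lt_one
  have hle : Phi A η₀ η₁ η₂ r f - c * σ ^ 2 ≤ Phi A η₀ η₁ η₂ r f := by
    refine ge_of_tendsto hlim ?_
    filter_upwards [hev, self_mem_nhdsWithin] with ρ hρ hρ'
    obtain ⟨a₀, b₀, c₀⟩ := DV4_one hZ h₀ hx one_pos le_rfl hρ'.1 hρ'.2 hσ hτ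
    obtain ⟨a₁, b₁, c₁⟩ := DV4_one hZ h₁ hx h0 h1.le hρ'.1 hρ'.2 hσ hτ
    obtain ⟨a₂, b₂, c₂⟩ := DV4_one hZ h₂ hx q0 q1 hρ'.1 hρ'.2 hσ hτ
    have m1 := Real.circleAverage_mono (circleIntegrable_const (Phi A η₀ η₁ η₂ r f) 0 σ)
      ((a₀.sub a₁).sub a₂) fun s hs => by
        have hs' : s ∈ ball (0 : ℂ) τ := by
          rw [abs_of_pos hσ] at hs
          exact bσ (sphere_subset_closedBall hs)
        have hd := hZ.hol₁ s hs'
        have ha := (admC_dilate hw.1 hd hρ'.1 hρ'.2).1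
        rw [hx s hs'] at ha
        have := hm.2 _ ha
        simp only [Phi] at this ⊢
        rw [T_dilate h₀ hd hρ'.1 hρ'.2.le one_pos le_rfl, T_dilate h₁ hd hρ'.1 hρ'.2.le h0 h1.le,
          T_dilate h₂ hd hρ'.1 hρ'.2.le q0 q1] at this
        exact this
    rw [Real.circleAverage_const, Real.circleAverage_sub (a₀.sub a₁) a₂,
      Real.circleAverage_sub a₀ a₁, c₀, c₁, c₂] at m1
    have m2 := setIntegral_mono_on ((b₀.sub b₁).sub b₂) ((integrableOn_log hσ).mul_const c)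
      measurableSet_ball fun s hs => by
        have := mul_le_mul_of_nonneg_left (hρ s hs) (DA2_nonneg hs)
        simp only [Pi.sub_apply] at this ⊢
        linarith
    rw [integral_sub' (b₀.sub b₁) b₂, integral_sub' b₀ b₁, integral_mul_const,
      integral_log hσ] at m2
    have m3 := mul_le_mul_of_nonneg_left m2 DA2_c.le
    have e : 2 / Real.pi * (Real.pi / 2 * σ ^ 2 * c) = c * σ ^ 2 := by
      have := Real.pi_pos
      field_simp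
    rw [e] at m3
    linarith
  have := mul_neg_of_neg_of_pos hc0 (pow_pos hσ 2)
  linarith

theorem var_ineq {W : A.ι → ℂ → En n} (hw : Kae A w) (h₀ : IsF A η₀) (h₁ : IsF A η₁)
    (h₂ : IsF A η₂) (h0 : 0 < r) (h1 : r < 1) (hf : AdmC A w x f)
    (hm : IsMin A w η₀ η₁ η₂ r x f) (hW : Frame A f W) {p : ℂ → Cn n} (hp : Differentiable ℂ p)
    (hp0 : p 0 = 0) : mq A f W η₁ p r + mq A f W η₂ p (1 / 2) ≤ mq A f W η₀ p 1 := by
  obtain ⟨Z, τ, hZ, e1, e2, e3⟩ := exists_fam2 hf.dc hW hp hp0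
  have h := second_var hw h₀ h₁ h₂ h0 h1 hm hZ e1 fun s hs => (e2 s hs).trans hf.1.2.1
  have key : ∀ φ, IsF A φ → ∀ s : ℝ, 0 < s → s ≤ 1 →
      Real.circleAverage (fun y => den A φ (Z y) 0) 0 s = mq A f W φ p s := fun φ hφ s hs hs1 =>
    Real.circleAverage_congr_sphere fun y hy => e3 φ hφ y (by
      rw [abs_of_pos hs] at hy
      exact closedBall_subset_closedBall hs1 (sphere_subset_closedBall hy))
  rwa [key _ h₁ r h0 h1.le, key _ h₂ _ (by norm_num) (by norm_num), key _ h₀ 1 one_pos le_rfl] at h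

end Vale.Agent.P272
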