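import Vale.Agent.P272.DDefs

/-! P272, part D: Jensen and the inequality of the means on a circle. -/

open MeasureTheory Set Filter Topology Metric Matrix
open scoped ContDiff ComplexConjugate ComplexOrder

noncomputable section

namespace Vale.Agent.P272

open Vale.Agent.P271

variable {n : ℕ}

theorem hq_sum (H G : Mx n) : ∑ i, hq H (fun j => G j i) = (Gᴴ * H * G).trace.re := by
  rw [trace, Complex.re_sum]
  refine Finset.sum_congr rfl fun i _ => ?_
  rw [hq, diag_apply, Matrix.mul_assoc, mul_apply]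
  rfl

theorem log_det_ratio {B C : Mx n} (hB : B.PosDef) (hC : C.PosDef) :
    Real.log C.det.re - Real.log B.det.re ≤ (B⁻¹ * C).trace.re - n := by
  obtain ⟨D, l, hD, e1, e2⟩ := Mat_simul hB hC.1
  have hl : ∀ i, 0 < l i := (Mat_pd hD l).1 (e2 ▸ hC)
  have hd : ‖D.det‖ ^ 2 ≠ 0 := pow_ne_zero _ (norm_ne_zero_iff.2 hD)
  rw [e1, e2, Mat_trace hD fun _ => one_pos, Mat_det, Mat_det, Finset.prod_const_one, mul_one,
    Real.log_mul hd (Finset.prod_pos fun i _ => hl i).ne', add_sub_cancel_left,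
    Real.log_prod fun i _ => (hl i).ne']
  have e3 : ∑ i, l i / 1 - (n : ℝ) = ∑ i, (l i - 1) := by
    simp [Finset.sum_sub_distrib]
  rw [e3]
  exact Finset.sum_le_sum fun i _ => Real.log_le_sub_one_of_pos (hl i)

theorem DZ1_cont_det {H : ℂ → Mx n} {s : Set ℂ} (hc : ContinuousOn H s) :
    ContinuousOn (fun ζ => (H ζ).det.re) s :=
  Complex.continuous_re.comp_continuousOn
    ((continuous_id.matrix_det).comp_continuousOn hc)

theorem circleIntegrable_log_det {H : ℂ → Mx n} {ρ : ℝ} (hρ : 0 < ρ)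
    (hc : ContinuousOn H (sphere 0 ρ)) (hp : ∀ ζ ∈ sphere (0 : ℂ) ρ, (H ζ).PosDef) :
    CircleIntegrable (fun ζ => Real.log (H ζ).det.re) 0 ρ :=
  ((DZ1_cont_det hc).log fun ζ hζ => (det_re_pos (hp ζ hζ)).ne').circleIntegrable hρ.le

theorem DZ1_ent_cont {G : ℂ → Mx n} (hG : Ent G) : Continuous G :=
  continuous_matrix fun j k => (hG j k).continuous

theorem DZ1_ent_det {G : ℂ → Mx n} (hG : Ent G) : Differentiable ℂ fun ζ => (G ζ).det := by
  simp only [det_apply']
  refine Differentiable.fun_sum fun σ _ => Differentiable.const_mul ?_ _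
  exact Differentiable.fun_finsetProd fun i _ => hG _ _

theorem DZ1_cont_tr {H G : ℂ → Mx n} {s : Set ℂ} (hc : ContinuousOn H s) (hG : Ent G) :
    ContinuousOn (fun ζ => ((G ζ)ᴴ * H ζ * G ζ).trace.re) s := by
  have h := DZ1_ent_cont hG
  rw [continuousOn_iff_continuous_domRestrict] at hc ⊢
  have h' : Continuous fun z : s => G z := h.comp continuous_subtype_val
  exact Complex.continuous_re.comp
    ((h'.matrix_conjTranspose.matrix_mul hc).matrix_mul h').matrix_trace

theorem DZ1_jensen {g : ℂ → ℂ} (hg : Differentiable ℂ g) (h0 : g 0 ≠ 0) {ρ : ℝ} (hρ : 0 < ρ) :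
    Real.log ‖g 0‖ ≤ Real.circleAverage (fun ζ => Real.log ‖g ζ‖) 0 ρ := by
  have ha : AnalyticOnNhd ℂ g (closedBall 0 |ρ|) := fun z _ => hg.analyticAt z
  rw [ha.circleAverage_log_norm hρ.ne' h0, le_add_iff_nonneg_left]
  refine finsum_nonneg fun u => ?_
  by_cases hu : u ∈ closedBall (0 : ℂ) |ρ|
  · refine mul_nonneg (mod_cast MeromorphicOn.AnalyticOnNhd.divisor_nonneg ha u) ?_
    rcases eq_or_ne u 0 with rfl | h
    · simp
    · refine Real.log_nonneg ?_
      rw [abs_of_pos hρ, mem_closedBall_zero_iff] at hu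
      rw [zero_sub, norm_neg, ← div_eq_mul_inv, one_le_div (norm_pos_iff.2 h)]
      exact hu
  · simp [Function.locallyFinsuppWithin.apply_eq_zero_of_notMem _ hu]

theorem DZ1_mono {f₁ f₂ : ℂ → ℝ} {ρ : ℝ} (hρ : 0 < ρ) (h₁ : CircleIntegrable f₁ 0 ρ)
    (h₂ : CircleIntegrable f₂ 0 ρ)
    (h : ∀ᶠ ζ in codiscreteWithin (sphere (0 : ℂ) |ρ|), f₁ ζ ≤ f₂ ζ) :
    Real.circleAverage f₁ 0 ρ ≤ Real.circleAverage f₂ 0 ρ := by
  have e : f₁ =ᶠ[codiscreteWithin (sphere (0 : ℂ) |ρ|)] fun ζ => min (f₁ ζ) (f₂ ζ) :=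
    h.mono fun ζ hζ => (min_eq_left hζ).symm
  rw [Real.circleAverage_congr_codiscreteWithin e hρ.ne']
  exact Real.circleAverage_mono (h₁.congr_codiscreteWithin e) h₂ fun ζ _ => min_le_right _ _

theorem avg_logdet_le (hn : 0 < n) {H G : ℂ → Mx n} {ρ : ℝ} (hρ : 0 < ρ)
    (hc : ContinuousOn H (sphere 0 ρ)) (hp : ∀ ζ ∈ sphere (0 : ℂ) ρ, (H ζ).PosDef) (hG : Ent G)
    (h0 : (G 0).det ≠ 0) (t : ℝ) :
    n * Real.exp t * (1 + ((Real.log (‖(G 0).det‖ ^ 2) +
      Real.circleAverage (fun ζ => Real.log (H ζ).det.re) 0 ρ) / n - t)) ≤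
      Real.circleAverage (fun ζ => ((G ζ)ᴴ * H ζ * G ζ).trace.re) 0 ρ := by
  have hd := DZ1_ent_det hG
  have hn' : (0 : ℝ) < n := by exact_mod_cast hn
  have i1 : CircleIntegrable (fun ζ => Real.log ‖(G ζ).det‖) 0 ρ :=
    MeromorphicOn.circleIntegrable_log_norm fun z _ => (hd.analyticAt z).meromorphicAt
  have i2 := circleIntegrable_log_det hρ hc hp
  have i3 : CircleIntegrable (fun ζ => ((G ζ)ᴴ * H ζ * G ζ).trace.re) 0 ρ :=
    (DZ1_cont_tr hc hG).circleIntegrable hρ.le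
  have i4 : CircleIntegrable (fun ζ => (2 * Real.exp t) • Real.log ‖(G ζ).det‖) 0 ρ :=
    i1.const_smul (a := 2 * Real.exp t)
  have i5 : CircleIntegrable (fun ζ => Real.exp t • Real.log (H ζ).det.re) 0 ρ :=
    i2.const_smul (a := Real.exp t)
  have i6 : CircleIntegrable (fun _ : ℂ => n * Real.exp t * (1 - t)) 0 ρ :=
    circleIntegrable_const _ _ _
  have i7 : CircleIntegrable (fun ζ => (2 * Real.exp t) • Real.log ‖(G ζ).det‖ +
      Real.exp t • Real.log (H ζ).det.re) 0 ρ := i4.add i5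
  have hz : ∀ᶠ ζ in codiscreteWithin (sphere (0 : ℂ) |ρ|), (G ζ).det ≠ 0 := by
    have ha : AnalyticOnNhd ℂ (fun ζ => (G ζ).det) univ := fun z _ => hd.analyticAt z
    rcases ha.eqOn_zero_or_eventually_ne_zero_of_preconnected isPreconnected_univ with h | h
    · exact absurd (h (mem_univ 0)) h0
    · exact codiscreteWithin_mono (subset_univ _) h
  have key := DZ1_mono hρ (i6.add i7) i3 (by
    filter_upwards [hz, self_mem_codiscreteWithin (sphere (0 : ℂ) |ρ|)] with ζ h1 h2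
    rw [abs_of_pos hρ] at h2
    have hP := hp ζ h2
    have hu : IsUnit (G ζ) := (isUnit_iff_isUnit_det _).2 (isUnit_iff_ne_zero.2 h1)
    have hQ : ((G ζ)ᴴ * H ζ * G ζ).PosDef := by
      rw [← star_eq_conjTranspose, hu.posDef_star_left_conjugate_iff]
      exact hP
    have h3 := log_det_le hQ t
    rw [det_conj, Complex.re_ofReal_mul,
      Real.log_mul (pow_ne_zero _ (norm_ne_zero_iff.2 h1)) (det_re_pos hP).ne', Real.log_pow] at h3
    refine le_of_eq_of_le ?_ h3
    simp only [Pi.add_apply, smul_eq_mul]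
    field_simp
    push_cast
    ring)
  rw [Real.circleAverage_add i6 i7, Real.circleAverage_fun_add i4 i5,
    Real.circleAverage_fun_smul, Real.circleAverage_fun_smul, Real.circleAverage_const] at key
  refine le_trans ?_ key
  have hj := mul_le_mul_of_nonneg_left (DZ1_jensen hd h0 hρ) (Real.exp_pos t).le
  have e : n * Real.exp t * (1 + ((Real.log (‖(G 0).det‖ ^ 2) +
      Real.circleAverage (fun ζ => Real.log (H ζ).det.re) 0 ρ) / n - t)) =
      n * Real.exp t * (1 - t) + (2 * (Real.exp t * Real.log ‖(G 0).det‖) +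
        Real.exp t * Real.circleAverage (fun ζ => Real.log (H ζ).det.re) 0 ρ) := by
    rw [Real.log_pow]
    field_simp
    push_cast
    ring
  rw [e, smul_eq_mul, smul_eq_mul]
  linarith

end Vale.Agent.P272
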