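import Vale.Agent.P272.DDefs

/-! P272, part D: near minimisers and approximation in the Hardy space. -/

open MeasureTheory Set Filter Topology Metric Matrix
open scoped ContDiff ComplexConjugate ComplexOrder

noncomputable section

namespace Vale.Agent.P272

open Vale.Agent.P271

variable {n : ℕ}

theorem DZ2_ci {E : Type} [NormedAddCommGroup E] {f : ℂ → E} (h : ContinuousOn f (sphere 0 1)) :
    CircleIntegrable f 0 1 :=
  ContinuousOn.circleIntegrable zero_le_one h

theorem DZ2_mono {f g : ℂ → ℝ} (hf : ContinuousOn f (sphere 0 1)) (hg : ContinuousOn g (sphere 0 1))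
    (h : ∀ z ∈ sphere (0 : ℂ) 1, f z ≤ g z) :
    Real.circleAverage f 0 1 ≤ Real.circleAverage g 0 1 :=
  Real.circleAverage_mono (DZ2_ci hf) (DZ2_ci hg) (by simpa using h)

theorem DZ2_congr {E : Type} [NormedAddCommGroup E] [NormedSpace ℝ E] {f g : ℂ → E}
    (h : ∀ z ∈ sphere (0 : ℂ) 1, f z = g z) :
    Real.circleAverage f 0 1 = Real.circleAverage g 0 1 :=
  Real.circleAverage_congr_sphere (by intro z hz; exact h z (by simpa using hz))

theorem DZ2_re {f : ℂ → ℂ} (hf : ContinuousOn f (sphere 0 1)) :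
    Real.circleAverage (fun z => (f z).re) 0 1 = (Real.circleAverage f 0 1).re :=
  Complex.reCLM.circleAverage_comp_comm (DZ2_ci hf)

theorem DZ2_lin {f g : ℂ → ℝ} (hf : ContinuousOn f (sphere 0 1)) (hg : ContinuousOn g (sphere 0 1))
    (a b : ℝ) : Real.circleAverage (fun z => a * f z + b * g z) 0 1 =
      a * Real.circleAverage f 0 1 + b * Real.circleAverage g 0 1 := by
  have c1 : ContinuousOn (fun z => a * f z) (sphere 0 1) := continuousOn_const.mul hf
  have c2 : ContinuousOn (fun z => b * g z) (sphere 0 1) := continuousOn_const.mul hg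
  rw [Real.circleAverage_fun_add (DZ2_ci c1) (DZ2_ci c2)]
  have h1 := Real.circleAverage_fun_smul (a := a) (f := f) (c := 0) (R := 1)
  have h2 := Real.circleAverage_fun_smul (a := b) (f := g) (c := 0) (R := 1)
  simp only [smul_eq_mul] at h1 h2
  rw [h1, h2]

theorem DZ2_cont {H : ℂ → Mx n} (hc : ContinuousOn H (sphere 0 1)) {v p : ℂ → Cn n}
    (hv : Continuous v) (hp : Continuous p) :
    ContinuousOn (fun ζ => star (v ζ) ⬝ᵥ H ζ *ᵥ p ζ) (sphere 0 1) := by
  rw [continuousOn_iff_continuous_restrict] at hc ⊢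
  have h1 : Continuous fun ζ : sphere (0 : ℂ) 1 => v ζ := hv.comp continuous_subtype_val
  have h2 : Continuous fun ζ : sphere (0 : ℂ) 1 => p ζ := hp.comp continuous_subtype_val
  exact h1.star.dotProduct (hc.matrix_mulVec h2)

theorem DZ2_hq_cont {H : ℂ → Mx n} (hc : ContinuousOn H (sphere 0 1)) {v : ℂ → Cn n}
    (hv : Continuous v) : ContinuousOn (fun ζ => hq (H ζ) (v ζ)) (sphere 0 1) :=
  Complex.continuous_re.comp_continuousOn (DZ2_cont hc hv hv)

theorem DZ2_hq_add {H : Mx n} (hH : H.IsHermitian) (v p : Cn n) (l : ℂ) :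
    hq H (v + l • p) = hq H v + 2 * (l * (star v ⬝ᵥ H *ᵥ p)).re + ‖l‖ ^ 2 * hq H p := by
  have h1 : star p ⬝ᵥ H *ᵥ v = conj (star v ⬝ᵥ H *ᵥ p) := by
    rw [show conj (star v ⬝ᵥ H *ᵥ p) = star (star v ⬝ᵥ H *ᵥ p) from rfl, star_dotProduct,
      star_mulVec, hH.eq, ← dotProduct_mulVec]
  unfold hq
  rw [star_add, star_smul, mulVec_add, mulVec_smul, add_dotProduct, dotProduct_add, dotProduct_add,
    smul_dotProduct, smul_dotProduct, dotProduct_smul, dotProduct_smul, h1]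
  rw [Complex.sq_norm, Complex.normSq_apply]
  simp only [smul_eq_mul, Complex.add_re, Complex.mul_re, Complex.mul_im, Complex.star_def,
    Complex.conj_re, Complex.conj_im]
  ring

theorem DZ2_hq_nonneg {H : Mx n} (hH : H.PosDef) (v : Cn n) : 0 ≤ hq H v :=
  (Complex.nonneg_iff.1 (hH.posSemidef.dotProduct_mulVec_nonneg v)).1

theorem near_min {H : ℂ → Mx n} (hc : ContinuousOn H (sphere 0 1))
    (hp : ∀ ζ ∈ sphere (0 : ℂ) 1, (H ζ).PosDef) (e : Cn n) {ε : ℝ} (hε : 0 < ε) :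
    ∃ v : ℂ → Cn n, Differentiable ℂ v ∧ v 0 = e ∧
      Real.circleAverage (fun ζ => hq (H ζ) (v ζ)) 0 1 ≤
        Real.circleAverage (fun ζ => hq (H ζ) e) 0 1 ∧
      ∀ p : ℂ → Cn n, Differentiable ℂ p → p 0 = 0 →
        ‖Real.circleAverage (fun ζ => star (v ζ) ⬝ᵥ H ζ *ᵥ p ζ) 0 1‖ ^ 2 ≤
          ε * Real.circleAverage (fun ζ => hq (H ζ) (p ζ)) 0 1 := by
  set q : (ℂ → Cn n) → ℝ := fun v => Real.circleAverage (fun ζ => hq (H ζ) (v ζ)) 0 1 with hqd
  have q0 : ∀ v, 0 ≤ q v := fun v =>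
    Real.circleAverage_nonneg_of_nonneg fun z hz => DZ2_hq_nonneg (hp z (by simpa using hz)) _
  set S : Set ℝ := q '' {v | Differentiable ℂ v ∧ v 0 = e} with hS
  have he : q (fun _ => e) ∈ S := ⟨fun _ => e, ⟨differentiable_const e, rfl⟩, rfl⟩
  have hb : BddBelow S := ⟨0, by rintro _ ⟨v, -, rfl⟩; exact q0 v⟩
  have hex : ∃ v : ℂ → Cn n, Differentiable ℂ v ∧ v 0 = e ∧ q v ≤ q (fun _ => e) ∧
      q v ≤ sInf S + ε := by
    obtain ⟨_, ⟨v, hv, rfl⟩, h⟩ := exists_lt_of_csInf_lt ⟨_, he⟩ (lt_add_of_pos_right (sInf S) hε)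
    rcases le_total (q v) (q fun _ => e) with h' | h'
    · exact ⟨v, hv.1, hv.2, h', h.le⟩
    · exact ⟨fun _ => e, differentiable_const e, rfl, le_rfl, h'.trans h.le⟩
  obtain ⟨v, hv, hv0, h1, h2⟩ := hex
  refine ⟨v, hv, hv0, h1, fun p hpd hp0 => ?_⟩
  set B := Real.circleAverage (fun ζ => star (v ζ) ⬝ᵥ H ζ *ᵥ p ζ) 0 1 with hB
  have cB := DZ2_cont hc hv.continuous hpd.continuous
  have key : ∀ l : ℂ, 0 ≤ ε + 2 * (l * B).re + ‖l‖ ^ 2 * q p := fun l => by
    have h3 : sInf S ≤ q (fun ζ => v ζ + l • p ζ) :=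
      csInf_le hb ⟨_, ⟨hv.add (hpd.const_smul l), by simp [hv0, hp0]⟩, rfl⟩
    have cl : ContinuousOn (fun ζ => l * (star (v ζ) ⬝ᵥ H ζ *ᵥ p ζ)) (sphere 0 1) :=
      continuousOn_const.mul cB
    have cr : ContinuousOn (fun ζ => (l * (star (v ζ) ⬝ᵥ H ζ *ᵥ p ζ)).re) (sphere 0 1) :=
      Complex.continuous_re.comp_continuousOn cl
    have c1 := DZ2_hq_cont hc hv.continuous
    have c2 := DZ2_hq_cont hc hpd.continuous
    have h4 : q (fun ζ => v ζ + l • p ζ) = q v + 2 * (l * B).re + ‖l‖ ^ 2 * q p := by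
      have e1 := DZ2_lin c1 cr 1 2
      have e2 := DZ2_lin ((continuousOn_const (c := (1 : ℝ)).mul c1).add
        ((continuousOn_const (c := (2 : ℝ))).mul cr)) c2 1 (‖l‖ ^ 2)
      have e3 := DZ2_re cl
      have e4 := Real.circleAverage_fun_smul (a := l)
        (f := fun ζ => star (v ζ) ⬝ᵥ H ζ *ᵥ p ζ) (c := 0) (R := 1)
      simp only [smul_eq_mul] at e4
      rw [e4, ← hB] at e3
      rw [e3] at e1
      have e5 : q (fun ζ => v ζ + l • p ζ) = Real.circleAverage (fun ζ =>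
          1 * (1 * hq (H ζ) (v ζ) + 2 * (l * (star (v ζ) ⬝ᵥ H ζ *ᵥ p ζ)).re) +
            ‖l‖ ^ 2 * hq (H ζ) (p ζ)) 0 1 :=
        DZ2_congr fun z hz => by rw [DZ2_hq_add (hp z hz).isHermitian]; ring
      rw [e5]
      refine e2.trans ?_
      have e6 : Real.circleAverage ((fun _ => (1 : ℝ)) * (fun ζ => hq (H ζ) (v ζ)) +
          (fun _ => (2 : ℝ)) * fun ζ => (l * (star (v ζ) ⬝ᵥ H ζ *ᵥ p ζ)).re) 0 1 =
          1 * q v + 2 * (l * B).re := e1
      rw [e6]
      ring
    linarith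
  have hd : ∀ t : ℝ, 0 ≤ (‖B‖ ^ 2 * q p) * (t * t) + (-2 * ‖B‖ ^ 2) * t + ε := fun t => by
    have h3 := key (-(t : ℂ) * conj B)
    have h4 : (-(t : ℂ) * conj B * B).re = -t * ‖B‖ ^ 2 := by
      rw [mul_assoc, Complex.conj_mul', ← Complex.ofReal_neg, ← Complex.ofReal_pow,
        ← Complex.ofReal_mul, Complex.ofReal_re]
    have h5 : ‖-(t : ℂ) * conj B‖ ^ 2 = t * t * ‖B‖ ^ 2 := by
      rw [norm_mul, norm_neg, Complex.norm_real, Complex.norm_conj, mul_pow, Real.norm_eq_abs, sq_abs]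
      ring
    rw [h4, h5] at h3
    linarith
  have h6 := discrim_le_zero hd
  rw [discrim] at h6
  change ‖B‖ ^ 2 ≤ ε * q p
  rcases (sq_nonneg ‖B‖).eq_or_lt with h | h
  · rw [← h]; exact mul_nonneg hε.le (q0 p)
  · exact le_of_mul_le_mul_left (by nlinarith) h

theorem DZ2_trig {g : ℂ → ℂ} (hg : ContinuousOn g (sphere 0 1)) {δ : ℝ} (hδ : 0 < δ) :
    ∃ k p : ℂ → ℂ, Differentiable ℂ k ∧ Differentiable ℂ p ∧ p 0 = 0 ∧
      ∀ z ∈ sphere (0 : ℂ) 1, ‖k z + conj (p z) - g z‖ ≤ δ := by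
  have hm : ∀ x : AddCircle (1 : ℝ), ((AddCircle.toCircle x : Circle) : ℂ) ∈ sphere (0 : ℂ) 1 :=
    fun x => mem_sphere_zero_iff_norm.2 (Circle.norm_coe _)
  have cG : Continuous fun x : AddCircle (1 : ℝ) => g ((AddCircle.toCircle x : Circle) : ℂ) :=
    hg.comp_continuous (continuous_subtype_val.comp AddCircle.continuous_toCircle) hm
  set G : C(AddCircle (1 : ℝ), ℂ) := ⟨_, cG⟩ with hG
  have h1 : G ∈ (Submodule.span ℂ (range (@fourier (1 : ℝ)))).topologicalClosure := by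
    rw [span_fourier_closure_eq_top]; trivial
  obtain ⟨S, hS, hd⟩ := Metric.mem_closure_iff.1 h1 δ hδ
  have h2 : ∃ k p : ℂ → ℂ, Differentiable ℂ k ∧ Differentiable ℂ p ∧ p 0 = 0 ∧
      ∀ x : AddCircle (1 : ℝ), S x = k ((AddCircle.toCircle x : Circle) : ℂ) +
        conj (p ((AddCircle.toCircle x : Circle) : ℂ)) := by
    clear hd
    induction hS using Submodule.span_induction with
    | mem f hf =>
      obtain ⟨m, rfl⟩ := hf
      have hn : ∀ (j : ℕ) (x : AddCircle (1 : ℝ)),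
          fourier (j : ℤ) x = ((AddCircle.toCircle x : Circle) : ℂ) ^ j := fun j x => by
        rw [fourier_apply, natCast_zsmul, AddCircle.toCircle_nsmul, Circle.coe_pow]
      cases m with
      | ofNat j =>
        exact ⟨fun z => z ^ j, fun _ => 0, differentiable_id.pow j, differentiable_const 0, rfl,
          fun x => by simpa using hn j x⟩
      | negSucc j =>
        refine ⟨fun _ => 0, fun z => z ^ (j + 1), differentiable_const 0,
          differentiable_id.pow (j + 1), by simp, fun x => ?_⟩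
        rw [Int.negSucc_eq, fourier_neg, zero_add]
        exact congrArg conj (hn (j + 1) x)
    | zero => exact ⟨fun _ => 0, fun _ => 0, differentiable_const 0, differentiable_const 0, rfl,
        fun x => by simp⟩
    | add f f' _ _ h h' =>
      obtain ⟨k, p, a1, a2, a3, a4⟩ := h
      obtain ⟨k', p', b1, b2, b3, b4⟩ := h'
      refine ⟨fun z => k z + k' z, fun z => p z + p' z, a1.add b1, a2.add b2, by simp [a3, b3],
        fun x => ?_⟩
      rw [ContinuousMap.add_apply, a4, b4, map_add]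
      ring
    | smul c f _ h =>
      obtain ⟨k, p, a1, a2, a3, a4⟩ := h
      refine ⟨fun z => c * k z, fun z => conj c * p z, a1.const_mul c, a2.const_mul _,
        by simp [a3], fun x => ?_⟩
      rw [ContinuousMap.smul_apply, a4, map_mul, Complex.conj_conj, smul_eq_mul]
      ring
  obtain ⟨k, p, a1, a2, a3, a4⟩ := h2
  refine ⟨k, p, a1, a2, a3, fun z hz => ?_⟩
  obtain ⟨x, hx⟩ := (AddCircle.homeomorphCircle (T := (1 : ℝ)) one_ne_zero).surjective
    ⟨z, by simpa [Submonoid.unitSphere] using hz⟩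
  rw [AddCircle.homeomorphCircle_apply] at hx
  have hz' : ((AddCircle.toCircle x : Circle) : ℂ) = z := by rw [hx]
  have h3 := ContinuousMap.dist_apply_le_dist (f := G) (g := S) x
  have h4 : G x = g z := by rw [← hz']; rfl
  rw [h4, a4, hz', dist_comm, dist_eq_norm] at h3
  exact h3.trans hd.le

theorem hardy_approx {g : ℂ → ℂ} (hg : ContinuousOn g (sphere 0 1)) {ε : ℝ} (hε : 0 < ε)
    (h : ∀ p : ℂ → ℂ, Differentiable ℂ p → p 0 = 0 →
      ‖Real.circleAverage (fun ζ => g ζ * p ζ) 0 1‖ ^ 2 ≤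
        ε * Real.circleAverage (fun ζ => ‖p ζ‖ ^ 2) 0 1) :
    ∃ k : ℂ → ℂ, Differentiable ℂ k ∧
      Real.circleAverage (fun ζ => ‖k ζ - g ζ‖ ^ 2) 0 1 ≤ 20 * ε := by
  obtain ⟨k, p, hk, hp, hp0, hd⟩ := DZ2_trig hg (Real.sqrt_pos.2 hε)
  have hs := Real.sq_sqrt hε.le
  have hs0 := Real.sqrt_nonneg ε
  set δ := Real.sqrt ε
  refine ⟨k, hk, ?_⟩
  have h1 := h p hp hp0
  set P := Real.circleAverage (fun ζ => ‖p ζ‖ ^ 2) 0 1 with hP
  have ck : ContinuousOn k (sphere 0 1) := hk.continuous.continuousOn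
  have cp : ContinuousOn p (sphere 0 1) := hp.continuous.continuousOn
  have cP : ContinuousOn (fun ζ => ‖p ζ‖ ^ 2) (sphere 0 1) := cp.norm.pow 2
  have c1 : ContinuousOn (fun _ : ℂ => (1 : ℝ)) (sphere 0 1) := continuousOn_const
  have P0 : 0 ≤ P := Real.circleAverage_nonneg_of_nonneg fun z _ => sq_nonneg _
  have hkp : Real.circleAverage (fun ζ => k ζ * p ζ) 0 1 = 0 := by
    refine (DiffContOnCl.circleAverage (hk.mul hp).diffContOnCl).trans ?_
    simp [hp0]
  have cgp : ContinuousOn (fun ζ => g ζ * p ζ) (sphere 0 1) := hg.mul cp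
  have ckp : ContinuousOn (fun ζ => k ζ * p ζ) (sphere 0 1) := ck.mul cp
  have rgp : ContinuousOn (fun ζ => (g ζ * p ζ).re) (sphere 0 1) :=
    Complex.continuous_re.comp_continuousOn cgp
  have rkp : ContinuousOn (fun ζ => (k ζ * p ζ).re) (sphere 0 1) :=
    Complex.continuous_re.comp_continuousOn ckp
  have h2 : (3 / 4) * P ≤ (Real.circleAverage (fun ζ => g ζ * p ζ) 0 1).re + ε := by
    have e1 := DZ2_lin cP rkp (3 / 4) 1
    have e2 := DZ2_lin rgp c1 1 ε
    rw [DZ2_re ckp, hkp] at e1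
    rw [DZ2_re cgp, Real.circleAverage_const] at e2
    have e3 := DZ2_mono (f := fun z => 3 / 4 * ‖p z‖ ^ 2 + 1 * (k z * p z).re)
      (g := fun z => 1 * (g z * p z).re + ε * 1)
      ((continuousOn_const.mul cP).add (continuousOn_const.mul rkp))
      ((continuousOn_const.mul rgp).add (continuousOn_const.mul c1)) fun z hz => by
        have a1 := hd z hz
        have a2 : ((k z + conj (p z) - g z) * p z).re ≤ δ * ‖p z‖ :=
          (Complex.re_le_norm _).trans (by rw [norm_mul]; gcongr)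
        have a3 : ((k z + conj (p z) - g z) * p z).re =
            (k z * p z).re + ‖p z‖ ^ 2 - (g z * p z).re := by
          rw [sub_mul, add_mul, Complex.conj_mul', Complex.sub_re, Complex.add_re,
            ← Complex.ofReal_pow, Complex.ofReal_re]
        nlinarith [sq_nonneg (δ - ‖p z‖ / 2)]
    rw [e1, e2] at e3
    simp only [Complex.zero_re] at e3
    linarith
  have h3 : (Real.circleAverage (fun ζ => g ζ * p ζ) 0 1).re ≤ ε + P / 4 := by
    refine (Complex.re_le_norm _).trans (le_of_sq_le_sq ?_ (by positivity))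
    nlinarith [sq_nonneg (ε - P / 4)]
  have h4 : P ≤ 4 * ε := by linarith
  have e1 := DZ2_lin c1 cP (2 * ε) 2
  rw [Real.circleAverage_const] at e1
  have e3 := DZ2_mono (f := fun ζ => ‖k ζ - g ζ‖ ^ 2) (g := fun z => 2 * ε * 1 + 2 * ‖p z‖ ^ 2)
    ((ck.sub hg).norm.pow 2)
    ((continuousOn_const.mul c1).add (continuousOn_const.mul cP)) fun z hz => by
      have a1 := hd z hz
      have a2 : ‖k z - g z‖ ≤ δ + ‖p z‖ := by
        have : k z - g z = (k z + conj (p z) - g z) - conj (p z) := by ring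
        rw [this]
        refine (norm_sub_le _ _).trans ?_
        rw [Complex.norm_conj]
        linarith
      have a3 : ‖k z - g z‖ ^ 2 ≤ (δ + ‖p z‖) ^ 2 := by gcongr
      nlinarith [sq_nonneg (δ - ‖p z‖)]
  rw [e1] at e3
  linarith

end Vale.Agent.P272
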