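import Vale.Agent.P272.DZ2

/-! P272, part D: an approximate factorisation. -/

open MeasureTheory Set Filter Topology Metric Matrix
open scoped ContDiff ComplexConjugate ComplexOrder

noncomputable section

namespace Vale.Agent.P272

open Vale.Agent.P271

variable {n : ℕ}

theorem DZ3_mono {f g : ℂ → ℝ} (hf : ContinuousOn f (sphere 0 1)) (hg : ContinuousOn g (sphere 0 1))
    (h : ∀ ζ ∈ sphere (0 : ℂ) 1, f ζ ≤ g ζ) :
    Real.circleAverage f 0 1 ≤ Real.circleAverage g 0 1 :=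
  Real.circleAverage_mono (hf.circleIntegrable zero_le_one) (hg.circleIntegrable zero_le_one)
    fun ζ hζ => h ζ (by rwa [abs_one] at hζ)

theorem DZ3_const_mul (a : ℝ) (f : ℂ → ℝ) :
    Real.circleAverage (fun ζ => a * f ζ) 0 1 = a * Real.circleAverage f 0 1 := by
  simpa only [smul_eq_mul] using Real.circleAverage_fun_smul (a := a) (f := f) (c := 0) (R := 1)

theorem DZ3_mean {k : ℂ → ℂ} (hk : Differentiable ℂ k) : Real.circleAverage k 0 1 = k 0 :=
  hk.diffContOnCl.circleAverage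

theorem DZ3_sq {h : ℂ → ℂ} (hh : ContinuousOn h (sphere 0 1)) :
    ‖Real.circleAverage h 0 1‖ ^ 2 ≤ Real.circleAverage (fun ζ => ‖h ζ‖ ^ 2) 0 1 := by
  obtain ⟨a, ha⟩ : ∃ a, a = Real.circleAverage h 0 1 := ⟨_, rfl⟩
  have h1 : Real.circleAverage (fun ζ => innerSL ℝ a (h ζ)) 0 1 = innerSL ℝ a a := by
    conv_rhs => rw [ha]
    rw [← ha]
    conv_rhs => arg 2; rw [ha]
    exact (innerSL ℝ a).circleAverage_comp_comm (hh.circleIntegrable zero_le_one)
  have h2 : ContinuousOn (fun ζ => 2 * innerSL ℝ a (h ζ)) (sphere 0 1) := by fun_prop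
  have h3 := DZ3_mono (h2.sub (continuousOn_const (c := ‖a‖ ^ 2))) (g := fun ζ => ‖h ζ‖ ^ 2)
    (by fun_prop) fun ζ _ => by
      have h4 := norm_sub_sq_real a (h ζ)
      have h5 := sq_nonneg ‖a - h ζ‖
      simp only [innerSL_apply_apply, Pi.sub_apply]
      linarith
  rw [Real.circleAverage_sub (h2.circleIntegrable zero_le_one)
    (continuousOn_const.circleIntegrable zero_le_one), DZ3_const_mul, h1,
    Real.circleAverage_const, innerSL_apply_apply, real_inner_self_eq_norm_sq] at h3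
  rw [← ha]
  linarith

theorem DZ3_lin {F : Type} [NormedAddCommGroup F] [NormedSpace ℝ F] [CompleteSpace F]
    (L : Mx n →ₗ[ℝ] F) {A : ℂ → Mx n} (hA : ContinuousOn A (sphere 0 1)) {Γ : Mx n}
    (hΓ : ∀ i j, Γ i j = Real.circleAverage (fun ζ => A ζ i j) 0 1) :
    L Γ = Real.circleAverage (fun ζ => L (A ζ)) 0 1 := by
  let A' : ℂ → Fin n → Fin n → ℂ := A
  have h1 : CircleIntegrable A' 0 1 := ContinuousOn.circleIntegrable zero_le_one hA
  have h2 : Γ = Real.circleAverage A' 0 1 := by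
    ext i j
    rw [hΓ]
    exact ((ContinuousLinearMap.proj j : (Fin n → ℂ) →L[ℝ] ℂ).comp
      (ContinuousLinearMap.proj i : (Fin n → Fin n → ℂ) →L[ℝ] Fin n → ℂ)).circleAverage_comp_comm h1
  let L' : (Fin n → Fin n → ℂ) →ₗ[ℝ] F := L
  rw [h2]
  exact ((LinearMap.toContinuousLinearMap L').circleAverage_comp_comm h1).symm

theorem DZ3_hq_one (v : Cn n) : hq 1 v = ∑ j, ‖v j‖ ^ 2 := by
  simp only [hq, one_mulVec, dotProduct, Complex.re_sum, Pi.star_apply, Complex.star_def,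
    Complex.conj_mul', ← Complex.ofReal_pow, Complex.ofReal_re]

theorem DZ3_hq_sub (A B : Mx n) (v : Cn n) : hq (A - B) v = hq A v - hq B v := by
  simp only [hq, sub_mulVec, dotProduct_sub, Complex.sub_re]

theorem DZ3_hq_smul (c : ℝ) (A : Mx n) (v : Cn n) : hq ((c : ℂ) • A) v = c * hq A v := by
  simp only [hq, smul_mulVec, dotProduct_smul, smul_eq_mul, Complex.re_ofReal_mul]

theorem DZ3_hq_nonneg {A : Mx n} (hA : A.PosSemidef) (v : Cn n) : 0 ≤ hq A v :=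
  hA.re_dotProduct_nonneg v

theorem DZ3_hq_le {A : Mx n} (hA : A.PosSemidef) (u v : Cn n) :
    hq A (u - v) ≤ 2 * hq A u + 2 * hq A v := by
  have h := DZ3_hq_nonneg hA (u + v)
  simp only [hq, mulVec_sub, mulVec_add, star_sub, star_add, sub_dotProduct, add_dotProduct,
    dotProduct_sub, dotProduct_add, Complex.sub_re, Complex.add_re] at h ⊢
  linarith

theorem DZ3_bounds {H : ℂ → Mx n} (hc : ContinuousOn H (sphere 0 1))
    (hp : ∀ ζ ∈ sphere (0 : ℂ) 1, (H ζ).PosDef) : ∃ c M : ℝ, 0 < c ∧ 0 < M ∧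
      ∀ ζ ∈ sphere (0 : ℂ) 1, ∀ v, c * hq 1 v ≤ hq (H ζ) v ∧ hq (H ζ) v ≤ M * hq 1 v := by
  have h1 : ContinuousOn (fun ζ => (H ζ).det.re / (H ζ + 1).det.re) (sphere 0 1) :=
    ContinuousOn.div (by fun_prop) (by fun_prop) fun ζ hζ =>
      (det_re_pos ((hp ζ hζ).add PosDef.one)).ne'
  obtain ⟨c, c0, h2⟩ := (isCompact_sphere (0 : ℂ) 1).exists_forall_le' h1 (a := 0) fun ζ hζ =>
    div_pos (det_re_pos (hp ζ hζ)) (det_re_pos ((hp ζ hζ).add PosDef.one))
  have h3 : ContinuousOn (fun ζ => (H ζ).trace.re) (sphere 0 1) := by fun_prop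
  obtain ⟨M, h4⟩ := (isCompact_sphere (0 : ℂ) 1).exists_bound_of_continuousOn h3
  refine ⟨c, |M| + 1, c0, by positivity, fun ζ hζ v => ?_⟩
  have h5 := DZ3_hq_nonneg (psd_sub_ratio PosDef.one (hp ζ hζ)) v
  have h6 := DZ3_hq_nonneg (psd_trace_sub PosDef.one (hp ζ hζ).posSemidef) v
  have h7 := DZ3_hq_nonneg (PosSemidef.one (n := Fin n) (R := ℂ)) v
  rw [DZ3_hq_sub, DZ3_hq_smul] at h5 h6
  rw [inv_one, Matrix.one_mul] at h6
  have h8 := (le_abs_self _).trans ((h4 ζ hζ).trans (le_abs_self M))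
  exact ⟨by nlinarith [h2 ζ hζ], by nlinarith⟩

theorem DZ3_entry (g H k : Mx n) (i j : Fin n) :
    (gᴴ * H * k) i j = star (fun l => g l i) ⬝ᵥ H *ᵥ fun l => k l j := by
  rw [Matrix.mul_assoc]
  simp only [Matrix.mul_apply, conjTranspose_apply, dotProduct, mulVec, Pi.star_apply]

theorem DZ3_conj (g H : Mx n) (ξ : Cn n) : hq (gᴴ * H * g) ξ = hq H (g *ᵥ ξ) := by
  rw [hq, hq, star_mulVec, ← dotProduct_mulVec, mulVec_mulVec, mulVec_mulVec]

theorem DZ3_avg_le {H : ℂ → Mx n} (hc : ContinuousOn H (sphere 0 1))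
    (hp : ∀ ζ ∈ sphere (0 : ℂ) 1, (H ζ).PosDef) {v : ℂ → Cn n} (hv : Continuous v) (e : Cn n) :
    Real.circleAverage (fun ζ => hq (H ζ) (v ζ - e)) 0 1 ≤
      2 * Real.circleAverage (fun ζ => hq (H ζ) (v ζ)) 0 1 +
        2 * Real.circleAverage (fun ζ => hq (H ζ) e) 0 1 := by
  have c3 : ContinuousOn (fun ζ => 2 * hq (H ζ) (v ζ)) (sphere 0 1) := by
    unfold hq; fun_prop
  have c4 : ContinuousOn (fun ζ => 2 * hq (H ζ) e) (sphere 0 1) := by
    unfold hq; fun_prop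
  have h5 := DZ3_mono (f := fun ζ => hq (H ζ) (v ζ - e)) (by unfold hq; fun_prop)
    (c3.add c4) fun ζ hζ => DZ3_hq_le (hp ζ hζ).posSemidef _ _
  rwa [Real.circleAverage_add (c3.circleIntegrable zero_le_one) (c4.circleIntegrable zero_le_one),
    DZ3_const_mul, DZ3_const_mul] at h5

theorem DZ3_tri {a b c : ℂ} {ε : ℝ} (hε : 0 < ε) (h1 : ‖a - b‖ ^ 2 ≤ (ε / 2) ^ 2)
    (h2 : ‖c - b‖ ^ 2 ≤ (ε / 2) ^ 2) : ‖a - c‖ ≤ ε := by
  have h3 := (abs_le_of_sq_le_sq' h1 (by positivity)).2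
  have h4 := (abs_le_of_sq_le_sq' h2 (by positivity)).2
  have h5 := norm_sub_le_norm_sub_add_norm_sub a b c
  rw [norm_sub_rev b] at h5
  linarith

theorem DZ3_psd {H g : ℂ → Mx n} (hc : ContinuousOn H (sphere 0 1))
    (hp : ∀ ζ ∈ sphere (0 : ℂ) 1, (H ζ).PosDef) {c : ℝ} (c0 : 0 < c)
    (hl : ∀ ζ ∈ sphere (0 : ℂ) 1, ∀ v, c * hq 1 v ≤ hq (H ζ) v) (hg : Ent g) (g0 : g 0 = 1)
    {Γ : Mx n} (hΓ : ∀ i j, Γ i j = Real.circleAverage (fun ζ => ((g ζ)ᴴ * H ζ * g ζ) i j) 0 1) :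
    (Γ - (c : ℂ) • 1).PosSemidef := by
  have gc : Continuous g := continuous_matrix fun i j => (hg i j).continuous
  have h1 : ContinuousOn (fun ζ => (g ζ)ᴴ * H ζ * g ζ) (sphere 0 1) := by fun_prop
  refine Loc_psd (IsHermitian.sub ?_ ?_) fun ξ => ?_
  · ext i j
    let L : Mx n →ₗ[ℝ] ℂ :=
      { toFun := fun A => Aᴴ i j
        map_add' := fun A B => by simp
        map_smul' := fun t A => by simp }
    refine (DZ3_lin L h1 hΓ).trans ((hΓ i j).trans ?_).symm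
    refine Real.circleAverage_congr_sphere fun ζ hζ => ?_
    rw [abs_one] at hζ
    exact (congrFun (congrFun (isHermitian_conjTranspose_mul_mul (g ζ) (hp ζ hζ).1).eq i) j).symm
  · rw [IsHermitian, conjTranspose_smul, conjTranspose_one, Complex.star_def, Complex.conj_ofReal]
  · let L : Mx n →ₗ[ℝ] ℝ :=
      { toFun := fun A => hq A ξ
        map_add' := fun A B => by simp only [hq, add_mulVec, dotProduct_add, Complex.add_re]
        map_smul' := fun t A => DZ3_hq_smul t A ξ }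
    have h2 : hq Γ ξ = Real.circleAverage (fun ζ => hq ((g ζ)ᴴ * H ζ * g ζ) ξ) 0 1 :=
      DZ3_lin L h1 hΓ
    have h3 : ∀ j, Differentiable ℂ fun ζ => (g ζ *ᵥ ξ) j := fun j =>
      Differentiable.fun_sum (u := Finset.univ) (A := fun l ζ => g ζ j l * ξ l)
        fun l _ => (hg j l).mul_const _
    have h4 : hq 1 ξ ≤ Real.circleAverage (fun ζ => hq 1 (g ζ *ᵥ ξ)) 0 1 := by
      simp only [DZ3_hq_one]
      rw [Real.circleAverage_fun_sum fun j _ => ContinuousOn.circleIntegrable zero_le_one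
        (by fun_prop)]
      refine Finset.sum_le_sum fun j _ => ?_
      have h5 := DZ3_sq (h3 j).continuous.continuousOn
      rwa [DZ3_mean (h3 j), g0, one_mulVec] at h5
    have h5 : Real.circleAverage (fun ζ => c * hq 1 (g ζ *ᵥ ξ)) 0 1 ≤
        Real.circleAverage (fun ζ => hq ((g ζ)ᴴ * H ζ * g ζ) ξ) 0 1 :=
      DZ3_mono (by unfold hq; fun_prop) (by unfold hq; fun_prop) fun ζ hζ => by
        rw [DZ3_conj]
        exact hl ζ hζ _
    rw [DZ3_const_mul] at h5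
    change 0 ≤ hq _ ξ
    rw [DZ3_hq_sub, DZ3_hq_smul, h2]
    nlinarith

theorem near_fact {H : ℂ → Mx n} (hc : ContinuousOn H (sphere 0 1))
    (hp : ∀ ζ ∈ sphere (0 : ℂ) 1, (H ζ).PosDef) : ∃ c C : ℝ, 0 < c ∧ ∀ ε > (0 : ℝ),
    ∃ (g k : ℂ → Mx n) (Γ : Mx n), Ent g ∧ Ent k ∧ g 0 = 1 ∧
      (∀ i j, Γ i j = Real.circleAverage (fun ζ => ((g ζ)ᴴ * H ζ * g ζ) i j) 0 1) ∧
      (Γ - (c : ℂ) • 1).PosSemidef ∧ Γ.trace.re ≤ C ∧ (∀ i j, ‖k 0 i j - Γ i j‖ ≤ ε) ∧
      ∀ i j, Real.circleAverage (fun ζ => ‖k ζ i j - ((g ζ)ᴴ * H ζ) i j‖ ^ 2) 0 1 ≤ ε := by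
  obtain ⟨c, M, c0, M0, hb⟩ := DZ3_bounds hc hp
  refine ⟨c, n * M, c0, fun ε hε => ?_⟩
  have hη : 0 < min ε (ε ^ 2 / 4) / (20 * M) := by positivity
  obtain ⟨η, η0, η1, η2⟩ : ∃ η : ℝ, 0 < η ∧ 20 * (η * M) ≤ ε ∧ 20 * (η * M) ≤ (ε / 2) ^ 2 := by
    have h : 20 * (min ε (ε ^ 2 / 4) / (20 * M) * M) = min ε (ε ^ 2 / 4) := by field_simp
    exact ⟨_, hη, h.trans_le (min_le_left _ _), h.trans_le ((min_le_right _ _).trans_eq (by ring))⟩
  choose v v1 v2 v3 v4 using fun j : Fin n => near_min hc hp (Pi.single j 1) η0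
  let g : ℂ → Mx n := fun ζ => Matrix.of fun i j => v j ζ i
  have hg : Ent g := fun i j => differentiable_pi.1 (v1 j) i
  have gc : Continuous g := continuous_matrix fun i j => (hg i j).continuous
  have vc : ∀ j, Continuous (v j) := fun j => (v1 j).continuous
  have g0 : g 0 = 1 := by
    ext i j
    simp [g, v2, Pi.single_apply, Matrix.one_apply]
  have e1 : ∀ j : Fin n, hq 1 (Pi.single j 1) = 1 := fun j => by simp [hq]
  have hM : ∀ j : Fin n, Real.circleAverage (fun ζ => hq (H ζ) (Pi.single j 1)) 0 1 ≤ M := fun j =>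
    (DZ3_mono (by unfold hq; fun_prop) continuousOn_const fun ζ hζ =>
      (hb ζ hζ _).2.trans_eq (by rw [e1, mul_one])).trans_eq (Real.circleAverage_const _ _ _)
  have c1 : ∀ i j, ContinuousOn (fun ζ => ((g ζ)ᴴ * H ζ) i j) (sphere 0 1) := fun i j => by
    fun_prop
  have c2 : ∀ i j, ContinuousOn (fun ζ => ((g ζ)ᴴ * H ζ * g ζ) i j) (sphere 0 1) := fun i j => by
    fun_prop
  have e2 : ∀ ζ i j, ((g ζ)ᴴ * H ζ) i j = star (v i ζ) ⬝ᵥ H ζ *ᵥ Pi.single j 1 := fun ζ i j => by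
    have h := DZ3_entry (g ζ) (H ζ) 1 i j
    rw [Matrix.mul_one] at h
    rw [h]
    congr 2
    ext l
    simp [Pi.single_apply, Matrix.one_apply]
  have h1 : ∀ i j, ∃ k : ℂ → ℂ, Differentiable ℂ k ∧
      Real.circleAverage (fun ζ => ‖k ζ - ((g ζ)ᴴ * H ζ) i j‖ ^ 2) 0 1 ≤ 20 * (η * M) := by
    refine fun i j => hardy_approx (c1 i j) (by positivity) fun p hd p0 => ?_
    have pc := hd.continuous
    have h2 := v4 i (fun ζ => p ζ • Pi.single j 1) (hd.smul_const _) (by simp [p0])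
    have h3 : ∀ ζ, star (v i ζ) ⬝ᵥ H ζ *ᵥ (p ζ • Pi.single j 1) = ((g ζ)ᴴ * H ζ) i j * p ζ :=
      fun ζ => by rw [e2, mulVec_smul, dotProduct_smul, smul_eq_mul, mul_comm]
    simp only [h3] at h2
    refine h2.trans ?_
    rw [mul_assoc, ← DZ3_const_mul M]
    refine mul_le_mul_of_nonneg_left (DZ3_mono (by unfold hq; fun_prop) (by fun_prop)
      fun ζ hζ => (hb ζ hζ _).2.trans_eq ?_) η0.le
    rw [DZ3_hq_one, Finset.sum_eq_single j] <;> simp +contextual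
  choose k k1 k2 using h1
  refine ⟨g, fun ζ => Matrix.of fun i j => k i j ζ, Matrix.of fun i j =>
    Real.circleAverage (fun ζ => ((g ζ)ᴴ * H ζ * g ζ) i j) 0 1, hg, k1, g0, fun i j => rfl,
    DZ3_psd hc hp c0 (fun ζ hζ v => (hb ζ hζ v).1) hg g0 fun i j => rfl, ?_, fun i j => ?_,
    fun i j => (k2 i j).trans η1⟩
  · rw [Matrix.trace, Complex.re_sum]
    refine (Finset.sum_le_card_nsmul _ _ M fun j _ => ?_).trans_eq (by simp)
    have h2 := Complex.reCLM.circleAverage_comp_comm ((c2 j j).circleIntegrable zero_le_one)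
    refine le_trans (le_of_eq (h2.symm.trans ?_)) ((v3 j).trans (hM j))
    congr 1
    ext ζ
    exact congrArg Complex.re (DZ3_entry (g ζ) (H ζ) (g ζ) j j)
  · have kc := (k1 i j).continuous
    have h2 := (DZ3_sq (kc.continuousOn.sub (c1 i j))).trans ((k2 i j).trans η2)
    rw [Real.circleAverage_sub (kc.continuousOn.circleIntegrable zero_le_one)
      ((c1 i j).circleIntegrable zero_le_one), DZ3_mean (k1 i j)] at h2
    have h3 := v4 i (fun ζ => v j ζ - Pi.single j 1) ((v1 j).sub_const _) (by simp [v2])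
    have h4 : ∀ ζ, star (v i ζ) ⬝ᵥ H ζ *ᵥ (v j ζ - Pi.single j 1) =
        ((g ζ)ᴴ * H ζ * g ζ) i j - ((g ζ)ᴴ * H ζ) i j := fun ζ => by
      rw [e2, mulVec_sub, dotProduct_sub, DZ3_entry]
      rfl
    have h5 := DZ3_avg_le hc hp (vc j) (Pi.single j 1)
    simp only [h4] at h3
    rw [Real.circleAverage_fun_sub ((c2 i j).circleIntegrable zero_le_one)
      ((c1 i j).circleIntegrable zero_le_one)] at h3
    have h6 := h3.trans (mul_le_mul_of_nonneg_left (h5.trans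
      (show _ ≤ 20 * M by linarith [v3 j, hM j])) η0.le)
    exact DZ3_tri hε h2 (h6.trans (le_of_eq_of_le (by ring) η2))

end Vale.Agent.P272
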