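import Vale.Agent.P272.DZ1
import Vale.Agent.P272.DZ3

/-! P272, part D: the matrix Szego theorem. -/

open MeasureTheory Set Filter Topology Metric Matrix
open scoped ContDiff ComplexConjugate ComplexOrder

noncomputable section

namespace Vale.Agent.P272

open Vale.Agent.P271

variable {n : ℕ}

theorem DZ4_tr {A B : Mx n} (hA : A.PosSemidef) (hB : B.PosSemidef) :
    (A * B).trace.re ≤ A.trace.re * B.trace.re := by
  have h := trace_mul_nonneg (psd_trace_sub PosDef.one hA) hB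
  rw [inv_one, Matrix.one_mul, Matrix.sub_mul, Matrix.smul_mul, Matrix.one_mul, trace_sub,
    trace_smul, Complex.sub_re, smul_eq_mul, Complex.re_ofReal_mul] at h
  linarith

/-- The square of the Frobenius norm. -/
def DZ4f (A : Mx n) : ℝ := (Aᴴ * A).trace.re

theorem DZ4f_eq (A : Mx n) : DZ4f A = ∑ i, ∑ j, ‖A i j‖ ^ 2 := by
  rw [Finset.sum_comm]
  simp only [DZ4f, Matrix.trace, diag_apply, Matrix.mul_apply, conjTranspose_apply, Complex.re_sum,
    Complex.star_def, Complex.conj_mul', ← Complex.ofReal_pow, Complex.ofReal_re]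

theorem DZ4f_nonneg (A : Mx n) : 0 ≤ DZ4f A := by
  rw [DZ4f_eq]
  positivity

theorem DZ4f_star (A : Mx n) : DZ4f Aᴴ = DZ4f A := by
  rw [DZ4f, DZ4f, conjTranspose_conjTranspose, trace_mul_comm]

theorem DZ4f_mul (A B : Mx n) : DZ4f (A * B) ≤ DZ4f A * DZ4f B := by
  have h := DZ4_tr (posSemidef_conjTranspose_mul_self A) (posSemidef_self_mul_conjTranspose B)
  rw [trace_mul_comm B, ← Matrix.mul_assoc, trace_mul_comm _ Bᴴ] at h
  rw [DZ4f, conjTranspose_mul]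
  simpa only [Matrix.mul_assoc, DZ4f] using h

theorem DZ4f_entry (A : Mx n) (i j : Fin n) : ‖A i j‖ ^ 2 ≤ DZ4f A := by
  rw [DZ4f_eq]
  exact (Finset.single_le_sum (f := fun j => ‖A i j‖ ^ 2) (fun _ _ => by positivity)
    (Finset.mem_univ j)).trans (Finset.single_le_sum (f := fun i => ∑ j, ‖A i j‖ ^ 2)
      (fun _ _ => by positivity) (Finset.mem_univ i))

theorem DZ4_split {K : Mx n} (hK : K.PosSemidef) (Z Y : Mx n) {θ : ℝ} (hθ : 0 < θ) :
    ((Z + Y) * K * (Z + Y)ᴴ).trace.re ≤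
      (1 + θ) * (Z * K * Zᴴ).trace.re + (1 + θ⁻¹) * (K.trace.re * DZ4f Y) := by
  have h1 := (Complex.nonneg_iff.1
    (hK.mul_mul_conjTranspose_same ((θ : ℂ) • Z - Y)).trace_nonneg).1
  have h2 := DZ4_tr hK (posSemidef_conjTranspose_mul_self Y)
  rw [← Matrix.mul_assoc, trace_mul_comm _ Y, ← Matrix.mul_assoc] at h2
  simp only [conjTranspose_sub, conjTranspose_smul, Matrix.sub_mul, Matrix.mul_sub, Matrix.smul_mul,
    Matrix.mul_smul, trace_sub, trace_smul, Complex.sub_re, smul_eq_mul, Complex.star_def,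
    Complex.conj_ofReal, Complex.re_ofReal_mul] at h1
  simp only [conjTranspose_add, Matrix.add_mul, Matrix.mul_add, trace_add, Complex.add_re]
  have h3 : (Z * K * Yᴴ).trace.re + (Y * K * Zᴴ).trace.re ≤
      θ * (Z * K * Zᴴ).trace.re + θ⁻¹ * (Y * K * Yᴴ).trace.re := by
    refine le_of_mul_le_mul_left ?_ hθ
    rw [mul_add θ (θ * _), mul_inv_cancel_left₀ hθ.ne']
    linarith
  have h4 := mul_le_mul_of_nonneg_left h2 (show 0 ≤ 1 + θ⁻¹ by positivity)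
  unfold DZ4f
  linarith

theorem DZ4_det (n : ℕ) {δ : ℝ} (hδ : 0 < δ) : ∃ η : ℝ, 0 < η ∧ ∀ E : Mx n, DZ4f E ≤ η →
    (1 + E).det ≠ 0 ∧ -δ ≤ Real.log (‖(1 + E).det‖ ^ 2) := by
  have h1 : Continuous fun E : Fin n → Fin n → ℂ => ‖(1 + Matrix.of E).det‖ ^ 2 := by fun_prop
  have h2 : Real.exp (-δ) < ‖(1 + Matrix.of (0 : Fin n → Fin n → ℂ)).det‖ ^ 2 := by
    have h : Matrix.of (0 : Fin n → Fin n → ℂ) = 0 := rfl
    rw [h, add_zero, det_one, norm_one, one_pow]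
    exact Real.exp_lt_one_iff.2 (by linarith)
  obtain ⟨r, r0, hr⟩ := Metric.eventually_nhds_iff.1 (h1.continuousAt.eventually (lt_mem_nhds h2))
  refine ⟨(r / 2) ^ 2, by positivity, fun E hE => ?_⟩
  have h3 : Real.exp (-δ) < ‖(1 + E).det‖ ^ 2 := by
    refine hr (y := Matrix.of.symm E) ?_
    rw [dist_zero_right, pi_norm_lt_iff r0]
    intro i
    rw [pi_norm_lt_iff r0]
    intro j
    exact (abs_le_of_sq_le_sq' ((DZ4f_entry E i j).trans hE) (by positivity)).2.trans_lt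
      (half_lt_self r0)
  refine ⟨fun h => ?_, ((Real.lt_log_iff_exp_lt ((Real.exp_pos _).trans h3)).2 h3).le⟩
  rw [h, norm_zero, zero_pow two_ne_zero] at h3
  exact (Real.exp_pos _).not_gt h3

theorem DZ4_inv {H : ℂ → Mx n} (hc : ContinuousOn H (sphere 0 1))
    (hp : ∀ ζ ∈ sphere (0 : ℂ) 1, (H ζ).PosDef) : ContinuousOn (fun ζ => (H ζ)⁻¹) (sphere 0 1) := by
  simp only [Matrix.inv_def, Ring.inverse_eq_inv']
  exact (ContinuousOn.inv₀ (by fun_prop) fun ζ hζ => (hp ζ hζ).det_pos.ne').smul (by fun_prop)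

theorem DZ4_root {Γ : Mx n} {c : ℝ} (c0 : 0 < c) (h : (Γ - (c : ℂ) • 1).PosSemidef) :
    ∃ S : Mx n, S.det ≠ 0 ∧ Sᴴ * Γ * S = 1 ∧ DZ4f S ≤ n / c := by
  have h1 : Γ.PosDef := by
    have h2 := PosDef.posSemidef_add h (PosDef.one.smul (Complex.zero_lt_real.2 c0))
    rwa [sub_add_cancel] at h2
  obtain ⟨D, -, hD, e, -⟩ := Mat_simul h1 h1.1
  have h2 : MatDg (fun _ : Fin n => 1) = 1 := by simp [MatDg]
  have h3 : (D⁻¹)ᴴ * Γ * D⁻¹ = 1 := by
    rw [e, h2, Matrix.mul_one, ← Matrix.mul_assoc, ← conjTranspose_mul, Matrix.mul_assoc,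
      Matrix.mul_nonsing_inv _ hD.isUnit, conjTranspose_one, Matrix.mul_one]
  refine ⟨D⁻¹, (Matrix.isUnit_nonsing_inv_det _ hD.isUnit).ne_zero, h3, ?_⟩
  have h4 := (Complex.nonneg_iff.1 (h.conjTranspose_mul_mul_same D⁻¹).trace_nonneg).1
  rw [Matrix.mul_sub, Matrix.sub_mul, h3, Matrix.mul_smul, Matrix.smul_mul, Matrix.mul_one,
    trace_sub, trace_smul, trace_one, Fintype.card_fin, Complex.sub_re, smul_eq_mul,
    Complex.re_ofReal_mul, Complex.natCast_re] at h4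
  rw [le_div_iff₀ c0, DZ4f]
  linarith

theorem DZ4_main (hn : 0 < n) {H : ℂ → Mx n} (hc : ContinuousOn H (sphere 0 1))
    (hp : ∀ ζ ∈ sphere (0 : ℂ) 1, (H ζ).PosDef) {G X : ℂ → Mx n} (hG : Ent G) (hX : Ent X)
    (h0 : (X 0).det ≠ 0) {θ M : ℝ} (hθ : 0 < θ)
    (hM : ∀ ζ ∈ sphere (0 : ℂ) 1, ((H ζ)⁻¹).trace.re ≤ M) :
    n + Real.log (‖(X 0).det‖ ^ 2) - Real.circleAverage (fun ζ => Real.log (H ζ).det.re) 0 1 ≤
      (1 + θ) * Real.circleAverage (fun ζ => ((G ζ)ᴴ * H ζ * G ζ).trace.re) 0 1 +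
        (1 + θ⁻¹) * M * Real.circleAverage (fun ζ => DZ4f (X ζ - (G ζ)ᴴ * H ζ)) 0 1 := by
  have hi := DZ4_inv hc hp
  have gc : Continuous G := continuous_matrix fun i j => (hG i j).continuous
  have xc : Continuous X := continuous_matrix fun i j => (hX i j).continuous
  have h1 := avg_logdet_le hn (H := fun ζ => ((H ζ)⁻¹)ᵀ) (G := fun ζ => (X ζ)ᵀ) one_pos
    (by fun_prop) (fun ζ hζ => (hp ζ hζ).inv.transpose) (fun i j => hX j i)
    (by rwa [det_transpose]) 0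
  have h2 : Real.circleAverage (fun ζ => Real.log (((H ζ)⁻¹)ᵀ).det.re) 0 1 =
      -1 * Real.circleAverage (fun ζ => Real.log (H ζ).det.re) 0 1 := by
    rw [← DZ3_const_mul]
    refine Real.circleAverage_congr_sphere fun ζ hζ => ?_
    rw [abs_one] at hζ
    rw [det_transpose, det_nonsing_inv, Ring.inverse_eq_inv', det_eq_re (hp ζ hζ).1,
      ← Complex.ofReal_inv, Complex.ofReal_re, Complex.ofReal_re, Real.log_inv, neg_one_mul]
  have c1 : ContinuousOn (fun ζ => (1 + θ) * ((G ζ)ᴴ * H ζ * G ζ).trace.re) (sphere 0 1) := by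
    fun_prop
  have c2 : ContinuousOn (fun ζ => (1 + θ⁻¹) * M * DZ4f (X ζ - (G ζ)ᴴ * H ζ)) (sphere 0 1) := by
    unfold DZ4f
    fun_prop
  have h3 := DZ3_mono (f := fun ζ => (((X ζ)ᵀ)ᴴ * ((H ζ)⁻¹)ᵀ * (X ζ)ᵀ).trace.re) (by fun_prop)
    (c1.add c2) fun ζ hζ => by
      have h4 := DZ4_split (hp ζ hζ).inv.posSemidef ((G ζ)ᴴ * H ζ) (X ζ - (G ζ)ᴴ * H ζ) hθ
      have h5 : ((X ζ)ᵀ)ᴴ * ((H ζ)⁻¹)ᵀ * (X ζ)ᵀ = (X ζ * (H ζ)⁻¹ * (X ζ)ᴴ)ᵀ := by
        rw [transpose_mul, transpose_mul, Matrix.mul_assoc]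
        rfl
      rw [add_sub_cancel, Matrix.mul_nonsing_inv_cancel_right _ _ (hp ζ hζ).det_pos.ne'.isUnit,
        conjTranspose_mul, conjTranspose_conjTranspose, (hp ζ hζ).1.eq, ← Matrix.mul_assoc] at h4
      have h6 := mul_le_mul_of_nonneg_left (mul_le_mul_of_nonneg_right (hM ζ hζ)
        (DZ4f_nonneg (X ζ - (G ζ)ᴴ * H ζ))) (show 0 ≤ 1 + θ⁻¹ by positivity)
      rw [h5, trace_transpose, Pi.add_apply]
      linarith
  rw [Real.circleAverage_add (c1.circleIntegrable zero_le_one) (c2.circleIntegrable zero_le_one),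
    DZ3_const_mul, DZ3_const_mul] at h3
  have hn' : (n : ℝ) ≠ 0 := Nat.cast_ne_zero.2 hn.ne'
  rw [h2, det_transpose, Real.exp_zero, mul_one, sub_zero, mul_add, mul_div_cancel₀ _ hn'] at h1
  linarith

theorem szego (hn : 0 < n) {H : ℂ → Mx n} (hc : ContinuousOn H (sphere 0 1))
    (hp : ∀ ζ ∈ sphere (0 : ℂ) 1, (H ζ).PosDef) {δ : ℝ} (hδ : 0 < δ) :
    ∃ G : ℂ → Mx n, Ent G ∧ (G 0).det ≠ 0 ∧
      Real.circleAverage (fun ζ => ((G ζ)ᴴ * H ζ * G ζ).trace.re) 0 1 ≤ n ∧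
      -Real.circleAverage (fun ζ => Real.log (H ζ).det.re) 0 1 - δ ≤
        Real.log (‖(G 0).det‖ ^ 2) := by
  obtain ⟨c, C, c0, hf⟩ := near_fact hc hp
  obtain ⟨η, η0, hη⟩ := DZ4_det n (δ := δ / 3) (by positivity)
  have hi := DZ4_inv hc hp
  have hi' : ContinuousOn (fun ζ => ((H ζ)⁻¹).trace.re) (sphere 0 1) := by fun_prop
  obtain ⟨M, hM⟩ := (isCompact_sphere (0 : ℂ) 1).exists_bound_of_continuousOn hi'
  have hn' : (0 : ℝ) < n := Nat.cast_pos.2 hn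
  obtain ⟨θ, θ0, hθ⟩ : ∃ θ : ℝ, 0 < θ ∧ θ * n = δ / 3 := ⟨δ / 3 / n, by positivity, by field_simp⟩
  obtain ⟨ε, ε0, ε1, ε2⟩ : ∃ ε : ℝ, 0 < ε ∧ n / c * (n * (n * ε ^ 2)) * (n / c) ≤ η ∧
      (1 + θ⁻¹) * |M| * (n / c * (n * (n * ε))) ≤ δ / 3 := by
    have h1 : ∀ᶠ ε : ℝ in 𝓝 0, n / c * (n * (n * ε ^ 2)) * (n / c) < η :=
      ContinuousAt.eventually_lt (by fun_prop) continuousAt_const (by simpa using η0)
    have h2 : ∀ᶠ ε : ℝ in 𝓝 0, (1 + θ⁻¹) * |M| * (n / c * (n * (n * ε))) < δ / 3 :=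
      ContinuousAt.eventually_lt (by fun_prop) continuousAt_const (by simpa using hδ)
    obtain ⟨ε, h3, h4⟩ := (((h1.and h2).filter_mono nhdsWithin_le_nhds).and
      (self_mem_nhdsWithin (s := Ioi (0 : ℝ)))).exists
    exact ⟨ε, h4, h3.1.le, h3.2.le⟩
  obtain ⟨g, k, Γ, hg, hk, g0, hΓ, hΓc, -, k0, k1⟩ := hf ε ε0
  obtain ⟨S, hS, S1, S2⟩ := DZ4_root c0 hΓc
  have gc : Continuous g := continuous_matrix fun i j => (hg i j).continuous
  have kc : Continuous k := continuous_matrix fun i j => (hk i j).continuous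
  have hG : Ent fun ζ => g ζ * S := fun i j =>
    Differentiable.fun_sum (u := Finset.univ) (A := fun l ζ => g ζ i l * S l j)
      fun l _ => (hg i l).mul_const _
  have hX : Ent fun ζ => Sᴴ * k ζ := fun i j =>
    Differentiable.fun_sum (u := Finset.univ) (A := fun l ζ => Sᴴ i l * k ζ l j)
      fun l _ => (hk l j).const_mul _
  have h1 : Real.circleAverage (fun ζ => ((g ζ * S)ᴴ * H ζ * (g ζ * S)).trace.re) 0 1 = n := by
    let L : Mx n →ₗ[ℝ] ℝ :=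
      { toFun := fun A => (Sᴴ * A * S).trace.re
        map_add' := fun A B => by
          rw [Matrix.mul_add, Matrix.add_mul, trace_add, Complex.add_re]
        map_smul' := fun t A => by
          rw [Matrix.mul_smul, Matrix.smul_mul, trace_smul, Complex.smul_re, RingHom.id_apply] }
    have h2 : (Sᴴ * Γ * S).trace.re = Real.circleAverage
        (fun ζ => (Sᴴ * ((g ζ)ᴴ * H ζ * g ζ) * S).trace.re) 0 1 := DZ3_lin L (by fun_prop) hΓ
    rw [S1, trace_one, Fintype.card_fin, Complex.natCast_re] at h2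
    simp only [h2, conjTranspose_mul, Matrix.mul_assoc]
  have h2 : DZ4f (Sᴴ * (k 0 - Γ) * S) ≤ η := by
    have h3 : DZ4f (k 0 - Γ) ≤ n * (n * ε ^ 2) := by
      rw [DZ4f_eq]
      refine (Finset.sum_le_card_nsmul _ _ (n * ε ^ 2) fun i _ => ?_).trans_eq (by simp)
      refine (Finset.sum_le_card_nsmul _ _ (ε ^ 2) fun j _ => ?_).trans_eq (by simp)
      exact pow_le_pow_left₀ (norm_nonneg _) (k0 i j) 2
    refine (DZ4f_mul _ _).trans (le_trans (mul_le_mul ((DZ4f_mul _ _).trans ?_) S2 (DZ4f_nonneg _)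
      (by positivity)) ε1)
    rw [DZ4f_star]
    exact mul_le_mul S2 h3 (DZ4f_nonneg _) (by positivity)
  obtain ⟨h3, h4⟩ := hη _ h2
  have h5 : 1 + Sᴴ * (k 0 - Γ) * S = Sᴴ * k 0 * S := by
    rw [Matrix.mul_sub, Matrix.sub_mul, S1, add_sub_cancel]
  rw [h5, det_mul] at h3 h4
  have h6 := DZ4_main hn hc hp hG hX (left_ne_zero_of_mul h3) θ0 (M := |M|) fun ζ hζ =>
    (le_abs_self _).trans ((hM ζ hζ).trans (le_abs_self M))
  have h7 : Real.circleAverage (fun ζ => DZ4f (Sᴴ * k ζ - (g ζ * S)ᴴ * H ζ)) 0 1 ≤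
      n / c * (n * (n * ε)) := by
    have c1 : ∀ i j, ContinuousOn (fun ζ => ‖k ζ i j - ((g ζ)ᴴ * H ζ) i j‖ ^ 2) (sphere 0 1) :=
      fun i j => by fun_prop
    have c2 : ∀ i, ContinuousOn (fun ζ => ∑ j, ‖k ζ i j - ((g ζ)ᴴ * H ζ) i j‖ ^ 2) (sphere 0 1) :=
      fun i => continuousOn_finsetSum _ fun j _ => c1 i j
    refine (DZ3_mono (g := fun ζ => n / c * ∑ i, ∑ j, ‖k ζ i j - ((g ζ)ᴴ * H ζ) i j‖ ^ 2)
      (by unfold DZ4f; fun_prop) (continuousOn_const.mul (continuousOn_finsetSum _ fun i _ => c2 i))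
      fun ζ _ => ?_).trans ?_
    · rw [conjTranspose_mul, Matrix.mul_assoc, ← Matrix.mul_sub]
      refine (DZ4f_mul _ _).trans ?_
      rw [DZ4f_star, DZ4f_eq (k ζ - _)]
      exact mul_le_mul_of_nonneg_right S2 (by positivity)
    · rw [DZ3_const_mul, Real.circleAverage_fun_sum fun i _ => (c2 i).circleIntegrable zero_le_one]
      refine mul_le_mul_of_nonneg_left ?_ (by positivity)
      refine (Finset.sum_le_card_nsmul _ _ (n * ε) fun i _ => ?_).trans_eq (by simp)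
      rw [Real.circleAverage_fun_sum fun j _ => (c1 i j).circleIntegrable zero_le_one]
      exact (Finset.sum_le_card_nsmul _ _ ε fun j _ => k1 i j).trans_eq (by simp)
  refine ⟨fun ζ => g ζ * S, hG, by simpa only [g0, Matrix.one_mul] using hS, h1.le, ?_⟩
  rw [norm_mul, mul_pow, Real.log_mul (pow_ne_zero 2 (norm_ne_zero_iff.2 (left_ne_zero_of_mul h3)))
    (pow_ne_zero 2 (norm_ne_zero_iff.2 hS))] at h4
  have h8 := mul_le_mul_of_nonneg_left h7 (show 0 ≤ (1 + θ⁻¹) * |M| by positivity)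
  rw [h1] at h6
  simp only [g0, Matrix.one_mul]
  linarith

end Vale.Agent.P272
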