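import Vale.Agent.P272.Defs

/-! P272: the Green-Jensen formula in a disc. -/

open MeasureTheory Set Filter Topology Metric Matrix
open scoped ContDiff ComplexConjugate ComplexOrder

noncomputable section

namespace Vale.Agent.P272

open Vale.Agent.P271

/-- The Green function of the disc of radius `r`. -/
def gr (r : ℝ) (t ζ : ℂ) : ℝ := Real.log (‖(r : ℂ) ^ 2 - conj t * ζ‖ / (r * ‖ζ - t‖))

/-- The Poisson kernel of the disc of radius `r`. -/
def po (r : ℝ) (t ξ : ℂ) : ℝ := (r ^ 2 - ‖t‖ ^ 2) / ‖ξ - t‖ ^ 2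

/-- Extension to a global function of class two: the set of points where `u` is of class two is
open; multiply by a smooth function equal to one near the closed disc with support in this set
(`exists_contMDiff_support_eq`, `exists_smooth_one_nhds_of_subset_interior`, or a `ContDiffBump`
with radii from `IsCompact.exists_thickening_subset_open`). -/
theorem greenX1_ext {u : ℂ → ℝ} {r : ℝ} (hu : ∀ ζ ∈ closedBall (0 : ℂ) r, ContDiffAt ℝ 2 u ζ) :
    ∃ v : ℂ → ℝ, ContDiff ℝ 2 v ∧ ∀ ζ ∈ closedBall (0 : ℂ) r, v =ᶠ[𝓝 ζ] u := by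
  have hU : IsOpen {z : ℂ | ContDiffAt ℝ 2 u z} :=
    isOpen_iff_mem_nhds.2 fun z hz => ContDiffAt.eventually hz (by simp)
  obtain ⟨χ, h0, h1, -⟩ := exists_contMDiffMap_zero_one_nhds_of_isClosed (n := 2)
    (modelWithCornersSelf ℝ ℂ) hU.isClosed_compl (isClosed_closedBall (x := (0 : ℂ)) (ε := r))
    (disjoint_left.2 fun z hz hz' => hz (hu z hz'))
  have hχ : ContDiff ℝ 2 χ := χ.contMDiff.contDiff
  refine ⟨fun z => χ z * u z, contDiff_iff_contDiffAt.2 fun z => ?_, fun z hz => ?_⟩
  · by_cases hz : ContDiffAt ℝ 2 u z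
    · exact hχ.contDiffAt.mul hz
    · refine (contDiffAt_const (c := (0 : ℝ))).congr_of_eventuallyEq ?_
      filter_upwards [(eventually_nhdsSet_iff_forall.1 h0) z hz] with w hw
      rw [hw, zero_mul]
  · filter_upwards [(eventually_nhdsSet_iff_forall.1 h1) z hz] with w hw
    rw [hw, one_mul]

/-- `integrableOn_fun_norm_addHaar` and continuity of `s * log s`. -/
theorem greenX1_log (r : ℝ) : IntegrableOn (fun ζ : ℂ => Real.log ‖ζ‖) (ball 0 r) := by
  rw [integrableOn_fun_norm_addHaar volume (f := Real.log), Complex.finrank_real_complex]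
  simp only [Nat.add_one_sub_one, pow_one, smul_eq_mul]
  exact (Real.continuous_mul_log.integrableOn_Icc (a := 0) (b := r)).mono_set Ioo_subset_Icc_self

/-- Polar coordinates (`Complex.integral_comp_polarCoord_symm`, Fubini, periodicity). -/
theorem greenX1_polar {G : ℂ → ℝ} {r : ℝ} (hr : 0 < r) (hG : IntegrableOn G (ball 0 r)) :
    ∫ ζ in ball (0 : ℂ) r, G ζ =
      ∫ s in (0 : ℝ)..r, s * ∫ θ in (0 : ℝ)..2 * Real.pi, G (circleMap 0 s θ) := by
  have hs : ∀ p : ℝ × ℝ, Complex.polarCoord.symm p = circleMap 0 p.1 p.2 := by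
    intro p
    rw [Complex.polarCoord_symm_apply, circleMap, zero_add, Complex.exp_mul_I]
    push_cast
    rfl
  have hn : ∀ {s : ℝ}, 0 ≤ s → ∀ θ, ‖circleMap 0 s θ‖ = s := fun hs θ => by
    simpa using circleMap_mem_sphere 0 hs θ
  have hm : MeasurableSet (Ioo (0 : ℝ) r ×ˢ Ioo (-Real.pi) Real.pi) :=
    measurableSet_Ioo.prod measurableSet_Ioo
  have hsub : Ioo (0 : ℝ) r ×ˢ Ioo (-Real.pi) Real.pi ⊆ polarCoord.target :=
    fun p hp => ⟨hp.1.1, hp.2⟩
  have hI : IntegrableOn (fun p : ℝ × ℝ => p.1 • G (circleMap 0 p.1 p.2))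
      (Ioo (0 : ℝ) r ×ˢ Ioo (-Real.pi) Real.pi) := by
    have h1 := (Complex.volume_preserving_equiv_real_prod.symm.integrableOn_comp_preimage
      Complex.measurableEquivRealProd.symm.measurableEmbedding).2 hG
    have h2 := (integrableOn_image_iff_integrableOn_abs_det_fderiv_smul volume hm
      (fun p _ => (hasFDerivAt_polarCoord_symm p).hasFDerivWithinAt)
      (polarCoord.symm.injOn.mono hsub) _).1 (h1.mono_set (by
        rintro _ ⟨p, hp, rfl⟩
        rw [mem_preimage, Complex.measurableEquivRealProd_symm_polarCoord_symm_apply, hs,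
          mem_ball_zero_iff, hn hp.1.1.le]
        exact hp.1.2))
    refine h2.congr_fun (fun p hp => ?_) hm
    simp only [det_fderivPolarCoordSymm, Function.comp_apply,
      Complex.measurableEquivRealProd_symm_polarCoord_symm_apply, hs, abs_of_pos hp.1.1]
  rw [← integral_indicator measurableSet_ball, ← Complex.integral_comp_polarCoord_symm]
  have e : ∫ p in polarCoord.target, p.1 •
      (ball (0 : ℂ) r).indicator G (Complex.polarCoord.symm p)
      = ∫ p in Ioo (0 : ℝ) r ×ˢ Ioo (-Real.pi) Real.pi, p.1 • G (circleMap 0 p.1 p.2) := by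
    rw [← inter_eq_left.2 hsub, ← Measure.restrict_restrict hm, ← integral_indicator hm]
    refine setIntegral_congr_fun polarCoord.open_target.measurableSet fun p hp => ?_
    have hp1 : 0 < p.1 := hp.1
    simp only [hs]
    by_cases hab : p.1 < r
    · rw [indicator_of_mem (show circleMap 0 p.1 p.2 ∈ ball (0 : ℂ) r by
        rwa [mem_ball_zero_iff, hn hp1.le]),
        indicator_of_mem (show p ∈ Ioo (0 : ℝ) r ×ˢ Ioo (-Real.pi) Real.pi from
          ⟨⟨hp1, hab⟩, hp.2⟩)]
    · rw [indicator_of_notMem, indicator_of_notMem (fun h => hab h.1.2), smul_zero]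
      rwa [mem_ball_zero_iff, hn hp1.le]
  refine e.trans ?_
  rw [Measure.volume_eq_prod] at hI ⊢
  rw [setIntegral_prod _ hI, intervalIntegral.integral_of_le hr.le, integral_Ioc_eq_integral_Ioo]
  refine setIntegral_congr_fun measurableSet_Ioo fun s _ => ?_
  simp only
  have t₀ : (fun θ => G (circleMap 0 s θ)).Periodic (2 * Real.pi) :=
    fun x => by simp [periodic_circleMap 0 s x]
  have h3 := t₀.intervalIntegral_add_eq 0 (-Real.pi)
  rw [zero_add] at h3
  rw [integral_smul, h3, ← integral_Ioc_eq_integral_Ioo,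
    ← intervalIntegral.integral_of_le (by linarith [Real.pi_pos]), smul_eq_mul]
  congr 2
  ring

theorem greenX1_deriv {F F' : ℝ → ℝ → ℝ} (hF : Continuous fun p : ℝ × ℝ => F p.1 p.2)
    (hF' : Continuous fun p : ℝ × ℝ => F' p.1 p.2)
    (h : ∀ s θ, HasDerivAt (fun x => F x θ) (F' s θ) s) (a b s : ℝ) :
    HasDerivAt (fun x => ∫ θ in a..b, F x θ) (∫ θ in a..b, F' s θ) s := by
  obtain ⟨C, hC⟩ := ((isCompact_closedBall s 1).prod (isCompact_uIcc (a := a) (b := b))
    ).exists_bound_of_continuousOn hF'.continuousOn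
  have c1 : ∀ x, Continuous (F x) := fun x => hF.comp (Continuous.prodMk_right x)
  have c2 : ∀ x, Continuous (F' x) := fun x => hF'.comp (Continuous.prodMk_right x)
  exact (intervalIntegral.hasDerivAt_integral_of_dominated_loc_of_deriv_le (bound := fun _ => C)
    (closedBall_mem_nhds s one_pos) (Eventually.of_forall fun x => (c1 x).aestronglyMeasurable)
    ((c1 s).intervalIntegrable a b) (c2 s).aestronglyMeasurable
    (Eventually.of_forall fun t ht x hx => hC (x, t) ⟨hx, uIoc_subset_uIcc ht⟩)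
    intervalIntegrable_const (Eventually.of_forall fun t _ x _ => h x t)).2

theorem greenX1_lap {u : ℂ → ℝ} {z : ℂ} (hu : ContDiffAt ℝ 2 u z) (e : ℂ) :
    fderiv ℝ (fderiv ℝ u) z e e + fderiv ℝ (fderiv ℝ u) z (e * Complex.I) (e * Complex.I) =
      ‖e‖ ^ 2 * Laplacian.laplacian u z := by
  have hs := (hu.isSymmSndFDerivAt (by simp)).eq 1 Complex.I
  have e1 : e = e.re • (1 : ℂ) + e.im • Complex.I := by
    apply Complex.ext <;> simp
  have e2 : e * Complex.I = (-e.im) • (1 : ℂ) + e.re • Complex.I := by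
    apply Complex.ext <;> simp
  rw [InnerProductSpace.laplacian_eq_iteratedFDeriv_complexPlane]
  simp only [iteratedFDeriv_two_apply, Matrix.cons_val_zero, Matrix.cons_val_one]
  rw [e2, Complex.sq_norm, Complex.normSq_apply]
  generalize e.re = a at *
  generalize e.im = b at *
  rw [e1]
  simp only [map_add, map_smul, _root_.add_apply, _root_.smul_apply,
    smul_eq_mul, hs]
  ring

theorem greenX1_cont_lap {u : ℂ → ℝ} (hu : ContDiff ℝ 2 u) :
    Continuous (Laplacian.laplacian u) := by
  have h2 : Continuous (fderiv ℝ (fderiv ℝ u)) :=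
    (hu.fderiv_right (m := 1) (by norm_num)).continuous_fderiv (by simp)
  have e : Laplacian.laplacian u = fun z => fderiv ℝ (fderiv ℝ u) z 1 1 +
      fderiv ℝ (fderiv ℝ u) z (1 * Complex.I) (1 * Complex.I) := by
    funext z
    rw [greenX1_lap hu.contDiffAt]
    simp
  rw [e]
  fun_prop

theorem greenX1_int {r : ℝ} (hr : 0 < r) {L : ℂ → ℝ} (hL : ContinuousOn L (closedBall 0 r)) :
    IntegrableOn (fun ζ : ℂ => Real.log (r / ‖ζ‖) * L ζ) (ball 0 r) := by
  obtain ⟨C, hC⟩ := (isCompact_closedBall (0 : ℂ) r).exists_bound_of_continuousOn hL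
  have h1 : IntegrableOn (fun ζ : ℂ => Real.log r - Real.log ‖ζ‖) (ball 0 r) :=
    (integrableOn_const measure_ball_lt_top.ne).sub (greenX1_log r)
  have h2 : IntegrableOn (fun ζ : ℂ => (Real.log r - Real.log ‖ζ‖) * L ζ) (ball 0 r) :=
    h1.mul_bdd (c := C)
      ((hL.mono ball_subset_closedBall).aestronglyMeasurable measurableSet_ball)
      ((ae_restrict_iff' measurableSet_ball).2
        (Eventually.of_forall fun z hz => hC z (ball_subset_closedBall hz)))
  refine h2.congr (ae_restrict_of_ae ?_)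
  filter_upwards [Measure.ae_ne volume (0 : ℂ)] with z hz
  rw [Real.log_div hr.ne' (norm_ne_zero_iff.2 hz)]

/-- With `e = exp (θ i)`, let `D s = ∫ u' (s e) e`, `E s = ∫ u'' (s e) e e`, `L s = ∫ Δ u (s e)`.
Then `D' = E`, `(∫ u (s e))' = D`, and integrating the `θ`-derivative of `u' (s e) (i e)` gives
`s ∫ u'' (s e) (i e) (i e) = D s`, so `s L = s E + D`. The function
`F s = (s log r - s log s) D s + ∫ u (s e)` is continuous on `[0, r]` with derivative
`log (r / s) s L s`. -/
theorem greenX1_jensen {u : ℂ → ℝ} {r : ℝ} (hr : 0 < r) (hu : ContDiff ℝ 2 u) :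
    Real.circleAverage u 0 r - u 0 =
      1 / (2 * Real.pi) * ∫ ζ in ball (0 : ℂ) r, Real.log (r / ‖ζ‖) * Laplacian.laplacian u ζ := by
  have hu1 : ContDiff ℝ 1 (fderiv ℝ u) := hu.fderiv_right (m := 1) (by norm_num)
  have c0 : Continuous u := hu.continuous
  have c1 : Continuous (fderiv ℝ u) := hu1.continuous
  have c2 : Continuous (fderiv ℝ (fderiv ℝ u)) := hu1.continuous_fderiv (by simp)
  have cL := greenX1_cont_lap hu
  have d0 : ∀ z, HasFDerivAt u (fderiv ℝ u z) z := fun z =>
    (hu.differentiable (by simp) z).hasFDerivAt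
  have d1 : ∀ z, HasFDerivAt (fderiv ℝ u) (fderiv ℝ (fderiv ℝ u) z) z := fun z =>
    (hu1.differentiable (by simp) z).hasFDerivAt
  obtain ⟨e, he⟩ : ∃ e : ℝ → ℂ, e = circleMap 0 1 := ⟨_, rfl⟩
  have ce : Continuous e := he ▸ continuous_circleMap 0 1
  have hn : ∀ θ, ‖e θ‖ = 1 := fun θ => by simp [he]
  have hc : ∀ s θ, circleMap 0 s θ = s • e θ := fun s θ => by simp [he, circleMap]
  have de : ∀ θ, HasDerivAt e (e θ * Complex.I) θ := fun θ => he ▸ hasDerivAt_circleMap 0 1 θ
  have ds : ∀ s θ, HasDerivAt (fun x : ℝ => x • e θ) (e θ) s := fun s θ => by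
    simpa using (hasDerivAt_id s).smul_const (e θ)
  have hA : ∀ s, HasDerivAt (fun x : ℝ => ∫ θ in (0 : ℝ)..2 * Real.pi, u (x • e θ))
      (∫ θ in (0 : ℝ)..2 * Real.pi, fderiv ℝ u (s • e θ) (e θ)) s := fun s =>
    greenX1_deriv (F := fun x θ => u (x • e θ)) (F' := fun x θ => fderiv ℝ u (x • e θ) (e θ))
      (by fun_prop) (by fun_prop)
      (fun s θ => (d0 _).comp_hasDerivAt s (ds s θ)) _ _ s
  have hD : ∀ s, HasDerivAt (fun x : ℝ => ∫ θ in (0 : ℝ)..2 * Real.pi, fderiv ℝ u (x • e θ) (e θ))
      (∫ θ in (0 : ℝ)..2 * Real.pi, fderiv ℝ (fderiv ℝ u) (s • e θ) (e θ) (e θ)) s := fun s =>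
    greenX1_deriv (F := fun x θ => fderiv ℝ u (x • e θ) (e θ))
      (F' := fun x θ => fderiv ℝ (fderiv ℝ u) (x • e θ) (e θ) (e θ)) (by fun_prop) (by fun_prop)
      (fun s θ => by
        simpa using ((d1 _).comp_hasDerivAt s (ds s θ)).clm_apply (hasDerivAt_const s (e θ))) _ _ s
  have hT : ∀ s : ℝ, s * ∫ θ in (0 : ℝ)..2 * Real.pi, Laplacian.laplacian u (s • e θ) =
      s * (∫ θ in (0 : ℝ)..2 * Real.pi, fderiv ℝ (fderiv ℝ u) (s • e θ) (e θ) (e θ)) +
        ∫ θ in (0 : ℝ)..2 * Real.pi, fderiv ℝ u (s • e θ) (e θ) := by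
    intro s
    have h1 : ∀ θ, HasDerivAt (fun θ => fderiv ℝ u (s • e θ) (e θ * Complex.I))
        (s * Laplacian.laplacian u (s • e θ) -
          s * fderiv ℝ (fderiv ℝ u) (s • e θ) (e θ) (e θ) - fderiv ℝ u (s • e θ) (e θ)) θ := by
      intro θ
      have h2 := ((d1 _).comp_hasDerivAt θ ((de θ).const_smul s)).clm_apply
        ((de θ).mul_const Complex.I)
      have h3 := greenX1_lap (hu.contDiffAt (x := s • e θ)) (e θ)
      rw [hn, one_pow, one_mul] at h3
      refine h2.congr_deriv ?_
      rw [← h3, mul_assoc, Complex.I_mul_I, mul_neg_one, map_neg, map_smul]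
      simp only [Function.comp_apply, _root_.smul_apply, smul_eq_mul, Pi.smul_apply]
      ring
    have h4 := intervalIntegral.integral_eq_sub_of_hasDerivAt (a := 0) (b := 2 * Real.pi)
      (fun θ _ => h1 θ) (Continuous.intervalIntegrable (by fun_prop) _ _)
    have h5 : e (2 * Real.pi) = e 0 := by
      have := periodic_circleMap 0 1 0
      rwa [zero_add, ← he] at this
    rw [h5, sub_self, intervalIntegral.integral_sub, intervalIntegral.integral_sub,
      intervalIntegral.integral_const_mul, intervalIntegral.integral_const_mul] at h4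
    · linarith
    all_goals exact Continuous.intervalIntegrable (by fun_prop) _ _
  have cL' : Continuous fun s : ℝ => ∫ θ in (0 : ℝ)..2 * Real.pi,
      Laplacian.laplacian u (s • e θ) :=
    intervalIntegral.continuous_parametric_intervalIntegral_of_continuous' (by fun_prop) _ _
  generalize hL : (fun s : ℝ => ∫ θ in (0 : ℝ)..2 * Real.pi,
      Laplacian.laplacian u (s • e θ)) = L at cL'
  have hL' := fun s => congrFun hL s
  generalize hA' : (fun x : ℝ => ∫ θ in (0 : ℝ)..2 * Real.pi, u (x • e θ)) = A at hA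
  have hA'' := fun s => congrFun hA' s
  generalize hD' : (fun x : ℝ => ∫ θ in (0 : ℝ)..2 * Real.pi, fderiv ℝ u (x • e θ) (e θ)) = D at hD
  have hD'' := fun s => congrFun hD' s
  simp only [hL', hD''] at hA hT
  have cA : Continuous A := continuous_iff_continuousAt.2 fun s => (hA s).continuousAt
  have cD : Continuous D := continuous_iff_continuousAt.2 fun s => (hD s).continuousAt
  have cm := Real.continuous_mul_log
  have key := intervalIntegral.integral_eq_sub_of_hasDerivAt_of_le hr.le
    (f := fun s => (s * Real.log r - s * Real.log s) * D s + A s)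
    (f' := fun s => (s * Real.log r - s * Real.log s) * L s)
    ((((continuous_id.mul continuous_const).sub cm).mul cD).add cA).continuousOn
    (fun s hs => by
      refine ((((hasDerivAt_id s).mul_const (Real.log r)).sub
        (Real.hasDerivAt_mul_log hs.1.ne')).mul (hD s)).add (hA s) |>.congr_deriv ?_
      have := hT s
      simp only [Pi.sub_apply, id]
      linear_combination (-(Real.log r - Real.log s)) * this)
    ((((continuous_id.mul continuous_const).sub cm).mul cL').intervalIntegrable _ _)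
  rw [greenX1_polar hr (greenX1_int hr cL.continuousOn)]
  have e1 : ∫ s in (0 : ℝ)..r, s * ∫ θ in (0 : ℝ)..2 * Real.pi,
      Real.log (r / ‖circleMap 0 s θ‖) * Laplacian.laplacian u (circleMap 0 s θ) =
      ∫ s in (0 : ℝ)..r, (s * Real.log r - s * Real.log s) * L s := by
    refine intervalIntegral.integral_congr fun s hs => ?_
    rw [uIcc_of_le hr.le] at hs
    rcases hs.1.eq_or_lt with h | h
    · simp [← h]
    · simp only [hc, norm_smul, hn, mul_one, Real.norm_eq_abs, abs_of_pos h,
        intervalIntegral.integral_const_mul, hL', Real.log_div hr.ne' h.ne']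
      ring
  have e2 : A 0 = 2 * Real.pi * u 0 := by
    rw [← hA'']
    simp
  rw [e1, key, e2, Real.circleAverage_def]
  simp only [hc, hA'', smul_eq_mul]
  have := Real.pi_pos
  field_simp
  ring

end Vale.Agent.P272
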