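import Vale.Agent.P272.GreenX1

/-! P272: automorphisms of a disc. -/

open MeasureTheory Set Filter Topology Metric Matrix
open scoped ContDiff ComplexConjugate ComplexOrder

noncomputable section

namespace Vale.Agent.P272

open Vale.Agent.P271

/-- The automorphism of the disc of radius `r` that sends `0` to `t`. -/
def mob (r : ℝ) (t w : ℂ) : ℂ := (r : ℂ) ^ 2 * (w + t) / ((r : ℂ) ^ 2 + conj t * w)

variable {r : ℝ} {t w : ℂ}

theorem mob_den (ht : ‖t‖ < r) (hw : ‖w‖ ≤ r) : (r : ℂ) ^ 2 + conj t * w ≠ 0 := by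
  intro h
  have h1 : ‖(r : ℂ) ^ 2‖ = ‖conj t * w‖ := by rw [eq_neg_of_add_eq_zero_left h, norm_neg]
  rw [norm_pow, Complex.norm_real, Real.norm_eq_abs, sq_abs, norm_mul, Complex.norm_conj] at h1
  nlinarith [norm_nonneg t, norm_nonneg w]

theorem mob_zero (ht : ‖t‖ < r) : mob r t 0 = t := by
  have hr : (r : ℂ) ≠ 0 := Complex.ofReal_ne_zero.2 ((norm_nonneg t).trans_lt ht).ne'
  unfold mob
  rw [mul_zero, add_zero, zero_add, mul_div_cancel_left₀ _ (pow_ne_zero 2 hr)]

theorem greenX2_sq (r : ℝ) (t w : ℂ) :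
    ‖(r : ℂ) ^ 2 + conj t * w‖ ^ 2 - (r * ‖w + t‖) ^ 2 = (r ^ 2 - ‖w‖ ^ 2) * (r ^ 2 - ‖t‖ ^ 2) := by
  simp only [mul_pow, ← Complex.normSq_eq_norm_sq, Complex.normSq_apply, ← Complex.ofReal_pow,
    Complex.add_re, Complex.add_im, Complex.mul_re, Complex.mul_im, Complex.conj_re,
    Complex.conj_im, Complex.ofReal_re, Complex.ofReal_im]
  ring

theorem greenX2_norm (hr : 0 < r) :
    ‖mob r t w‖ = r * (r * ‖w + t‖) / ‖(r : ℂ) ^ 2 + conj t * w‖ := by
  unfold mob
  rw [norm_div, norm_mul, norm_pow, Complex.norm_real, Real.norm_eq_abs, abs_of_pos hr]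
  ring

/-- `|r² + conj t w|² - r² |w + t|² = (r² - |w|²) (r² - |t|²)`. -/
theorem mob_lt (ht : ‖t‖ < r) (hw : ‖w‖ < r) : ‖mob r t w‖ < r := by
  have hr : 0 < r := (norm_nonneg t).trans_lt ht
  rw [greenX2_norm hr, div_lt_iff₀ (norm_pos_iff.2 (mob_den ht hw.le))]
  refine mul_lt_mul_of_pos_left (abs_lt_of_sq_lt_sq' ?_ (norm_nonneg _)).2 hr
  have h1 : 0 < r ^ 2 - ‖w‖ ^ 2 := by nlinarith [norm_nonneg w]
  have h2 : 0 < r ^ 2 - ‖t‖ ^ 2 := by nlinarith [norm_nonneg t]
  linarith [greenX2_sq r t w, mul_pos h1 h2]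

theorem mob_le (ht : ‖t‖ < r) (hw : ‖w‖ ≤ r) : ‖mob r t w‖ ≤ r := by
  have hr : 0 < r := (norm_nonneg t).trans_lt ht
  rw [greenX2_norm hr, div_le_iff₀ (norm_pos_iff.2 (mob_den ht hw))]
  refine mul_le_mul_of_nonneg_left (abs_le_of_sq_le_sq' ?_ (norm_nonneg _)).2 hr.le
  have h1 : 0 ≤ r ^ 2 - ‖w‖ ^ 2 := by nlinarith [norm_nonneg w]
  have h2 : 0 ≤ r ^ 2 - ‖t‖ ^ 2 := by nlinarith [norm_nonneg t]
  linarith [greenX2_sq r t w, mul_nonneg h1 h2]

theorem mob_mob (ht : ‖t‖ < r) (hw : ‖w‖ ≤ r) : mob r (-t) (mob r t w) = w := by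
  have h1 := mob_den ht hw
  have h2 := mob_den (t := -t) (by rwa [norm_neg]) (mob_le ht hw)
  have h3 := h1
  rw [mul_comm] at h3
  rw [mob, div_eq_iff h2, map_neg, mob]
  field_simp
  ring

theorem mob_analyticAt (ht : ‖t‖ < r) (hw : ‖w‖ ≤ r) : AnalyticAt ℂ (mob r t) w := by
  unfold mob
  exact AnalyticAt.fun_div (by fun_prop) (by fun_prop) (mob_den ht hw)

theorem gr_mob (ht : ‖t‖ < r) (hw : ‖w‖ < r) : gr r t (mob r t w) = Real.log (r / ‖w‖) := by
  have hr : 0 < r := (norm_nonneg t).trans_lt ht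
  have h1 := mob_den ht hw.le
  have h2 : (r : ℂ) ^ 2 - conj t * t ≠ 0 := by
    have := mob_den (w := -t) ht (by rw [norm_neg]; exact ht.le)
    rwa [mul_neg, ← sub_eq_add_neg] at this
  have h4 := h1
  rw [mul_comm] at h4
  have e1 : (r : ℂ) ^ 2 - conj t * mob r t w =
      (r : ℂ) ^ 2 * (((r : ℂ) ^ 2 - conj t * t) / ((r : ℂ) ^ 2 + conj t * w)) := by
    unfold mob
    field_simp
    ring
  have e2 : mob r t w - t = w * (((r : ℂ) ^ 2 - conj t * t) / ((r : ℂ) ^ 2 + conj t * w)) := by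
    unfold mob
    field_simp
    ring
  have h3 := norm_ne_zero_iff.2 (div_ne_zero h2 h1)
  unfold gr
  rw [e1, e2, norm_mul, norm_mul, norm_pow, Complex.norm_real, Real.norm_eq_abs, abs_of_pos hr,
    ← mul_assoc, mul_div_mul_right _ _ h3, pow_two, mul_div_mul_left _ _ hr.ne']

theorem greenX2_fd {g : ℂ → ℂ} {c z : ℂ} (h : HasDerivAt g c z) :
    HasFDerivAt g (ContinuousLinearMap.mul ℝ ℂ c) z := by
  refine (h.hasFDerivAt.restrictScalars ℝ).congr_fderiv (ContinuousLinearMap.ext fun v => ?_)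
  simp [mul_comm]

theorem greenX2_det (c : ℂ) : (ContinuousLinearMap.mul ℝ ℂ c).det = ‖c‖ ^ 2 := by
  rw [← Complex.normSq_eq_norm_sq, ← Algebra.norm_complex_apply, Algebra.norm_apply]
  rfl

/-- `D² (u ∘ m) v v = D² u (m' v) (m' v) + D u (m'' v²)` for `v = 1` and `v = i`. -/
theorem laplacian_comp_hol {u : ℂ → ℝ} {m : ℂ → ℂ} (hu : ContDiffAt ℝ 2 u (m w))
    (hm : AnalyticAt ℂ m w) :
    Laplacian.laplacian (fun z => u (m z)) w = ‖deriv m w‖ ^ 2 * Laplacian.laplacian u (m w) := by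
  have hm2 : ContDiffAt ℝ 2 m w := (hm.contDiffAt (n := 2)).restrict_scalars ℝ
  have hF : ContDiffAt ℝ 2 (fun z => u (m z)) w := hu.comp w hm2
  have key : ∀ v : ℂ, fderiv ℝ (fderiv ℝ fun z => u (m z)) w v v =
      fderiv ℝ (fderiv ℝ u) (m w) (deriv m w * v) (deriv m w * v) +
        fderiv ℝ u (m w) (deriv (deriv m) w * (v * v)) := by
    intro v
    have e1 : (fun z => fderiv ℝ (fun z => u (m z)) z v) =ᶠ[𝓝 w]
        fun z => fderiv ℝ u (m z) (deriv m z * v) := by
      filter_upwards [hm.eventually_analyticAt,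
        hm.continuousAt.eventually (hu.eventually (by simp))] with z h1 h2
      exact DFunLike.congr_fun ((h2.differentiableAt (by simp)).hasFDerivAt.comp z
        (greenX2_fd h1.differentiableAt.hasDerivAt)).fderiv v
    have d1 := (((hF.fderiv_right (m := 1) (by norm_num)).differentiableAt (by simp)
      ).hasFDerivAt.clm_apply (hasFDerivAt_const v w)).congr_of_eventuallyEq e1.symm
    have d2 := (((hu.fderiv_right (m := 1) (by norm_num)).differentiableAt (by simp)
      ).hasFDerivAt.comp w (greenX2_fd hm.differentiableAt.hasDerivAt)).clm_apply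
      (greenX2_fd (hm.deriv.differentiableAt.hasDerivAt.mul_const v))
    have h3 := DFunLike.congr_fun (d1.unique d2) v
    simp only [_root_.add_apply, ContinuousLinearMap.comp_apply, ContinuousLinearMap.flip_apply,
      ContinuousLinearMap.comp_zero, zero_add, Function.comp_apply,
      ContinuousLinearMap.mul_apply'] at h3
    rw [h3, add_comm, mul_assoc]
  have h1 := greenX1_lap hF 1
  rw [key, key, norm_one, one_pow, one_mul (Laplacian.laplacian (fun z => u (m z)) w)] at h1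
  rw [← h1, ← greenX1_lap hu]
  simp only [mul_one, one_mul, Complex.I_mul_I, mul_neg, map_neg]
  ring

/-- Change of variables (`integral_image_eq_integral_abs_det_fderiv_smul`); the real determinant of
the multiplication by `c` is `‖c‖ ^ 2`. -/
theorem mob_area (ht : ‖t‖ < r) (G : ℂ → ℝ) :
    ∫ w in ball (0 : ℂ) r, ‖deriv (mob r t) w‖ ^ 2 * G (mob r t w) = ∫ ζ in ball (0 : ℂ) r, G ζ := by
  have ht' : ‖-t‖ < r := by rwa [norm_neg]
  have him : mob r t '' ball (0 : ℂ) r = ball 0 r := by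
    refine Subset.antisymm ?_ fun ζ hζ => ?_
    · rintro _ ⟨w, hw, rfl⟩
      exact mem_ball_zero_iff.2 (mob_lt ht (mem_ball_zero_iff.1 hw))
    · have h := mob_mob ht' (mem_ball_zero_iff.1 hζ).le
      rw [neg_neg] at h
      exact ⟨_, mem_ball_zero_iff.2 (mob_lt ht' (mem_ball_zero_iff.1 hζ)), h⟩
  have h := integral_image_eq_integral_abs_det_fderiv_smul volume measurableSet_ball
    (f' := fun w => ContinuousLinearMap.mul ℝ ℂ (deriv (mob r t) w))
    (fun w hw => (greenX2_fd (mob_analyticAt ht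
      (mem_ball_zero_iff.1 hw).le).differentiableAt.hasDerivAt).hasFDerivWithinAt)
    (fun a ha b hb hab => by
      rw [← mob_mob ht (mem_ball_zero_iff.1 ha).le, hab, mob_mob ht (mem_ball_zero_iff.1 hb).le]) G
  rw [him] at h
  simp only [h, greenX2_det, abs_pow, abs_norm, smul_eq_mul]

theorem greenX2_ker {a : ℂ} (h : 1 - a ≠ 0) :
    1 + 2 * (Complex.I * a / (1 - a)).im = (1 - ‖a‖ ^ 2) / ‖1 - a‖ ^ 2 := by
  have h1 : Complex.normSq (1 - a) ≠ 0 := fun h0 => h (Complex.normSq_eq_zero.1 h0)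
  rw [Complex.div_im, ← Complex.normSq_eq_norm_sq, ← Complex.normSq_eq_norm_sq]
  field_simp
  simp [Complex.normSq_apply]
  ring

/-- With `q θ = 1 - t exp (-θ i) / r` (positive real part) and `ψ θ = θ + 2 im (log (q θ))` one has
`mob r (-t) (r exp (θ i)) = r exp (ψ θ i)`, `ψ' θ = po r t (r exp (θ i))` and
`ψ (2 π) = ψ 0 + 2 π`; use `intervalIntegral.integral_comp_mul_deriv` and
`Real.circleAverage_eq_integral_add`. -/
theorem mob_circle (ht : ‖t‖ < r) {u : ℂ → ℝ} (hu : ContinuousOn u (sphere 0 r)) :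
    Real.circleAverage (fun w => u (mob r t w)) 0 r =
      Real.circleAverage (fun ξ => po r t ξ * u ξ) 0 r := by
  have hr : 0 < r := (norm_nonneg t).trans_lt ht
  have hr' : (r : ℂ) ≠ 0 := Complex.ofReal_ne_zero.2 hr.ne'
  have ht' : ‖-t‖ < r := by rwa [norm_neg]
  have hn : ∀ θ, ‖circleMap 0 r θ‖ = r := fun θ => by simpa using hr.le
  obtain ⟨a, ha⟩ : ∃ a : ℝ → ℂ, a = fun θ : ℝ => t / r * Complex.exp (-(θ * Complex.I)) := ⟨_, rfl⟩
  have na : ∀ θ, ‖a θ‖ = ‖t‖ / r := fun θ => by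
    simp [ha, Complex.norm_exp, abs_of_pos hr]
  have la : ∀ θ, ‖a θ‖ < 1 := fun θ => by rw [na, div_lt_one hr]; exact ht
  have sa : ∀ θ, 1 - a θ ∈ Complex.slitPlane := fun θ => by
    rw [sub_eq_add_neg]
    exact Complex.mem_slitPlane_of_norm_lt_one (by rw [norm_neg]; exact la θ)
  have qa : ∀ θ, 1 - a θ ≠ 0 := fun θ => Complex.slitPlane_ne_zero (sa θ)
  have ea : ∀ θ : ℝ, circleMap 0 r θ - t = circleMap 0 r θ * (1 - a θ) := fun θ => by
    have := Complex.exp_ne_zero (θ * Complex.I)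
    simp only [ha, circleMap, zero_add, Complex.exp_neg]
    field_simp
  have da : ∀ θ, HasDerivAt (fun θ => 1 - a θ) (Complex.I * a θ) θ := fun θ => by
    have h1 : HasDerivAt (fun θ : ℝ => (θ : ℂ)) 1 θ := Complex.ofRealCLM.hasDerivAt
    rw [ha]
    exact (((h1.mul_const Complex.I).neg.cexp.const_mul (t / r)).const_sub 1).congr_deriv
      (by simp only [Pi.neg_apply]; ring)
  obtain ⟨ψ, hψ⟩ : ∃ ψ : ℝ → ℝ, ψ = fun θ => θ + 2 * (Complex.log (1 - a θ)).im := ⟨_, rfl⟩
  have dψ : ∀ θ, HasDerivAt ψ (po r t (circleMap 0 r θ)) θ := fun θ => by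
    have h1 := Complex.imCLM.hasFDerivAt.comp_hasDerivAt θ ((da θ).clog_real (sa θ))
    rw [hψ]
    refine ((hasDerivAt_id θ).add (h1.const_mul 2)).congr_deriv ?_
    have h2 := norm_ne_zero_iff.2 (qa θ)
    rw [Complex.imCLM_apply, greenX2_ker (qa θ), po, ea, norm_mul, hn, na]
    field_simp
  have eψ : ∀ θ, circleMap 0 r (ψ θ) = mob r (-t) (circleMap 0 r θ) := fun θ => by
    have h1 : ((ψ θ : ℝ) : ℂ) * Complex.I =
        θ * Complex.I + (Complex.log (1 - a θ) - conj (Complex.log (1 - a θ))) := by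
      rw [Complex.sub_conj, hψ]
      push_cast
      ring
    have h2 : (r : ℂ) ^ 2 + conj (-t) * circleMap 0 r θ = (r : ℂ) ^ 2 * conj (1 - a θ) := by
      simp only [ha, circleMap, zero_add, map_sub, map_one, map_mul, map_div₀, map_neg,
        ← Complex.exp_conj, Complex.conj_ofReal, Complex.conj_I, mul_neg, neg_neg]
      field_simp
      ring
    rw [mob, h2, ← sub_eq_add_neg, ea, mul_div_mul_left _ _ (pow_ne_zero 2 hr')]
    simp only [circleMap, zero_add]
    rw [h1, Complex.exp_add, Complex.exp_sub, Complex.exp_conj, Complex.exp_log (qa θ)]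
    ring
  have hs : ∀ θ, mob r t (circleMap 0 r θ) ∈ sphere (0 : ℂ) r := fun θ => by
    have h := greenX2_sq r t (circleMap 0 r θ)
    rw [hn, sub_self, zero_mul, sub_eq_zero] at h
    have h0 := norm_ne_zero_iff.2 (mob_den ht (hn θ).le)
    rw [mem_sphere_zero_iff_norm, greenX2_norm hr,
      ← (pow_left_inj₀ (norm_nonneg _) (by positivity) two_ne_zero).1 h, mul_div_cancel_right₀ _ h0]
  have cg : Continuous fun θ => u (mob r t (circleMap 0 r θ)) :=
    hu.comp_continuous (continuous_iff_continuousAt.2 fun θ =>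
      ContinuousAt.comp (g := mob r t) (mob_analyticAt ht (hn θ).le).continuousAt
        (continuous_circleMap 0 r).continuousAt) hs
  have cp : Continuous fun θ => po r t (circleMap 0 r θ) := by
    unfold po
    refine continuous_const.div (by fun_prop) fun θ => pow_ne_zero 2 (norm_ne_zero_iff.2 ?_)
    rw [ea]
    exact mul_ne_zero (norm_ne_zero_iff.1 (by rw [hn]; exact hr.ne')) (qa θ)
  have key := intervalIntegral.integral_comp_mul_deriv (a := 0) (b := 2 * Real.pi)
    (fun θ _ => dψ θ) cp.continuousOn cg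
  have h2π : ψ (2 * Real.pi) = 2 * Real.pi + ψ 0 := by
    have : a (2 * Real.pi) = a 0 := by
      simp [ha, Complex.exp_neg]
    simp only [hψ, this, zero_add]
  rw [Real.circleAverage_eq_integral_add (ψ 0), Real.circleAverage_def,
    intervalIntegral.integral_comp_add_right (fun θ => u (mob r t (circleMap 0 r θ))), zero_add,
    ← h2π, ← key]
  congr 1
  refine intervalIntegral.integral_congr fun θ _ => ?_
  have h := mob_mob ht' (hn θ).le
  rw [neg_neg] at h
  simp only [Function.comp_apply, eψ, h, mul_comm]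

end Vale.Agent.P272
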