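import Vale.Agent.P272.KDefs

/-! P272, part K: cut-off functions. -/

open MeasureTheory Set Filter Topology Metric
open scoped ContDiff ComplexConjugate Pointwise

noncomputable section

namespace Vale.Agent.P272

open Vale.Agent.P271

open Vale.Agent.P292E (V Tst)

variable {n : ℕ} {X : Type} [TopologicalSpace X]

theorem KCut_bump {N : ℕ} {K U : Set (V N)} (hK : IsCompact K) (hU : IsOpen U) (hKU : K ⊆ U) :
    ∃ f : V N → ℝ, Tst U (fun y => (f y : ℂ)) ∧ IsCompact (tsupport f) ∧ tsupport f ⊆ U ∧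
      ∀ y ∈ K, f y = 1 := by
  obtain ⟨L, hL, h1, h2⟩ := exists_compact_between hK hU hKU
  obtain ⟨f, hf1, hf0, -⟩ := exists_contMDiffMap_one_nhds_of_subset_interior
    (modelWithCornersSelf ℝ (V N)) (n := ⊤) hK.isClosed h1
  have h3 : tsupport f ⊆ L :=
    closure_minimal (fun y hy => not_not.1 fun h => hy (hf0 y h)) hL.isClosed
  have h4 : tsupport (fun y => (f y : ℂ)) ⊆ L :=
    closure_minimal (fun y hy => not_not.1 fun h => hy (by simp [hf0 y h])) hL.isClosed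
  refine ⟨f, ⟨Complex.ofRealCLM.contDiff.comp f.contMDiff.contDiff,
    hL.of_isClosed_subset (isClosed_tsupport _) h4, h4.trans h2⟩,
    hL.of_isClosed_subset (isClosed_tsupport _) h3, h3.trans h2, fun y hy => hf1.self_of_nhdsSet y hy⟩

theorem KCut_cov [CompactSpace X] (A : Atl n X) : ∃ S : A.ι → Set (Cn n),
    (∀ a, IsCompact (S a)) ∧ (∀ a, S a ⊆ (A.e a).target) ∧
      ∀ p, ∃ a, p ∈ (A.e a).source ∧ A.e a p ∈ S a := by
  classical
  choose c hc using A.cover
  have h1 : ∀ p, ∃ Q ∈ 𝓝 (A.e (c p) p), Q ⊆ (A.e (c p)).target ∧ IsCompact Q := fun p =>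
    local_compact_nhds ((A.e (c p)).open_target.mem_nhds ((A.e (c p)).map_source (hc p)))
  choose Q hQ1 hQ2 hQ3 using h1
  obtain ⟨t, -, ht⟩ := isCompact_univ.elim_nhds_subcover
    (fun p => (A.e (c p)).source ∩ A.e (c p) ⁻¹' Q p) fun p _ =>
      inter_mem ((A.e (c p)).open_source.mem_nhds (hc p)) ((A.e (c p)).continuousAt (hc p) (hQ1 p))
  refine ⟨fun a => ⋃ p ∈ t.filter (c · = a), Q p,
    fun a => Finset.isCompact_biUnion _ fun p _ => hQ3 p,
    fun a => iUnion₂_subset fun p hp => (Finset.mem_filter.1 hp).2 ▸ hQ2 p, fun q => ?_⟩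
  obtain ⟨p, hp, hq⟩ := mem_iUnion₂.1 (ht (mem_univ q))
  exact ⟨c p, hq.1, mem_iUnion₂.2 ⟨p, Finset.mem_filter.2 ⟨hp, rfl⟩, hq.2⟩⟩

/-- Compact sets in the charts cover `X`; take bumps equal to one on them. -/
theorem exists_cut [CompactSpace X] (A : Atl n X) (a b : A.ι) {K K' : Set (Cn n)}
    (hK : IsCompact K) (hKa : K ⊆ (A.e a).target) (hK' : IsCompact K')
    (hKb : K' ⊆ (A.e b).target) :
    ∃ c : Cut A, (∀ y, LL n y ∈ K → c.χ a y = 1) ∧ ∀ y, LL n y ∈ K' → c.χ b y = 1 := by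
  classical
  obtain ⟨S, hS1, hS2, hS3⟩ := KCut_cov A
  have hc : ∀ {T : Set (Cn n)}, IsCompact T → IsCompact (LL n ⁻¹' T) := fun hT =>
    (LL n).toHomeomorph.isCompact_preimage.2 hT
  have ho : ∀ d, IsOpen (LL n ⁻¹' (A.e d).target) := fun d =>
    (A.e d).open_target.preimage (LL n).continuous
  choose κ hκ1 hκ2 hκ3 hκ4 using fun d =>
    KCut_bump (hc (hS1 d)) (ho d) (preimage_mono (hS2 d))
  have h1 : ∀ d, IsCompact (tsupport (κ d) ∪ LL n ⁻¹' ((if d = a then K else ∅) ∪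
      (if d = b then K' else ∅))) := fun d => by
    refine (hκ2 d).union (hc (IsCompact.union ?_ ?_))
    · split_ifs
      exacts [hK, isCompact_empty]
    · split_ifs
      exacts [hK', isCompact_empty]
  have h2 : ∀ d, tsupport (κ d) ∪ LL n ⁻¹' ((if d = a then K else ∅) ∪
      (if d = b then K' else ∅)) ⊆ LL n ⁻¹' (A.e d).target := fun d => by
    refine union_subset (hκ3 d) (preimage_mono (union_subset ?_ ?_))
    · split_ifs with h
      exacts [h ▸ hKa, empty_subset _]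
    · split_ifs with h
      exacts [h ▸ hKb, empty_subset _]
  choose χ hχ1 _ _ hχ4 using fun d => KCut_bump (h1 d) (ho d) (h2 d)
  refine ⟨⟨χ, κ, hχ1, hκ1, fun d y hy => hχ4 d y (Or.inl hy), fun p => ?_⟩,
    fun y hy => hχ4 a y (Or.inr (Or.inl (by rwa [if_pos rfl]))),
    fun y hy => hχ4 b y (Or.inr (Or.inr (by rwa [if_pos rfl])))⟩
  obtain ⟨d, hd, hp⟩ := hS3 p
  exact ⟨d, hd, hκ4 d _ (by simpa using hp)⟩

end Vale.Agent.P272
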