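import Vale.Agent.P272.Loc
import Vale.Agent.P271.Api
import Vale.Agent.P292E.UDefs

/-! P272, part K: definitions. -/

open MeasureTheory Set Filter Topology Metric
open scoped ContDiff ComplexConjugate Pointwise

noncomputable section

namespace Vale.Agent.P272

open Vale.Agent.P271

open Vale.Agent.P292E (V Tst)

/-- The real dimension. -/
abbrev NN (n : ℕ) : ℕ := Module.finrank ℝ (Cn n)

/-- Real coordinates. -/
def LL (n : ℕ) : V (NN n) ≃L[ℝ] Cn n := (toEuclidean (E := Cn n)).symm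

/-- The complex structure in real coordinates. -/
def JJ (n : ℕ) : V (NN n) →L[ℝ] V (NN n) :=
  ((LL n).symm : Cn n →L[ℝ] V (NN n)).comp
    (((Complex.I • ContinuousLinearMap.id ℂ (Cn n)).restrictScalars ℝ).comp
      (LL n : V (NN n) →L[ℝ] Cn n))

variable {n : ℕ}

theorem LL_JJ (v : V (NN n)) : LL n (JJ n v) = Complex.I • LL n v := by simp [JJ]

/-- The connection form of the weight `φ`. -/
def AA (φ : Cn n → ℝ) (y : V (NN n)) : V (NN n) →L[ℝ] ℝ :=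
  (1 / 2 : ℝ) • (fderiv ℝ (fun y => φ (LL n y)) y).comp (JJ n)

/-- The phase of a complex number. -/
def ph (w : ℂ) : Circle := Circle.exp (Complex.arg w)

theorem norm_mul_ph (w : ℂ) : (‖w‖ : ℂ) * ph w = w := by
  rw [ph, Circle.coe_exp, Complex.norm_mul_exp_arg_mul_I]

variable {X : Type} [TopologicalSpace X]

/-- Cut-off functions. -/
structure Cut (A : Atl n X) where
  χ : A.ι → V (NN n) → ℝ
  κ : A.ι → V (NN n) → ℝ
  χ_tst : ∀ a, Tst (LL n ⁻¹' (A.e a).target) fun y => (χ a y : ℂ)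
  κ_tst : ∀ a, Tst (LL n ⁻¹' (A.e a).target) fun y => (κ a y : ℂ)
  χ_one : ∀ a, ∀ y ∈ tsupport (κ a), χ a y = 1
  cover : ∀ p, ∃ a, p ∈ (A.e a).source ∧ κ a ((LL n).symm (A.e a p)) = 1

/-- The local expression of a section. -/
abbrev hl (A : Atl n X) (u : A.ι → X → ℂ) (a : A.ι) (s : X → ℂ) : Cn n → ℂ :=
  A.loc a fun p => u a p * s p

/-- Every one-jet at `x` is the jet of a section. -/
def Jet (A : Atl n X) (u : A.ι → X → ℂ) (a : A.ι) (x : X) : Prop :=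
  ∀ (α : ℂ) (ℓ : Cn n →L[ℂ] ℂ), ∃ s ∈ A.H0 u,
    hl A u a s (A.e a x) = α ∧ fderiv ℂ (hl A u a s) (A.e a x) = ℓ

/-- The sections in `S` separate tangent vectors at `p`. -/
def ImS (A : Atl n X) (u : A.ι → X → ℂ) (S : Set (X → ℂ)) (p : X) : Prop :=
  ∀ a, p ∈ (A.e a).source → ∀ ξ : Cn n, ξ ≠ 0 → ∃ s ∈ S, ∃ t ∈ S,
    hl A u a s (A.e a p) * fderiv ℂ (hl A u a t) (A.e a p) ξ ≠
      hl A u a t (A.e a p) * fderiv ℂ (hl A u a s) (A.e a p) ξ

/-- The sections in `S` separate the points `p` and `q`. -/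
def SpS (S : Set (X → ℂ)) (p q : X) : Prop := ∃ s ∈ S, ∃ t ∈ S, s p * t q ≠ t p * s q

/-- Both conditions. -/
def KGd (A : Atl n X) (u : A.ι → X → ℂ) (S : Set (X → ℂ)) (w : X × X) : Prop :=
  (w.1 = w.2 → ImS A u S w.1) ∧ (w.1 ≠ w.2 → SpS S w.1 w.2)

theorem sm_wt {A : Atl n X} {u : A.ι → X → ℂ} {ψ : X → ℝ} (hu : A.IsGauge u) (hψ : A.Sm ψ)
    (a : A.ι) : ContDiffOn ℝ ∞ (A.wt u ψ a) (A.e a).target :=
  ContDiffOn.add (hψ a) ((hu.sm a).log fun _ hz =>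
    pow_ne_zero 2 (norm_ne_zero_iff.2 (hu.ne a _ ((A.e a).map_target hz))))

end Vale.Agent.P272
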