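import Vale.Agent.P272.KDefs
import Vale.Agent.P278F.Osg

/-! P272, part K: the local geometry in real coordinates. -/

open MeasureTheory Set Filter Topology Metric
open scoped ContDiff ComplexConjugate Pointwise

noncomputable section

namespace Vale.Agent.P272

open Vale.Agent.P271

open Vale.Agent.P292E (V Tst Geo Dbv)

variable {n : ℕ} {φ : Cn n → ℝ} {U : Set (Cn n)}

theorem KGeo_AA (φ : Cn n → ℝ) (y v : V (NN n)) :
    AA φ y v = 1 / 2 * fderiv ℝ φ (LL n y) (Complex.I • LL n v) := by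
  have h := (LL n).comp_right_fderiv (f := φ) (x := y)
  rw [← LL_JJ]
  exact congrArg (fun L : V (NN n) →L[ℝ] ℝ => 1 / 2 * L (JJ n v)) h

theorem KGeo_II (ξ : Cn n) : Complex.I • Complex.I • ξ = -ξ := by
  rw [smul_smul, Complex.I_mul_I, neg_one_smul]

theorem KGeo_fderiv {y : V (NN n)} (hφ : ContDiffAt ℝ ∞ φ (LL n y)) (v w : V (NN n)) :
    fderiv ℝ (AA φ) y v w =
      1 / 2 * fderiv ℝ (fderiv ℝ φ) (LL n y) (LL n v) (Complex.I • LL n w) := by
  let T : (Cn n →L[ℝ] ℝ) →L[ℝ] V (NN n) →L[ℝ] ℝ :=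
    (1 / 2 : ℝ) • (ContinuousLinearMap.compL ℝ (V (NN n)) (Cn n) ℝ).flip
      ((LL n : V (NN n) →L[ℝ] Cn n).comp (JJ n))
  have hT : ∀ p v, T p v = 1 / 2 * p (Complex.I • LL n v) := fun p v => by
    rw [← LL_JJ]; rfl
  have e : AA φ = fun y => T (fderiv ℝ φ (LL n y)) := by
    funext y
    ext v
    rw [KGeo_AA, hT]
  have h1 : HasFDerivAt (fderiv ℝ φ) (fderiv ℝ (fderiv ℝ φ) (LL n y)) (LL n y) :=
    ((hφ.fderiv_right (m := ∞) (by simp)).differentiableAt (by simp)).hasFDerivAt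
  have h2 := T.hasFDerivAt.comp y (h1.comp y (LL n).hasFDerivAt)
  rw [e, ← hT]
  exact congrArg (fun L : V (NN n) →L[ℝ] V (NN n) →L[ℝ] ℝ => L v w) h2.fderiv

/-- With `Φ = φ ∘ LL`: `cur (AA φ) y v w = (D²Φ v (J w) - D²Φ w (J v)) / 2`; symmetry of the second
derivative, `J J = -1`, and `Lev_eq_fderiv`. -/
theorem geo (hU : IsOpen U) (hφ : ContDiffOn ℝ ∞ φ U)
    (hpos : ∀ z ∈ U, ∀ ξ, ξ ≠ 0 → 0 < Lev φ z ξ) :
    Geo (fun _ => JJ n) (AA φ) (LL n ⁻¹' U) := by
  have hU' : IsOpen (LL n ⁻¹' U) := hU.preimage (LL n).continuous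
  have hat : ∀ y ∈ LL n ⁻¹' U, ContDiffAt ℝ ∞ φ (LL n y) := fun y hy =>
    hφ.contDiffAt (hU.mem_nhds hy)
  have hs : ∀ y ∈ LL n ⁻¹' U, IsSymmSndFDerivAt ℝ φ (LL n y) := fun y hy =>
    (hat y hy).isSymmSndFDerivAt (by
      rw [minSmoothness_of_isRCLikeNormedField]; exact WithTop.coe_le_coe.2 le_top)
  have hΦ : ContDiffOn ℝ ∞ (fun y => φ (LL n y)) (LL n ⁻¹' U) :=
    hφ.comp (LL n).contDiff.contDiffOn fun y hy => hy
  refine ⟨hU', contDiffOn_const, ((P292E.BdC_fderiv hU' hΦ).clm_comp contDiffOn_const).const_smul _,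
    fun y _ v => (LL n).injective ?_, fun y _ v w => by simp, fun y hy v w => ?_,
    fun y hy v hv => ?_⟩
  · rw [LL_JJ, LL_JJ, KGeo_II, map_neg]
  · simp only [P292E.cur, KGeo_fderiv (hat y hy), LL_JJ, KGeo_II, map_neg]
    rw [(hs y hy).eq (Complex.I • LL n v), (hs y hy).eq (Complex.I • LL n w)]
    ring
  · have h := hpos _ hy (LL n v) ((LL n).map_ne_zero_iff.2 hv)
    rw [Lev_eq_fderiv (hat y hy)] at h
    simp only [P292E.cur, KGeo_fderiv (hat y hy), LL_JJ, KGeo_II, map_neg]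
    linarith

/-- The antiholomorphic covariant derivative in the unitary frame. -/
theorem Dbv_eq {f : Cn n → ℂ} {y : V (NN n)} (hφ : DifferentiableAt ℝ φ (LL n y))
    (hf : DifferentiableAt ℝ f (LL n y)) (m : ℕ) (v : V (NN n)) :
    Dbv (fun _ => JJ n) (AA φ) m
      (fun y => f (LL n y) * (Real.exp (-(m * φ (LL n y)) / 2) : ℝ)) y v =
      2 * dzb (LL n v) f (LL n y) * (Real.exp (-(m * φ (LL n y)) / 2) : ℝ) := by
  have h1 := hf.hasFDerivAt.comp y (LL n).hasFDerivAt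
  have h2 := Complex.ofRealCLM.hasFDerivAt.comp y
    ((((hφ.hasFDerivAt.comp y (LL n).hasFDerivAt).const_mul (m : ℝ)).neg.mul_const
      (2 : ℝ)⁻¹).exp)
  have h3 : ∀ w, fderiv ℝ (fun y => f (LL n y) * (Real.exp (-(m * φ (LL n y)) / 2) : ℝ)) y w =
      (fderiv ℝ f (LL n y) (LL n w) - f (LL n y) * m * fderiv ℝ φ (LL n y) (LL n w) / 2) *
        (Real.exp (-(m * φ (LL n y)) / 2) : ℝ) := fun w => by
    refine (congrArg (fun L : V (NN n) →L[ℝ] ℂ => L w) (h1.mul h2).fderiv).trans ?_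
    simp [div_eq_mul_inv]
    ring
  simp only [Dbv, P292E.Dv, h3, KGeo_AA, LL_JJ, KGeo_II, map_neg, dzb]
  push_cast
  linear_combination (-(m : ℂ) / 2 * fderiv ℝ φ (LL n y) (LL n v) * f (LL n y) *
    Complex.exp (-(m * φ (LL n y)) / 2)) * Complex.I_mul_I

/-- The Cauchy-Riemann equations (`P278F.analyticOnNhd_of_differentiableOn`). -/
theorem hol_of_dzb {f : Cn n → ℂ} (hU : IsOpen U) (hf : DifferentiableOn ℝ f U)
    (h : ∀ z ∈ U, ∀ ξ, dzb ξ f z = 0) : AnalyticOnNhd ℂ f U := by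
  refine P278F.analyticOnNhd_of_differentiableOn hU fun z hz => ?_
  have hd := hf.differentiableAt (hU.mem_nhds hz)
  have h1 : ∀ ξ, fderiv ℝ f z (Complex.I • ξ) = Complex.I * fderiv ℝ f z ξ := fun ξ => by
    have h2 := h z hz ξ
    rw [dzb] at h2
    linear_combination (-2 * Complex.I) * h2 + fderiv ℝ f z (Complex.I • ξ) * Complex.I_mul_I
  let L : Cn n →L[ℂ] ℂ :=
    { toFun := fderiv ℝ f z
      map_add' := map_add _
      map_smul' := fun c ξ => by
        rw [P271A.Brid_L_smul, h1, RingHom.id_apply, smul_eq_mul]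
        conv_rhs => rw [← Complex.re_add_im c]
        ring
      cont := (fderiv ℝ f z).continuous }
  exact ((differentiableAt_iff_restrictScalars ℝ hd).2 ⟨L, rfl⟩).differentiableWithinAt

/-- The derivative of the phase of a holomorphic function. -/
theorem fderiv_phase {g : Cn n → ℂ} {z : Cn n} (hg : AnalyticAt ℂ g z) (h0 : g z ≠ 0) (ξ : Cn n) :
    fderiv ℝ (fun w => g w / ‖g w‖) z ξ = Complex.I * (g z / ‖g z‖) *
      ((-(1 / 2) * fderiv ℝ (fun w => Real.log (‖g w‖ ^ 2)) z (Complex.I • ξ) : ℝ) : ℂ) := by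
  have hn : ‖g z‖ ≠ 0 := norm_ne_zero_iff.2 h0
  have h1 : HasFDerivAt g ((fderiv ℂ g z).restrictScalars ℝ) z :=
    hg.differentiableAt.hasFDerivAt.restrictScalars ℝ
  have h2 := h1.norm_sq.log (pow_ne_zero 2 hn)
  have h3 : ∀ η, fderiv ℝ (fun w => Real.log (‖g w‖ ^ 2)) z η =
      2 * (fderiv ℂ g z η / g z).re := fun η => by
    rw [h2.fderiv, Complex.div_re, Complex.normSq_eq_norm_sq]
    simp
    ring
  have h4 := h1.mul (Complex.ofRealCLM.hasFDerivAt.comp z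
    (h2.differentiableAt.hasFDerivAt.const_mul (-(1 / 2) : ℝ)).exp)
  have h5 : ∀ w, g w ≠ 0 → Real.exp (-(1 / 2) * Real.log (‖g w‖ ^ 2)) = ‖g w‖⁻¹ := fun w hw => by
    rw [Real.log_pow, ← Real.exp_log (inv_pos.2 (norm_pos_iff.2 hw)), Real.log_inv]
    congr 1
    push_cast
    ring
  have h6 : (fun w => g w / ‖g w‖) =ᶠ[𝓝 z]
      fun w => g w * (Real.exp (-(1 / 2) * Real.log (‖g w‖ ^ 2)) : ℝ) := by
    filter_upwards [hg.continuousAt.eventually_ne h0] with w hw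
    rw [h5 w hw, div_eq_mul_inv, Complex.ofReal_inv]
  rw [h6.fderiv_eq, h3]
  refine (congrArg (fun L : Cn n →L[ℝ] ℂ => L ξ) h4.fderiv).trans ?_
  simp only [add_apply, smul_apply, ContinuousLinearMap.comp_apply, Function.comp_apply,
    ContinuousLinearMap.coe_restrictScalars', Complex.ofRealCLM_apply, smul_eq_mul, h3, h5 z h0,
    map_smul, mul_div_assoc, Complex.I_mul_re]
  obtain ⟨a, ha⟩ : ∃ a, fderiv ℂ g z ξ = a * g z := ⟨_, (div_mul_cancel₀ _ h0).symm⟩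
  rw [ha, mul_div_cancel_right₀ _ h0]
  push_cast
  linear_combination (-(g z * (‖g z‖ : ℂ)⁻¹)) * Complex.re_add_im a

/-- The image of Lebesgue measure is a Haar measure. -/
theorem exists_vol (n : ℕ) : ∃ c : ℝ, 0 < c ∧ ∀ (S : Set (Cn n)) (g : Cn n → ℝ),
    ∫ y in LL n ⁻¹' S, g (LL n y) = c * ∫ z in S, g z := by
  have hm : MeasurableEmbedding (LL n) := (LL n).toHomeomorph.measurableEmbedding
  have := (LL n).isAddHaarMeasure_map (volume : Measure (V (NN n)))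
  refine ⟨Measure.addHaarScalarFactor (Measure.map (LL n) volume) (volume : Measure (Cn n)),
    NNReal.coe_pos.2 (Measure.addHaarScalarFactor_pos_of_isAddHaarMeasure _ _), fun S g => ?_⟩
  rw [← hm.setIntegral_map]
  conv_lhs => rw [Measure.isAddLeftInvariant_eq_smul (Measure.map (LL n) volume)
    (volume : Measure (Cn n))]
  rw [Measure.restrict_smul, integral_smul_nnreal_measure]
  rfl

end Vale.Agent.P272
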