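import Vale.Agent.P272.KDefs

/-! P272, part K: the conditions are open and stable under products. -/

open MeasureTheory Set Filter Topology Metric
open scoped ContDiff ComplexConjugate Pointwise

noncomputable section

namespace Vale.Agent.P272

open Vale.Agent.P271

variable {n : ℕ} {X : Type} [TopologicalSpace X] {A : Atl n X} {u v : A.ι → X → ℂ}
  {S T : Set (X → ℂ)}

theorem KLoc_div {f g : Cn n → ℂ} {z : Cn n} (hf : DifferentiableAt ℂ f z)
    (hg : DifferentiableAt ℂ g z) (h0 : g z ≠ 0) (ξ : Cn n) :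
    fderiv ℂ (fun w => f w / g w) z ξ
      = (g z * fderiv ℂ f z ξ - f z * fderiv ℂ g z ξ) / g z ^ 2 := by
  have h := hf.hasFDerivAt.fun_mul ((hasDerivAt_inv h0).comp_hasFDerivAt z hg.hasFDerivAt)
  simp only [div_eq_mul_inv]
  refine (DFunLike.congr_fun h.fderiv ξ).trans ?_
  simp only [add_apply, smul_apply, smul_eq_mul, Function.comp_apply]
  field_simp
  ring

theorem KLoc_cont {s : X → ℂ} (hs : s ∈ A.H0 u) {a : A.ι} {x : X} (hx : x ∈ (A.e a).source) :
    ContinuousAt (fun p => u a p * s p) x :=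
  ((hs a _ ((A.e a).map_source hx)).continuousAt.comp ((A.e a).continuousAt hx)).congr
    (A.api_rep a _ hx).symm

theorem KGd.mono {w : X × X} (h : KGd A u S w) (hS : S ⊆ T) : KGd A u T w := by
  refine ⟨fun e a ha ξ hξ => ?_, fun e => ?_⟩
  · obtain ⟨s, hs, t, ht, h1⟩ := h.1 e a ha ξ hξ
    exact ⟨s, hS hs, t, hS ht, h1⟩
  · obtain ⟨s, hs, t, ht, h1⟩ := h.2 e
    exact ⟨s, hS hs, t, hS ht, h1⟩

/-- One chart suffices (`api_change`, `det_tr_ne`). -/
theorem imS_of_chart (hu : A.IsGauge u) (hS : S ⊆ A.H0 u) {a : A.ι} {p : X}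
    (hp : p ∈ (A.e a).source) (h : ∀ ξ : Cn n, ξ ≠ 0 → ∃ s ∈ S, ∃ t ∈ S,
      hl A u a s (A.e a p) * fderiv ℂ (hl A u a t) (A.e a p) ξ ≠
        hl A u a t (A.e a p) * fderiv ℂ (hl A u a s) (A.e a p) ξ) : ImS A u S p := by
  intro b hb ξ hξ
  have hz : A.e b p ∈ A.ov b a :=
    ⟨(A.e b).map_source hb, by rwa [mem_preimage, (A.e b).left_inv hb]⟩
  have e : A.tr b a (A.e b p) = A.e a p := by rw [Atl.tr, (A.e b).left_inv hb]
  have hη : fderiv ℂ (A.tr b a) (A.e b p) ξ ≠ 0 := fun h0 => A.det_tr_ne b a hz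
    (LinearMap.det_eq_zero_iff_ker_ne_bot.2 fun hk => hξ (LinearMap.ker_eq_bot'.1 hk ξ h0))
  have hg := (hu.hol b a _ hz).differentiableAt
  have hg0 : A.loc b (fun q => u b q / u a q) (A.e b p) ≠ 0 := by
    rw [A.loc_e b _ hb]
    exact div_ne_zero (hu.ne b p hb) (hu.ne a p hp)
  have key : ∀ s ∈ S, hl A u b s (A.e b p)
      = A.loc b (fun q => u b q / u a q) (A.e b p) * hl A u a s (A.e a p) ∧
      fderiv ℂ (hl A u b s) (A.e b p) ξ = A.loc b (fun q => u b q / u a q) (A.e b p)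
        * fderiv ℂ (hl A u a s) (A.e a p) (fderiv ℂ (A.tr b a) (A.e b p) ξ)
        + hl A u a s (A.e a p) * fderiv ℂ (A.loc b fun q => u b q / u a q) (A.e b p) ξ := by
    intro s hs
    have h1 := Atl.api_change hu s hz
    have h2 : DifferentiableAt ℂ (hl A u a s) (A.tr b a (A.e b p)) :=
      e ▸ (hS hs a _ ((A.e a).map_source hp)).differentiableAt
    have h3 := (A.analyticOnNhd_tr b a _ hz).differentiableAt
    refine ⟨by rw [hl, h1.eq_of_nhds, Function.comp_apply, e], ?_⟩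
    rw [hl, h1.fderiv_eq, fderiv_fun_mul hg (h2.comp _ h3), fderiv_comp _ h2 h3,
      Function.comp_apply, e]
    rfl
  obtain ⟨s, hs, t, ht, h1⟩ := h _ hη
  refine ⟨s, hs, t, ht, fun h2 => h1 (mul_left_cancel₀ (pow_ne_zero 2 hg0) ?_)⟩
  rw [(key s hs).1, (key s hs).2, (key t ht).1, (key t ht).2] at h2
  linear_combination h2

/-- Sections `s₀` with jet ` (1, 0)` and `s j` with jet ` (0, proj j)`; the map ` (s j / s₀)` has the
derivative `id`, so it is injective and immersive near `x`. -/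
theorem loc_jet (hu : A.IsGauge u) {a : A.ι} {x : X} (hx : x ∈ (A.e a).source)
    (h : Jet A u a x) : ∃ S : Set (X → ℂ), S.Finite ∧ S ⊆ A.H0 u ∧ ∀ᶠ w in 𝓝 (x, x), KGd A u S w := by
  obtain ⟨s₀, m0, v0, d0⟩ := h 1 0
  choose s ms vs ds using fun j : Fin n => h 0 (ContinuousLinearMap.proj j)
  have hS : insert s₀ (range s) ⊆ A.H0 u := insert_subset m0 (range_subset_iff.2 ms)
  have hz := (A.e a).map_source hx
  have h0 : ∀ᶠ z in 𝓝 (A.e a x), z ∈ (A.e a).target ∧ hl A u a s₀ z ≠ 0 :=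
    Eventually.and ((A.e a).open_target.mem_nhds hz)
      ((m0 a _ hz).continuousAt.eventually_ne (v0.trans_ne one_ne_zero))
  have hd : ∀ z ∈ (A.e a).target, hl A u a s₀ z ≠ 0 → ∀ ξ j,
      fderiv ℂ (fun w j => hl A u a (s j) w / hl A u a s₀ w) z ξ j
        = (hl A u a s₀ z * fderiv ℂ (hl A u a (s j)) z ξ
          - hl A u a (s j) z * fderiv ℂ (hl A u a s₀) z ξ) / hl A u a s₀ z ^ 2 := by
    intro z h1 h2 ξ j
    rw [fderiv_pi fun j => ((ms j a z h1).fun_div (m0 a z h1) h2).differentiableAt]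
    exact KLoc_div (ms j a z h1).differentiableAt (m0 a z h1).differentiableAt h2 ξ
  have hF : AnalyticAt ℂ (fun w j => hl A u a (s j) w / hl A u a s₀ w) (A.e a x) :=
    AnalyticAt.pi fun j => (ms j a _ hz).fun_div (m0 a _ hz) h0.self_of_nhds.2
  have hI : fderiv ℂ (fun w j => hl A u a (s j) w / hl A u a s₀ w) (A.e a x)
      = ContinuousLinearEquiv.refl ℂ (Cn n) := by
    ext1 ξ
    funext j
    rw [hd _ hz h0.self_of_nhds.2, v0, d0, vs, ds]
    simp
  have h1 := (hI ▸ hF.hasStrictFDerivAt).eventually_left_inverse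
  have h2 : ∀ᶠ z in 𝓝 (A.e a x), ‖fderiv ℂ (fun w j => hl A u a (s j) w / hl A u a s₀ w) z
      - ContinuousLinearEquiv.refl ℂ (Cn n)‖ < 1 := by
    have := hF.fderiv.continuousAt.eventually (ball_mem_nhds _ one_pos)
    simpa only [hI, dist_eq_norm] using this
  have h3 := ((A.e a).continuousAt hx).eventually (h0.and (h1.and h2))
  have h4 := Eventually.and ((A.e a).open_source.mem_nhds hx) h3
  refine ⟨_, (finite_range s).insert s₀, hS, ?_⟩
  filter_upwards [(continuous_fst.tendsto (x, x)).eventually h4,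
    (continuous_snd.tendsto (x, x)).eventually h4] with w ⟨a1, a2, a3, a4⟩ ⟨b1, b2, b3, _⟩
  refine ⟨fun _ => imS_of_chart hu hS a1 fun ξ hξ => ?_, fun hw => ?_⟩
  · by_contra hne
    have h5 : fderiv ℂ (fun w j => hl A u a (s j) w / hl A u a s₀ w) (A.e a w.1) ξ = 0 := by
      funext j
      rw [hd _ a2.1 a2.2, Pi.zero_apply, div_eq_zero_iff, sub_eq_zero]
      exact Or.inl (by_contra fun h6 =>
        hne ⟨s₀, mem_insert _ _, s j, mem_insert_of_mem _ ⟨j, rfl⟩, h6⟩)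
    have h6 := (fderiv ℂ (fun w j => hl A u a (s j) w / hl A u a s₀ w) (A.e a w.1)
      - (ContinuousLinearEquiv.refl ℂ (Cn n) : Cn n →L[ℂ] Cn n)).le_opNorm ξ
    rw [sub_apply, h5, zero_sub, norm_neg] at h6
    exact (h6.trans_lt (mul_lt_of_lt_one_left (norm_pos_iff.2 hξ) a4)).false
  · by_contra hne
    refine hw ((A.e a).injOn a1 b1 (a3.symm.trans (Eq.trans (congrArg _ ?_) b3)))
    funext j
    have h6 : s₀ w.1 * s j w.2 = s j w.1 * s₀ w.2 := by_contra fun h6 =>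
      hne ⟨s₀, mem_insert _ _, s j, mem_insert_of_mem _ ⟨j, rfl⟩, h6⟩
    rw [div_eq_div_iff a2.2 b2.2]
    simp only [A.loc_e a _ a1, A.loc_e a _ b1]
    linear_combination (-(u a w.1 * u a w.2)) * h6

theorem loc_sep [T2Space X] (hu : A.IsGauge u) {x y : X} (hxy : x ≠ y)
    (h : SpS (A.H0 u : Set (X → ℂ)) x y) :
    ∃ S : Set (X → ℂ), S.Finite ∧ S ⊆ A.H0 u ∧ ∀ᶠ w in 𝓝 (x, y), KGd A u S w := by
  obtain ⟨s, hs, t, ht, h⟩ := h
  obtain ⟨a, ha⟩ := A.cover x
  obtain ⟨b, hb⟩ := A.cover y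
  have c1 : ∀ s ∈ A.H0 u, ContinuousAt (fun w : X × X => u a w.1 * s w.1) (x, y) := fun s hs =>
    (KLoc_cont hs ha).comp_of_eq continuousAt_fst rfl
  have c2 : ∀ s ∈ A.H0 u, ContinuousAt (fun w : X × X => u b w.2 * s w.2) (x, y) := fun s hs =>
    (KLoc_cont hs hb).comp_of_eq continuousAt_snd rfl
  have h1 := (((c1 s hs).mul (c2 t ht)).sub ((c1 t ht).mul (c2 s hs))).eventually_ne (y := 0)
    fun h1 => h (mul_left_cancel₀ (mul_ne_zero (hu.ne a x ha) (hu.ne b y hb)) (by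
      simp only [Pi.sub_apply, Pi.mul_apply] at h1
      linear_combination h1))
  refine ⟨{s, t}, toFinite _, pair_subset hs ht, ?_⟩
  filter_upwards [h1, (isOpen_ne_fun continuous_fst continuous_snd).mem_nhds
    (show (x, y) ∈ {w : X × X | w.1 ≠ w.2} from hxy)] with w h2 h3
  refine ⟨fun e => absurd e h3, fun _ => ⟨s, by simp, t, by simp, fun h4 => h2 ?_⟩⟩
  simp only [Pi.sub_apply, Pi.mul_apply]
  linear_combination (u a w.1 * u b w.2) * h4

/-- Compare `Imm.mul`. -/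
theorem KGd.mul (hv : A.IsGauge v) (hS : S ⊆ A.H0 u) (hT : T ⊆ A.H0 v)
    (hb : ∀ p, ∃ t ∈ T, t p ≠ 0) {w : X × X} (h : KGd A u S w) : KGd A (u * v) (S * T) w := by
  obtain ⟨τ, hτ, h1⟩ := hb w.1
  refine ⟨fun e a ha ξ hξ => ?_, fun e => ?_⟩
  · obtain ⟨s, hs, t, ht, h2⟩ := h.1 e a ha ξ hξ
    refine ⟨_, mul_mem_mul hs hτ, _, mul_mem_mul ht hτ, fun h3 => h2 ?_⟩
    have hz := (A.e a).map_source ha
    have h4 : hl A v a τ (A.e a w.1) ≠ 0 := by
      rw [hl, A.loc_e a _ ha]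
      exact mul_ne_zero (hv.ne a _ ha) h1
    rw [hl, hl, Atl.api_loc_mul, Atl.api_loc_mul,
      fderiv_fun_mul (hS ht a _ hz).differentiableAt (hT hτ a _ hz).differentiableAt,
      fderiv_fun_mul (hS hs a _ hz).differentiableAt (hT hτ a _ hz).differentiableAt] at h3
    simp only [add_apply, smul_apply, smul_eq_mul] at h3
    refine mul_left_cancel₀ (pow_ne_zero 2 h4) ?_
    linear_combination h3
  · obtain ⟨s, hs, t, ht, h2⟩ := h.2 e
    obtain ⟨τ', hτ', h3⟩ := hb w.2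
    by_contra hne
    have k : ∀ s ∈ S, ∀ τ ∈ T, ∀ t ∈ S, ∀ τ' ∈ T,
        s w.1 * τ w.1 * (t w.2 * τ' w.2) = t w.1 * τ' w.1 * (s w.2 * τ w.2) :=
      fun s hs τ hτ t ht τ' hτ' => by_contra fun h4 =>
        hne ⟨_, mul_mem_mul hs hτ, _, mul_mem_mul ht hτ', h4⟩
    by_cases h4 : τ w.2 = 0
    · have k1 := k s hs τ hτ t ht τ' hτ'
      have k2 := k t ht τ hτ s hs τ' hτ'
      rw [h4] at k1 k2
      exact h2 (mul_left_cancel₀ (mul_ne_zero h1 h3) (by linear_combination k1 - k2))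
    · exact h2 (mul_left_cancel₀ (mul_ne_zero h1 h4) (by linear_combination k s hs τ hτ t ht τ hτ))

end Vale.Agent.P272
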