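import Vale.Agent.P272.KDefs
import Vale.Agent.P271A.Mean

/-! P272, part K: the phase of a peak section and the mean value inequality. -/

open MeasureTheory Set Filter Topology Metric
open scoped ContDiff ComplexConjugate Pointwise

noncomputable section

namespace Vale.Agent.P272

open Vale.Agent.P271

variable {n : ℕ}

theorem KT_smul (c : ℂ) (x : Cn n) : c • x = c.re • x + c.im • Complex.I • x := by
  ext j
  simp only [Pi.smul_apply, Pi.add_apply, smul_eq_mul, Complex.real_smul]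
  conv_lhs => rw [← Complex.re_add_im c]
  ring

theorem KT_smul' (c : ℂ) (x : Cn n) :
    Complex.I • c • x = c.re • Complex.I • x - c.im • x := by
  ext j
  simp only [Pi.smul_apply, Pi.sub_apply, smul_eq_mul, Complex.real_smul]
  conv_lhs => rw [← Complex.re_add_im c]
  linear_combination (c.im * x j) * Complex.I_mul_I

theorem KT_bil (B : Cn n →L[ℝ] Cn n →L[ℝ] ℝ) : ∃ T : Cn n →L[ℂ] Cn n →L[ℂ] ℂ,
    ∀ v, (T v v).re = B v v - B (Complex.I • v) (Complex.I • v) := by
  have h : IsBilinearMap ℂ fun v w : Cn n =>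
      ((B v w - B (Complex.I • v) (Complex.I • w) : ℝ) : ℂ) -
        Complex.I * ((B v (Complex.I • w) + B (Complex.I • v) w : ℝ) : ℂ) := by
    refine ⟨fun x y z => ?_, fun c x y => ?_, fun x y z => ?_, fun c x y => ?_⟩
    · simp only [smul_add, map_add, add_apply]
      push_cast
      ring
    · rw [KT_smul' c x, KT_smul c x]
      simp only [map_add, map_sub, map_smul, add_apply,
        sub_apply, smul_apply, smul_eq_mul]
      apply Complex.ext <;> simp <;> ring
    · simp only [smul_add, map_add]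
      push_cast
      ring
    · rw [KT_smul' c y, KT_smul c y]
      simp only [map_add, map_sub, map_smul, smul_eq_mul]
      apply Complex.ext <;> simp <;> ring
  exact ⟨h.toContinuousBilinearMap, fun v => by simp⟩

theorem KT_taylor {φ : Cn n → ℝ} {z₀ : Cn n} (hφ : ContDiffAt ℝ ∞ φ z₀) :
    (fun z => φ z - φ z₀ - fderiv ℝ φ z₀ (z - z₀) -
      fderiv ℝ (fderiv ℝ φ) z₀ (z - z₀) (z - z₀) / 2) =o[𝓝 z₀] fun z => ‖z - z₀‖ ^ 2 := by
  set D := fderiv ℝ φ z₀
  set B := fderiv ℝ (fderiv ℝ φ) z₀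
  have hs : ∀ v w, B v w = B w v := hφ.isSymmSndFDerivAt (by simp; norm_cast)
  obtain ⟨r, hr, hd⟩ := Metric.eventually_nhds_iff_ball.1 (P271A.Brid_ev hφ)
  have h1 : HasFDerivAt (fderiv ℝ φ) B z₀ :=
    ((hφ.fderiv_right (m := ∞) (by simp)).differentiableAt (by simp)).hasFDerivAt
  have h2 : ∀ z ∈ ball z₀ r, HasFDerivWithinAt
      (fun z => φ z - D (z - z₀) - B (z - z₀) (z - z₀) / 2)
      (fderiv ℝ φ z - D - B (z - z₀)) (ball z₀ r) z := fun z hz => by
    have h3 : HasFDerivAt (fun z : Cn n => z - z₀) (ContinuousLinearMap.id ℝ (Cn n)) z :=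
      (hasFDerivAt_id z).sub_const z₀
    have h4 := (B.hasFDerivAt.comp z h3).clm_apply h3
    have h5 := (((hd z hz).hasFDerivAt.sub (D.hasFDerivAt.comp z h3)).sub
      (h4.const_mul (1 / 2 : ℝ)))
    refine ((h5.congr_fderiv ?_).congr_of_eventuallyEq (Eventually.of_forall fun w => ?_)
      ).hasFDerivWithinAt
    · refine ContinuousLinearMap.ext fun w => ?_
      simp [hs w]
      ring
    · simp
      ring
  have h6 : (fun z => fderiv ℝ φ z - D - B (z - z₀)) =o[𝓝[ball z₀ r] z₀]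
      fun z => ‖z - z₀‖ ^ 1 := by
    simp only [pow_one, Asymptotics.isLittleO_norm_right]
    exact h1.isLittleO.mono nhdsWithin_le_nhds
  have h7 := (convex_ball z₀ r).isLittleO_pow_succ (mem_ball_self hr) h2 h6
  rw [isOpen_ball.nhdsWithin_eq (mem_ball_self hr)] at h7
  refine h7.congr_left fun z => ?_
  simp
  ring

/-- With `D = fderiv φ z₀`, `B = fderiv (fderiv φ) z₀`, `v = z - z₀`:
`2 P z = φ z₀ + (D v - i D (i v)) + (B v v - B (i v) (i v) - 2 i B v (i v)) / 4`; then
`φ - 2 Re P` has vanishing first derivative and second derivative ` (B v v + B (i v) (i v)) / 2 > 0`. -/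
theorem exists_phase {φ : Cn n → ℝ} {z₀ : Cn n} (hφ : ContDiffAt ℝ ∞ φ z₀)
    (hpos : ∀ ξ, ξ ≠ 0 → 0 < Lev φ z₀ ξ) :
    ∃ P : Cn n → ℂ, Differentiable ℂ P ∧ 2 * (P z₀).re = φ z₀ ∧
      ∀ᶠ z in 𝓝 z₀, z ≠ z₀ → 2 * (P z).re < φ z := by
  have ht := KT_taylor hφ
  simp only [Lev_eq_fderiv hφ] at hpos
  set D := fderiv ℝ φ z₀
  set B := fderiv ℝ (fderiv ℝ φ) z₀
  obtain ⟨T, hT⟩ := KT_bil B
  obtain ⟨c, hc, hc'⟩ := (isCompact_sphere (0 : Cn n) 1).exists_forall_le'
    (f := fun ξ => (B ξ ξ + B (Complex.I • ξ) (Complex.I • ξ)) / 4) (by fun_prop)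
    (a := 0) fun ξ hξ => hpos ξ (by
      rintro rfl
      simp at hξ)
  have hco : ∀ v : Cn n, v ≠ 0 →
      c * ‖v‖ ^ 2 ≤ (B v v + B (Complex.I • v) (Complex.I • v)) / 4 := fun v hv => by
    have h0 : 0 < ‖v‖ := norm_pos_iff.2 hv
    have h1 := hc' (‖v‖⁻¹ • v) (by simp [norm_smul, h0.ne'])
    rw [smul_comm Complex.I] at h1
    simp only [map_smul, smul_apply, smul_eq_mul] at h1
    have h2 := mul_le_mul_of_nonneg_right h1 (sq_nonneg ‖v‖)
    refine h2.trans_eq ?_
    field_simp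
  let L : Cn n →L[ℂ] ℂ := StrongDual.extendRCLike D
  have hL : ∀ v, (L v).re = D v := fun v => StrongDual.re_extendRCLike_apply (𝕜 := ℂ) D v
  refine ⟨fun z => (φ z₀ + L (z - z₀) + T (z - z₀) (z - z₀) / 4) / 2, by fun_prop, by simp; ring, ?_⟩
  filter_upwards [ht.def (half_pos hc)] with z hz hne
  have h1 := hco (z - z₀) (sub_ne_zero.2 hne)
  have h2 : 0 < c * ‖z - z₀‖ ^ 2 := mul_pos hc (pow_pos (norm_pos_iff.2 (sub_ne_zero.2 hne)) 2)
  have h3 := (abs_le.1 hz).1
  rw [Real.norm_of_nonneg (sq_nonneg _)] at h3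
  have h4 : 2 * ((φ z₀ + L (z - z₀) + T (z - z₀) (z - z₀) / 4) / 2).re =
      φ z₀ + D (z - z₀) + (B (z - z₀) (z - z₀) -
        B (Complex.I • (z - z₀)) (Complex.I • (z - z₀))) / 4 := by
    rw [← hL, ← hT]
    simp only [Complex.div_ofNat_re, Complex.add_re, Complex.ofReal_re]
    ring
  rw [h4]
  linarith

/-- `P271A.norm_le_mean` at the points of the ball of radius `ρ / 2`, then the Cauchy estimate. -/
theorem jet_le (z₀ : Cn n) {ρ : ℝ} (hρ : 0 < ρ) : ∃ C : ℝ, 0 ≤ C ∧ ∀ (g : Cn n → ℂ) (η : ℝ),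
    0 ≤ η → (∀ z ∈ closedBall z₀ ρ, DifferentiableAt ℂ g z) →
    ∫ z in closedBall z₀ ρ, ‖g z‖ ^ 2 ≤ η ^ 2 → ‖g z₀‖ ≤ C * η ∧ ‖fderiv ℂ g z₀‖ ≤ C * η := by
  have hV : 0 < volume.real (ball (0 : Cn n) (ρ / 4)) :=
    ENNReal.toReal_pos (measure_ball_pos _ _ (by positivity)).ne' measure_ball_lt_top.ne
  set a := √(volume.real (ball (0 : Cn n) (ρ / 4)))
  have ha : 0 < a := Real.sqrt_pos.2 hV
  have ha2 : a ^ 2 = volume.real (ball (0 : Cn n) (ρ / 4)) := Real.sq_sqrt hV.le
  refine ⟨(1 + 8 / ρ) / a, by positivity, fun g η hη hg hi => ?_⟩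
  have hc : ContinuousOn (fun z => ‖g z‖ ^ 2) (closedBall z₀ ρ) := fun z hz =>
    ((hg z hz).continuousAt.norm.pow 2).continuousWithinAt
  have hM : ∀ z ∈ ball z₀ (ρ / 2), ‖g z‖ ≤ η / a := fun z hz => by
    have hs : ball z (ρ / 2) ⊆ closedBall z₀ ρ :=
      (ball_subset_ball' (by linarith [mem_ball.1 hz])).trans ball_subset_closedBall
    have h1 := P271A.norm_le_mean (h := g) (c := z) (r := ρ / 4) (r' := ρ / 2) (by positivity)
      (by linarith) fun w hw => (hg w (hs hw)).differentiableWithinAt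
    have h2 : ∫ w in ball z (ρ / 4), ‖g w‖ ^ 2 ≤ ∫ w in closedBall z₀ ρ, ‖g w‖ ^ 2 :=
      setIntegral_mono_set (hc.integrableOn_compact (isCompact_closedBall _ _))
        (Eventually.of_forall fun w => sq_nonneg _)
        ((ball_subset_ball (by linarith)).trans hs).eventuallyLE
    rw [le_div_iff₀ ha]
    refine abs_le_of_sq_le_sq' ?_ hη |>.2
    rw [mul_pow, ha2, mul_comm]
    exact h1.trans (h2.trans hi)
  have h3 := P278F.norm_iteratedFDeriv_le (δ := ρ / 4) (by positivity)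
    (fun w hw => (hg w (ball_subset_closedBall
      (ball_subset_ball (by linarith) hw))).differentiableWithinAt) hM 1 z₀ (by simp; linarith)
  rw [norm_iteratedFDeriv_one, pow_one] at h3
  have h4 : 0 ≤ η / a := by positivity
  have h5 : (1 + 8 / ρ) / a * η = η / a + 2 / (ρ / 4) * (η / a) := by
    field_simp
    ring
  have h6 : 0 ≤ 2 / (ρ / 4) * (η / a) := by positivity
  rw [h5]
  exact ⟨by linarith [hM z₀ (mem_ball_self (half_pos hρ))], by linarith⟩

/-- From an exponentially small weighted mean to the jet: on a small ball `φ - 2 Re P ≤ c / 2`. -/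
theorem jet_small {φ : Cn n → ℝ} {P : Cn n → ℂ} {z₀ : Cn n} {δ c ε : ℝ} (hδ : 0 < δ) (hc : 0 < c)
    (hε : 0 < ε) (hφ : ContinuousOn φ (closedBall z₀ δ)) (hP : Differentiable ℂ P)
    (h0 : 2 * (P z₀).re = φ z₀) (C : ℝ) : ∃ m₁ : ℕ, ∀ m : ℕ, m₁ ≤ m → ∀ h : Cn n → ℂ,
      (∀ z ∈ closedBall z₀ δ, DifferentiableAt ℂ h z) →
      ∫ z in closedBall z₀ δ, ‖h z‖ ^ 2 * Real.exp (-(m * φ z)) ≤ C * Real.exp (-(c * m)) →
      ‖h z₀ * Complex.exp (-(m * P z₀))‖ ≤ ε ∧
        ‖fderiv ℂ (fun z => h z * Complex.exp (-(m * P z))) z₀‖ ≤ ε := by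
  have hPc := hP.continuous
  have h1 : ContinuousAt (fun z => φ z - 2 * (P z).re) z₀ :=
    (hφ.continuousAt (closedBall_mem_nhds _ hδ)).sub (by fun_prop)
  have h2 : ∀ᶠ z in 𝓝 z₀, φ z - 2 * (P z).re < c / 2 :=
    h1.eventually_lt continuousAt_const (by linarith)
  obtain ⟨ρ, hρ, hs⟩ := Metric.nhds_basis_closedBall.eventually_iff.1
    (h2.and (closedBall_mem_nhds z₀ hδ))
  have hsub : closedBall z₀ ρ ⊆ closedBall z₀ δ := fun z hz => (hs hz).2
  obtain ⟨K, hK, hK'⟩ := jet_le z₀ hρ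
  have h3 : Tendsto (fun m : ℕ => K * √(|C| * Real.exp (-(c / 2 * m)))) atTop (𝓝 0) := by
    have h4 : Tendsto (fun m : ℕ => Real.exp (-(c / 2 * m))) atTop (𝓝 0) :=
      Real.tendsto_exp_neg_atTop_nhds_zero.comp
        (tendsto_natCast_atTop_atTop.const_mul_atTop (half_pos hc))
    simpa using (h4.const_mul |C|).sqrt.const_mul K
  obtain ⟨m₁, hm⟩ := eventually_atTop.1 (h3.eventually (ge_mem_nhds hε))
  refine ⟨m₁, fun m hm₁ h hh hi => ?_⟩
  have hci : ContinuousOn (fun z => ‖h z‖ ^ 2 * Real.exp (-(m * φ z))) (closedBall z₀ δ) :=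
    ContinuousOn.mul (fun z hz => ((hh z hz).continuousAt.norm.pow 2).continuousWithinAt)
      ((continuousOn_const.mul hφ).neg.rexp)
  have hii := hci.integrableOn_compact (μ := volume) (isCompact_closedBall _ _)
  have hd : ∀ z ∈ closedBall z₀ ρ,
      DifferentiableAt ℂ (fun z => h z * Complex.exp (-(m * P z))) z := fun z hz =>
    (hh z (hsub hz)).mul ((hP z).const_mul _).neg.cexp
  have h5 := hK' (fun z => h z * Complex.exp (-(m * P z))) _
    (Real.sqrt_nonneg (|C| * Real.exp (-(c / 2 * m)))) hd (by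
      rw [Real.sq_sqrt (by positivity)]
      calc ∫ z in closedBall z₀ ρ, ‖h z * Complex.exp (-(m * P z))‖ ^ 2
          ≤ ∫ z in closedBall z₀ ρ,
            Real.exp (c / 2 * m) * (‖h z‖ ^ 2 * Real.exp (-(m * φ z))) := by
            refine setIntegral_mono_on (ContinuousOn.integrableOn_compact (isCompact_closedBall _ _)
              fun z hz => ((hd z hz).continuousAt.norm.pow 2).continuousWithinAt)
              ((hii.mono_set hsub).const_mul _) measurableSet_closedBall fun z hz => ?_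
            rw [norm_mul, mul_pow, Complex.norm_exp, mul_left_comm, ← Real.exp_add,
              ← Real.exp_nat_mul]
            refine mul_le_mul_of_nonneg_left (Real.exp_le_exp.2 ?_) (sq_nonneg _)
            have h6 := mul_le_mul_of_nonneg_left (hs hz).1.le (Nat.cast_nonneg (α := ℝ) m)
            simp
            linarith
        _ ≤ Real.exp (c / 2 * m) * (|C| * Real.exp (-(c * m))) := by
            rw [integral_const_mul]
            refine mul_le_mul_of_nonneg_left ((setIntegral_mono_set hii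
              (Eventually.of_forall fun w => by positivity) hsub.eventuallyLE).trans
              (hi.trans ?_)) (Real.exp_pos _).le
            exact mul_le_mul_of_nonneg_right (le_abs_self C) (Real.exp_pos _).le
        _ = _ := by
            rw [mul_left_comm, ← Real.exp_add]
            congr 2
            ring)
  exact ⟨h5.1.trans (hm m hm₁), h5.2.trans (hm m hm₁)⟩

end Vale.Agent.P272
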