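import Vale.Agent.P272.KProj
import Vale.Agent.P272.KTay

/-! P272, part K: peak sections. -/

open MeasureTheory Set Filter Topology Metric
open scoped ContDiff ComplexConjugate Pointwise

noncomputable section

namespace Vale.Agent.P272

open Vale.Agent.P271

variable {n : ℕ} {X : Type} [TopologicalSpace X] [T2Space X] [CompactSpace X] {A : Atl n X}
  {u : A.ι → X → ℂ} {ψ : X → ℝ}

theorem kpeak_dzb {F : Cn n → ℂ} {z : Cn n} {B : ℝ} (h : ‖fderiv ℝ F z‖ ≤ B) (ξ : Cn n) :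
    ‖dzb ξ F z‖ ≤ B * ‖ξ‖ := by
  have h1 := (fderiv ℝ F z).le_of_opNorm_le h ξ
  have h2 := (fderiv ℝ F z).le_of_opNorm_le h (Complex.I • ξ)
  have h3 := norm_add_le (fderiv ℝ F z ξ) (Complex.I * fderiv ℝ F z (Complex.I • ξ))
  rw [norm_smul, Complex.norm_I, one_mul] at h2
  rw [norm_mul, Complex.norm_I, one_mul] at h3
  rw [dzb, norm_div, Complex.norm_two]
  linarith

theorem kpeak_exp (m : ℕ) (w : ℂ) (t : ℝ) :
    ‖Complex.exp (m * w)‖ ^ 2 * Real.exp (-(m * t)) = Real.exp (-((t - 2 * w.re) * m)) := by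
  rw [Complex.norm_exp, sq, ← Real.exp_add, ← Real.exp_add]
  congr 1
  simp only [Complex.mul_re, Complex.natCast_re, Complex.natCast_im]
  ring

/-- `kproj` for `f = χ exp (m P) (α + ℓ (z - z₀))`, `χ` a bump. -/
theorem peak_mean (hu : A.IsGauge u) (hψ : A.Pos u ψ) (a b : A.ι) {z₀ : Cn n} {δ : ℝ} (hδ : 0 < δ)
    (hz : closedBall z₀ (2 * δ) ⊆ (A.e a).target) {P : Cn n → ℂ} (hP : Differentiable ℂ P)
    (hlt : ∀ z ∈ closedBall z₀ (2 * δ), z ≠ z₀ → 2 * (P z).re < A.wt u ψ a z) {K' : Set (Cn n)}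
    (hK' : IsCompact K') (hKb : K' ⊆ (A.e b).target) :
    ∃ (m₀ : ℕ) (C c : ℝ), 0 < c ∧ ∀ m, m₀ ≤ m → ∀ (α : ℂ) (ℓ : Cn n →L[ℂ] ℂ), ‖α‖ ≤ 1 → ‖ℓ‖ ≤ 1 →
      ∃ s ∈ A.H0 (u ^ m),
        ∫ z in closedBall z₀ δ, ‖hl A (u ^ m) a s z - Complex.exp (m * P z) * (α + ℓ (z - z₀))‖ ^ 2 *
          Real.exp (-(m * A.wt u ψ a z)) ≤ C * Real.exp (-(c * m)) ∧
        ((∀ z ∈ K', (A.e b).symm z ∈ (A.e a).source → A.tr b a z ∉ closedBall z₀ (2 * δ)) →
          ∫ z in K', ‖hl A (u ^ m) b s z‖ ^ 2 * Real.exp (-(m * A.wt u ψ b z)) ≤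
            C * Real.exp (-(c * m))) := by
  obtain ⟨m₀, C, hC⟩ := kproj hu hψ a b (isCompact_closedBall z₀ (2 * δ)) hz hK' hKb
  have hφ : ContinuousOn (A.wt u ψ a) (closedBall z₀ (2 * δ)) :=
    (sm_wt hu hψ.1 a).continuousOn.mono hz
  obtain ⟨c, hc, hcA⟩ := ((isCompact_closedBall z₀ (2 * δ)).diff
    (isOpen_ball (x := z₀) (ε := δ))).exists_forall_le'
    (f := fun z => A.wt u ψ a z - 2 * (P z).re) (a := 0)
    ((hφ.mono sdiff_subset).sub (continuous_const.mul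
      (Complex.continuous_re.comp hP.continuous)).continuousOn)
    fun z hz => sub_pos.2 (hlt z hz.1 fun h => hz.2 (h ▸ mem_ball_self hδ))
  let χ : ContDiffBump z₀ := ⟨δ, 2 * δ, hδ, by linarith⟩
  have hχ : ContDiff ℝ ∞ fun z => (χ z : ℂ) := Complex.ofRealCLM.contDiff.comp χ.contDiff
  obtain ⟨B, hB⟩ := (isCompact_closedBall z₀ (2 * δ)).exists_bound_of_continuousOn
    (hχ.continuous_fderiv (by simp)).continuousOn
  refine ⟨m₀, C * (B * (1 + 2 * δ)) ^ 2, c, hc, fun m hm α ℓ hα hℓ => ?_⟩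
  have hG : Differentiable ℂ fun z => Complex.exp (m * P z) * (α + ℓ (z - z₀)) := by fun_prop
  have hG' : ContDiff ℝ ∞ fun z => Complex.exp (m * P z) * (α + ℓ (z - z₀)) :=
    (contDiff_iff_contDiffAt.2 fun z => (P278F.analyticOnNhd_of_differentiableOn isOpen_univ
      hG.differentiableOn z trivial).contDiffAt).restrict_scalars ℝ
  obtain ⟨s, hs, h1, h2⟩ := hC m hm
    (fun z => χ z * (Complex.exp (m * P z) * (α + ℓ (z - z₀))))
    ((B * (1 + 2 * δ)) ^ 2 * Real.exp (-(c * m))) (hχ.mul hG')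
    ((closure_mono (Function.support_subset_iff'.2 fun z hz => by
      rw [Function.notMem_support.1 hz, Complex.ofReal_zero, zero_mul])).trans χ.tsupport_eq.subset)
    (by positivity) fun z hz ξ => by
      rw [P271A.dzb_mul (hχ.differentiable (by simp) z) ((hG z).restrictScalars ℝ),
        P271A.dzb_hol (hG z), mul_zero, add_zero]
      by_cases hb : z ∈ ball z₀ δ
      · have e : (fun z => (χ z : ℂ)) =ᶠ[𝓝 z] fun _ => 1 := by
          filter_upwards [isOpen_ball.mem_nhds hb] with w hw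
          rw [χ.one_of_mem_closedBall (ball_subset_closedBall hw), Complex.ofReal_one]
        rw [P271A.dzb_congr e, P271A.dzb_const, zero_mul, norm_zero, zero_pow two_ne_zero, zero_mul]
        positivity
      · have k1 := kpeak_dzb (hB z hz) ξ
        have k2 : ‖α + ℓ (z - z₀)‖ ≤ 1 + 2 * δ := by
          have := ℓ.le_of_opNorm_le hℓ (z - z₀)
          have := norm_add_le α (ℓ (z - z₀))
          have := mem_closedBall_iff_norm.1 hz
          linarith
        have k3 : Real.exp (-((A.wt u ψ a z - 2 * (P z).re) * m)) ≤ Real.exp (-(c * m)) :=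
          Real.exp_le_exp.2 (neg_le_neg (mul_le_mul_of_nonneg_right (hcA z ⟨hz, hb⟩)
            (Nat.cast_nonneg m)))
        rw [← kpeak_exp] at k3
        calc _ = (‖dzb ξ (fun z => (χ z : ℂ)) z‖ * ‖α + ℓ (z - z₀)‖) ^ 2 *
              (‖Complex.exp (m * P z)‖ ^ 2 * Real.exp (-(m * A.wt u ψ a z))) := by
              rw [norm_mul, norm_mul]; ring
          _ ≤ (B * ‖ξ‖ * (1 + 2 * δ)) ^ 2 * Real.exp (-(c * m)) := by
              gcongr
              exact (norm_nonneg _).trans k1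
          _ = _ := by ring
  refine ⟨s, hs, ?_, fun h => (h2 h).trans_eq (mul_assoc _ _ _).symm⟩
  refine le_trans ?_ (h1.trans_eq (mul_assoc _ _ _).symm)
  have hi : ContinuousOn (fun z => ‖hl A (u ^ m) a s z - χ z * (Complex.exp (m * P z) *
      (α + ℓ (z - z₀)))‖ ^ 2 * Real.exp (-(m * A.wt u ψ a z))) (closedBall z₀ (2 * δ)) :=
    ((((hs a).continuousOn.mono hz).sub (hχ.mul hG').continuous.continuousOn).norm.pow 2).mul
      (continuousOn_const.mul hφ).neg.rexp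
  refine le_trans (le_of_eq (setIntegral_congr_fun measurableSet_closedBall fun z hz => ?_))
    (setIntegral_mono_set (hi.integrableOn_compact (isCompact_closedBall _ _))
      (Eventually.of_forall fun z => by positivity)
      (closedBall_subset_closedBall (by linarith : δ ≤ 2 * δ)).eventuallyLE)
  simp only [χ.one_of_mem_closedBall hz, Complex.ofReal_one, one_mul]

omit [T2Space X] [CompactSpace X] in
theorem norm_hl {b : A.ι} {y : X} (hu : A.IsGauge u) (hy : y ∈ (A.e b).source) (m : ℕ) (s : X → ℂ)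
    {w : ℂ} (hw : 2 * w.re = A.wt u ψ b (A.e b y)) :
    ‖hl A (u ^ m) b s (A.e b y) * Complex.exp (-(m * w))‖ = ‖s y‖ * Real.exp (-(m * ψ y) / 2) := by
  have h0 : 0 < ‖u b y‖ := norm_pos_iff.2 (hu.ne b y hy)
  rw [Atl.wt, A.loc_e b _ hy, Real.log_pow] at hw
  have e : (-(m * w)).re = -(m * ψ y) / 2 + m * -Real.log ‖u b y‖ := by
    simp only [Complex.neg_re, Complex.mul_re, Complex.natCast_re, Complex.natCast_im]
    push_cast at hw
    linear_combination (-(m : ℝ) / 2) * hw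
  rw [hl, A.loc_e b _ hy, norm_mul, norm_mul, Complex.norm_exp, e, Real.exp_add, Real.exp_nat_mul,
    Real.exp_neg (Real.log _), Real.exp_log h0, Pi.pow_apply, Pi.pow_apply, norm_pow, inv_pow]
  field_simp

theorem peak (hu : A.IsGauge u) (hψ : A.Pos u ψ) {a : A.ι} {x : X} (hx : x ∈ (A.e a).source)
    (y : X) {ε : ℝ} (hε : 0 < ε) :
    ∃ P : Cn n → ℂ, Differentiable ℂ P ∧ 2 * (P (A.e a x)).re = A.wt u ψ a (A.e a x) ∧
      ∃ m₀ : ℕ, ∀ m, m₀ ≤ m → ∀ (α : ℂ) (ℓ : Cn n →L[ℂ] ℂ), ‖α‖ ≤ 1 → ‖ℓ‖ ≤ 1 →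
        ∃ s ∈ A.H0 (u ^ m),
          ‖hl A (u ^ m) a s (A.e a x) * Complex.exp (-(m * P (A.e a x))) - α‖ ≤ ε ∧
          ‖fderiv ℂ (fun z => hl A (u ^ m) a s z * Complex.exp (-(m * P z))) (A.e a x) - ℓ‖ ≤ ε ∧
          (y ≠ x → ‖s y‖ * Real.exp (-(m * ψ y) / 2) ≤ ε) := by
  obtain ⟨b, hy⟩ := A.cover y
  have hz := (A.e a).map_source hx
  have hw := (A.e b).map_source hy
  have hsm := sm_wt hu hψ.1
  obtain ⟨P, hP, hP0, hPlt⟩ := exists_phase
    ((hsm a).contDiffAt ((A.e a).open_target.mem_nhds hz)) (hψ.2 a _ hz)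
  obtain ⟨U, hU, W, hW, hUW⟩ : ∃ U ∈ 𝓝 x, ∃ W ∈ 𝓝 y, y ≠ x → Disjoint U W := by
    by_cases h : y = x
    · exact ⟨univ, univ_mem, univ, univ_mem, fun h' => absurd h h'⟩
    · obtain ⟨U, W, h1, h2, h3⟩ := t2_separation_nhds (Ne.symm h)
      exact ⟨U, h1, W, h2, fun _ => h3⟩
  have hU' : (A.e a).symm ⁻¹' U ∈ 𝓝 (A.e a x) :=
    (A.e a).continuousAt_symm hz (by rwa [(A.e a).left_inv hx])
  have hW' : (A.e b).symm ⁻¹' W ∈ 𝓝 (A.e b y) :=
    (A.e b).continuousAt_symm hw (by rwa [(A.e b).left_inv hy])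
  obtain ⟨δ, hδ, hδ'⟩ := nhds_basis_closedBall.mem_iff.1
    (inter_mem (inter_mem ((A.e a).open_target.mem_nhds hz) hU') hPlt)
  obtain ⟨ρ, hρ, hρ'⟩ := nhds_basis_closedBall.mem_iff.1
    (inter_mem ((A.e b).open_target.mem_nhds hw) hW')
  have e2 : 2 * (δ / 2) = δ := by ring
  have hsub : closedBall (A.e a x) (δ / 2) ⊆ (A.e a).target := fun z hz =>
    (hδ' (closedBall_subset_closedBall (by linarith) hz)).1.1
  obtain ⟨m₀, C, c, hc, hC⟩ := peak_mean hu hψ a b (z₀ := A.e a x) (half_pos hδ)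
    (by rw [e2]; exact fun z hz => (hδ' hz).1.1) hP (by rw [e2]; exact fun z hz => (hδ' hz).2)
    (isCompact_closedBall (A.e b y) ρ) fun z hz => (hρ' hz).1
  obtain ⟨m₁, h₁⟩ := jet_small (half_pos hδ) hc hε ((hsm a).continuousOn.mono hsub) hP hP0 C
  have hQ : 2 * ((A.wt u ψ b (A.e b y) / 2 : ℝ) : ℂ).re = A.wt u ψ b (A.e b y) := by
    rw [Complex.ofReal_re]; ring
  obtain ⟨m₂, h₂⟩ := jet_small (P := fun _ => ((A.wt u ψ b (A.e b y) / 2 : ℝ) : ℂ)) hρ hc hε
    ((hsm b).continuousOn.mono fun z hz => (hρ' hz).1) (differentiable_const _) hQ C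
  refine ⟨P, hP, hP0, max m₀ (max m₁ m₂), fun m hm α ℓ hα hℓ => ?_⟩
  obtain ⟨s, hs, k1, k2⟩ := hC m (le_of_max_le_left hm) α ℓ hα hℓ
  have hG : Differentiable ℂ fun z => Complex.exp (m * P z) * (α + ℓ (z - A.e a x)) := by fun_prop
  obtain ⟨k3, k4⟩ := h₁ m (le_of_max_le_left (le_of_max_le_right hm))
    (fun z => hl A (u ^ m) a s z - Complex.exp (m * P z) * (α + ℓ (z - A.e a x)))
    (fun z hz => (hs a z (hsub hz)).differentiableAt.sub (hG z)) k1
  have e : (fun z => (hl A (u ^ m) a s z - Complex.exp (m * P z) * (α + ℓ (z - A.e a x))) *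
      Complex.exp (-(m * P z))) = fun z => hl A (u ^ m) a s z * Complex.exp (-(m * P z)) -
        (α + ℓ (z - A.e a x)) := by
    funext z
    rw [Complex.exp_neg]
    field_simp
  refine ⟨s, hs, ?_, ?_, fun hyx => ?_⟩
  · have e' := congrFun e (A.e a x)
    simp only [sub_self, map_zero, add_zero] at e' k3
    rwa [e'] at k3
  · have hq : HasFDerivAt (fun z => α + ℓ (z - A.e a x)) ℓ (A.e a x) := by
      simpa using (ℓ.hasFDerivAt.comp (A.e a x)
        ((hasFDerivAt_id (A.e a x)).sub_const (A.e a x))).const_add α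
    have hd : DifferentiableAt ℂ (fun z => hl A (u ^ m) a s z * Complex.exp (-(m * P z)))
        (A.e a x) := (hs a _ hz).differentiableAt.mul (by fun_prop)
    rwa [e, (hd.hasFDerivAt.fun_sub hq).fderiv] at k4
  · rw [← norm_hl hu hy m s hQ]
    refine (h₂ m (le_of_max_le_right (le_of_max_le_right hm)) _
      (fun z hz => (hs b z (hρ' hz).1).differentiableAt) (k2 fun z hz hz' h => ?_)).1
    rw [e2] at h
    have k5 : (A.e a).symm (A.e a ((A.e b).symm z)) ∈ U := (hδ' h).1.2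
    rw [(A.e a).left_inv hz'] at k5
    exact disjoint_left.1 (hUW hyx) k5 (hρ' hz).2

end Vale.Agent.P272
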