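import Vale.Agent.P272.KUC
import Vale.Agent.P272.KCut
import Vale.Agent.P292E.UProj
import Vale.Agent.P292E.Reg
import Vale.Agent.P292E.Ell

/-! P272, part K: approximation by holomorphic sections in the mean. -/

open MeasureTheory Set Filter Topology Metric
open scoped ContDiff ComplexConjugate Pointwise

noncomputable section

namespace Vale.Agent.P272

open Vale.Agent.P271

open Vale.Agent.P292E (V Tst UC Dbv ee)

variable {n : ℕ} {X : Type} [TopologicalSpace X] [T2Space X] [CompactSpace X] {A : Atl n X}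
  {u : A.ι → X → ℂ} {ψ : X → ℝ}

theorem kproj_exp (m : ℕ) (x : ℝ) {r : ℝ} (hr : 0 < r) :
    Real.exp (m * (x + Real.log (r ^ 2)) / 2) = Real.exp (m * x / 2) * r ^ m := by
  have e : m * (x + Real.log (r ^ 2)) / 2 = m * x / 2 + m * Real.log r := by
    rw [Real.log_pow]
    push_cast
    ring
  rw [e, Real.exp_add, Real.exp_nat_mul, Real.exp_log hr]

theorem kproj_norm (x : ℂ) (w : ℝ) :
    ‖x * (Real.exp (-w / 2) : ℝ)‖ ^ 2 = ‖x‖ ^ 2 * Real.exp (-w) := by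
  rw [norm_mul, Complex.norm_real, Real.norm_of_nonneg (Real.exp_pos _).le, mul_pow,
    ← Real.exp_nat_mul]
  congr 2
  push_cast
  ring

theorem kproj_cancel (x : ℂ) (w : ℝ) :
    x * (Real.exp (w / 2) : ℝ) * (Real.exp (-w / 2) : ℝ) = x := by
  rw [mul_assoc, ← Complex.ofReal_mul, ← Real.exp_add, ← add_div, add_neg_cancel, zero_div,
    Real.exp_zero, Complex.ofReal_one, mul_one]

omit [CompactSpace X] in
theorem kproj_hl (hu : A.IsGauge u) (hψ : A.Pos u ψ) (c : Cut A) {m : ℕ} {t : X × Circle → ℂ}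
    (ht : t ∈ (uc hu hψ c).G m) (b : A.ι) {z : Cn n} (hz : z ∈ (A.e b).target) :
    hl A (u ^ m) b (fun p => t (p, 1) * (Real.exp (m * ψ p / 2) : ℝ)) z =
      (uc hu hψ c).loc b t ((LL n).symm z) * (Real.exp (m * A.wt u ψ b z / 2) : ℝ) := by
  have hp := (A.e b).map_target hz
  have h0 := hu.ne b _ hp
  have h1 : t ((A.e b).symm z, 1) = (((1 : Circle) * (ph (u b ((A.e b).symm z)))⁻¹ : Circle) : ℂ) ^ m *
      (uc hu hψ c).loc b t ((LL n).symm (A.e b ((A.e b).symm z))) :=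
    UC.eq_loc (c := ((A.e b).symm z, 1)) ht hp
  rw [(A.e b).right_inv hz, one_mul, Circle.coe_inv] at h1
  have h2 := norm_mul_ph (u b ((A.e b).symm z))
  have h3 := Circle.coe_ne_zero (ph (u b ((A.e b).symm z)))
  show u b ((A.e b).symm z) ^ m * (t ((A.e b).symm z, 1) *
    (Real.exp (m * ψ ((A.e b).symm z) / 2) : ℝ)) = _ * (Real.exp (m * (ψ ((A.e b).symm z) +
      Real.log (‖u b ((A.e b).symm z)‖ ^ 2)) / 2) : ℝ)
  rw [kproj_exp m _ (norm_pos_iff.2 h0), h1]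
  generalize u b ((A.e b).symm z) = w at h2 h3 ⊢
  generalize (ph w : ℂ) = q at h2 h3 ⊢
  have h4 : w ^ m = (‖w‖ : ℂ) ^ m * q ^ m := by rw [← mul_pow, h2]
  rw [h4, inv_pow]
  push_cast
  field_simp

omit [CompactSpace X] in
theorem kproj_loc (hu : A.IsGauge u) (hψ : A.Pos u ψ) (c : Cut A) {m : ℕ} {t : X × Circle → ℂ}
    (ht : t ∈ (uc hu hψ c).G m) (b : A.ι) {y : V (NN n)} (hy : LL n y ∈ (A.e b).target) :
    (uc hu hψ c).loc b t y =
      hl A (u ^ m) b (fun p => t (p, 1) * (Real.exp (m * ψ p / 2) : ℝ)) (LL n y) *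
        (Real.exp (-(m * A.wt u ψ b (LL n y)) / 2) : ℝ) := by
  rw [kproj_hl hu hψ c ht b hy, kproj_cancel, (LL n).symm_apply_apply]

omit [CompactSpace X] in
theorem kproj_hol (hu : A.IsGauge u) (hψ : A.Pos u ψ) (c : Cut A) {m : ℕ} {t : X × Circle → ℂ}
    (ht : t ∈ (uc hu hψ c).G m)
    (h : ∀ b, ∀ y, LL n y ∈ (A.e b).target → ∀ v, Dbv (fun _ => JJ n) (AA (A.wt u ψ b)) m
      ((uc hu hψ c).loc b t) y v = 0) :
    (fun p => t (p, 1) * (Real.exp (m * ψ p / 2) : ℝ)) ∈ A.H0 (u ^ m) := by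
  intro b
  have ho := (A.e b).open_target
  have hw := sm_wt hu hψ.1 b
  have h1 : ContDiffOn ℝ ∞ (fun z => (uc hu hψ c).loc b t ((LL n).symm z)) (A.e b).target :=
    (UC.loc_sm ht b).comp (LL n).symm.contDiff.contDiffOn fun z hz => by
      show LL n ((LL n).symm z) ∈ (A.e b).target
      rwa [(LL n).apply_symm_apply]
  have h2 : ContDiffOn ℝ ∞ (fun z => ((Real.exp (m * A.wt u ψ b z / 2) : ℝ) : ℂ))
      (A.e b).target :=
    Complex.ofRealCLM.contDiff.comp_contDiffOn ((contDiffOn_const.mul hw).div_const 2).exp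
  have h3 : DifferentiableOn ℝ
      (hl A (u ^ m) b fun p => t (p, 1) * (Real.exp (m * ψ p / 2) : ℝ)) (A.e b).target :=
    ((h1.mul h2).congr fun z hz => kproj_hl hu hψ c ht b hz).differentiableOn (by simp)
  refine hol_of_dzb ho h3 fun z hz ξ => ?_
  obtain ⟨y, rfl⟩ := (LL n).surjective z
  obtain ⟨v, rfl⟩ := (LL n).surjective ξ
  have h4 := h b y hz v
  have h5 : (uc hu hψ c).loc b t =ᶠ[𝓝 y] fun y =>
      hl A (u ^ m) b (fun p => t (p, 1) * (Real.exp (m * ψ p / 2) : ℝ)) (LL n y) *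
        (Real.exp (-(m * A.wt u ψ b (LL n y)) / 2) : ℝ) := by
    filter_upwards [(ho.preimage (LL n).continuous).mem_nhds hz] with x hx
    exact kproj_loc hu hψ c ht b hx
  rw [P292E.UProj_congr h5, Dbv_eq ((hw.contDiffAt (ho.mem_nhds hz)).differentiableAt (by simp))
    (h3.differentiableAt (ho.mem_nhds hz))] at h4
  exact (mul_eq_zero.1 ((mul_eq_zero.1 h4).resolve_right
    (Complex.ofReal_ne_zero.2 (Real.exp_pos _).ne'))).resolve_left two_ne_zero

/-- `UC.proj` for `uc hu hψ c` applied to `ext a m F`, `F y = f (LL y) exp (-m wt / 2)`; the section is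
`s p = s' (p, 1) * exp (m ψ p / 2)`, and `loc b s' y = hl b s (LL y) * exp (-m wt b (LL y) / 2)`. -/
theorem kproj (hu : A.IsGauge u) (hψ : A.Pos u ψ) (a b : A.ι) {K K' : Set (Cn n)}
    (hK : IsCompact K) (hKa : K ⊆ (A.e a).target) (hK' : IsCompact K')
    (hKb : K' ⊆ (A.e b).target) :
    ∃ (m₀ : ℕ) (C : ℝ), ∀ m, m₀ ≤ m → ∀ (f : Cn n → ℂ) (η : ℝ), ContDiff ℝ ∞ f → tsupport f ⊆ K →
      0 ≤ η → (∀ z ∈ K, ∀ ξ, ‖dzb ξ f z‖ ^ 2 * Real.exp (-(m * A.wt u ψ a z)) ≤ η * ‖ξ‖ ^ 2) →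
      ∃ s ∈ A.H0 (u ^ m),
        ∫ z in K, ‖hl A (u ^ m) a s z - f z‖ ^ 2 * Real.exp (-(m * A.wt u ψ a z)) ≤ C * η ∧
        ((∀ z ∈ K', (A.e b).symm z ∈ (A.e a).source → A.tr b a z ∉ K) →
          ∫ z in K', ‖hl A (u ^ m) b s z‖ ^ 2 * Real.exp (-(m * A.wt u ψ b z)) ≤ C * η) := by
  obtain ⟨c, h1, h2⟩ := exists_cut A a b hK hKa hK' hKb
  obtain ⟨v, hv, hvol⟩ := exists_vol n
  have cK : IsCompact (LL n ⁻¹' K) := (LL n).toHomeomorph.isCompact_preimage.2 hK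
  have cK' : IsCompact (LL n ⁻¹' K') := (LL n).toHomeomorph.isCompact_preimage.2 hK'
  have ho := (A.e a).open_target
  have hw := sm_wt hu hψ.1 a
  obtain ⟨k₀, B, h⟩ := (uc hu hψ c).proj (P292E.regS (P292E.ellS _)) a cK (preimage_mono hKa)
  refine ⟨max k₀ 1, |B| * ((∑ p, 4 * ‖LL n (ee p)‖ ^ 2) * volume.real (LL n ⁻¹' K)) / v,
    fun m hm f η hf hfK hη hb => ?_⟩
  have s0 : tsupport (fun y => f (LL n y)) ⊆ LL n ⁻¹' K :=
    closure_minimal (fun y hy => hfK (subset_tsupport _ hy)) cK.isClosed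
  have t0 : Tst (LL n ⁻¹' (A.e a).target) fun y => f (LL n y) :=
    ⟨hf.comp (LL n).contDiff, cK.of_isClosed_subset (isClosed_tsupport _) s0,
      s0.trans (preimage_mono hKa)⟩
  have t1 : ContDiffOn ℝ ∞ (fun y => ((Real.exp (-(m * A.wt u ψ a (LL n y)) / 2) : ℝ) : ℂ))
      (LL n ⁻¹' (A.e a).target) :=
    Complex.ofRealCLM.contDiff.comp_contDiffOn (((contDiffOn_const.mul
      (hw.comp (LL n).contDiff.contDiffOn fun _ hy => hy)).neg.div_const 2).exp)
  have hF : Tst ((uc hu hψ c).B a) _ := P292E.cut_contDiff (ho.preimage (LL n).continuous) t0 t1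
  set F : V (NN n) → ℂ :=
    fun y => f (LL n y) * (Real.exp (-(m * A.wt u ψ a (LL n y)) / 2) : ℝ) with hFd
  have hsupp : ∀ q, (uc hu hψ c).ext a m F q ≠ 0 →
      q ∈ (uc hu hψ c).O a ∧ (uc hu hψ c).z a q ∈ LL n ⁻¹' K := by
    intro q hq
    by_cases k' : q ∈ (uc hu hψ c).O a
    · rw [UC.ext_of_mem k'] at hq
      exact ⟨k', hfK (subset_tsupport _ (left_ne_zero_of_mul (right_ne_zero_of_mul hq)))⟩
    · exact absurd (UC.ext_of_notMem k') hq
  obtain ⟨t, ht, hh, hest⟩ := h m (le_of_max_le_left hm) _ (UC.ext_mem hF m) hsupp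
  have hm1 : (1 : ℝ) ≤ m := by exact_mod_cast le_of_max_le_right hm
  have hI : ‖∫ y in LL n ⁻¹' K, ∑ p, ‖Dbv ((uc hu hψ c).J a) ((uc hu hψ c).A a) m
      ((uc hu hψ c).loc a ((uc hu hψ c).ext a m F)) y (ee p)‖ ^ 2‖ ≤
      (∑ p, 4 * ‖LL n (ee p)‖ ^ 2) * η * volume.real (LL n ⁻¹' K) := by
    refine norm_setIntegral_le_of_norm_le_const cK.measure_lt_top fun y hy => ?_
    have he : (uc hu hψ c).loc a ((uc hu hψ c).ext a m F) =ᶠ[𝓝 y] F := by
      filter_upwards [(ho.preimage (LL n).continuous).mem_nhds (hKa hy)] with x hx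
      exact UC.loc_ext hx
    rw [Real.norm_of_nonneg (Finset.sum_nonneg fun _ _ => sq_nonneg _), Finset.sum_mul]
    refine Finset.sum_le_sum fun p _ => ?_
    have h3 := Dbv_eq ((hw.contDiffAt (ho.mem_nhds (hKa hy))).differentiableAt (by simp))
      (hf.differentiable (by simp) (LL n y)) m (ee p)
    have h4 := hb _ hy (LL n (ee p))
    rw [P292E.UProj_congr he]
    refine (congrArg (fun x : ℂ => ‖x‖ ^ 2) h3).trans_le ?_
    rw [kproj_norm, norm_mul, Complex.norm_ofNat, mul_pow]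
    linarith
  have fin : ∀ x Y : ℝ, v * x ≤ B / m * Y →
      ‖Y‖ ≤ (∑ p, 4 * ‖LL n (ee p)‖ ^ 2) * η * volume.real (LL n ⁻¹' K) →
      x ≤ |B| * ((∑ p, 4 * ‖LL n (ee p)‖ ^ 2) * volume.real (LL n ⁻¹' K)) / v * η := by
    intro x Y hx hY
    have h3 : |B / m| ≤ |B| := by
      rw [abs_div, abs_of_nonneg (zero_le_one.trans hm1)]
      exact div_le_self (abs_nonneg _) hm1
    have h4 := ((hx.trans (le_abs_self _)).trans_eq (abs_mul _ _)).trans
      (mul_le_mul h3 hY (abs_nonneg _) (abs_nonneg _))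
    rw [div_mul_eq_mul_div, le_div_iff₀ hv]
    linarith
  refine ⟨_, kproj_hol hu hψ c ht hh, fin _ _ (le_of_eq_of_le ?_ (hest a _ cK h1)) hI,
    fun hd => fin _ _ (le_of_eq_of_le ?_ (hest b _ cK' h2)) hI⟩
  · rw [← hvol]
    refine setIntegral_congr_fun cK.measurableSet fun y hy => ?_
    have h3 : (uc hu hψ c).loc a ((uc hu hψ c).ext a m F) y = F y := UC.loc_ext (hKa hy)
    simp only [h3, kproj_loc hu hψ c ht a (hKa hy)]
    simp only [hFd, ← sub_mul, kproj_norm]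
  · rw [← hvol]
    refine setIntegral_congr_fun cK'.measurableSet fun y hy => ?_
    have h0 : (uc hu hψ c).loc b ((uc hu hψ c).ext a m F) y = 0 := by
      by_contra k'
      obtain ⟨b1, b2⟩ := hsupp _ k'
      refine hd _ hy b1 ?_
      have b3 : LL n ((LL n).symm (A.tr b a (LL n y))) ∈ K := b2
      rwa [(LL n).apply_symm_apply] at b3
    simp only [h0, sub_zero, kproj_loc hu hψ c ht b (hKb hy), kproj_norm]

end Vale.Agent.P272
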