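import Vale.Agent.P272.KGeo

/-! P272, part K: the circle bundle of a positive line bundle. -/

open MeasureTheory Set Filter Topology Metric
open scoped ContDiff ComplexConjugate Pointwise

noncomputable section

namespace Vale.Agent.P272

open Vale.Agent.P271

open Vale.Agent.P292E (V Tst UC)

variable {n : ℕ} {X : Type} [TopologicalSpace X] {A : Atl n X} {u : A.ι → X → ℂ} {ψ : X → ℝ}

theorem uc_W (a b : A.ι) : {y : V (NN n) | y ∈ LL n ⁻¹' (A.e a).target ∧
    (A.e a).symm (LL n y) ∈ (A.e b).source} = LL n ⁻¹' A.ov a b := rfl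

/-- On the overlap the quotient of the phases is the phase of the transition function. -/
theorem uc_ph (hu : A.IsGauge u) {a b : A.ι} {z : Cn n} (hz : z ∈ A.ov a b) :
    ((ph (u a ((A.e a).symm z)) * (ph (u b ((A.e a).symm z)))⁻¹ : Circle) : ℂ) =
      A.loc a (fun p => u a p / u b p) z / ‖A.loc a (fun p => u a p / u b p) z‖ := by
  have ha := hu.ne a _ ((A.e a).map_target hz.1)
  have hb := hu.ne b _ hz.2
  have h1 := norm_mul_ph (u a ((A.e a).symm z))
  have h2 := norm_mul_ph (u b ((A.e a).symm z))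
  have h3 : ((ph (u b ((A.e a).symm z)) : Circle) : ℂ) ≠ 0 := Circle.coe_ne_zero _
  have h4 : ((‖u a ((A.e a).symm z)‖ : ℝ) : ℂ) ≠ 0 := by simpa using ha
  have h5 : ((‖u b ((A.e a).symm z)‖ : ℝ) : ℂ) ≠ 0 := by simpa using hb
  simp only [Atl.loc, Circle.coe_mul, Circle.coe_inv, norm_div, Complex.ofReal_div]
  generalize ((‖u a ((A.e a).symm z)‖ : ℝ) : ℂ) = r at h1 h4 ⊢
  generalize ((‖u b ((A.e a).symm z)‖ : ℝ) : ℂ) = r' at h2 h5 ⊢
  generalize ((ph (u a ((A.e a).symm z)) : Circle) : ℂ) = x at h1 ⊢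
  generalize ((ph (u b ((A.e a).symm z)) : Circle) : ℂ) = x' at h2 h3 ⊢
  rw [← h1, ← h2]
  field_simp

theorem uc_l_sm (hu : A.IsGauge u) (a b : A.ι) : ContDiffOn ℝ ∞ (fun y : V (NN n) =>
    ((ph (u a ((A.e a).symm (LL n y))) * (ph (u b ((A.e a).symm (LL n y))))⁻¹ : Circle) : ℂ))
    (LL n ⁻¹' A.ov a b) := by
  intro y hy
  have h0 : A.loc a (fun p => u a p / u b p) (LL n y) ≠ 0 :=
    div_ne_zero (hu.ne a _ ((A.e a).map_target hy.1)) (hu.ne b _ hy.2)
  have h1 : ContDiffAt ℝ ∞ (A.loc a fun p => u a p / u b p) (LL n y) :=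
    ((hu.hol a b _ hy).contDiffAt (n := ∞)).restrict_scalars ℝ
  have h2 : ContDiffAt ℝ ∞ (fun z => A.loc a (fun p => u a p / u b p) z /
      ‖A.loc a (fun p => u a p / u b p) z‖) (LL n y) := by
    have h3 := h1.mul (Complex.ofRealCLM.contDiff.contDiffAt.comp _
      ((h1.norm ℝ h0).inv (norm_ne_zero_iff.2 h0)))
    simpa [div_eq_mul_inv, Function.comp_def] using h3
  exact ((h2.comp y (LL n).contDiff.contDiffAt).contDiffWithinAt).congr
    (fun y' hy' => uc_ph hu hy') (uc_ph hu hy)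

theorem uc_z_sm (a b : A.ι) : ContDiffOn ℝ ∞
    (fun y : V (NN n) => (LL n).symm (A.tr a b (LL n y))) (LL n ⁻¹' A.ov a b) := by
  intro y hy
  exact ((LL n).symm.contDiff.contDiffAt.comp y
    ((A.api_contDiffAt_tr a b hy).comp y (LL n).contDiff.contDiffAt)).contDiffWithinAt

theorem uc_cl [T2Space X] (a b : A.ι) {K : Set (V (NN n))} (hK : IsCompact K)
    (hKb : K ⊆ LL n ⁻¹' (A.e b).target) :
    IsOpen {y : V (NN n) | y ∈ LL n ⁻¹' (A.e a).target ∧
      ¬((A.e a).symm (LL n y) ∈ (A.e b).source ∧ (LL n).symm (A.tr a b (LL n y)) ∈ K)} := by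
  have h1 : IsCompact ((fun y => (A.e b).symm (LL n y)) '' K) :=
    hK.image_of_continuousOn ((A.e b).continuousOn_symm.comp (LL n).continuous.continuousOn hKb)
  have h2 := ((A.e a).continuousOn_symm.isOpen_inter_preimage (A.e a).open_target
    h1.isClosed.isOpen_compl).preimage (LL n).continuous
  refine (congrArg IsOpen (Set.ext fun y => and_congr_right fun _ => not_congr ⟨?_, ?_⟩)).mp h2
  · rintro ⟨w, hw, e⟩
    have h3 : (A.e b).symm (LL n w) = (A.e a).symm (LL n y) := e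
    refine ⟨h3 ▸ (A.e b).map_target (hKb hw), ?_⟩
    rw [Atl.tr, ← h3, (A.e b).right_inv (hKb hw), (LL n).symm_apply_apply]
    exact hw
  · rintro ⟨h3, h4⟩
    refine ⟨_, h4, ?_⟩
    simp only [(LL n).apply_symm_apply, Atl.tr, (A.e b).left_inv h3]

theorem uc_fderiv {a b : A.ι} {y : V (NN n)} (hy : LL n y ∈ A.ov a b) (v : V (NN n)) :
    LL n (fderiv ℝ (fun y : V (NN n) => (LL n).symm (A.tr a b (LL n y))) y v) =
      fderiv ℂ (A.tr a b) (LL n y) (LL n v) := by
  have h1 := (A.analyticOnNhd_tr a b _ hy).differentiableAt.hasFDerivAt.restrictScalars ℝ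
  have h2 := ((LL n).symm.hasFDerivAt.comp y (h1.comp y (LL n).hasFDerivAt)).fderiv
  have h3 : fderiv ℝ (fun y : V (NN n) => (LL n).symm (A.tr a b (LL n y))) y = _ := h2
  rw [h3]
  simp

/-- `wt a = wt b ∘ tr + log |u a / u b|²` near the point, `fderiv_phase`, `uc_fderiv`. -/
theorem uc_A_tr (hu : A.IsGauge u) (hψ : A.Sm ψ) {a b : A.ι} {y : V (NN n)}
    (hy : LL n y ∈ A.ov a b) (v : V (NN n)) :
    fderiv ℝ (fun y : V (NN n) => ((ph (u a ((A.e a).symm (LL n y))) *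
      (ph (u b ((A.e a).symm (LL n y))))⁻¹ : Circle) : ℂ)) y v =
    Complex.I * ((ph (u a ((A.e a).symm (LL n y))) *
      (ph (u b ((A.e a).symm (LL n y))))⁻¹ : Circle) : ℂ) *
      ((AA (A.wt u ψ b) ((LL n).symm (A.tr a b (LL n y)))
        (fderiv ℝ (fun y : V (NN n) => (LL n).symm (A.tr a b (LL n y))) y v) : ℝ) -
        (AA (A.wt u ψ a) y v : ℝ)) := by
  set g : Cn n → ℂ := A.loc a fun p => u a p / u b p with hg
  have hga : AnalyticAt ℂ g (LL n y) := hu.hol a b _ hy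
  have hne : ∀ z ∈ A.ov a b, g z ≠ 0 := fun z hz =>
    div_ne_zero (hu.ne a _ ((A.e a).map_target hz.1)) (hu.ne b _ hz.2)
  have h0 := hne _ hy
  have hgd : DifferentiableAt ℝ g (LL n y) := hga.differentiableAt.restrictScalars ℝ
  have hov := (A.isOpen_ov a b).mem_nhds hy
  have e1 : (fun y : V (NN n) => ((ph (u a ((A.e a).symm (LL n y))) *
      (ph (u b ((A.e a).symm (LL n y))))⁻¹ : Circle) : ℂ)) =ᶠ[𝓝 y]
      (fun w => g w / ‖g w‖) ∘ LL n := by
    filter_upwards [(LL n).continuous.continuousAt hov] with w hw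
    exact uc_ph hu hw
  have hd : DifferentiableAt ℝ (fun w => g w / ‖g w‖) (LL n y) := by
    have h3 := hgd.mul (Complex.ofRealCLM.differentiableAt.comp _
      ((hgd.norm ℝ h0).inv (norm_ne_zero_iff.2 h0)))
    refine h3.congr_of_eventuallyEq (Eventually.of_forall fun w => ?_)
    simp [div_eq_mul_inv]
  have hl : DifferentiableAt ℝ (fun w => Real.log (‖g w‖ ^ 2)) (LL n y) :=
    ((hgd.norm ℝ h0).pow 2).log (pow_ne_zero 2 (norm_ne_zero_iff.2 h0))
  have hb : DifferentiableAt ℝ (A.wt u ψ b) (A.tr a b (LL n y)) :=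
    ((sm_wt hu hψ b).contDiffAt ((A.e b).open_target.mem_nhds
      (A.mapsTo_tr a b hy).1)).differentiableAt (by simp)
  have ht := (A.analyticOnNhd_tr a b _ hy).differentiableAt.hasFDerivAt.restrictScalars ℝ
  have e2 : A.wt u ψ a =ᶠ[𝓝 (LL n y)]
      fun w => (A.wt u ψ b ∘ A.tr a b) w + Real.log (‖g w‖ ^ 2) := by
    filter_upwards [hov] with w hw
    have k1 := norm_ne_zero_iff.2 (hu.ne a _ ((A.e a).map_target hw.1))
    have k2 := norm_ne_zero_iff.2 (hu.ne b _ hw.2)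
    rw [Function.comp_apply, Atl.wt, Atl.wt, A.loc_tr a b _ hw, hg]
    simp only [Atl.loc, norm_div, div_pow]
    rw [Real.log_div (pow_ne_zero 2 k1) (pow_ne_zero 2 k2)]
    ring
  have ha := ((hb.hasFDerivAt.comp _ ht).add hl.hasFDerivAt).congr_of_eventuallyEq e2
  have e3 : AA (A.wt u ψ a) y v = 1 / 2 * (fderiv ℝ (A.wt u ψ b) (A.tr a b (LL n y))
      (fderiv ℂ (A.tr a b) (LL n y) (Complex.I • LL n v)) +
      fderiv ℝ (fun w => Real.log (‖g w‖ ^ 2)) (LL n y) (Complex.I • LL n v)) := by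
    have h2 : fderiv ℝ (fun y => A.wt u ψ a (LL n y)) y = _ :=
      (ha.comp y (LL n).hasFDerivAt).fderiv
    simp [AA, h2, LL_JJ, mul_add]
  have e4 : AA (A.wt u ψ b) ((LL n).symm (A.tr a b (LL n y)))
      (fderiv ℝ (fun y : V (NN n) => (LL n).symm (A.tr a b (LL n y))) y v) =
      1 / 2 * fderiv ℝ (A.wt u ψ b) (A.tr a b (LL n y))
        (fderiv ℂ (A.tr a b) (LL n y) (Complex.I • LL n v)) := by
    have h1 : HasFDerivAt (A.wt u ψ b) (fderiv ℝ (A.wt u ψ b) (A.tr a b (LL n y)))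
        (LL n ((LL n).symm (A.tr a b (LL n y)))) := by
      rw [(LL n).apply_symm_apply]
      exact hb.hasFDerivAt
    have h2 : fderiv ℝ (fun y => A.wt u ψ b (LL n y)) ((LL n).symm (A.tr a b (LL n y))) = _ :=
      (h1.comp _ (LL n).hasFDerivAt).fderiv
    simp [AA, h2, LL_JJ, uc_fderiv hy]
  rw [e1.fderiv_eq, (hd.hasFDerivAt.comp y (LL n).hasFDerivAt).fderiv, e3, e4, uc_ph hu hy]
  rw [ContinuousLinearMap.comp_apply, ContinuousLinearEquiv.coe_coe, fderiv_phase hga h0]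
  push_cast
  ring

/-- The circle bundle. -/
def uc [T2Space X] (hu : A.IsGauge u) (hψ : A.Pos u ψ) (c : Cut A) : UC (NN n) (X × Circle) where
  ι := A.ι
  B a := LL n ⁻¹' (A.e a).target
  O a := {q | q.1 ∈ (A.e a).source}
  z a q := (LL n).symm (A.e a q.1)
  l a q := ((q.2 * (ph (u a q.1))⁻¹ : Circle) : ℂ)
  σ a y := ((A.e a).symm (LL n y), ph (u a ((A.e a).symm (LL n y))))
  z_mem a q hq := by simpa using (A.e a).map_source hq
  σ_mem a y hy := (A.e a).map_target hy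
  z_σ a y hy := by rw [(A.e a).right_inv hy, (LL n).symm_apply_apply]
  l_σ a y _ := by simp
  l_norm a q _ := Circle.norm_coe _
  mem_iff a b q hq := by
    simp only [mem_ofPred_eq, (LL n).apply_symm_apply, (A.e a).left_inv hq]
  z_eq a b q hq _ := by simp only [(LL n).apply_symm_apply, (A.e a).left_inv hq]
  l_eq a b q hq _ := by
    simp only [(LL n).apply_symm_apply, (A.e a).left_inv hq, ← Circle.coe_mul]
    rw [mul_assoc, inv_mul_cancel_left]
  W_open a b := (A.isOpen_ov a b).preimage (LL n).continuous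
  z_sm a b := uc_z_sm a b
  l_sm a b := uc_l_sm hu a b
  cl a b K hK hKb := uc_cl a b hK hKb
  χ := c.χ
  κ := c.κ
  χ_tst := c.χ_tst
  κ_tst := c.κ_tst
  χ_one := c.χ_one
  cover q := c.cover q.1
  J _ _ := JJ n
  A a := AA (A.wt u ψ a)
  geo a := geo (A.e a).open_target (sm_wt hu hψ.1 a) (hψ.2 a)
  J_tr a b y hy hb v := (LL n).injective (by
    rw [LL_JJ]
    exact (uc_fderiv ⟨hy, hb⟩ _).trans (by
      rw [LL_JJ, map_smul]
      exact congrArg _ (uc_fderiv ⟨hy, hb⟩ v).symm))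
  A_tr a b y hy hb v := uc_A_tr hu hψ.1 ⟨hy, hb⟩ v

end Vale.Agent.P272
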