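import Vale.Agent.P272.MB

/-! P272, part M, step 1: bounds for the twisted Kaehler-Einstein potentials. -/

set_option linter.unusedSectionVars false

open MeasureTheory Set Filter Topology Metric Matrix
open scoped ContDiff ComplexConjugate ComplexOrder

noncomputable section

namespace Vale.Agent.P272

open Vale.Agent.P271

variable {n : ℕ} {X : Type} [TopologicalSpace X] [T2Space X] [CompactSpace X]
  [MeasurableSpace X] [BorelSpace X] {M : Model n X}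
  {w η η₀ η₁ η₂ φ ψ : Frm M.toAtl} {K r s : ℝ} {x p : X} {f g : ℂ → X} {u v : X → ℝ}

theorem m1_sol (hn : 0 < n) (hw : Kae M.toAtl w) (h : Kc M w s) : ∃ u, MSol M w s u := by
  obtain ⟨φ, hφ, h⟩ := h
  obtain ⟨u, hu, h1, h2⟩ := aubin_yau hn ⟨mb_fu hw s hφ, h⟩ hφ
  rw [add_assoc, ← ddc_add] at h1 h2
  exact ⟨φ + u, mb_sm_add hφ hu, h1, fun p => by rw [h2, add_comm, Pi.add_apply]⟩

theorem m1_up (hw : Kae M.toAtl w) (S : ℝ) :
    ∃ C, ∀ s u, s ≤ S → MSol M w s u → ∀ p, u p ≤ C := by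
  obtain ⟨C₀, -, h0⟩ := mb_kae hw
  obtain ⟨C, -, hC⟩ := mb_bdd (sm_dt (hw.1.smul (C₀ + S))).continuous
  refine ⟨C, fun s u hs hu q => ?_⟩
  obtain ⟨p, hp⟩ := mb_max hu.1.continuous q
  have h1 := mb_dt_max (mb_fm hw s) (hw.1.smul (C₀ + S)) hu.1 hp hu.2.1.nn (by
    rw [show (C₀ + S) • w - (th M + s • w) = (C₀ + (S - s)) • w - th M by module]
    exact (h0 _ (by linarith)).2)
  rw [hu.2.2] at h1
  linarith [hp q, (hC p).2, Real.add_one_le_exp (u p)]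

theorem m1_low (hn : 0 < n) (hw : Kae M.toAtl w) (hK : Brody M.toAtl w K) :
    ∃ C, ∀ s u, 0 ≤ s → MSol M w s u → ∀ p, -C ≤ u p := by
  obtain ⟨C₁, h1⟩ := T_bdd hw hK hw.1 one_half_pos one_half_lt_one
  obtain ⟨C₂, h2⟩ := T_bdd hw hK (isF_th M) one_half_pos one_half_lt_one
  obtain ⟨C₃, -, h3⟩ := mb_bdd (sm_log_dt hw).continuous
  refine ⟨C₁ + C₂ + C₃ + n * Real.log 4, fun s u hs hu x => ?_⟩
  have hη : Kae M.toAtl (th M + s • w + ddc M.toAtl u) := ⟨mb_fu hw s hu.1, hu.2.1⟩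
  obtain ⟨f, hf, hm⟩ := exists_min hw hK hη isF_zero hw.1 one_half_pos one_half_lt_one x
  have h4 := hm.2 _ (admC_const w x).1
  have h5 := det_ineq hn hw hη isF_zero nnF_zero hw one_half_pos one_half_lt_one hf hm
  rw [mb_Phi_const, Phi, T_zero, T_add hw hf.1 (mb_fm hw s) (isF_ddc hu.1) one_pos le_rfl,
    mb_T_fm hw hf.1 s one_pos le_rfl, T_ddc_one hw hf hu.1] at h4
  simp only [hu.2.2, Real.log_exp] at h5
  have h6 := (mb_av_bd hf.1.half one_half_pos.le (sm_log_dt hw).continuous h3).1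
  have h7 := mul_nonneg hs (T_nonneg hw.1 hw.2.nn f 1)
  have h8 := (abs_le.1 (h1 x f hf.1)).2
  have h9 := (abs_le.1 (h2 x f hf.1)).1
  change av _ f (1 / 2) - av u f 1 - _ ≤ _ at h5
  linarith

theorem m1_bd (hn : 0 < n) (hw : Kae M.toAtl w) (hK : Brody M.toAtl w K) (S : ℝ) :
    ∃ C, 0 ≤ C ∧ ∀ s u, 0 ≤ s → s ≤ S → MSol M w s u → ∀ p, -C ≤ u p ∧ u p ≤ C := by
  obtain ⟨C₁, h1⟩ := m1_up hw S
  obtain ⟨C₂, h2⟩ := m1_low hn hw hK
  refine ⟨|C₁| + |C₂|, by positivity, fun s u h0 hs hu p => ⟨?_, ?_⟩⟩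
  · linarith [h2 s u h0 hu p, abs_nonneg C₁, le_abs_self C₂]
  · linarith [h1 s u hs hu p, abs_nonneg C₂, le_abs_self C₁]

theorem m1_vol [Nonempty X] (hn : 0 < n) (hw : Kae M.toAtl w) (hK : Brody M.toAtl w K) (S : ℝ) :
    ∃ V₀ V₁ : ℝ, 0 < V₀ ∧ ∀ s φ, 0 ≤ s → s ≤ S → M.Sm φ →
      PosF M.toAtl (th M + s • w + ddc M.toAtl φ) →
      V₀ ≤ ∫ p, dt M (th M + s • w + ddc M.toAtl φ) p ∂M.μ ∧
        ∫ p, dt M (th M + s • w + ddc M.toAtl φ + w) p ∂M.μ ≤ V₁ := by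
  obtain ⟨C, h⟩ := m1_low hn hw hK
  have := isOpenPos M
  have h0 : 0 < M.μ.real univ :=
    ENNReal.toReal_pos (isOpen_univ.measure_pos _ univ_nonempty).ne' (measure_ne_top _ _)
  refine ⟨M.μ.real univ * Real.exp (-C), ∫ p, dt M (th M + (S + 1) • w) p ∂M.μ, by positivity,
    fun s φ hs hS hφ hp => ⟨?_, ?_⟩⟩
  · obtain ⟨u, hu⟩ := m1_sol hn hw ⟨φ, hφ, hp⟩
    rw [stokes (mb_fm hw s) hφ, ← stokes (mb_fm hw s) hu.1, ← smul_eq_mul, ← integral_const]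
    refine integral_mono (integrable_const _) (mb_int (sm_dt (mb_fu hw s hu.1)).continuous)
      fun p => ?_
    simp only [hu.2.2]
    exact Real.exp_le_exp.2 (h s u hs hu p)
  · have h1 := Kae.add_nn ⟨mb_fu hw s hφ, hp⟩ hw.1 hw.2.nn
    rw [← stokes (mb_fm hw _) hφ]
    refine integral_mono (mb_int (sm_dt h1.1).continuous)
      (mb_int (sm_dt (mb_fu hw _ hφ)).continuous) (mb_dt_mono h1.1 (mb_fu hw _ hφ) h1.2.nn ?_)
    rw [show th M + (S + 1) • w + ddc M.toAtl φ - (th M + s • w + ddc M.toAtl φ + w) =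
      (S - s) • w by module]
    exact mb_nn_smul hw (sub_nonneg.2 hS)

end Vale.Agent.P272
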