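import Vale.Agent.P272.MB

/-! P272, part M, step 2: the measure swept out by families of discs. -/

set_option linter.unusedSectionVars false

open MeasureTheory Set Filter Topology Metric Matrix
open scoped ContDiff ComplexConjugate ComplexOrder

noncomputable section

namespace Vale.Agent.P272

open Vale.Agent.P271

variable {n : ℕ} {X : Type} [TopologicalSpace X] [T2Space X] [CompactSpace X]
  [MeasurableSpace X] [BorelSpace X] {M : Model n X}
  {w η η₀ η₁ η₂ φ ψ : Frm M.toAtl} {K r s : ℝ} {x p : X} {f g : ℂ → X} {u v : X → ℝ}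

/-- The weighted characteristic. -/
def Wt (M : Model n X) (w : Frm M.toAtl) (l : X → ℝ) (g : ℂ → X) : ℝ :=
  2 / Real.pi * ∫ ζ in ball (0 : ℂ) 1, Real.log (1 / ‖ζ‖) * den M.toAtl w g ζ * l (g ζ)

theorem m2_den (hw : Kae M.toAtl w) (f : ℂ → X) {ζ : ℂ} (hζ : ζ ∈ ball (0 : ℂ) 1) :
    0 ≤ Real.log (1 / ‖ζ‖) * den M.toAtl w f ζ := by
  have hz := (M.e _).map_source (ch_mem M.toAtl (f ζ))
  refine mul_nonneg ?_ ((posSemidef_LM_iff (hw.1.smAt hz)).1 (hw.2.nn _ _ hz) _)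
  rw [one_div, Real.log_inv, neg_nonneg]
  exact Real.log_nonpos (norm_nonneg _) (mem_ball_zero_iff.1 hζ).le

theorem m2_meas (hw : Kae M.toAtl w) {O S : Set X} {F : X → ℂ → X} (hF : Fam M w O F)
    (hS : MeasurableSet S) (hs : S ⊆ O) {σ : X → ℝ} (hσ : Continuous σ) (h0 : ∀ p, 0 ≤ σ p) :
    ∃ ν : Measure X, IsFiniteMeasure ν ∧ ν ≪ M.μ ∧ ∀ l, Continuous l →
      IntegrableOn (fun y => σ y * Wt M w l (F y)) S M.μ ∧
        ∫ p, l p ∂ν = ∫ y in S, σ y * Wt M w l (F y) ∂M.μ := by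
  obtain ⟨P, hP⟩ : ∃ P, P = (M.μ.restrict S).prod (volume.restrict (ball (0 : ℂ) 1)) := ⟨_, rfl⟩
  have hP' := hP.trans (Measure.prod_restrict _ _)
  have hm := hS.prod (measurableSet_ball (x := (0 : ℂ)) (ε := 1))
  have hsub : S ×ˢ ball (0 : ℂ) 1 ⊆ O ×ˢ ball 0 1 := prod_mono_left hs
  have hΦ : AEMeasurable (fun q : X × ℂ => F q.1 q.2) P :=
    hP' ▸ (hF.cont.mono hsub).aemeasurable hm
  obtain ⟨h, hh⟩ : ∃ h : X × ℂ → ℝ, h = fun q =>
    σ q.1 * (2 / Real.pi * (Real.log (1 / ‖q.2‖) * den M.toAtl w (F q.1) q.2)) := ⟨_, rfl⟩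
  have h1 : AEMeasurable h P := by
    have h2 : AEMeasurable (fun q : X × ℂ => den M.toAtl w (F q.1) q.2) P :=
      hP' ▸ (hF.cont_den.mono hsub).aemeasurable hm
    have h3 : Measurable fun q : X × ℂ => Real.log (1 / ‖q.2‖) := by fun_prop
    exact hh ▸ (hσ.measurable.comp measurable_fst).aemeasurable.mul
      ((h3.aemeasurable.mul h2).const_mul _)
  have h2 : ∀ y, ∀ ζ ∈ ball (0 : ℂ) 1, 0 ≤ h (y, ζ) := fun y ζ hζ => by
    have := m2_den hw (F y) hζ
    have := h0 y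
    rw [hh]
    positivity
  have h3 : ∀ᵐ q ∂P, 0 ≤ h q :=
    hP' ▸ (ae_restrict_iff' hm).2 (Eventually.of_forall fun q hq => h2 q.1 q.2 hq.2)
  have h4 : Integrable h P := by
    have h5 := h1.aestronglyMeasurable
    rw [hP] at h5 ⊢
    obtain ⟨C, hC⟩ := hF.bdd
    obtain ⟨B, B0, hB⟩ := mb_bdd hσ
    refine (integrable_prod_iff h5).2 ⟨(ae_restrict_iff' hS).2 (Eventually.of_forall fun y hy =>
      hh ▸ (((hF.adm y (hs hy)).2.2.const_mul (2 / Real.pi)).const_mul (σ y))), ?_⟩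
    refine Integrable.of_bound h5.norm.integral_prod_right' (B * max C 0)
      ((ae_restrict_iff' hS).2 (Eventually.of_forall fun y hy => ?_))
    have h6 : ∫ ζ in ball (0 : ℂ) 1, ‖h (y, ζ)‖ = σ y * T M.toAtl w (F y) 1 := by
      rw [setIntegral_congr_fun measurableSet_ball fun ζ hζ => Real.norm_of_nonneg (h2 y ζ hζ), hh]
      simp only [integral_const_mul, T]
    rw [h6, Real.norm_of_nonneg (mul_nonneg (h0 y) (T_nonneg hw.1 hw.2.nn _ _))]
    exact mul_le_mul (hB y).2 ((hC y (hs hy)).trans (le_max_left _ _))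
      (T_nonneg hw.1 hw.2.nn _ _) B0
  have h5 := isFiniteMeasure_withDensity_ofReal h4.2
  have h6 := withDensity_absolutelyContinuous P fun q => ENNReal.ofReal (h q)
  refine ⟨(P.withDensity fun q => ENNReal.ofReal (h q)).map fun q : X × ℂ => F q.1 q.2,
    inferInstance, Measure.AbsolutelyContinuous.mk fun N hN hN0 => ?_, fun l hl => ?_⟩
  · rw [Measure.map_apply_of_aemeasurable (hΦ.mono_ac h6) hN]
    refine h6 ?_
    have h7 := hΦ.nullMeasurable hN
    rw [← lintegral_indicator_one₀ h7]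
    have h8 : AEMeasurable (((fun q : X × ℂ => F q.1 q.2) ⁻¹' N).indicator
      (1 : X × ℂ → ENNReal)) P := aemeasurable_const.indicator₀ h7
    rw [hP] at h8 ⊢
    rw [lintegral_prod_symm _ h8]
    refine (lintegral_congr_ae ((ae_restrict_iff' measurableSet_ball).2
      (Eventually.of_forall fun ζ hζ => ?_))).trans lintegral_zero
    refine (lintegral_congr_ae ((ae_restrict_iff' hS).2 ?_)).trans lintegral_zero
    filter_upwards [measure_eq_zero_iff_ae_notMem.1 (hF.null ζ hζ N hN0)] with y hy hy'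
    exact indicator_of_notMem (a := (y, ζ)) (fun h' => hy ⟨hs hy', h'⟩) _
  · obtain ⟨B, -, hB⟩ := mb_bdd hl
    have h7 : Integrable (fun q => h q * l (F q.1 q.2)) P :=
      h4.mul_bdd (hl.measurable.comp_aemeasurable hΦ).aestronglyMeasurable
        (Eventually.of_forall fun q => abs_le.2 (hB _))
    have h8 : ∀ y, ∫ ζ in ball (0 : ℂ) 1, h (y, ζ) * l (F y ζ) = σ y * Wt M w l (F y) := by
      intro y
      simp only [hh, Wt, mul_assoc, integral_const_mul]
    rw [integral_map (hΦ.mono_ac h6) hl.aestronglyMeasurable,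
      integral_withDensity_eq_integral_toReal_smul₀ h1.ennreal_ofReal
        (Eventually.of_forall fun _ => ENNReal.ofReal_lt_top),
      integral_congr_ae (g := fun q => h q * l (F q.1 q.2)) (by
        filter_upwards [h3] with q hq
        rw [ENNReal.toReal_ofReal hq, smul_eq_mul])]
    rw [hP] at h7 ⊢
    rw [integral_prod _ h7]
    simp only [← h8]
    exact ⟨h7.integral_prod_left, trivial⟩

/-- The property of the swept measure that is used. -/
def m2Q (M : Model n X) (w : Frm M.toAtl) (R : X → (ℂ → X) → Prop) (σ : X → ℝ) (S : Set X) : Prop :=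
  ∃ ν : Measure X, IsFiniteMeasure ν ∧ ν ≪ M.μ ∧ ∀ l b, Continuous l → Continuous b →
    (∀ y g, R y g → Wt M w l g ≤ b y) → ∫ p, l p ∂ν ≤ ∫ y in S, σ y * b y ∂M.μ

theorem m2_glob (hw : Kae M.toAtl w) {R : X → (ℂ → X) → Prop} {σ : X → ℝ} (hσ : Continuous σ)
    (h0 : ∀ p, 0 ≤ σ p) (h : ∀ x, ∃ O F, x ∈ O ∧ Fam M w O F ∧ ∀ᶠ y in 𝓝 x, R y (F y)) :
    m2Q M w R σ univ := by
  suffices H : ∃ U, MeasurableSet U ∧ univ ⊆ U ∧ ∀ S ⊆ U, MeasurableSet S → m2Q M w R σ S by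
    obtain ⟨U, -, h1, h2⟩ := H
    exact h2 _ h1 MeasurableSet.univ
  refine isCompact_univ.induction_on (p := fun s => ∃ U, MeasurableSet U ∧ s ⊆ U ∧
    ∀ S ⊆ U, MeasurableSet S → m2Q M w R σ S) ⟨∅, MeasurableSet.empty, subset_rfl, ?_⟩ ?_ ?_ ?_
  · intro S hS _
    rw [subset_empty_iff.1 hS]
    exact ⟨0, inferInstance, Measure.AbsolutelyContinuous.zero _, fun l b _ _ _ => by simp⟩
  · rintro s t hst ⟨U, h1, h2, h3⟩
    exact ⟨U, h1, hst.trans h2, h3⟩
  · rintro s t ⟨U, h1, h2, h3⟩ ⟨V, h4, h5, h6⟩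
    refine ⟨U ∪ V, h1.union h4, union_subset_union h2 h5, fun S hS hm => ?_⟩
    obtain ⟨ν, _, a1, a2⟩ := h3 (S ∩ U) inter_subset_right (hm.inter h1)
    obtain ⟨ν', _, b1, b2⟩ := h6 (S \ U) (fun y hy => (hS hy.1).resolve_left hy.2) (hm.diff h1)
    refine ⟨ν + ν', inferInstance, a1.add_left b1, fun l b hl hb hR => ?_⟩
    have hi : ∀ (ν : Measure X) [IsFiniteMeasure ν], Integrable l ν := fun ν _ =>
      hl.integrable_of_hasCompactSupport (HasCompactSupport.of_compactSpace l)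
    rw [integral_add_measure (hi ν) (hi ν'),
      ← integral_inter_add_sdiff (f := fun y => σ y * b y) h1 (mb_int (hσ.mul hb)).integrableOn]
    exact add_le_add (a2 l b hl hb hR) (b2 l b hl hb hR)
  · intro x _
    obtain ⟨O, F, h1, h2, h3⟩ := h x
    obtain ⟨V, h4, h5, h6⟩ := eventually_nhds_iff.1 h3
    have h7 := h2.isOpen.inter h5
    refine ⟨O ∩ V, nhdsWithin_le_nhds (h7.mem_nhds ⟨h1, h6⟩), O ∩ V, h7.measurableSet, subset_rfl,
      fun S hS hm => ?_⟩
    obtain ⟨ν, a1, a2, a3⟩ := m2_meas hw h2 hm (hS.trans inter_subset_left) hσ h0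
    refine ⟨ν, a1, a2, fun l b hl hb hR => ?_⟩
    rw [(a3 l hl).2]
    exact setIntegral_mono_on (a3 l hl).1 (mb_int (hσ.mul hb)).integrableOn hm fun y hy =>
      mul_le_mul_of_nonneg_left (hR y _ (h4 y (hS hy).2)) (h0 y)

end Vale.Agent.P272
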