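import Vale.Agent.P272.M1
import Vale.Agent.P272.M2a

/-! P272, part M, step 2: exponential integrability of the value function. -/

set_option linter.unusedSectionVars false

open MeasureTheory Set Filter Topology Metric Matrix
open scoped ContDiff ComplexConjugate ComplexOrder

noncomputable section

namespace Vale.Agent.P272

open Vale.Agent.P271

variable {n : ℕ} {X : Type} [TopologicalSpace X] [T2Space X] [CompactSpace X]
  [MeasurableSpace X] [BorelSpace X] {M : Model n X}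
  {w η η₀ η₁ η₂ φ ψ : Frm M.toAtl} {K r s : ℝ} {x p : X} {f g : ℂ → X} {u v : X → ℝ}

theorem m2_young {a s x : ℝ} (ha : 0 < a) (hs : s ≤ 0) :
    Real.exp (-(a / 2 * s)) * (s + 2 + x) ≤
      3 * Real.exp (3 * a) + a⁻¹ * Real.exp (a * x) - Real.exp (-(a / 2 * s)) := by
  have h0 := Real.exp_pos (-(a / 2 * s))
  have h1 : Real.exp (-(a / 2 * s)) * (x + s / 2) ≤ a⁻¹ * Real.exp (a * x) := by
    rw [le_inv_mul_iff₀ ha, show a * x = -(a / 2 * s) + (a * x + a / 2 * s) by ring, Real.exp_add]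
    nlinarith [mul_le_mul_of_nonneg_left (Real.add_one_le_exp (a * x + a / 2 * s)) h0.le]
  have h2 : Real.exp (-(a / 2 * s)) * (3 + s / 2) ≤ 3 * Real.exp (3 * a) := by
    have h3 := Real.exp_pos (3 * a)
    rcases le_total s (-6) with h | h
    · nlinarith
    · have h4 : Real.exp (-(a / 2 * s)) ≤ Real.exp (3 * a) := Real.exp_le_exp.2 (by nlinarith)
      nlinarith
  linarith

theorem m2_nonpos (hw : Kae M.toAtl w) (hK : Brody M.toAtl w K) (h₀ : Kae M.toAtl η₀)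
    (h₁ : IsF M.toAtl η₁) (h0 : 0 < r) (h1 : r < 1) (x : X) : val M.toAtl w η₀ η₁ 0 r x ≤ 0 :=
  (mb_val_le hw hK h₀ h₁ isF_zero h0 h1 (admC_const w x).1).trans_eq (mb_Phi_const _ _ _ _ _)

theorem m2_disc (hw : Kae M.toAtl w) {τ t ε : ℝ} (ht : 0 ≤ t + ε) (hu : M.Sm u)
    (hη : PosF M.toAtl (th M + (τ + ε) • w + ddc M.toAtl u)) (hp : ∀ q, u q ≤ u p) (h0 : 0 < r)
    (h1 : r < 1) (hg : Adm M.toAtl w x g) :
    Wt M w (fun q => dt M (th M + (τ + ε) • w + ddc M.toAtl u) q /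
        dt M (th M + (τ + ε) • w + ddc M.toAtl u + w) q - 2 * ε) g ≤
      Phi M.toAtl (th M + (τ + t) • w) ((t + ε) • w) 0 r g + (u p - u x) := by
  have hη' : Kae M.toAtl (th M + (τ + ε) • w + ddc M.toAtl u) := ⟨mb_fu hw _ hu, hη⟩
  have h2 := hη'.add_nn hw.1 hw.2.nn
  refine (T_ge_weight hw hg (mb_fu hw (τ - ε) hu) (((sm_dt hη'.1).continuous.div
    (sm_dt h2.1).continuous fun q => (dt_pos h2 q).ne').sub continuous_const) fun q => ?_).trans ?_
  · have h3 := mb_ratio hw hη' q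
    rw [show th M + (τ - ε) • w + ddc M.toAtl u =
      th M + (τ + ε) • w + ddc M.toAtl u - (2 * ε) • w by module, GM_sub hη'.1 (hw.1.smul _),
      GM_smul hw.1, Pi.sub_apply, Complex.ofReal_sub, sub_smul, sub_sub, add_sub_cancel]
    exact h3
  · rw [T_add hw hg (mb_fm hw _) (isF_ddc hu) one_pos le_rfl, Phi, T_zero, T_smul hw.1,
      mb_T_fm hw hg _ one_pos le_rfl, mb_T_fm hw hg _ one_pos le_rfl]
    have h3 := T_ddc_le hw hg hu hp
    have h4 := mul_le_mul_of_nonneg_left (T_mono hw hg hw.1 hw.2.nn h0 h1.le le_rfl) ht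
    linarith

theorem m2_exp [ConnectedSpace X] (hn : 0 < n) (hw : Kae M.toAtl w) (hK : Brody M.toAtl w K)
    {τ t : ℝ} (hτ : 0 ≤ τ) (ht : 0 ≤ t) (hc : ∀ s, τ < s → Kc M w s)
    (h₀ : Kae M.toAtl (th M + (τ + t) • w)) :
    ∃ ε a C : ℝ, 0 < ε ∧ 0 < a ∧ ∀ r, 0 < r → r < 1 → ∫ p, Real.exp (-(a *
      val M.toAtl w (th M + (τ + t) • w) ((t + ε) • w) 0 r p)) ∂M.μ ≤ C := by
  obtain ⟨V₀, V₁, hV, h1⟩ := m1_vol hn hw hK (τ + 1)
  obtain ⟨c, c0, h2⟩ := pop hn hw (V₁ := V₁) hV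
  obtain ⟨ε, ε0, ε1, ε2⟩ : ∃ ε : ℝ, 0 < ε ∧ ε ≤ 1 ∧ 2 * ε ≤ c :=
    ⟨min 1 (c / 2), by positivity, min_le_left _ _, by linarith [min_le_right 1 (c / 2)]⟩
  obtain ⟨φ, hφ, h3⟩ := hc (τ + ε) (by linarith)
  obtain ⟨h4, h5⟩ := h1 _ φ (by linarith) (by linarith) hφ h3
  obtain ⟨a, C, a0, h6⟩ := expint hn (mb_fm hw (τ + ε))
  refine ⟨ε, a / 2, 3 * Real.exp (3 * a) * M.μ.real univ + a⁻¹ * C, ε0, by positivity,
    fun r r0 r1 => ?_⟩
  have h7 := continuous_val hw hK h₀ (hw.1.smul (t + ε)) isF_zero r0 r1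
  have h8 := m2_nonpos hw hK h₀ (hw.1.smul (t + ε)) r0 r1
  set ψ := val M.toAtl w (th M + (τ + t) • w) ((t + ε) • w) 0 r with hψ
  have hσ : Continuous fun p => Real.exp (-(a / 2 * ψ p)) := by fun_prop
  obtain ⟨ν, _, h9, h10⟩ := m2_glob hw (R := fun y g => Adm M.toAtl w y g ∧
      Phi M.toAtl (th M + (τ + t) • w) ((t + ε) • w) 0 r g ≤ ψ y + 2) hσ
      (fun p => (Real.exp_pos _).le) fun x => by
    obtain ⟨f, hf, hm⟩ := exists_min hw hK h₀ (hw.1.smul (t + ε)) isF_zero r0 r1 x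
    obtain ⟨O, F, k1, k2, k3⟩ := exists_fam hw h₀ (hw.1.smul (t + ε)) isF_zero r0 r1 hf one_pos
    refine ⟨O, F, k1, k2, ?_⟩
    filter_upwards [k2.isOpen.mem_nhds k1,
      (h7.tendsto x).eventually_const_le (sub_lt_self _ one_pos)] with y k4 k5
    have k6 := k3 y k4
    rw [← val_eq hm] at k6
    exact ⟨k2.adm y k4, by linarith⟩
  obtain ⟨u, hu, k1, k2⟩ := h2 _ ⟨mb_fu hw _ hφ, h3⟩ h4 h5 ν inferInstance h9
  rw [add_assoc, ← ddc_add] at k1 k2
  have hU := mb_sm_add hφ hu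
  generalize φ + u = U at k1 k2 hU
  obtain ⟨p, hp⟩ := mb_max hU.continuous (Classical.arbitrary X)
  have hη : Kae M.toAtl (th M + (τ + ε) • w + ddc M.toAtl U) := ⟨mb_fu hw _ hU, k1⟩
  have k3 := hη.add_nn hw.1 hw.2.nn
  have k4 := (sm_dt hη.1).continuous.div (sm_dt k3.1).continuous fun q => (dt_pos k3 q).ne'
  have hc := hU.continuous
  have k5 := h10 _ (fun y => ψ y + 2 + (U p - U y)) (k4.sub (continuous_const (y := 2 * ε)))
    (by fun_prop) fun y g hg =>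
      (m2_disc hw (by linarith) hU k1 hp r0 r1 hg.1).trans (add_le_add_left hg.2 _)
  have k6 := integral_sub (k4.integrable_of_hasCompactSupport (μ := ν)
    (HasCompactSupport.of_compactSpace _)) (integrable_const (2 * ε))
  have k7 := mul_le_mul_of_nonneg_right ε2 (measureReal_nonneg (μ := ν) (s := univ))
  have i1 := mb_int (M := M) hσ
  have i2 := mb_int (M := M) (u := fun y => a⁻¹ * Real.exp (a * (U p - U y))) (by fun_prop)
  have k8 := integral_mono (mb_int (M := M) (u := fun y => Real.exp (-(a / 2 * ψ y)) *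
    (ψ y + 2 + (U p - U y))) (by fun_prop)) (((integrable_const _).add i2).sub i1)
    fun y => m2_young a0 (h8 y)
  have k9 := mul_le_mul_of_nonneg_left (h6 U hU k1.nn p hp) (inv_pos.2 a0).le
  simp only [Pi.sub_apply, Pi.add_apply, Pi.div_apply] at k5 k6 k8
  rw [integral_sub (f := fun y => 3 * Real.exp (3 * a) + a⁻¹ * Real.exp (a * (U p - U y)))
    ((integrable_const _).add i2) i1, integral_add (integrable_const _) i2,
    integral_const, integral_const_mul, smul_eq_mul] at k8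
  rw [integral_const, smul_eq_mul] at k6
  rw [Measure.restrict_univ, k6] at k5
  linarith

end Vale.Agent.P272
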