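import Vale.Agent.P272.M2

/-! P272, part M, steps 3 and 4: a lower bound for the characteristic of all discs. -/

set_option linter.unusedSectionVars false

open MeasureTheory Set Filter Topology Metric Matrix
open scoped ContDiff ComplexConjugate ComplexOrder

noncomputable section

namespace Vale.Agent.P272

open Vale.Agent.P271

variable {n : ℕ} {X : Type} [TopologicalSpace X] [T2Space X] [CompactSpace X]
  [MeasurableSpace X] [BorelSpace X] {M : Model n X}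
  {w η η₀ η₁ η₂ φ ψ : Frm M.toAtl} {K r s : ℝ} {x p : X} {f g : ℂ → X} {u v : X → ℝ}

theorem m3 (hn : 0 < n) (hw : Kae M.toAtl w) (B : ℝ) : ∃ C, ∀ h : X → ℝ, Continuous h →
    (∀ p, 0 ≤ h p) → ∫ p, Real.exp (2 * h p) ∂M.μ ≤ B → ∃ v, M.Sm v ∧
      PosF M.toAtl (w + ddc M.toAtl v) ∧ (∀ p, -C ≤ v p ∧ v p ≤ 0) ∧
        ∀ p, h p - C ≤ Real.log (dt M (w + ddc M.toAtl v) p) := by
  obtain ⟨D, -, hD⟩ := mb_bdd (sm_dt hw.1).continuous
  obtain ⟨L, L0, hL⟩ := mb_bdd (sm_log_dt hw).continuous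
  obtain ⟨C, hC⟩ := abp hn hw (D ^ 2 * (2 * B + 2 * M.μ.real univ))
  refine ⟨C + L, fun h hh h0 hB => ?_⟩
  obtain ⟨g, hg, h1⟩ := exists_sm_approx M (g := fun p => Real.exp (h p) + 1 / 2) (by fun_prop)
    one_half_pos
  have h2 : ∀ p, Real.exp (h p) ≤ g p ∧ g p ≤ Real.exp (h p) + 1 := fun p => by
    obtain ⟨h3, h4⟩ := abs_le.1 (h1 p)
    constructor <;> linarith
  have h3 : ∀ p, 1 ≤ g p := fun p => (Real.one_le_exp (h0 p)).trans (h2 p).1
  have h4 : ∀ p, 0 < g p := fun p => one_pos.trans_le (h3 p)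
  obtain ⟨v, hv, h5, h6⟩ := aubin_yau hn hw (mb_sm_add (mb_sm_log hg h4) (sm_log_dt hw))
  have h7 : ∀ p, dt M (w + ddc M.toAtl v) p = Real.exp (v p) * (g p * dt M w p) := fun p => by
    rw [h6, Pi.add_apply, Real.exp_add, Real.exp_add, Real.exp_log (h4 p),
      Real.exp_log (dt_pos hw p)]
  have hc := (sm_dt hw.1).continuous
  have hc' := hg.continuous
  have h8 := hC v (fun p => g p * dt M w p) hv (by fun_prop) h5 (fun p => (h7 p).le) (by
    have i1 := mb_int (M := M) (u := fun p => 2 * Real.exp (2 * h p)) (by fun_prop)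
    refine (integral_mono (g := fun p => D ^ 2 * (2 * Real.exp (2 * h p) + 2))
      (mb_int (by fun_prop)) (mb_int (by fun_prop)) fun p => ?_).trans ?_
    · have e : Real.exp (2 * h p) = Real.exp (h p) ^ 2 := by rw [← Real.exp_nat_mul]; norm_num
      simp only [mul_pow, e]
      rw [mul_comm]
      refine mul_le_mul (pow_le_pow_left₀ (dt_pos hw p).le (hD p).2 2)
        ((pow_le_pow_left₀ (h4 p).le (h2 p).2 2).trans ?_) (by positivity) (by positivity)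
      nlinarith [sq_nonneg (Real.exp (h p) - 1)]
    · rw [integral_const_mul, integral_add i1 (integrable_const _), integral_const_mul,
        integral_const, smul_eq_mul]
      exact mul_le_mul_of_nonneg_left (by linarith) (by positivity))
  refine ⟨v, hv, h5, fun q => ⟨by linarith [h8 q], ?_⟩, fun p => ?_⟩
  · obtain ⟨p, hp⟩ := mb_max hv.continuous q
    have h9 := mb_dt_max hw.1 hw.1 hv hp h5.nn (by rw [sub_self]; exact nnF_zero)
    rw [h7, ← mul_assoc] at h9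
    have h10 := (mul_le_iff_le_one_left (dt_pos hw p)).1 h9
    have h11 := (le_mul_of_one_le_right (Real.exp_pos (v p)).le (h3 p)).trans h10
    exact (hp q).trans (Real.exp_le_one_iff.1 h11)
  · rw [h6, Real.log_exp, Pi.add_apply]
    have h9 := (Real.le_log_iff_exp_le (h4 p)).2 (h2 p).1
    linarith [h8 p, (hL p).1]

theorem m4_alg {a₁ a₂ w₁ w₂ wr τ t δ ε ε₀ Y C Z : ℝ} (hτ : 0 ≤ τ) (ht : 0 ≤ t) (hδ : 0 < δ)
    (hε : ε * (1 + δ) = δ * ε₀) (ε0 : 0 ≤ ε) (C0 : 0 ≤ C) (h1 : wr ≤ w₁) (h2 : w₂ ≤ wr)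
    (h3 : 0 ≤ w₂) (h4 : w₂ ≤ C) (h5 : -C ≤ a₂) (h6 : Z ≤ C) (h7 : -δ * Y - C ≤ a₁ - a₂)
    (h8 : Y ≤ a₁ + (τ + t) * w₁ - (a₂ + (τ + t) * w₂) - ((t + ε₀) * wr - (t + ε₀) * w₂)) :
    -((4 + ε) * C) ≤ a₁ + (τ + t) * w₁ - (t + ε) * wr - (w₂ + Z) := by
  refine le_of_mul_le_mul_left ?_ (by linarith : 0 < 1 + δ)
  have k1 := mul_le_mul_of_nonneg_left h8 hδ.le
  have k2 := mul_nonneg hτ (sub_nonneg.2 (h2.trans h1))
  have k3 := mul_nonneg ht (sub_nonneg.2 h1)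
  have k4 : ε * (1 + δ) * wr = δ * ε₀ * wr := by rw [hε]
  have k5 : ε * (1 + δ) * w₂ = δ * ε₀ * w₂ := by rw [hε]
  have k6 := mul_le_mul_of_nonneg_left h4 (by positivity : 0 ≤ ε * (1 + δ))
  have k7 := mul_nonneg (mul_nonneg hτ h3) (by linarith : 0 ≤ 1 + δ)
  have k8 := mul_le_mul_of_nonneg_left h4 hδ.le
  have k9 := mul_le_mul_of_nonneg_left h5 hδ.le
  have k10 := mul_le_mul_of_nonneg_left h6 hδ.le
  have k11 := mul_nonneg hδ.le C0
  linarith

theorem m4 [ConnectedSpace X] (hn : 0 < n) (hw : Kae M.toAtl w) (hK : Brody M.toAtl w K)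
    {τ : ℝ} (hτ : 0 ≤ τ) (hc : ∀ s, τ < s → Kc M w s) : ∃ ε C : ℝ, 0 < ε ∧
      ∀ x g, Adm M.toAtl w x g → -C ≤ T M.toAtl (th M + (τ - ε) • w) g 1 := by
  obtain ⟨t, t0, ht⟩ := mb_kae hw
  have h₀ := (ht (τ + t) (by linarith)).1
  obtain ⟨ε₀, a, B, ε₀0, a0, h1⟩ := m2_exp hn hw hK hτ t0.le hc h₀
  obtain ⟨C₁, h2⟩ := m3 hn hw B
  obtain ⟨C₂, h3⟩ := T_bdd hw hK hw.1 one_half_pos one_half_lt_one
  obtain ⟨C₃, h4⟩ := T_bdd hw hK (isF_th M) one_half_pos one_half_lt_one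
  obtain ⟨C₄, -, h5⟩ := mb_bdd (sm_log_dt h₀).continuous
  obtain ⟨C, C0, c1, c2, c3, c4⟩ : ∃ C, 0 ≤ C ∧ C₁ ≤ C ∧ C₂ ≤ C ∧ C₃ ≤ C ∧
      C₁ + C₄ + n * Real.log 4 ≤ C :=
    ((eventually_ge_atTop _).and ((eventually_ge_atTop _).and ((eventually_ge_atTop _).and
      ((eventually_ge_atTop _).and (eventually_ge_atTop _))))).exists
  obtain ⟨ε, ε0, hε⟩ : ∃ ε : ℝ, 0 < ε ∧ ε * (1 + a / 2) = a / 2 * ε₀ :=
    ⟨a / 2 * ε₀ / (1 + a / 2), by positivity, div_mul_cancel₀ _ (by positivity)⟩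
  refine ⟨ε, (4 + ε) * C, ε0, fun x g hg => ?_⟩
  have key : ∀ r, 1 / 2 ≤ r → r < 1 → -((4 + ε) * C) ≤ T M.toAtl (th M) g 1 +
      (τ + t) * T M.toAtl w g 1 - (t + ε) * T M.toAtl w g r := by
    intro r r0 r1
    have r2 : 0 < r := by linarith
    have k1 := continuous_val hw hK h₀ (hw.1.smul (t + ε₀)) isF_zero r2 r1
    have k2 := m2_nonpos hw hK h₀ (hw.1.smul (t + ε₀)) r2 r1
    have k3 := h1 r r2 r1
    have k4 : ∀ y g, Adm M.toAtl w y g →
        val M.toAtl w (th M + (τ + t) • w) ((t + ε₀) • w) 0 r y ≤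
          T M.toAtl (th M + (τ + t) • w) g 1 - T M.toAtl ((t + ε₀) • w) g r := fun y g hg => by
      simpa only [Phi, T_zero, sub_zero] using
        mb_val_le hw hK h₀ (hw.1.smul (t + ε₀)) isF_zero r2 r1 hg
    generalize val M.toAtl w (th M + (τ + t) • w) ((t + ε₀) • w) 0 r = ψ at k1 k2 k3 k4
    obtain ⟨v, hv, k5, k6, k7⟩ := h2 (fun p => -(a / 2) * ψ p) (by fun_prop)
      (fun p => mul_nonneg_of_nonpos_of_nonpos (by linarith) (k2 p))
      (by simpa only [show ∀ y : ℝ, 2 * (-(a / 2) * y) = -(a * y) from fun y => by ring] using k3)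
    have h₂ : Kae M.toAtl (w + ddc M.toAtl v) := ⟨hw.1.add (isF_ddc hv), k5⟩
    obtain ⟨f, hf, hm⟩ := exists_min hw hK h₀ (hw.1.smul (t + ε)) h₂.1 r2 r1 x
    have k8 := det_ineq hn hw h₀ (hw.1.smul (t + ε)) (mb_nn_smul hw (by linarith)) h₂ r2 r1 hf hm
    have k9 := recenter hw h₀.1 (hw.1.smul (t + ε₀)) (mb_nn_smul hw (by linarith)) r0 r1 hf.1 k1 k4
    have k10 := mb_av_ge hf.1.half one_half_pos.le (sm_log_dt h₂).continuous k1 (a := -(a / 2))
      (b := -C₁) k7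
    have k11 := (mb_av_bd hf.one zero_le_one (sm_log_dt h₀).continuous h5).2
    have k12 := (mb_av_bd hf.1.half one_half_pos.le hv.continuous k6).2
    have k13 := hm.2 g hg
    have k14 := T_nonneg h₂.1 h₂.2.nn g (1 / 2)
    rw [mb_T_fm hw hf.1 _ one_pos le_rfl, mb_T_fm hw hf.1 _ one_half_pos one_half_lt_one.le,
      T_smul hw.1, T_smul hw.1] at k9
    rw [Phi, Phi, mb_T_fm hw hf.1 _ one_pos le_rfl, mb_T_fm hw hg _ one_pos le_rfl, T_smul hw.1,
      T_smul hw.1, T_add hw hf.1 hw.1 (isF_ddc hv) one_half_pos one_half_lt_one.le,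
      T_ddc hw hf.1 hv one_half_pos one_half_lt_one] at k13
    have k15 := m4_alg (Z := av v f (1 / 2) - v x) hτ t0.le (half_pos a0) hε ε0.le C0
      (T_mono hw hf.1 hw.1 hw.2.nn r2 r1.le le_rfl)
      (T_mono hw hf.1 hw.1 hw.2.nn one_half_pos r0 r1.le) (T_nonneg hw.1 hw.2.nn f _)
      ((abs_le.1 (h3 x f hf.1)).2.trans c2) ((neg_le_neg c3).trans (abs_le.1 (h4 x f hf.1)).1)
      (by linarith [(k6 x).1]) (by linarith) k9
    linarith
  have lim := ge_of_tendsto (((T_tendsto hw hg hw.1).const_mul (t + ε)).const_sub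
    (T M.toAtl (th M) g 1 + (τ + t) * T M.toAtl w g 1)) (by
      filter_upwards [Ico_mem_nhdsLT one_half_lt_one] with r hr
      exact key r hr.1 hr.2)
  rw [mb_T_fm hw hg _ one_pos le_rfl]
  linarith

end Vale.Agent.P272
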