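import Vale.Agent.P272.M1

/-! P272, part M, step 5: a uniform lower bound for the Kaehler-Einstein metrics. -/

set_option linter.unusedSectionVars false

open MeasureTheory Set Filter Topology Metric Matrix
open scoped ContDiff ComplexConjugate ComplexOrder

noncomputable section

namespace Vale.Agent.P272

open Vale.Agent.P271

variable {n : ℕ} {X : Type} [TopologicalSpace X] [T2Space X] [CompactSpace X]
  [MeasurableSpace X] [BorelSpace X] {M : Model n X}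
  {w η η₀ η₁ η₂ φ ψ : Frm M.toAtl} {K r s : ℝ} {x p : X} {f g : ℂ → X} {u v : X → ℝ}

theorem m5_yau (hn : 0 < n) (hw : Kae M.toAtl w) (S : ℝ) : ∃ B, 0 ≤ B ∧ ∀ s u, 0 ≤ s → s ≤ S →
    MSol M w s u → ∀ p, -(B * trF M.toAtl (th M + s • w + ddc M.toAtl u) w p) ≤
      trF M.toAtl (th M + s • w + ddc M.toAtl u) (ddc M.toAtl fun q =>
        Real.log (trF M.toAtl w (th M + s • w + ddc M.toAtl u) q)) p := by
  obtain ⟨B, B0, hB⟩ := yau_ineq hn hw
  refine ⟨B + |S|, by positivity, fun s u s0 hs hu p => ?_⟩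
  have hη : Kae M.toAtl (th M + s • w + ddc M.toAtl u) := ⟨mb_fu hw s hu.1, hu.2.1⟩
  refine le_trans ?_ (hB _ hη p)
  simp only [hu.2.2, Real.log_exp]
  have h1 := trF_pos hn hw hη p
  have h2 := trF_pos hn hη hw p
  have h3 : (n : ℝ) ^ 2 ≤ trF M.toAtl w _ p * trF M.toAtl _ w p :=
    sq_le_trace_mul ((posF_iff hw.1).1 hw.2 p) ((posF_iff hη.1).1 hη.2 p)
  rw [show th M + ddc M.toAtl (fun q => u q) = th M + s • w + ddc M.toAtl u - s • w from
    by rw [add_right_comm, add_sub_cancel_right], trF_sub w hη.1 (hw.1.smul s), trF_smul w hw.1,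
    trF_self hw]
  generalize trF M.toAtl w (th M + s • w + ddc M.toAtl u) p = a at h1 h3
  generalize trF M.toAtl (th M + s • w + ddc M.toAtl u) w p = b at h2 h3
  have h4 : (1 : ℝ) ≤ n := Nat.one_le_cast.2 hn
  have h5 : -(|S| * b) ≤ (a - s * n) / a := by
    rw [le_div_iff₀ h1]
    have h6 : (n : ℝ) ≤ a * b := by nlinarith
    have h7 := mul_le_mul (hs.trans (le_abs_self S)) h6 (by positivity) (abs_nonneg S)
    linarith
  linarith

theorem m5_log (hn : 0 < n) (hw : Kae M.toAtl w) (hη : Kae M.toAtl η) (p : X) :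
    Real.log (trF M.toAtl w η p) ≤
      n * trF M.toAtl η w p + n + Real.log (dt M η p) - Real.log (dt M w p) := by
  have h1 : ‖M.k (ch M.toAtl p) p‖ ^ 2 ≠ 0 :=
    pow_ne_zero _ (norm_ne_zero_iff.2 (M.k_gauge.ne _ _ (ch_mem _ p)))
  have h2 : trF M.toAtl w η p ≤ n * (trF M.toAtl η w p ^ (n - 1) * (dt M η p / dt M w p)) := by
    rw [dt, dt, div_div_div_cancel_right₀ h1]
    exact trace_le_pow ((posF_iff hw.1).1 hw.2 p) ((posF_iff hη.1).1 hη.2 p)
  have h3 := trF_pos hn hη hw p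
  have h4 := dt_pos hη p
  have h5 := dt_pos hw p
  have h6 : (0 : ℝ) < n := Nat.cast_pos.2 hn
  have h7 := Real.log_le_log (trF_pos hn hw hη p) h2
  rw [Real.log_mul h6.ne' (by positivity), Real.log_mul (by positivity) (by positivity),
    Real.log_pow, Real.log_div h4.ne' h5.ne'] at h7
  have h8 := mul_le_mul (Nat.cast_le.2 (Nat.sub_le n 1)) le_rfl h3.le h6.le
  have h9 := mul_le_mul_of_nonneg_left (Real.log_le_self h3.le) (Nat.cast_nonneg (α := ℝ) (n - 1))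
  linarith [Real.log_le_self h6.le]

theorem m5_tr (hn : 0 < n) (hw : Kae M.toAtl w) (hK : Brody M.toAtl w K) {τ ε C : ℝ} (hτ : 0 ≤ τ)
    (hε : 0 < ε) (h : ∀ x g, Adm M.toAtl w x g → -C ≤ T M.toAtl (th M + (τ - ε) • w) g 1) :
    ∃ E, ∀ s u, τ < s → s ≤ τ + 1 → MSol M w s u → ∀ x,
      trF M.toAtl w (th M + s • w + ddc M.toAtl u) x ≤ E := by
  obtain ⟨C₁, -, h1⟩ := m1_bd hn hw hK (τ + 1)
  obtain ⟨B, B0, hB⟩ := m5_yau hn hw (τ + 1)
  obtain ⟨L, -, hL⟩ := mb_bdd (sm_log_dt hw).continuous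
  obtain ⟨κ, κ0, κ1⟩ : ∃ κ : ℝ, 0 < κ ∧ κ * B ≤ ε / 2 := by
    refine ⟨ε / 2 / (B + 1), by positivity, ?_⟩
    rw [div_mul_eq_mul_div, div_le_iff₀ (by positivity)]
    linarith
  refine ⟨Real.exp ((2 * C₁ + C + 1) / κ + (n * ((n + 1) / (ε / 2)) + (n + C₁ + L))),
    fun s u s0 s1 hu x => ?_⟩
  have hη : Kae M.toAtl (th M + s • w + ddc M.toAtl u) := ⟨mb_fu hw s hu.1, hu.2.1⟩
  have h2 := h1 s u (by linarith) s1 hu
  have h3 := hB s u (by linarith) s1 hu
  have h4 := m5_log hn hw hη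
  have hm := mb_sm_log (sm_trF hw hη.1) (trF_pos hn hw hη)
  have hb := (sm_trF hη hw.1).continuous
  simp only [hu.2.2, Real.log_exp] at h4
  refine (Real.log_le_iff_le_exp (trF_pos hn hw hη x)).1 ?_
  obtain ⟨m, e⟩ : ∃ m : X → ℝ,
    m = fun q => Real.log (trF M.toAtl w (th M + s • w + ddc M.toAtl u) q) := ⟨_, rfl⟩
  have h5 : ∀ p, m p ≤ n * trF M.toAtl (th M + s • w + ddc M.toAtl u) w p + (n + C₁ + L) :=
    fun p => by rw [e]; linarith [h4 p, (h2 p).2, (hL p).1]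
  rw [← e] at hm h3
  rw [show Real.log (trF M.toAtl w (th M + s • w + ddc M.toAtl u) x) = m x by rw [e]]
  have hv := mb_sm_sub hu.1 (mb_sm_smul hm κ)
  have hT : ∀ g, AdmC M.toAtl w x g → T M.toAtl (th M + (τ - ε) • w + ddc M.toAtl (u - κ • m)) g 1 =
      T M.toAtl (th M + (τ - ε) • w) g 1 + (av (u - κ • m) g 1 - (u - κ • m) x) := fun g hg => by
    rw [T_add hw hg.1 (mb_fm hw _) (isF_ddc hv) one_pos le_rfl, T_ddc_one hw hg hv]
  obtain ⟨D, -, hD⟩ := mb_bdd hv.continuous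
  obtain ⟨f, hf, h6, h7⟩ := tr_ineq hn hw hK hη (mb_fu hw (τ - ε) hv) (C := C + D + D)
    (fun g hg => by
      rw [hT g hg]
      linarith [h x g hg.1, (mb_av_bd hg.one zero_le_one hv.continuous hD).1, (hD x).2]) one_pos
  have h8 := mb_av_le hf.one zero_le_one (sm_trF hη (mb_fu hw (τ - ε) hv)).continuous hb
    (a := -(ε / 2)) (b := n) fun p => by
      rw [show th M + (τ - ε) • w + ddc M.toAtl (u - κ • m) = th M + s • w + ddc M.toAtl u -
        (s - τ + ε) • w - κ • ddc M.toAtl m by rw [ddc_sub, ddc_smul]; module,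
        trF_sub _ (hη.1.sub (hw.1.smul _)) ((isF_ddc hm).smul _), trF_sub _ hη.1 (hw.1.smul _),
        trF_smul _ hw.1, trF_smul _ (isF_ddc hm), trF_self hη]
      have k1 := (trF_pos hn hη hw p).le
      have k2 := mul_le_mul_of_nonneg_left (h3 p) κ0.le
      have k3 := mul_le_mul_of_nonneg_right κ1 k1
      have k4 := mul_nonneg (sub_nonneg.2 s0.le) k1
      linarith
  have h9 := mb_av_ge hf.one zero_le_one hv.continuous hb (a := -(κ * n))
    (b := -C₁ - κ * (n + C₁ + L)) fun p => by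
      have k1 := mul_le_mul_of_nonneg_left (h5 p) κ0.le
      simp only [Pi.sub_apply, Pi.smul_apply, smul_eq_mul]
      linarith [(h2 p).1]
  have h10 : av (trF M.toAtl (th M + s • w + ddc M.toAtl u) w) f 1 ≤ (n + 1) / (ε / 2) := by
    rw [le_div_iff₀ (by positivity)]
    linarith
  have h11 := mul_le_mul_of_nonneg_left h10 (by positivity : 0 ≤ κ * n)
  rw [hT f hf, Pi.sub_apply, Pi.smul_apply, smul_eq_mul] at h6
  refine le_of_mul_le_mul_left ?_ κ0
  rw [mul_add, mul_div_cancel₀ _ κ0.ne']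
  linarith [h x f hf.1, (h2 x).2]

theorem m5 (hn : 0 < n) (hw : Kae M.toAtl w) (hK : Brody M.toAtl w K) {τ ε C : ℝ} (hτ : 0 ≤ τ)
    (hε : 0 < ε) (h : ∀ x g, Adm M.toAtl w x g → -C ≤ T M.toAtl (th M + (τ - ε) • w) g 1) :
    ∃ c : ℝ, 0 < c ∧ ∀ s, τ < s → s ≤ τ + 1 → Kc M w s → Kc M w (s - c) := by
  obtain ⟨E, hE⟩ := m5_tr hn hw hK hτ hε h
  obtain ⟨C₁, h1⟩ := m1_low hn hw hK
  obtain ⟨D, D0, hD⟩ := mb_bdd (sm_dt (hw.1.smul (E + 1))).continuous
  refine ⟨Real.exp (-C₁) / (D + 1), by positivity, fun s s0 s1 hs => ?_⟩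
  obtain ⟨u, hu⟩ := m1_sol hn hw hs
  have hη : Kae M.toAtl (th M + s • w + ddc M.toAtl u) := ⟨mb_fu hw s hu.1, hu.2.1⟩
  refine ⟨u, hu.1, (posF_iff (mb_fu hw _ hu.1)).2 fun p => ?_⟩
  have h2 := (posF_iff hw.1).1 hw.2 p
  have h3 := hη.add_nn hw.1 hw.2.nn
  have h4 : dt M (th M + s • w + ddc M.toAtl u + w) p ≤ dt M ((E + 1) • w) p := by
    refine dt_mono ((posF_iff h3.1).1 h3.2 p).posSemidef ?_
    have h5 := (psd_trace_sub h2 ((posF_iff hη.1).1 hη.2 p).posSemidef).add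
      (h2.posSemidef.smul (Complex.zero_le_real.2 (sub_nonneg.2 (hE s u s0 s1 hu p))))
    rw [GM_add hη.1 hw.1, GM_smul hw.1]
    refine (congrArg PosSemidef ?_).mp h5
    simp only [trF]
    push_cast
    module
  have h5 : Real.exp (-C₁) / (D + 1) < dt M (th M + s • w + ddc M.toAtl u) p /
      dt M (th M + s • w + ddc M.toAtl u + w) p := by
    refine div_lt_div₀' ?_ (by linarith [(hD p).2]) (dt_pos hη p) (dt_pos h3 p)
    rw [hu.2.2]
    exact Real.exp_le_exp.2 (h1 s u (by linarith) hu p)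
  have h6 := PosDef.posSemidef_add (mb_ratio hw hη p)
    (h2.smul (Complex.zero_lt_real.2 (sub_pos.2 h5)))
  rw [show th M + (s - Real.exp (-C₁) / (D + 1)) • w + ddc M.toAtl u = th M + s • w +
    ddc M.toAtl u - (Real.exp (-C₁) / (D + 1)) • w by module, GM_sub hη.1 (hw.1.smul _),
    GM_smul hw.1]
  rwa [Complex.ofReal_sub, sub_smul, sub_add_sub_cancel] at h6

end Vale.Agent.P272
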