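import Vale.Agent.P272.DBr
import Vale.Agent.P272.DRc2
import Vale.Agent.P272.DI2
import Vale.Agent.P272.DFam2

/-! P272, part D: extremal discs. The exports are in the imported files. -/
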