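import Vale.Agent.P272.PartP
import Vale.Agent.P272.PartD

/-! P272, part M: small tools. -/

set_option linter.unusedSectionVars false

open MeasureTheory Set Filter Topology Metric Matrix
open scoped ContDiff ComplexConjugate ComplexOrder

noncomputable section

namespace Vale.Agent.P272

open Vale.Agent.P271

variable {n : ℕ} {X : Type} [TopologicalSpace X] [T2Space X] [CompactSpace X]
  [MeasurableSpace X] [BorelSpace X] {M : Model n X}
  {w η η₀ η₁ η₂ φ ψ : Frm M.toAtl} {K r s : ℝ} {x p : X} {f g : ℂ → X} {u v : X → ℝ}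

/-- The class of `th + s w` is Kaehler. -/
def Kc (M : Model n X) (w : Frm M.toAtl) (s : ℝ) : Prop :=
  ∃ u, M.Sm u ∧ PosF M.toAtl (th M + s • w + ddc M.toAtl u)

/-- Solutions of the twisted Kaehler-Einstein equation. -/
def MSol (M : Model n X) (w : Frm M.toAtl) (s : ℝ) (u : X → ℝ) : Prop :=
  M.Sm u ∧ PosF M.toAtl (th M + s • w + ddc M.toAtl u) ∧
    ∀ p, dt M (th M + s • w + ddc M.toAtl u) p = Real.exp (u p)

theorem mb_sm_add (hu : M.Sm u) (hv : M.Sm v) : M.Sm (u + v) := fun a => (hu a).add (hv a)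

theorem mb_sm_sub (hu : M.Sm u) (hv : M.Sm v) : M.Sm (u - v) := fun a => (hu a).sub (hv a)

theorem mb_sm_smul (hu : M.Sm u) (c : ℝ) : M.Sm (c • u) := fun a => (hu a).const_smul c

theorem mb_sm_zero : M.Sm (0 : X → ℝ) := fun _ => contDiffOn_const

theorem mb_sm_log (hu : M.Sm u) (h : ∀ p, 0 < u p) : M.Sm fun p => Real.log (u p) :=
  fun a => (hu a).log fun _ _ => (h _).ne'

theorem mb_ddc_zero : ddc M.toAtl 0 = 0 := rfl

theorem mb_bdd (hu : Continuous u) : ∃ C, 0 ≤ C ∧ ∀ p, -C ≤ u p ∧ u p ≤ C := by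
  obtain ⟨C, hC⟩ := isCompact_univ.exists_bound_of_continuousOn hu.continuousOn
  exact ⟨max C 0, le_max_right _ _, fun p =>
    abs_le.1 ((hC p (mem_univ _)).trans (le_max_left _ _))⟩

theorem mb_max (hu : Continuous u) (x : X) : ∃ p, ∀ q, u q ≤ u p := by
  obtain ⟨p, -, hp⟩ := isCompact_univ.exists_isMaxOn ⟨x, mem_univ _⟩ hu.continuousOn
  exact ⟨p, fun q => hp (mem_univ q)⟩

theorem mb_int (hu : Continuous u) : Integrable u M.μ :=
  hu.integrable_of_hasCompactSupport (HasCompactSupport.of_compactSpace u)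

theorem mb_circ (hf : ContinuousOn f (sphere 0 r)) (hr : 0 ≤ r) (hu : Continuous u) :
    CircleIntegrable (fun ζ => u (f ζ)) 0 r :=
  (hu.comp_continuousOn hf).circleIntegrable hr

theorem mb_av_le (hf : ContinuousOn f (sphere 0 r)) (hr : 0 ≤ r) (hu : Continuous u)
    (hv : Continuous v) {a b : ℝ} (h : ∀ p, u p ≤ a * v p + b) : av u f r ≤ a * av v f r + b := by
  have h1 := mb_circ hf hr (u := fun p => a * v p) (by fun_prop)
  have h2 := mb_circ hf hr (u := fun _ => b) continuous_const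
  refine (Real.circleAverage_mono (mb_circ hf hr hu) (h1.add h2) fun _ _ => h _).trans_eq ?_
  rw [Real.circleAverage_add h1 h2, Real.circleAverage_const]
  exact congrArg (· + b) (Real.circleAverage_fun_smul (a := a) (f := fun ζ => v (f ζ)))

theorem mb_av_ge (hf : ContinuousOn f (sphere 0 r)) (hr : 0 ≤ r) (hu : Continuous u)
    (hv : Continuous v) {a b : ℝ} (h : ∀ p, a * v p + b ≤ u p) : a * av v f r + b ≤ av u f r := by
  have h1 := mb_circ hf hr (u := fun p => a * v p) (by fun_prop)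
  have h2 := mb_circ hf hr (u := fun _ => b) continuous_const
  refine le_trans (le_of_eq ?_)
    (Real.circleAverage_mono (h1.add h2) (mb_circ hf hr hu) fun _ _ => h _)
  rw [Real.circleAverage_add h1 h2, Real.circleAverage_const]
  exact congrArg (· + b) (Real.circleAverage_fun_smul (a := a) (f := fun ζ => v (f ζ))).symm

theorem mb_av_bd (hf : ContinuousOn f (sphere 0 r)) (hr : 0 ≤ r) (hu : Continuous u) {a b : ℝ}
    (h : ∀ p, a ≤ u p ∧ u p ≤ b) : a ≤ av u f r ∧ av u f r ≤ b := by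
  have h1 := mb_av_ge hf hr hu hu (a := 0) (b := a) fun p => by simpa using (h p).1
  have h2 := mb_av_le hf hr hu hu (a := 0) (b := b) fun p => by simpa using (h p).2
  exact ⟨by simpa using h1, by simpa using h2⟩

theorem mb_av_add (hf : ContinuousOn f (sphere 0 r)) (hr : 0 ≤ r) (hu : Continuous u)
    (hv : Continuous v) : av (u + v) f r = av u f r + av v f r :=
  Real.circleAverage_add (mb_circ hf hr hu) (mb_circ hf hr hv)

theorem Adm.half (hf : Adm M.toAtl w x f) : ContinuousOn f (sphere 0 (1 / 2)) :=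
  hf.1.1.mono (sphere_subset_ball (by norm_num))

theorem AdmC.one (hf : AdmC M.toAtl w x f) : ContinuousOn f (sphere 0 1) :=
  hf.2.mono sphere_subset_closedBall

theorem mb_fm (hw : Kae M.toAtl w) (s : ℝ) : IsF M.toAtl (th M + s • w) :=
  (isF_th M).add (hw.1.smul s)

theorem mb_fu (hw : Kae M.toAtl w) (s : ℝ) (hu : M.Sm u) :
    IsF M.toAtl (th M + s • w + ddc M.toAtl u) := (mb_fm hw s).add (isF_ddc hu)

theorem mb_T_fm (hw : Kae M.toAtl w) (hf : Adm M.toAtl w x f) (s : ℝ) (h0 : 0 < r) (h1 : r ≤ 1) :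
    T M.toAtl (th M + s • w) f r = T M.toAtl (th M) f r + s * T M.toAtl w f r := by
  rw [T_add hw hf (isF_th M) (hw.1.smul s) h0 h1, T_smul hw.1]

theorem mb_Phi_const (η₀ η₁ η₂ : Frm M.toAtl) (r : ℝ) (x : X) :
    Phi M.toAtl η₀ η₁ η₂ r (fun _ => x) = 0 := by
  simp only [Phi, T_const, sub_zero]

theorem mb_val_le (hw : Kae M.toAtl w) (hK : Brody M.toAtl w K) (h₀ : Kae M.toAtl η₀)
    (h₁ : IsF M.toAtl η₁) (h₂ : IsF M.toAtl η₂) (h0 : 0 < r) (h1 : r < 1)
    (hg : Adm M.toAtl w x g) : val M.toAtl w η₀ η₁ η₂ r x ≤ Phi M.toAtl η₀ η₁ η₂ r g := by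
  obtain ⟨f, -, hf⟩ := exists_min hw hK h₀ h₁ h₂ h0 h1 x
  exact (val_eq hf).trans_le (hf.2 g hg)

theorem mb_dt_mono (hφ : IsF M.toAtl φ) (hψ : IsF M.toAtl ψ) (h : NnF M.toAtl φ)
    (h' : NnF M.toAtl (ψ - φ)) (p : X) : dt M φ p ≤ dt M ψ p :=
  dt_mono ((nnF_iff hφ).1 h p) (GM_sub hψ hφ p ▸ (nnF_iff (hψ.sub hφ)).1 h' p)

theorem mb_dt_max (hφ : IsF M.toAtl φ) (hψ : IsF M.toAtl ψ) (hu : M.Sm u) (hp : ∀ q, u q ≤ u p)
    (h : NnF M.toAtl (φ + ddc M.toAtl u)) (h' : NnF M.toAtl (ψ - φ)) :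
    dt M (φ + ddc M.toAtl u) p ≤ dt M ψ p := by
  refine dt_mono ((nnF_iff (hφ.add (isF_ddc hu))).1 h p) ?_
  have h1 := ((nnF_iff (hψ.sub hφ)).1 h' p).add (GM_of_max hu hp)
  rw [GM_sub hψ hφ] at h1
  rwa [GM_add hφ (isF_ddc hu), sub_add_eq_sub_sub, sub_eq_add_neg]

theorem mb_ratio (hw : Kae M.toAtl w) (hη : Kae M.toAtl η) (p : X) :
    (GM M.toAtl η p - ((dt M η p / dt M (η + w) p : ℝ) : ℂ) • GM M.toAtl w p).PosSemidef := by
  have h1 : ‖M.k (ch M.toAtl p) p‖ ^ 2 ≠ 0 :=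
    pow_ne_zero _ (norm_ne_zero_iff.2 (M.k_gauge.ne _ _ (ch_mem _ p)))
  rw [dt, dt, div_div_div_cancel_right₀ h1, GM_add hη.1 hw.1]
  exact psd_sub_ratio ((posF_iff hw.1).1 hw.2 p) ((posF_iff hη.1).1 hη.2 p)

theorem mb_nn_smul (hw : Kae M.toAtl w) (hs : 0 ≤ s) : NnF M.toAtl (s • w) :=
  hw.2.nn.smul hw.1 hs

theorem Kc.mono (hw : Kae M.toAtl w) (h : Kc M w s) {t : ℝ} (ht : s ≤ t) : Kc M w t := by
  obtain ⟨u, hu, h⟩ := h
  refine ⟨u, hu, ?_⟩
  have h1 := (Kae.add_nn ⟨mb_fu hw s hu, h⟩ (hw.1.smul (t - s))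
    (mb_nn_smul hw (sub_nonneg.2 ht))).2
  rwa [show th M + s • w + ddc M.toAtl u + (t - s) • w = th M + t • w + ddc M.toAtl u by
    module] at h1

theorem mb_kae (hw : Kae M.toAtl w) :
    ∃ C : ℝ, 0 < C ∧ ∀ s, C ≤ s →
      Kae M.toAtl (th M + s • w) ∧ NnF M.toAtl (s • w - th M) := by
  obtain ⟨C, h0, h1, h2⟩ := exists_le hw (isF_th M)
  refine ⟨C, h0, fun s hs => ?_⟩
  have h3 := Kae.add_nn ⟨(hw.1.smul C).add (isF_th M), h2⟩ (hw.1.smul (s - C))
    (mb_nn_smul hw (sub_nonneg.2 hs))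
  have h4 := Kae.add_nn ⟨(hw.1.smul C).sub (isF_th M), h1⟩ (hw.1.smul (s - C))
    (mb_nn_smul hw (sub_nonneg.2 hs))
  rw [show C • w + th M + (s - C) • w = th M + s • w by module] at h3
  rw [show C • w - th M + (s - C) • w = s • w - th M by module] at h4
  exact ⟨h3, h4.2.nn⟩

end Vale.Agent.P272
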