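import Vale.Agent.P272.Mat

/-! P272: the real determinant of a nonnegative form and its Hermitian part. -/

open MeasureTheory Set Filter Topology Metric Matrix
open scoped ContDiff ComplexConjugate ComplexOrder

noncomputable section

namespace Vale.Agent.P272

open Vale.Agent.P271

variable {n : ℕ}

open scoped MatrixOrder in
theorem PPa1_map {ι : Type} [Fintype ι] [DecidableEq ι] {A : Matrix ι ι ℝ} (hA : A.PosSemidef) :
    (A.map Complex.ofRealHom).PosSemidef := by
  have h1 := CFC.sqrt_mul_sqrt_self A hA.nonneg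
  have h2 : (CFC.sqrt A).IsHermitian := (CFC.sqrt_nonneg A).posSemidef.1
  have h3 : ((CFC.sqrt A).map Complex.ofRealHom)ᴴ = (CFC.sqrt A).map Complex.ofRealHom := by
    ext i j
    have h4 : CFC.sqrt A j i = CFC.sqrt A i j := h2.apply i j
    simp [conjTranspose_apply, h4]
  have h5 := posSemidef_conjTranspose_mul_self ((CFC.sqrt A).map Complex.ofRealHom)
  rwa [h3, ← Matrix.map_mul, h1] at h5

/-- Monotonicity of the determinant for real matrices: reindex by `Fintype.equivFin`, map to `ℂ`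
(write a nonnegative matrix as `Bᴴ * B`) and use `det_mono`, `det_re_nonneg`. -/
theorem det_mono_real {ι : Type} [Fintype ι] [DecidableEq ι] {A B : Matrix ι ι ℝ}
    (hA : A.PosSemidef) (hB : (B - A).PosSemidef) : 0 ≤ A.det ∧ A.det ≤ B.det := by
  refine ⟨hA.det_nonneg, ?_⟩
  let e := (Fintype.equivFin ι).symm
  have h1 : ∀ C : Matrix ι ι ℝ, ((C.map Complex.ofRealHom).submatrix e e).det.re = C.det :=
    fun C => by
      rw [det_submatrix_equiv_self, ← RingHom.mapMatrix_apply, ← RingHom.map_det]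
      rfl
  rw [← h1, ← h1]
  refine det_mono ((PPa1_map hA).submatrix e) ?_
  have h2 : (B.map Complex.ofRealHom).submatrix e e - (A.map Complex.ofRealHom).submatrix e e =
      ((B - A).map Complex.ofRealHom).submatrix e e := by
    ext i j
    simp
  rw [h2]
  exact (PPa1_map hB).submatrix e

theorem PPa1_comm (ξ η : Cn n) : (star ξ ⬝ᵥ η).re = (star η ⬝ᵥ ξ).re := by
  simp only [dotProduct, Complex.re_sum, Pi.star_apply, Complex.mul_re, Complex.star_def,
    Complex.conj_re, Complex.conj_im]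
  exact Finset.sum_congr rfl fun i _ => by ring

/-- The standard real basis. -/
def PPa1b (n : ℕ) : Module.Basis (Σ _ : Fin n, Fin 2) ℝ (Cn n) :=
  Pi.basis fun _ => Complex.basisOneI

theorem PPa1_dot (ξ η : Cn n) :
    ⇑((PPa1b n).repr ξ) ⬝ᵥ ⇑((PPa1b n).repr η) = (star ξ ⬝ᵥ η).re := by
  simp only [dotProduct, Complex.re_sum, Pi.star_apply, Complex.mul_re, Complex.star_def,
    Complex.conj_re, Complex.conj_im, Fintype.sum_sigma, Fin.sum_univ_two, PPa1b, Pi.basis_repr,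
    Complex.coe_basisOneI_repr]
  exact Finset.sum_congr rfl fun i _ => by simp

theorem PPa1_psd (S : Cn n →ₗ[ℝ] Cn n) (hs : ∀ ξ η, (star (S ξ) ⬝ᵥ η).re = (star (S η) ⬝ᵥ ξ).re)
    (h0 : ∀ ξ, 0 ≤ (star (S ξ) ⬝ᵥ ξ).re) : (LinearMap.toMatrix (PPa1b n) (PPa1b n) S).PosSemidef := by
  have h1 : ∀ i j, LinearMap.toMatrix (PPa1b n) (PPa1b n) S i j =
      (star (S (PPa1b n j)) ⬝ᵥ PPa1b n i).re := fun i j => by
    rw [← PPa1_dot, LinearMap.toMatrix_apply, Module.Basis.repr_self, Finsupp.single_eq_pi_single,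
      dotProduct_single, mul_one]
  refine PosSemidef.of_dotProduct_mulVec_nonneg ?_ fun x => ?_
  · ext i j
    rw [conjTranspose_apply, h1, h1, hs]
    rfl
  · obtain ⟨ξ, rfl⟩ : ∃ ξ, x = ⇑((PPa1b n).repr ξ) :=
      ⟨(PPa1b n).equivFun.symm x, ((PPa1b n).equivFun.apply_symm_apply x).symm⟩
    rw [LinearMap.toMatrix_mulVec_repr, star_trivial, PPa1_dot, PPa1_comm]
    exact h0 ξ

/-- Take the matrices of `A` and of `ξ ↦ (4 L) *ᵥ ξ` in the real basis
`Pi.basis fun _ => Complex.basisOneI`, orthonormal for `re (star ξ ⬝ᵥ η)`; the real determinant of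
the second map is `‖det (4 L)‖ ^ 2` (`LinearMap.det_restrictScalars`, `Algebra.norm_complex_apply`,
`det_eq_re`). -/
theorem det_real_le (A : Cn n →L[ℝ] Cn n) {L : Mx n} (hL : L.IsHermitian)
    (hs : ∀ ξ η, (star (A ξ) ⬝ᵥ η).re = (star (A η) ⬝ᵥ ξ).re)
    (h0 : ∀ ξ, 0 ≤ (star (A ξ) ⬝ᵥ ξ).re)
    (hle : ∀ ξ, (star (A ξ) ⬝ᵥ ξ).re ≤ 4 * (star ξ ⬝ᵥ L *ᵥ ξ).re) :
    |A.det| ≤ 16 ^ n * L.det.re ^ 2 := by
  let B : Cn n →ₗ[ℝ] Cn n := (Matrix.toLin' ((4 : ℂ) • L)).restrictScalars ℝ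
  have hB : ∀ ξ η, (star (B ξ) ⬝ᵥ η).re = 4 * (star η ⬝ᵥ L *ᵥ ξ).re := fun ξ η => by
    rw [PPa1_comm]
    have h1 : B ξ = (4 : ℂ) • L *ᵥ ξ := (Matrix.toLin'_apply _ _).trans (smul_mulVec _ _ _)
    rw [h1, dotProduct_smul]
    simp
  have hL' : ∀ ξ η, (star η ⬝ᵥ L *ᵥ ξ).re = (star ξ ⬝ᵥ L *ᵥ η).re := fun ξ η => by
    rw [PPa1_comm, star_mulVec, hL.eq, dotProduct_mulVec]
  have h1 := PPa1_psd (A : Cn n →ₗ[ℝ] Cn n) hs h0
  have h2 := PPa1_psd (B - (A : Cn n →ₗ[ℝ] Cn n)) (fun ξ η => by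
    simp only [LinearMap.sub_apply, star_sub, sub_dotProduct, Complex.sub_re, hB,
      ContinuousLinearMap.coe_coe]
    rw [hL', hs]) fun ξ => by
    simp only [LinearMap.sub_apply, star_sub, sub_dotProduct, Complex.sub_re, hB,
      ContinuousLinearMap.coe_coe]
    exact sub_nonneg.2 (hle ξ)
  rw [map_sub] at h2
  obtain ⟨h3, h4⟩ := det_mono_real h1 h2
  rw [LinearMap.det_toMatrix] at h3 h4
  rw [LinearMap.det_toMatrix, LinearMap.det_restrictScalars, Algebra.norm_complex_apply,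
    LinearMap.det_toLin', det_smul, det_eq_re hL, map_mul, map_pow, Complex.normSq_ofReal,
    Fintype.card_fin, Complex.normSq_ofNat] at h4
  rw [ContinuousLinearMap.det, abs_of_nonneg h3, sq]
  norm_num at h4 ⊢
  exact h4

/-- The vector representing a real linear form. -/
def gradL (n : ℕ) : (Cn n →L[ℝ] ℝ) →L[ℝ] Cn n :=
  ContinuousLinearMap.pi fun j =>
    Complex.ofRealCLM.comp (ContinuousLinearMap.apply ℝ ℝ (Pi.single j (1 : ℂ) : Cn n)) +
      Complex.I • Complex.ofRealCLM.comp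
        (ContinuousLinearMap.apply ℝ ℝ (Pi.single j Complex.I : Cn n))

theorem gradL_apply (p : Cn n →L[ℝ] ℝ) (j : Fin n) :
    gradL n p j = p (Pi.single j 1) + Complex.I * p (Pi.single j Complex.I) := by
  simp [gradL]

theorem re_gradL (p : Cn n →L[ℝ] ℝ) (η : Cn n) : (star (gradL n p) ⬝ᵥ η).re = p η := by
  have h1 : η = ∑ j, ((η j).re • (Pi.single j 1 : Cn n) +
      (η j).im • (Pi.single j Complex.I : Cn n)) := by
    ext k
    rw [Finset.sum_apply, Finset.sum_eq_single k]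
    · simp
    · intro j _ hj
      simp [Pi.single_eq_of_ne hj.symm]
    · simp
  conv_rhs => rw [h1, map_sum]
  rw [dotProduct, Complex.re_sum]
  refine Finset.sum_congr rfl fun j _ => ?_
  rw [map_add, map_smul, map_smul, Pi.star_apply, gradL_apply]
  simp
  ring

/-- Every vector represents a form of controlled norm. -/
theorem exists_gradL (q : Cn n) :
    ∃ p : Cn n →L[ℝ] ℝ, gradL n p = q ∧ ∀ η, |p η| ≤ n * ‖q‖ * ‖η‖ := by
  let p : Cn n →ₗ[ℝ] ℝ :=
    { toFun := fun η => (star q ⬝ᵥ η).re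
      map_add' := fun a b => by rw [dotProduct_add, Complex.add_re]
      map_smul' := fun c a => by rw [dotProduct_smul]; simp }
  have hp : ∀ η, LinearMap.toContinuousLinearMap p η = (star q ⬝ᵥ η).re := fun η => rfl
  refine ⟨LinearMap.toContinuousLinearMap p, ?_, fun η => ?_⟩
  · ext j
    rw [gradL_apply, hp, hp, dotProduct_single, dotProduct_single]
    apply Complex.ext <;> simp
  · rw [hp]
    refine (Complex.abs_re_le_norm _).trans ((norm_sum_le _ _).trans ?_)
    refine (Finset.sum_le_card_nsmul _ _ (‖q‖ * ‖η‖) fun j _ => ?_).trans_eq ?_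
    · rw [norm_mul, Pi.star_apply, norm_star]
      exact mul_le_mul (norm_le_pi_norm q j) (norm_le_pi_norm η j) (norm_nonneg _) (norm_nonneg _)
    · simp [mul_assoc]

end Vale.Agent.P272
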