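import Vale.Agent.P272.Loc
import Vale.Agent.P272.PPa1

/-! P272: the Alexandrov-Bakelman-Pucci estimate in a ball. -/

open MeasureTheory Set Filter Topology Metric Matrix
open scoped ContDiff ComplexConjugate ComplexOrder

noncomputable section

namespace Vale.Agent.P272

open Vale.Agent.P271

variable {n : ℕ}

/-- The determinant of the derivative of the gradient where the Hessian is nonnegative
(`det_real_le`, `re_gradL`, `Lev_eq_fderiv`, `Lev_eq_LM`, symmetry of second derivatives). -/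
theorem det_hess_le {W : Cn n → ℝ} {z : Cn n} (hW : ContDiffAt ℝ ∞ W z)
    (h0 : ∀ ξ, 0 ≤ fderiv ℝ (fderiv ℝ W) z ξ ξ) :
    (LM W z).PosSemidef ∧
      |((gradL n).comp (fderiv ℝ (fderiv ℝ W) z)).det| ≤ 16 ^ n * (LM W z).det.re ^ 2 := by
  have hs : IsSymmSndFDerivAt ℝ W z := hW.isSymmSndFDerivAt (by
    rw [minSmoothness_of_isRCLikeNormedField]; exact WithTop.coe_le_coe.2 le_top)
  refine ⟨(posSemidef_LM_iff hW).2 fun ξ => ?_, det_real_le _ (LM_herm hW) (fun ξ η => ?_)
    (fun ξ => ?_) fun ξ => ?_⟩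
  · rw [Lev_eq_fderiv hW]
    linarith [h0 ξ, h0 (Complex.I • ξ)]
  · simp only [ContinuousLinearMap.comp_apply, re_gradL]
    exact hs.eq ξ η
  · simp only [ContinuousLinearMap.comp_apply, re_gradL]
    exact h0 ξ
  · simp only [ContinuousLinearMap.comp_apply, re_gradL]
    rw [← Lev_eq_LM hW, Lev_eq_fderiv hW]
    linarith [h0 (Complex.I • ξ)]

/-- If `W ≥ W z₀ + c R²` on the sphere, a form `p` with `|p η| ≤ c R / 2 ‖η‖` is the derivative of
`W` at an interior minimum of `W - p`, where the Hessian is nonnegative. -/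
theorem exists_contact {W : Cn n → ℝ} {z₀ : Cn n} {R c : ℝ} (hR : 0 < R) (hc : 0 < c)
    (hW : ∀ z ∈ closedBall z₀ R, ContDiffAt ℝ ∞ W z)
    (hb : ∀ z ∈ sphere z₀ R, W z₀ + c * R ^ 2 ≤ W z) {p : Cn n →L[ℝ] ℝ}
    (hp : ∀ η, |p η| ≤ c * R / 2 * ‖η‖) :
    ∃ z ∈ ball z₀ R, fderiv ℝ W z = p ∧ (∀ ξ, 0 ≤ fderiv ℝ (fderiv ℝ W) z ξ ξ) ∧
      W z ≤ W z₀ + c * R ^ 2 := by
  have hc' : ContinuousOn (fun w => p w - W w) (closedBall z₀ R) := fun w hw =>
    (p.continuous.continuousAt.sub (hW w hw).continuousAt).continuousWithinAt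
  obtain ⟨z, hz, hm⟩ := (isCompact_closedBall z₀ R).exists_isMaxOn
    ⟨z₀, mem_closedBall_self hR.le⟩ hc'
  have h1 : p z₀ - W z₀ ≤ p z - W z := hm (mem_closedBall_self hR.le)
  have h2 : p z - p z₀ ≤ c * R ^ 2 / 2 := by
    rw [← map_sub]
    refine (le_abs_self _).trans ((hp _).trans ?_)
    have := mem_closedBall_iff_norm.1 hz
    have h3 : 0 < c * R / 2 := by positivity
    nlinarith
  have h4 : 0 < c * R ^ 2 := by positivity
  have hz' : z ∈ ball z₀ R := by
    rcases (mem_closedBall.1 hz).lt_or_eq with h | h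
    · exact h
    · have := hb z h
      linarith
  have hl : IsLocalMax (fun w => p w - W w) z :=
    hm.isLocalMax (mem_of_superset (isOpen_ball.mem_nhds hz') ball_subset_closedBall)
  have he : fderiv ℝ (fun w => p w - W w) =ᶠ[𝓝 z] fun w => p - fderiv ℝ W w := by
    filter_upwards [isOpen_ball.mem_nhds hz'] with w hw
    exact (p.hasFDerivAt.sub
      ((hW w (ball_subset_closedBall hw)).differentiableAt (by simp)).hasFDerivAt).fderiv
  refine ⟨z, hz', ?_, fun ξ => ?_, by linarith⟩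
  · have := he.eq_of_nhds
    rw [hl.fderiv_eq_zero] at this
    exact (sub_eq_zero.1 this.symm).symm
  · have h5 := Loc_max (p.contDiff.contDiffAt.sub (hW z hz)) hl ξ
    rw [he.fderiv_eq, fderiv_const_sub] at h5
    simpa using h5

/-- Let `W = v + c ∑ ‖z j - z₀ j‖²` (`LM_add`, `LM_smul`, `LM_normSq`) and let `S` be the set of
points of the ball where the Hessian of `W` is nonnegative and `W ≤ v z₀ + c R²` (relatively
closed). The image of `S` under `gradL n ∘ fderiv ℝ W` contains the ball of radius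
`c R / (2 (n + 1))` (`exists_gradL`, `exists_contact`); use
`addHaar_image_le_lintegral_abs_det_fderiv` and `det_hess_le`. -/
theorem abp_loc (n : ℕ) {R c : ℝ} (hR : 0 < R) (hc : 0 < c) : ∃ δ : ℝ, 0 < δ ∧
    ∀ (v h : Cn n → ℝ) (z₀ : Cn n), (∀ z ∈ closedBall z₀ R, ContDiffAt ℝ ∞ v z) →
      (∀ z ∈ closedBall z₀ R, v z₀ ≤ v z) → ContinuousOn h (closedBall z₀ R) →
      (∀ z ∈ ball z₀ R, v z ≤ v z₀ + c * R ^ 2 → (LM v z + (c : ℂ) • 1).PosSemidef →
        (LM v z + (c : ℂ) • 1).det.re ≤ h z) →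
      δ ≤ ∫ z in ball z₀ R, h z ^ 2 := by
  have hr : 0 < c * R / (2 * (n + 1)) := by positivity
  have hv0 : 0 < (volume (ball (0 : Cn n) (c * R / (2 * (n + 1))))).toReal :=
    ENNReal.toReal_pos (measure_ball_pos _ _ hr).ne' measure_ball_lt_top.ne
  refine ⟨_, div_pos hv0 (by positivity : (0 : ℝ) < 16 ^ n), fun v h z₀ hv hmin hh hdet => ?_⟩
  set N : Cn n → ℝ := fun w => ∑ j, ‖w j - z₀ j‖ ^ 2 with hN
  have hNs : ∀ z, ContDiffAt ℝ ∞ N z := fun z =>
    ContDiffAt.sum fun j _ => P271A.contDiffAt_normSq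
      (((ContinuousLinearMap.proj (R := ℂ) (φ := fun _ : Fin n => ℂ) j).analyticAt z).sub
        analyticAt_const)
  have hN0 : ∀ z, 0 ≤ N z := fun z => Finset.sum_nonneg fun _ _ => sq_nonneg _
  have hNn : ∀ z, ‖z - z₀‖ ^ 2 ≤ N z := fun z => by
    refine (Real.le_sqrt (norm_nonneg _) (hN0 z)).1 ((pi_norm_le_iff_of_nonneg
      (Real.sqrt_nonneg _)).2 fun j => Real.le_sqrt_of_sq_le ?_)
    exact Finset.single_le_sum (f := fun j => ‖z j - z₀ j‖ ^ 2) (fun _ _ => sq_nonneg _)
      (Finset.mem_univ j)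
  set W : Cn n → ℝ := v + c • N with hW
  have hWs : ∀ z ∈ closedBall z₀ R, ContDiffAt ℝ ∞ W z := fun z hz =>
    (hv z hz).add ((hNs z).const_smul c)
  have hWe : ∀ z, W z = v z + c * N z := fun z => rfl
  have hW0 : W z₀ = v z₀ := by simp [hWe, hN]
  have hLM : ∀ z ∈ closedBall z₀ R, LM W z = LM v z + (c : ℂ) • 1 := fun z hz => by
    rw [hW, LM_add (ψ := c • N) (hv z hz) ((hNs z).const_smul c), LM_smul (hNs z), hN, LM_normSq]
  have hD : ∀ z ∈ closedBall z₀ R, ContDiffAt ℝ ∞ (fderiv ℝ W) z := fun z hz =>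
    (hWs z hz).fderiv_right (m := ∞) (by simp)
  have hH : ContinuousOn (fderiv ℝ (fderiv ℝ W)) (closedBall z₀ R) := fun z hz =>
    ((hD z hz).fderiv_right (m := ∞) (by simp)).continuousAt.continuousWithinAt
  have hcl : IsClosed {B : Cn n →L[ℝ] Cn n →L[ℝ] ℝ | ∀ ξ, 0 ≤ B ξ ξ} := by
    rw [ofPred_forall]
    exact isClosed_iInter fun ξ => isClosed_le continuous_const (by fun_prop)
  have c1 := hH.preimage_isClosed_of_isClosed isClosed_closedBall hcl
  have c2 := ContinuousOn.preimage_isClosed_of_isClosed (f := W) (fun z hz =>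
    (hWs z hz).continuousAt.continuousWithinAt) isClosed_closedBall
    (isClosed_Iic (a := v z₀ + c * R ^ 2))
  have hS := (measurableSet_ball (x := z₀) (ε := R)).inter (c1.inter c2).measurableSet
  have h1 := addHaar_image_le_lintegral_abs_det_fderiv volume hS
    (f := fun z => gradL n (fderiv ℝ W z))
    (f' := fun z => (gradL n).comp (fderiv ℝ (fderiv ℝ W) z)) fun z hz =>
      ((gradL n).hasFDerivAt.comp z
        ((hD z hz.2.1.1).differentiableAt (by simp)).hasFDerivAt).hasFDerivWithinAt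
  have hi : IntegrableOn (fun z => 16 ^ n * h z ^ 2) (ball z₀ R) :=
    ((continuousOn_const.mul (hh.pow 2)).integrableOn_compact (isCompact_closedBall z₀ R)).mono_set
      ball_subset_closedBall
  have h2 : volume (ball (0 : Cn n) (c * R / (2 * (n + 1)))) ≤
      ENNReal.ofReal (∫ z in ball z₀ R, 16 ^ n * h z ^ 2) := by
    rw [ofReal_integral_eq_lintegral_ofReal hi (Eventually.of_forall fun z => by positivity)]
    refine (measure_mono fun q hq => ?_).trans (h1.trans ((setLIntegral_mono' hS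
      fun z hz => ENNReal.ofReal_le_ofReal ?_).trans (lintegral_mono_set inter_subset_left)))
    · obtain ⟨p, hp, hp'⟩ := exists_gradL q
      obtain ⟨z, hz, e, h3, h4⟩ := exists_contact (p := p) hR hc hWs (fun z hz => by
        have h5 := hNn z
        rw [mem_sphere_iff_norm.1 hz] at h5
        have h6 := hmin z (sphere_subset_closedBall hz)
        rw [hW0, hWe]
        nlinarith) fun η => (hp' η).trans (mul_le_mul_of_nonneg_right (by
          have h5 := mem_ball_zero_iff.1 hq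
          rw [lt_div_iff₀ (by positivity)] at h5
          nlinarith [norm_nonneg q]) (norm_nonneg _))
      have hz' := ball_subset_closedBall hz
      exact ⟨z, ⟨hz, ⟨hz', h3⟩, hz', hW0 ▸ h4⟩, by rw [← hp, ← e]⟩
    · obtain ⟨h3, h4⟩ := det_hess_le (hWs z hz.2.1.1) hz.2.1.2
      have h5 : v z ≤ v z₀ + c * R ^ 2 := by
        have h6 : W z ≤ v z₀ + c * R ^ 2 := hz.2.2.2
        rw [hWe] at h6
        nlinarith [hN0 z]
      have h6 := det_re_nonneg h3
      rw [hLM z hz.2.1.1] at h3 h4 h6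
      exact h4.trans (mul_le_mul_of_nonneg_left (pow_le_pow_left₀ h6 (hdet z hz.1 h5 h3) 2)
        (by positivity))
  have h3 := ENNReal.toReal_le_of_le_ofReal (integral_nonneg fun z => by positivity) h2
  rw [integral_const_mul] at h3
  rw [div_le_iff₀' (by positivity)]
  exact h3

end Vale.Agent.P272
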