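import Vale.Agent.P272.Api
import Vale.Agent.P272.PPa2

/-! P272: the Alexandrov-Bakelman-Pucci estimate on the manifold. -/

open MeasureTheory Set Filter Topology Metric Matrix
open scoped ContDiff ComplexConjugate ComplexOrder

noncomputable section

namespace Vale.Agent.P272

open Vale.Agent.P271

variable {n : ℕ} {X : Type} [TopologicalSpace X] [T2Space X] [CompactSpace X]
  [MeasurableSpace X] [BorelSpace X] {M : Model n X}

omit [T2Space X] in
theorem PPa3_int (M : Model n X) (a : M.ι) {g : X → ℝ} (hg : Continuous g) {U : Set (Cn n)}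
    (hU : IsOpen U) (hs : U ⊆ (M.e a).target) :
    ∫ z in U, g ((M.e a).symm z) ^ 2 * ‖M.k a ((M.e a).symm z)‖ ^ 2 ≤ ∫ p, g p ^ 2 ∂M.μ := by
  have hS : MeasurableSet ((M.e a).source ∩ M.e a ⁻¹' U) :=
    ((M.e a).isOpen_inter_preimage hU).measurableSet
  have hi : Integrable (fun p => g p ^ 2) M.μ :=
    (hg.pow 2).integrable_of_hasCompactSupport (HasCompactSupport.of_compactSpace _)
  have h1 := integral_chart M a (hi.indicator hS).1 fun p hp =>
    indicator_of_notMem (fun h => hp h.1) _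
  have h2 : ∫ z in (M.e a).target, ((M.e a).source ∩ M.e a ⁻¹' U).indicator (fun p => g p ^ 2)
      ((M.e a).symm z) * ‖M.k a ((M.e a).symm z)‖ ^ 2 = ∫ z in (M.e a).target,
      U.indicator (fun z => g ((M.e a).symm z) ^ 2 * ‖M.k a ((M.e a).symm z)‖ ^ 2) z := by
    refine setIntegral_congr_fun (M.e a).open_target.measurableSet fun z hz => ?_
    have e : (M.e a).symm z ∈ (M.e a).source ∩ M.e a ⁻¹' U ↔ z ∈ U := by
      rw [mem_inter_iff, mem_preimage, (M.e a).right_inv hz]
      exact and_iff_right ((M.e a).map_target hz)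
    by_cases h : z ∈ U
    · simp only [indicator_of_mem h, indicator_of_mem (e.2 h)]
    · simp only [indicator_of_notMem h, indicator_of_notMem (mt e.1 h), zero_mul]
  rw [h2, setIntegral_indicator hU.measurableSet, inter_eq_self_of_subset_right hs] at h1
  rw [← h1, integral_indicator hS]
  exact setIntegral_le_integral hi (Eventually.of_forall fun p => sq_nonneg _)

/-- Let `y` be a minimum point of `v`, `m = v y`, and `R, c, K, a` from `exists_margin`. Apply
`abp_loc` with `h = exp (m + c R²) |g| ‖k a‖²` (`det_mono`, `dt_eq`). With `κ` a bound for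
`‖k a‖²` on all `K a`, `integral_chart` for the indicator of the preimage of the ball gives
`δ ≤ exp (2 m + 2 c R²) κ B`. -/
theorem abp' {w : Frm M.toAtl} (hw : Kae M.toAtl w) (B : ℝ) :
    ∃ C : ℝ, ∀ (v g : X → ℝ), M.Sm v → Continuous g → PosF M.toAtl (w + ddc M.toAtl v) →
      (∀ p, dt M (w + ddc M.toAtl v) p ≤ Real.exp (v p) * g p) → ∫ p, g p ^ 2 ∂M.μ ≤ B →
      ∀ p, -C ≤ v p := by
  obtain ⟨R, c, hR, hc, K, hK, hKs, hcov, hm⟩ := exists_margin hw
  obtain ⟨δ, hδ, habp⟩ := abp_loc n hR hc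
  have hk : ∀ a, ContinuousOn (fun z => ‖M.k a ((M.e a).symm z)‖ ^ 2) (M.e a).target := fun a =>
    (M.k_gauge.sm a).continuousOn
  choose κ hκ using fun a => (hK a).exists_bound_of_continuousOn ((hk a).mono (hKs a))
  have hκ0 : 0 < (∑ a, |κ a|) + 1 := by positivity
  have hκ1 : ∀ a, ∀ z ∈ K a, ‖M.k a ((M.e a).symm z)‖ ^ 2 ≤ (∑ a, |κ a|) + 1 := fun a z hz => by
    have h1 := Finset.single_le_sum (f := fun a => |κ a|) (fun _ _ => abs_nonneg _)
      (Finset.mem_univ a)
    linarith [le_abs_self (κ a), (le_abs_self _).trans (hκ a z hz)]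
  generalize (∑ a, |κ a|) + 1 = κ₀ at hκ0 hκ1
  refine ⟨c * R ^ 2 - Real.log (δ / (κ₀ * (|B| + 1))) / 2, fun v g hv hg _ hdt hB p => ?_⟩
  obtain ⟨y, -, hy⟩ := isCompact_univ.exists_isMinOn ⟨p, mem_univ p⟩ hv.continuous.continuousOn
  obtain ⟨a, ha, hb⟩ := hcov y
  have hbt : closedBall (M.e a y) R ⊆ (M.e a).target := hb.trans (hKs a)
  have hgc : ContinuousOn (fun z => g ((M.e a).symm z)) (closedBall (M.e a y) R) :=
    hg.comp_continuousOn ((M.e a).continuousOn_symm.mono hbt)
  have hkc := (hk a).mono hbt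
  have hE := Real.exp_pos (v y + c * R ^ 2)
  have hsm : ∀ z ∈ (M.e a).target, ContDiffAt ℝ ∞ (M.loc a v) z := fun z hz =>
    (isF_ddc hv).smAt hz
  have h1 := habp (M.loc a v)
    (fun z => Real.exp (v y + c * R ^ 2) * (|g ((M.e a).symm z)| * ‖M.k a ((M.e a).symm z)‖ ^ 2))
    (M.e a y) (fun z hz => hsm z (hbt hz))
    (fun z _ => by
      rw [M.loc_e a v ha]
      exact hy (mem_univ _))
    (continuousOn_const.mul (hgc.abs.mul hkc)) fun z hz hle hps => by
      have hz' := ball_subset_closedBall hz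
      have hq := (M.e a).map_target (hbt hz')
      have h2 := dt_eq (hw.1.add (isF_ddc hv)) hq
      have h3 := Api_k_pos M hq
      rw [(M.e a).right_inv (hbt hz'), eq_div_iff h3.ne', Pi.add_apply,
        LM_add (hw.1.smAt (hbt hz')) ((isF_ddc hv).smAt (hbt hz'))] at h2
      have h4 := det_mono (B := LM (w a) z + LM (M.loc a v) z) hps (by
        rw [show LM (w a) z + LM (M.loc a v) z - (LM (M.loc a v) z + (c : ℂ) • 1) =
          LM (w a) z - (c : ℂ) • 1 by abel]
        exact (hm a z (hb hz')).1)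
      rw [M.loc_e a v ha] at hle
      refine h4.trans (h2.symm.trans_le ?_)
      rw [← mul_assoc]
      refine mul_le_mul_of_nonneg_right ((hdt _).trans ?_) h3.le
      exact (mul_le_mul_of_nonneg_left (le_abs_self _) (Real.exp_pos _).le).trans
        (mul_le_mul_of_nonneg_right (Real.exp_le_exp.2 hle) (abs_nonneg _))
  have hi : ∀ {f : Cn n → ℝ}, ContinuousOn f (closedBall (M.e a y) R) →
      IntegrableOn f (ball (M.e a y) R) := fun hf =>
    (hf.integrableOn_compact (isCompact_closedBall _ _)).mono_set ball_subset_closedBall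
  have h2 := setIntegral_mono_on (hi ((continuousOn_const.mul (hgc.abs.mul hkc)).pow 2))
    (hi (continuousOn_const.mul ((hgc.pow 2).mul hkc))) measurableSet_ball
    (f := fun z => (Real.exp (v y + c * R ^ 2) *
      (|g ((M.e a).symm z)| * ‖M.k a ((M.e a).symm z)‖ ^ 2)) ^ 2)
    (g := fun z => Real.exp (v y + c * R ^ 2) ^ 2 * κ₀ *
      (g ((M.e a).symm z) ^ 2 * ‖M.k a ((M.e a).symm z)‖ ^ 2)) fun z hz => by
      have h3 := hκ1 a z (hb (ball_subset_closedBall hz))
      have h4 : 0 ≤ Real.exp (v y + c * R ^ 2) ^ 2 *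
          (g ((M.e a).symm z) ^ 2 * ‖M.k a ((M.e a).symm z)‖ ^ 2) := by positivity
      rw [mul_pow, mul_pow, sq_abs]
      nlinarith [mul_le_mul_of_nonneg_left h3 h4]
  rw [integral_const_mul] at h2
  have h3 := (PPa3_int M a hg isOpen_ball (ball_subset_closedBall.trans hbt)).trans
    (hB.trans ((le_abs_self B).trans (le_add_of_nonneg_right zero_le_one)))
  have h4 : δ / (κ₀ * (|B| + 1)) ≤ Real.exp (v y + c * R ^ 2) ^ 2 := by
    rw [div_le_iff₀ (by positivity), ← mul_assoc]
    exact (h1.trans h2).trans (mul_le_mul_of_nonneg_left h3 (by positivity))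
  have h5 := Real.log_le_log (by positivity) h4
  rw [Real.log_pow, Real.log_exp] at h5
  have h6 : v y ≤ v p := hy (mem_univ p)
  push_cast at h5
  linarith

end Vale.Agent.P272
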