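import Vale.Agent.P272.Green

/-! P272: exponential integrability of subharmonic functions in a disc. -/

open MeasureTheory Set Filter Topology Metric Matrix
open scoped ContDiff ComplexConjugate ComplexOrder

noncomputable section

namespace Vale.Agent.P272

open Vale.Agent.P271

/-- Jensen's inequality for a weight of mass at most one: with `I = ∫ f h` integrate
`exp I * (1 + f - I) * h ≤ exp f * h ≤ g * h` and use `exp I * (1 - I) ≤ 1`. -/
theorem jensen_exp {α : Type} [MeasurableSpace α] {ν : Measure α} {f g h : α → ℝ}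
    (h0 : ∀ᵐ x ∂ν, 0 ≤ h x) (hh : Integrable h ν) (h1 : ∫ x, h x ∂ν ≤ 1)
    (hf : Integrable (fun x => f x * h x) ν) (hg : AEStronglyMeasurable g ν)
    (hfg : ∀ᵐ x ∂ν, Real.exp (f x) ≤ g x) :
    ENNReal.ofReal (Real.exp (∫ x, f x * h x ∂ν)) ≤ 1 + ∫⁻ x, ENNReal.ofReal (g x * h x) ∂ν := by
  have hn : 0 ≤ᵐ[ν] fun x => g x * h x := by
    filter_upwards [h0, hfg] with x h1 h2
    exact mul_nonneg ((Real.exp_pos _).le.trans h2) h1
  by_cases hI : Integrable (fun x => g x * h x) ν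
  · obtain ⟨I, hI'⟩ : ∃ I, I = ∫ x, f x * h x ∂ν := ⟨_, rfl⟩
    have h2 : ∫ x, Real.exp I * ((1 - I) * h x + f x * h x) ∂ν ≤ ∫ x, g x * h x ∂ν := by
      refine integral_mono_ae (((hh.const_mul _).add hf).const_mul _) hI ?_
      filter_upwards [h0, hfg] with x h1 h2
      have h3 : Real.exp I * (f x - I + 1) ≤ g x := by
        refine le_trans (mul_le_mul_of_nonneg_left (Real.add_one_le_exp _) (Real.exp_pos I).le) ?_
        rwa [← Real.exp_add, add_sub_cancel]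
      nlinarith [mul_le_mul_of_nonneg_right h3 h1]
    rw [integral_const_mul, integral_add (hh.const_mul _) hf, integral_const_mul, ← hI'] at h2
    have h3 : 0 ≤ ∫ x, h x ∂ν := integral_nonneg_of_ae h0
    have h4 : Real.exp I * (-I + 1) ≤ 1 := by
      refine le_trans (mul_le_mul_of_nonneg_left (Real.add_one_le_exp _) (Real.exp_pos I).le) ?_
      rw [← Real.exp_add, add_neg_cancel, Real.exp_zero]
    rw [← ofReal_integral_eq_lintegral_ofReal hI hn, ← hI', ← ENNReal.ofReal_one,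
      ← ENNReal.ofReal_add zero_le_one (integral_nonneg_of_ae hn)]
    refine ENNReal.ofReal_le_ofReal ?_
    nlinarith [mul_le_mul_of_nonneg_left h4 (sub_nonneg.2 h1)]
  · have h2 := (lintegral_ofReal_ne_top_iff_integrable (hg.mul hh.aestronglyMeasurable) hn).not.2 hI
    rw [not_not] at h2
    exact le_add_left (le_top.trans h2.ge)

/-- For `‖ζ‖ ≤ 3 / 2` the quotient `log (4 / 3) / log (2 / ‖ζ‖)` is at most one and
`exp gr ≤ 3 / ‖ζ - t‖`. For `‖ζ‖ ≥ 3 / 2`,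
`2 gr = log (1 + (4 - ‖ζ‖²) (4 - ‖t‖²) / (4 ‖ζ - t‖²)) ≤ 16 (2 - ‖ζ‖)` and
`log (2 / ‖ζ‖) ≥ 1 - ‖ζ‖ / 2`. -/
theorem gr_div_le {t ζ : ℂ} (ht : ‖t‖ < 1) (hζ : ‖ζ‖ < 2) (h0 : ζ ≠ 0) (h1 : ζ ≠ t) :
    Real.exp (Real.log (4 / 3) * gr 2 t ζ / Real.log (2 / ‖ζ‖)) ≤
      Real.exp 16 + 3 / ‖ζ - t‖ := by
  have hz : 0 < ‖ζ‖ := norm_pos_iff.2 h0
  have hd : 0 < ‖ζ - t‖ := norm_pos_iff.2 (sub_ne_zero.2 h1)
  have hg : 0 ≤ gr 2 t ζ := gr_nonneg (by linarith) hζ
  have ha : 0 < Real.log (4 / 3) := Real.log_pos (by norm_num)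
  have hw : 0 < Real.log (2 / ‖ζ‖) := Real.log_pos ((one_lt_div hz).2 hζ)
  have hsq := green_sq 2 t ζ
  have ht0 := norm_nonneg t
  have hA : 0 < (2 ^ 2 - ‖ζ‖ ^ 2) * (2 ^ 2 - ‖t‖ ^ 2) := mul_pos (by nlinarith) (by nlinarith)
  have hN : 0 < ‖((2 : ℝ) : ℂ) ^ 2 - conj t * ζ‖ := by
    refine (norm_nonneg _).lt_of_ne fun h => ?_
    rw [← h] at hsq
    nlinarith
  rcases le_total ‖ζ‖ (3 / 2) with h | h
  · have h2 : Real.log (4 / 3) ≤ Real.log (2 / ‖ζ‖) :=
      Real.log_le_log (by norm_num) (by rw [le_div_iff₀ hz]; linarith)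
    have h3 : Real.log (4 / 3) * gr 2 t ζ / Real.log (2 / ‖ζ‖) ≤ gr 2 t ζ := by
      rw [div_le_iff₀ hw]
      nlinarith
    refine (Real.exp_le_exp.2 h3).trans (le_add_of_nonneg_of_le (Real.exp_pos _).le ?_)
    have h4 : ‖((2 : ℝ) : ℂ) ^ 2 - conj t * ζ‖ ≤ 6 := by
      refine (norm_sub_le _ _).trans ?_
      rw [norm_mul, Complex.norm_conj, norm_pow, Complex.norm_real, Real.norm_two]
      nlinarith
    rw [gr, Real.exp_log (by positivity), div_le_div_iff₀ (by positivity) hd]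
    nlinarith
  · refine le_add_of_le_of_nonneg (Real.exp_le_exp.2 ?_) (by positivity)
    have h2 : 1 - ‖ζ‖ / 2 ≤ Real.log (2 / ‖ζ‖) := by
      have := Real.one_sub_inv_le_log_of_pos (x := 2 / ‖ζ‖) (by positivity)
      rwa [inv_div] at this
    have h3 : 1 / 2 ≤ ‖ζ - t‖ := by linarith [norm_sub_norm_le ζ t]
    have h4 : 2 * gr 2 t ζ ≤ 16 * (2 - ‖ζ‖) := by
      have h5 := Real.log_le_sub_one_of_pos
        (x := (‖((2 : ℝ) : ℂ) ^ 2 - conj t * ζ‖ / (2 * ‖ζ - t‖)) ^ 2) (by positivity)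
      rw [Real.log_pow] at h5
      refine h5.trans ?_
      rw [div_pow, sub_le_iff_le_add, div_le_iff₀ (by positivity)]
      have h6 : 1 ≤ (2 * ‖ζ - t‖) ^ 2 := by nlinarith
      have h7 : (2 ^ 2 - ‖ζ‖ ^ 2) * (2 ^ 2 - ‖t‖ ^ 2) ≤ 16 * (2 - ‖ζ‖) := by
        nlinarith [mul_nonneg (sub_pos.2 hζ).le (sq_nonneg ‖t‖), sq_nonneg (2 - ‖ζ‖),
          mul_nonneg (mul_nonneg (sub_pos.2 hζ).le (sq_nonneg ‖t‖)) hz.le]
      nlinarith [mul_le_mul_of_nonneg_left h6 (show 0 ≤ 16 * (2 - ‖ζ‖) by linarith)]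
    have h5 : Real.log (4 / 3) ≤ 1 := by
      linarith [Real.log_le_sub_one_of_pos (x := 4 / 3) (by norm_num)]
    rw [div_le_iff₀ hw]
    nlinarith

/-- Translate and compare with the integral of `1 / ‖t‖` on the disc of radius three
(`integrableOn_fun_norm_addHaar`). -/
theorem exists_inv_bound : ∃ C : ℝ, ∀ ζ : ℂ, ‖ζ‖ < 2 →
    ∫⁻ t in ball (0 : ℂ) 1, ENNReal.ofReal (Real.exp 16 + 3 / ‖ζ - t‖) ≤ ENNReal.ofReal C := by
  have hI : IntegrableOn (fun t : ℂ => Real.exp 16 + 3 / ‖t‖) (ball 0 3) := by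
    refine (integrableOn_const measure_ball_lt_top.ne).add ?_
    rw [integrableOn_fun_norm_addHaar volume (f := fun y : ℝ => 3 / y),
      Complex.finrank_real_complex]
    refine (integrableOn_const (C := (3 : ℝ)) measure_Ioo_lt_top.ne).congr_fun (fun y hy => ?_)
      measurableSet_Ioo
    have := hy.1.ne'
    simp only [Nat.add_one_sub_one, pow_one, smul_eq_mul]
    field_simp
  refine ⟨∫ t in ball (0 : ℂ) 3, (Real.exp 16 + 3 / ‖t‖), fun ζ hζ => ?_⟩
  rw [ofReal_integral_eq_lintegral_ofReal hI (Eventually.of_forall fun t => by positivity),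
    ← (Measure.measurePreserving_sub_left volume ζ).setLIntegral_comp_preimage
      (s := ball 0 3) measurableSet_ball (by fun_prop)]
  refine lintegral_mono_set fun t ht => ?_
  rw [mem_preimage, mem_ball_zero_iff] at *
  linarith [norm_sub_le ζ t]

theorem ppe1_point {s : ℂ → ℝ} (hs : ContDiff ℝ 2 s)
    (h0 : ∀ ζ ∈ closedBall (0 : ℂ) 2, 0 ≤ Laplacian.laplacian s ζ ∧ s ζ ≤ 0) (h1 : -1 ≤ s 0) :
    1 / (2 * Real.pi) * ∫ ζ in ball (0 : ℂ) 2, Real.log (2 / ‖ζ‖) * Laplacian.laplacian s ζ ≤ 1 ∧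
      ∀ t : ℂ, ‖t‖ < 1 →
        -s t ≤ 3 + 1 / (2 * Real.pi) * ∫ ζ in ball (0 : ℂ) 2, gr 2 t ζ * Laplacian.laplacian s ζ := by
  have hJ := green_jensen (u := s) two_pos fun _ _ => hs.contDiffAt
  have hc : CircleIntegrable s 0 2 := hs.continuous.continuousOn.circleIntegrable zero_le_two
  have hm : ∀ x ∈ sphere (0 : ℂ) |2|, ‖x‖ = 2 ∧ s x ≤ 0 := fun x hx => by
    rw [abs_two] at hx
    exact ⟨mem_sphere_zero_iff_norm.1 hx, (h0 x (sphere_subset_closedBall hx)).2⟩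
  have hA := Real.circleAverage_mono_on_of_le_circle hc fun x hx => (hm x hx).2
  have hp : 0 ≤ 1 / (2 * Real.pi) *
      ∫ ζ in ball (0 : ℂ) 2, Real.log (2 / ‖ζ‖) * Laplacian.laplacian s ζ := by
    refine mul_nonneg (by positivity) (setIntegral_nonneg measurableSet_ball fun ζ hζ => ?_)
    rw [← gr_zero two_pos]
    exact mul_nonneg (gr_nonneg (by simp) (mem_ball_zero_iff.1 hζ))
      (h0 ζ (ball_subset_closedBall hζ)).1
  refine ⟨by linarith, fun t ht => ?_⟩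
  have ht2 : ‖t‖ < 2 := by linarith
  have hP := green_poisson (u := s) ht2 fun _ _ => hs.contDiffAt
  have hc' : CircleIntegrable (fun ξ => po 2 t ξ * s ξ) 0 2 := by
    refine ContinuousOn.circleIntegrable zero_le_two (ContinuousOn.mul ?_ hs.continuous.continuousOn)
    refine continuousOn_const.div (by fun_prop) fun ξ hξ =>
      pow_ne_zero 2 (norm_ne_zero_iff.2 (sub_ne_zero.2 fun h => ?_))
    rw [h, mem_sphere_zero_iff_norm] at hξ
    linarith
  have h3 := Real.circleAverage_mono (f₁ := fun ξ => (3 : ℝ) • s ξ) (hc.const_fun_smul (a := 3)) hc'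
    fun x hx => by
      have h4 : po 2 t x ≤ 3 := (po_le ht2 (hm x hx).1).2.trans (by
        rw [div_le_iff₀ (by linarith)]
        linarith)
      exact mul_le_mul_of_nonpos_right h4 (hm x hx).2
  rw [Real.circleAverage_fun_smul, smul_eq_mul] at h3
  linarith

theorem ppe1_main : ∃ a C : ℝ, 0 < a ∧ ∀ s : ℂ → ℝ, ContDiff ℝ 2 s →
    (∀ ζ ∈ closedBall (0 : ℂ) 2, 0 ≤ Laplacian.laplacian s ζ ∧ s ζ ≤ 0) →
    -1 ≤ s 0 → ∫⁻ t in ball (0 : ℂ) 1, ENNReal.ofReal (Real.exp (-a * s t)) ≤ ENNReal.ofReal C := by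
  obtain ⟨C, hC⟩ := exists_inv_bound
  have ha : 0 < Real.log (4 / 3) := Real.log_pos (by norm_num)
  generalize hA : Real.log (4 / 3) = a at ha
  refine ⟨a, (ENNReal.ofReal (Real.exp (3 * a)) * (volume (ball (0 : ℂ) 1) + ENNReal.ofReal C)).toReal,
    ha, fun s hs h0 h1 => ?_⟩
  rw [ENNReal.ofReal_toReal (ENNReal.mul_ne_top ENNReal.ofReal_ne_top
    (ENNReal.add_ne_top.2 ⟨measure_ball_lt_top.ne, ENNReal.ofReal_ne_top⟩))]
  obtain ⟨p1, p2⟩ := ppe1_point hs h0 h1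
  have cL := greenX1_cont_lap hs
  generalize Laplacian.laplacian s = L at *
  obtain ⟨B, hB⟩ := (isCompact_closedBall (0 : ℂ) 2).exists_bound_of_continuousOn cL.continuousOn
  obtain ⟨h, hh⟩ : ∃ h : ℂ → ℝ, h = fun ζ => 1 / (2 * Real.pi) * (Real.log (2 / ‖ζ‖) * L ζ) :=
    ⟨_, rfl⟩
  have mh : Measurable h := by
    have := cL.measurable
    rw [hh]
    fun_prop
  have ih : IntegrableOn h (ball 0 2) :=
    hh ▸ (greenX1_int two_pos cL.continuousOn).const_mul _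
  have nh : ∀ᵐ ζ ∂volume.restrict (ball (0 : ℂ) 2), 0 ≤ h ζ :=
    (ae_restrict_iff' measurableSet_ball).2 (Eventually.of_forall fun ζ hζ => by
      rw [hh]
      simp only [← gr_zero two_pos]
      exact mul_nonneg (by positivity) (mul_nonneg (gr_nonneg (by simp) (mem_ball_zero_iff.1 hζ))
        (h0 ζ (ball_subset_closedBall hζ)).1))
  have h1' : ∫ ζ in ball (0 : ℂ) 2, h ζ ≤ 1 := by rwa [hh, integral_const_mul]
  have key : ∀ t ∈ ball (0 : ℂ) 1, ENNReal.ofReal (Real.exp (-a * s t)) ≤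
      ENNReal.ofReal (Real.exp (3 * a)) * (1 + ∫⁻ ζ in ball (0 : ℂ) 2,
        ENNReal.ofReal (Real.exp 16 + 3 / ‖ζ - t‖) * ENNReal.ofReal (h ζ)) := by
    intro t ht
    rw [mem_ball_zero_iff] at ht
    have e : (fun ζ => a * (1 / (2 * Real.pi) * (gr 2 t ζ * L ζ))) =ᵐ[volume.restrict (ball 0 2)]
        fun ζ => a * gr 2 t ζ / Real.log (2 / ‖ζ‖) * h ζ := by
      refine (ae_restrict_iff' measurableSet_ball).2 ?_
      filter_upwards [Measure.ae_ne volume (0 : ℂ)] with ζ hz hζ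
      have := (Real.log_pos ((one_lt_div (norm_pos_iff.2 hz)).2 (mem_ball_zero_iff.1 hζ))).ne'
      rw [hh]
      field_simp
    have i1 : IntegrableOn (fun ζ => gr 2 t ζ * L ζ) (ball 0 2) :=
      (integrableOn_gr (by linarith)).mul_bdd (c := B) cL.aestronglyMeasurable
        ((ae_restrict_iff' measurableSet_ball).2
          (Eventually.of_forall fun z hz => hB z (ball_subset_closedBall hz)))
    have j := jensen_exp (g := fun ζ => Real.exp 16 + 3 / ‖ζ - t‖) nh ih h1'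
      (((i1.const_mul _).const_mul a).congr e) (Measurable.aestronglyMeasurable (by fun_prop)) (by
        refine (ae_restrict_iff' measurableSet_ball).2 ?_
        filter_upwards [Measure.ae_ne volume (0 : ℂ), Measure.ae_ne volume t] with ζ hz hz' hζ
        exact hA ▸ gr_div_le ht (mem_ball_zero_iff.1 hζ) hz hz')
    rw [← integral_congr_ae e, integral_const_mul, integral_const_mul] at j
    simp only [fun ζ => ENNReal.ofReal_mul (q := h ζ)
      (show 0 ≤ Real.exp 16 + 3 / ‖ζ - t‖ by positivity)] at j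
    refine le_trans ?_ (mul_le_mul_right j _)
    rw [← ENNReal.ofReal_mul (Real.exp_pos _).le, ← Real.exp_add]
    refine ENNReal.ofReal_le_ofReal (Real.exp_le_exp.2 ?_)
    nlinarith [mul_le_mul_of_nonneg_left (p2 t ht) ha.le]
  refine (setLIntegral_mono' measurableSet_ball key).trans ?_
  rw [lintegral_const_mul' _ _ ENNReal.ofReal_ne_top, lintegral_add_left measurable_const,
    lintegral_lintegral_swap (Measurable.aemeasurable (by unfold Function.uncurry; fun_prop)),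
    setLIntegral_const, one_mul]
  refine mul_le_mul_right (add_le_add_right ?_ _) _
  refine (setLIntegral_mono' measurableSet_ball
    (g := fun ζ => ENNReal.ofReal C * ENNReal.ofReal (h ζ)) fun ζ hζ => ?_).trans ?_
  · rw [lintegral_mul_const' _ _ ENNReal.ofReal_ne_top]
    exact mul_le_mul_left (hC ζ (mem_ball_zero_iff.1 hζ)) _
  · rw [lintegral_const_mul' _ _ ENNReal.ofReal_ne_top, ← ofReal_integral_eq_lintegral_ofReal ih nh]
    exact mul_le_of_le_one_right' (ENNReal.ofReal_le_one.2 h1')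

/-- Take `a = log (4 / 3)` and `h = log (2 / ‖ζ‖) Δ s / (2 π)`. By `green_jensen` the mean of `-s` on
the circle and `∫ h` are at most one; by `green_poisson` and `po_le`,
`-s t ≤ 3 + 1 / (2 π) ∫ gr 2 t Δ s`; then `jensen_exp`, `gr_div_le`, Tonelli and
`exists_inv_bound`. -/
theorem exp_disc : ∃ a C : ℝ, 0 < a ∧ ∀ s : ℂ → ℝ,
    (∀ ζ ∈ closedBall (0 : ℂ) 2, ContDiffAt ℝ 2 s ζ ∧ 0 ≤ Laplacian.laplacian s ζ ∧ s ζ ≤ 0) →
    -1 ≤ s 0 → ∫⁻ t in ball (0 : ℂ) 1, ENNReal.ofReal (Real.exp (-a * s t)) ≤ ENNReal.ofReal C := by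
  obtain ⟨a, C, ha, H⟩ := ppe1_main
  refine ⟨a, C, ha, fun s hs h1 => ?_⟩
  obtain ⟨v, hv, e⟩ := greenX1_ext fun ζ hζ => (hs ζ hζ).1
  refine le_trans (le_of_eq (setLIntegral_congr_fun measurableSet_ball fun t ht => ?_))
    (H v hv (fun ζ hζ => ?_) ?_)
  · rw [(e t (closedBall_subset_closedBall one_le_two (ball_subset_closedBall ht))).eq_of_nhds]
  · rw [(InnerProductSpace.laplacian_congr_nhds (e ζ hζ)).eq_of_nhds, (e ζ hζ).eq_of_nhds]
    exact (hs ζ hζ).2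
  · rwa [(e 0 (mem_closedBall_self zero_le_two)).eq_of_nhds]

end Vale.Agent.P272
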