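import Vale.Agent.P272.Loc
import Vale.Agent.P272.PPe1

/-! P272: exponential integrability of plurisubharmonic functions in a ball. -/

open MeasureTheory Set Filter Topology Metric Matrix
open scoped ContDiff ComplexConjugate ComplexOrder

noncomputable section

namespace Vale.Agent.P272

open Vale.Agent.P271

variable {n : ℕ}

/-- The map `z ↦ ζ • z` has real determinant `‖ζ‖ ^ (2 n) ≤ 1` (`LinearMap.det_restrictScalars`,
`Measure.map_linearMap_addHaar_eq_smul_addHaar`) and the preimage of the ball of radius `ρ` lies in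
the ball of radius `2 ρ`. -/
theorem lintegral_smul_le {F : Cn n → ENNReal} (hF : Measurable F) {ζ : ℂ} (h1 : 1 / 2 ≤ ‖ζ‖)
    (h2 : ‖ζ‖ ≤ 1) (y : Cn n) (ρ : ℝ) :
    ∫⁻ z in ball y ρ, F z ≤ ∫⁻ z in ball (0 : Cn n) (2 * ρ), F (y + ζ • z) := by
  have hζ : ζ ≠ 0 := norm_pos_iff.1 (by linarith)
  let L : Cn n →L[ℝ] Cn n := (ζ • ContinuousLinearMap.id ℂ (Cn n)).restrictScalars ℝ
  have hL : |L.det| ≤ 1 := by
    have h3 : L.det = Algebra.norm ℝ (LinearMap.det (ζ • LinearMap.id : Cn n →ₗ[ℂ] Cn n)) :=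
      LinearMap.det_restrictScalars (f := (ζ • LinearMap.id : Cn n →ₗ[ℂ] Cn n))
    rw [h3, LinearMap.det_smul, LinearMap.det_id, mul_one, Algebra.norm_complex_apply,
      abs_of_nonneg (Complex.normSq_nonneg _), Complex.normSq_eq_norm_sq, norm_pow]
    exact pow_le_one₀ (by positivity) (pow_le_one₀ (norm_nonneg _) h2)
  have h3 := lintegral_image_eq_lintegral_abs_det_fderiv_mul volume
    (f := fun z : Cn n => y + ζ • z) (f' := fun _ => L)
    (measurableSet_ball (x := (0 : Cn n)) (ε := 2 * ρ))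
    (fun z _ => (L.hasFDerivAt.const_add y).hasFDerivWithinAt)
    (fun z _ w _ h => smul_right_injective _ hζ (add_left_cancel h)) F
  have h4 : ball y ρ ⊆ (fun z : Cn n => y + ζ • z) '' ball 0 (2 * ρ) := by
    intro z hz
    refine ⟨ζ⁻¹ • (z - y), ?_, by simp [smul_inv_smul₀ hζ]⟩
    rw [mem_ball, dist_eq_norm] at hz
    rw [mem_ball_zero_iff, norm_smul, norm_inv, inv_mul_lt_iff₀ (norm_pos_iff.2 hζ)]
    nlinarith [norm_nonneg (z - y)]
  refine (lintegral_mono_set h4).trans (h3.trans_le (lintegral_mono fun z => ?_))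
  exact mul_le_of_le_one_left' (ENNReal.ofReal_le_one.2 hL)

/-- Apply `exp_disc` to `ζ ↦ s (y + ζ • z)` for `‖z‖ < 2 ρ` (`laplacian_comp`, `posSemidef_LM_iff`),
integrate in `z`, swap the integrals and use `lintegral_smul_le` on the annulus
`1 / 2 ≤ ‖ζ‖ < 1`. For measurability replace the integrand by its product with the indicator of the
closed ball. -/
theorem exp_ball (n : ℕ) {ρ : ℝ} (hρ : 0 < ρ) : ∃ a C : ℝ, 0 < a ∧ ∀ (s : Cn n → ℝ) (y : Cn n),
    (∀ z ∈ closedBall y (4 * ρ), ContDiffAt ℝ ∞ s z ∧ (LM s z).PosSemidef ∧ s z ≤ 0) →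
    -1 ≤ s y → ∫ z in ball y ρ, Real.exp (-a * s z) ≤ C := by
  classical
  obtain ⟨a, C, ha, hd⟩ := exp_disc
  have hm : volume (ball (3 / 4 : ℂ) (1 / 4)) ≠ 0 := (measure_ball_pos _ _ (by norm_num)).ne'
  refine ⟨a, (ENNReal.ofReal C * volume (ball (0 : Cn n) (2 * ρ)) /
    volume (ball (3 / 4 : ℂ) (1 / 4))).toReal, ha, fun s y hs h0 => ?_⟩
  have hc : ContinuousOn s (closedBall y (4 * ρ)) := fun z hz =>
    (hs z hz).1.continuousAt.continuousWithinAt
  have hs' : Measurable ((closedBall y (4 * ρ)).piecewise s 0) :=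
    hc.measurable_piecewise continuousOn_const measurableSet_closedBall
  set F : Cn n → ENNReal := fun z =>
    ENNReal.ofReal (Real.exp (-a * (closedBall y (4 * ρ)).piecewise s 0 z)) with hFd
  have hF : Measurable F := by fun_prop
  have hb : ball y ρ ⊆ closedBall y (4 * ρ) :=
    ball_subset_closedBall.trans (closedBall_subset_closedBall (by linarith))
  have hmem : ∀ z ∈ ball (0 : Cn n) (2 * ρ), ∀ t ∈ closedBall (0 : ℂ) 2,
      y + t • z ∈ closedBall y (4 * ρ) := fun z hz t ht => by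
    rw [mem_ball_zero_iff] at hz
    rw [mem_closedBall_zero_iff] at ht
    rw [mem_closedBall, dist_eq_norm, add_sub_cancel_left, norm_smul]
    nlinarith [norm_nonneg t, norm_nonneg z]
  have h1 : ∀ z ∈ ball (0 : Cn n) (2 * ρ),
      ∫⁻ t in ball (0 : ℂ) 1, F (y + t • z) ≤ ENNReal.ofReal C := by
    intro z hz
    refine le_trans (le_of_eq ?_) (hd (fun t => s (y + t • z)) (fun t ht => ?_) (by simpa using h0))
    · refine setLIntegral_congr_fun measurableSet_ball fun t ht => ?_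
      simp only [hFd]
      rw [piecewise_eq_of_mem _ _ _ (hmem z hz t
        (ball_subset_closedBall.trans (closedBall_subset_closedBall one_le_two) ht))]
    · obtain ⟨k1, k2, k3⟩ := hs _ (hmem z hz t ht)
      have k4 : AnalyticAt ℂ (fun w : ℂ => y + w • z) t :=
        analyticAt_const.add (analyticAt_id.smul analyticAt_const)
      refine ⟨?_, ?_, k3⟩
      · exact (k1.of_le (WithTop.coe_le_coe.2 le_top)).comp t
          (f := fun w : ℂ => y + w • z) (k4.contDiffAt.restrict_scalars ℝ)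
      · rw [laplacian_comp (g := fun w : ℂ => y + w • z) k1 k4]
        exact mul_nonneg (by norm_num) ((posSemidef_LM_iff k1).1 k2 _)
  have hA : ∀ t ∈ ball (3 / 4 : ℂ) (1 / 4), 1 / 2 ≤ ‖t‖ ∧ ‖t‖ < 1 := fun t ht => by
    rw [mem_ball, dist_eq_norm] at ht
    have k1 : ‖(3 / 4 : ℂ)‖ = 3 / 4 := by simp
    have k2 := abs_le.1 (abs_norm_sub_norm_le t (3 / 4))
    constructor <;> linarith [k2.1, k2.2]
  have h2 : (∫⁻ z in ball y ρ, F z) * volume (ball (3 / 4 : ℂ) (1 / 4)) ≤
      ENNReal.ofReal C * volume (ball (0 : Cn n) (2 * ρ)) :=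
    calc _ = ∫⁻ _ in ball (3 / 4 : ℂ) (1 / 4), ∫⁻ z in ball y ρ, F z := by
          rw [setLIntegral_const]
      _ ≤ ∫⁻ t in ball (3 / 4 : ℂ) (1 / 4), ∫⁻ z in ball (0 : Cn n) (2 * ρ), F (y + t • z) :=
          setLIntegral_mono' measurableSet_ball fun t ht =>
            lintegral_smul_le hF (hA t ht).1 (hA t ht).2.le y ρ
      _ ≤ ∫⁻ t in ball (0 : ℂ) 1, ∫⁻ z in ball (0 : Cn n) (2 * ρ), F (y + t • z) :=
          lintegral_mono_set fun t ht => mem_ball_zero_iff.2 (hA t ht).2
      _ = ∫⁻ z in ball (0 : Cn n) (2 * ρ), ∫⁻ t in ball (0 : ℂ) 1, F (y + t • z) :=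
          lintegral_lintegral_swap (hF.comp (by fun_prop :
            Measurable fun p : ℂ × Cn n => y + p.1 • p.2)).aemeasurable
      _ ≤ ∫⁻ _ in ball (0 : Cn n) (2 * ρ), ENNReal.ofReal C :=
          setLIntegral_mono' measurableSet_ball h1
      _ = _ := setLIntegral_const _ _
  have h3 : ∫ z in ball y ρ, Real.exp (-a * s z) = (∫⁻ z in ball y ρ, F z).toReal := by
    have k : ContinuousOn (fun z => Real.exp (-a * s z)) (ball y ρ) :=
      Real.continuous_exp.comp_continuousOn (continuousOn_const.mul (hc.mono hb))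
    rw [integral_eq_lintegral_of_nonneg_ae (Eventually.of_forall fun z => (Real.exp_pos _).le)
      (k.aestronglyMeasurable measurableSet_ball)]
    congr 1
    refine setLIntegral_congr_fun measurableSet_ball fun z hz => ?_
    simp only [hFd]
    rw [piecewise_eq_of_mem _ _ _ (hb hz)]
  rw [h3]
  refine ENNReal.toReal_mono (ENNReal.div_ne_top
    (ENNReal.mul_ne_top ENNReal.ofReal_ne_top measure_ball_lt_top.ne) hm) ?_
  exact (ENNReal.le_div_iff_mul_le (Or.inl hm) (Or.inl measure_ball_lt_top.ne)).2 h2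

end Vale.Agent.P272
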