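import Vale.Agent.P272.Api
import Vale.Agent.P272.PPe2

/-! P272: exponential integrability on the manifold. -/

open MeasureTheory Set Filter Topology Metric Matrix
open scoped ContDiff ComplexConjugate ComplexOrder

set_option linter.unusedSectionVars false

noncomputable section

namespace Vale.Agent.P272

open Vale.Agent.P271

variable {n : ℕ} {X : Type} [TopologicalSpace X] [T2Space X] [CompactSpace X]
  [MeasurableSpace X] [BorelSpace X] {M : Model n X}


/-- Take a chart `a` at `p` with `closedBall (e p) (9 ρ)` in the target, `V` the preimage of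
`ball (e p) ρ`, `b` a bound for `|β a|` and `K` for `‖k a‖ ^ 2` on the closed ball. Apply `exp_ball`
with radius `2 ρ` and centre `e y` to `s = (β a + u - b) / (|c| + 2 b + 1)`; `integral_chart` for
the indicator of `V`. -/
theorem exp_loc {β : Frm M.toAtl} (hβ : IsF M.toAtl β) (p : X) :
    ∃ V : Set X, IsOpen V ∧ p ∈ V ∧ ∀ c : ℝ, ∃ a C : ℝ, 0 < a ∧ ∀ u, M.Sm u →
      NnF M.toAtl (β + ddc M.toAtl u) → (∀ y, u y ≤ 0) → (∃ y ∈ V, -c ≤ u y) →
      ∫ y in V, Real.exp (-a * u y) ∂M.μ ≤ C := by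
  have hp := ch_mem M.toAtl p
  generalize ch M.toAtl p = j at hp
  obtain ⟨R, R0, hR⟩ := nhds_basis_closedBall.mem_iff.1
    ((M.e j).open_target.mem_nhds ((M.e j).map_source hp))
  obtain ⟨ρ, rfl⟩ : ∃ ρ, R = 9 * ρ := ⟨R / 9, by ring⟩
  have ρ0 : 0 < ρ := by linarith
  have hk : ContinuousOn (fun z => ‖M.k j ((M.e j).symm z)‖ ^ 2) (closedBall (M.e j p) (9 * ρ)) :=
    (M.k_gauge.sm j).continuousOn.mono hR
  obtain ⟨b, hb⟩ := (isCompact_closedBall _ _).exists_bound_of_continuousOn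
    ((hβ.sm j).continuousOn.mono hR)
  obtain ⟨K, hK⟩ := (isCompact_closedBall _ _).exists_bound_of_continuousOn hk
  have b0 : 0 ≤ b := (norm_nonneg _).trans (hb _ (mem_closedBall_self R0.le))
  have K0 : 0 ≤ K := (norm_nonneg _).trans (hK _ (mem_closedBall_self R0.le))
  have hV := (M.e j).isOpen_inter_preimage (isOpen_ball (x := M.e j p) (ε := ρ))
  obtain ⟨a, C, a0, hC⟩ := exp_ball n (by positivity : 0 < 2 * ρ)
  refine ⟨_, hV, ⟨hp, mem_ball_self ρ0⟩, fun c => ?_⟩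
  obtain ⟨d, d0, hd⟩ : ∃ d : ℝ, 0 < d ∧ d * (|c| + 2 * b + 1) = 1 :=
    ⟨_, by positivity, inv_mul_cancel₀ (by positivity)⟩
  refine ⟨a * d, C * K, by positivity, ?_⟩
  rintro u hu h1 h2 ⟨y, hy, h3⟩
  have h4 : closedBall (M.e j y) (4 * (2 * ρ)) ⊆ closedBall (M.e j p) (9 * ρ) :=
    closedBall_subset_closedBall' (by linarith [mem_ball.1 hy.2])
  have h5 : ball (M.e j p) ρ ⊆ ball (M.e j y) (2 * ρ) :=
    ball_subset_ball' (by linarith [mem_ball'.1 hy.2])
  have h6 : ball (M.e j y) (2 * ρ) ⊆ closedBall (M.e j p) (9 * ρ) :=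
    (ball_subset_closedBall.trans (closedBall_subset_closedBall (by linarith))).trans h4
  have hF := hβ.add (isF_ddc hu)
  have hs : ContinuousOn (fun z => Real.exp (-a *
      (d • ((β + ddc M.toAtl u) j - fun _ => b) : Cn n → ℝ) z))
      (closedBall (M.e j p) (9 * ρ)) :=
    (((((hF.sm j).continuousOn.mono hR).sub continuousOn_const).const_smul d).const_smul
      (-a)).rexp
  have h7 := hC (d • ((β + ddc M.toAtl u) j - fun _ => b)) (M.e j y) (fun z hz => by
    have k1 := hF.smAt (hR (h4 hz))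
    refine ⟨(k1.sub contDiffAt_const).const_smul d, ?_, mul_nonpos_of_nonneg_of_nonpos d0.le ?_⟩
    · rw [LM_smul (φ := (β + ddc M.toAtl u) j - fun _ => b) (k1.sub contDiffAt_const),
        LM_sub k1 contDiffAt_const, LM_const, sub_zero]
      exact (h1 j z (hR (h4 hz))).smul (Complex.zero_le_real.2 d0.le)
    · change β j z + u ((M.e j).symm z) - b ≤ 0
      linarith [(abs_le.1 (hb z (h4 hz))).2, h2 ((M.e j).symm z)]) (by
    change -1 ≤ d * (β j (M.e j y) + u ((M.e j).symm (M.e j y)) - b)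
    rw [(M.e j).left_inv hy.1]
    have k1 := (abs_le.1 (hb _ (h4 (mem_closedBall_self (by positivity))))).1
    have k2 : -(|c| + 2 * b + 1) ≤ β j (M.e j y) + u y - b := by linarith [le_abs_self c]
    linarith [mul_le_mul_of_nonneg_left k2 d0.le])
  have hc : Continuous fun y => Real.exp (-(a * d) * u y) := by
    have := hu.continuous
    fun_prop
  have i1 := (hs.integrableOn_compact (μ := volume) (isCompact_closedBall _ _)).mono_set h6
  rw [← integral_indicator hV.measurableSet, integral_chart M j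
    (hc.aestronglyMeasurable.indicator hV.measurableSet)
    fun q hq => indicator_of_notMem (fun h => hq h.1) _]
  refine le_trans (integral_mono_of_nonneg (Eventually.of_forall fun z => mul_nonneg
    (indicator_nonneg (fun _ _ => (Real.exp_pos _).le) _) (sq_nonneg _))
    ((IntegrableOn.integrable_indicator (i1.mul_const K) measurableSet_ball).integrableOn)
    ((ae_restrict_iff' (M.e j).open_target.measurableSet).2
      (Eventually.of_forall fun z hz => ?_))) ?_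
  · by_cases hz' : (M.e j).symm z ∈ (M.e j).source ∩ M.e j ⁻¹' ball (M.e j p) ρ
    · have k1 : z ∈ ball (M.e j p) ρ := (M.e j).right_inv hz ▸ hz'.2
      simp only [indicator_of_mem hz', indicator_of_mem (h5 k1)]
      refine mul_le_mul (Real.exp_le_exp.2 ?_) ((le_abs_self _).trans (hK z (h6 (h5 k1))))
        (sq_nonneg _) (Real.exp_pos _).le
      change _ ≤ -a * (d * (β j z + u ((M.e j).symm z) - b))
      have k2 := (abs_le.1 (hb z (h6 (h5 k1)))).2
      nlinarith [mul_nonneg (mul_pos a0 d0).le (sub_nonneg.2 k2)]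
    · simp only [indicator_of_notMem hz', zero_mul]
      exact indicator_nonneg (fun _ _ => mul_nonneg (Real.exp_pos _).le K0) _
  · rw [setIntegral_indicator measurableSet_ball, inter_eq_right.2 (h6.trans hR),
      integral_mul_const]
    exact mul_le_mul_of_nonneg_right h7 K0

/-- A point is good for a family of functions when they are uniformly bounded below somewhere in
each of its neighbourhoods. -/
def Gd (S : Set (X → ℝ)) (p : X) : Prop := ∀ N ∈ 𝓝 p, ∃ c : ℝ, ∀ u ∈ S, ∃ y ∈ N, -c ≤ u y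

theorem ppe3_int {μ : Measure X} [IsFiniteMeasure μ] {u : X → ℝ} (hu : Continuous u) (a : ℝ) :
    Integrable (fun y => Real.exp (-a * u y)) μ :=
  Continuous.integrable_of_hasCompactSupport (by fun_prop) (HasCompactSupport.of_compactSpace _)

theorem ppe3_mono {μ : Measure X} [IsFiniteMeasure μ] {u : X → ℝ} (hu : Continuous u)
    (h0 : ∀ y, u y ≤ 0) {a b : ℝ} (h : a ≤ b) :
    ∫ y, Real.exp (-a * u y) ∂μ ≤ ∫ y, Real.exp (-b * u y) ∂μ :=
  integral_mono (ppe3_int hu a) (ppe3_int hu b) fun y =>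
    Real.exp_le_exp.2 (mul_le_mul_of_nonpos_right (neg_le_neg h) (h0 y))

theorem ppe3_step {μ : Measure X} [IsFiniteMeasure μ] [μ.IsOpenPosMeasure] {S : Set (X → ℝ)}
    (hc : ∀ u ∈ S, Continuous u) {V : Set X} (hV : IsOpen V) {a C : ℝ} (ha : 0 < a)
    (h : ∀ u ∈ S, ∫ y in V, Real.exp (-a * u y) ∂μ ≤ C) {q : X} (hq : q ∈ V) : Gd S q := by
  intro N hN
  have h1 := isOpen_interior.inter hV (s := interior N)
  have h2 : 0 < μ.real (interior N ∩ V) := ENNReal.toReal_pos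
    (h1.measure_pos _ ⟨q, mem_interior_iff_mem_nhds.2 hN, hq⟩).ne' (measure_ne_top _ _)
  refine ⟨C / μ.real (interior N ∩ V) / a, fun u hu => ?_⟩
  by_contra h3
  push Not at h3
  have h4 := (setIntegral_mono_set (ppe3_int (hc u hu) a).integrableOn
    (Eventually.of_forall fun _ => (Real.exp_pos _).le)
    (inter_subset_right (s := interior N)).eventuallyLE).trans (h u hu)
  have h5 := setIntegral_mono_on (μ := μ) (f := fun _ => C / μ.real (interior N ∩ V) + 1)
    (integrable_const _).integrableOn (ppe3_int (hc u hu) a).integrableOn h1.measurableSet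
    fun y hy => by
      have h6 := mul_le_mul_of_nonneg_left (h3 y (interior_subset hy.1)).le ha.le
      rw [mul_neg, mul_div_cancel₀ _ ha.ne'] at h6
      linarith [Real.add_one_le_exp (-a * u y)]
  rw [setIntegral_const, smul_eq_mul, mul_add, mul_div_cancel₀ _ h2.ne'] at h5
  linarith

theorem ppe3_all {μ : Measure X} [IsFiniteMeasure μ] {S : Set (X → ℝ)}
    (hc : ∀ u ∈ S, Continuous u) (h0 : ∀ u ∈ S, ∀ y, u y ≤ 0)
    (h : ∀ p : X, ∃ V ∈ 𝓝 p, ∃ a C : ℝ, 0 < a ∧ ∀ u ∈ S, ∫ y in V, Real.exp (-a * u y) ∂μ ≤ C) :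
    ∃ a C : ℝ, 0 < a ∧ ∀ u ∈ S, ∫ y, Real.exp (-a * u y) ∂μ ≤ C := by
  have h1 := isCompact_univ.induction_on (X := X) (p := fun V => ∃ a C : ℝ, 0 < a ∧
    ∀ u ∈ S, ∫ y in V, Real.exp (-a * u y) ∂μ ≤ C) ⟨1, 0, one_pos, fun u _ => by simp⟩
    (by
      rintro s t hst ⟨a, C, ha, h1⟩
      exact ⟨a, C, ha, fun u hu => (setIntegral_mono_set (ppe3_int (hc u hu) a).integrableOn
        (Eventually.of_forall fun _ => (Real.exp_pos _).le) hst.eventuallyLE).trans (h1 u hu)⟩)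
    (by
      rintro s t ⟨a, C, ha, h1⟩ ⟨b, D, hb, h2⟩
      refine ⟨min a b, C + D, lt_min ha hb, fun u hu => ?_⟩
      refine (integral_mono_measure (Measure.restrict_union_le s t)
        (Eventually.of_forall fun _ => (Real.exp_pos _).le) (ppe3_int (hc u hu) _)).trans ?_
      rw [integral_add_measure (ppe3_int (hc u hu) _) (ppe3_int (hc u hu) _)]
      exact add_le_add ((ppe3_mono (hc u hu) (h0 u hu) (min_le_left _ _)).trans (h1 u hu))
        ((ppe3_mono (hc u hu) (h0 u hu) (min_le_right _ _)).trans (h2 u hu)))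
    fun p _ => by
      obtain ⟨V, hV, h1⟩ := h p
      exact ⟨V, nhdsWithin_le_nhds hV, h1⟩
  rwa [Measure.restrict_univ] at h1

/-- The abstract chain argument. Good points form a closed set. If all `u ∈ S` are `≥ -c`
somewhere on `V p` then every `q ∈ V p` is good: `N ∩ V p` has positive measure `m`, and `u < -c'` on
it would give `m exp (a c') ≤ C`. So good points form an open set. Cover `X` by finitely many
`V p`; for the functions vanishing somewhere on a given one all points are good; take the largest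
`c`, the least `a` and the sum of the constants. -/
theorem exp_chain [ConnectedSpace X] {μ : Measure X} [IsFiniteMeasure μ] [μ.IsOpenPosMeasure]
    {S : Set (X → ℝ)} (hc : ∀ u ∈ S, Continuous u) (h0 : ∀ u ∈ S, ∀ y, u y ≤ 0)
    (hx : ∀ u ∈ S, ∃ x, u x = 0)
    (hV : ∀ p : X, ∃ V : Set X, IsOpen V ∧ p ∈ V ∧ ∀ c : ℝ, ∃ a C : ℝ, 0 < a ∧ ∀ u ∈ S,
      (∃ y ∈ V, -c ≤ u y) → ∫ y in V, Real.exp (-a * u y) ∂μ ≤ C) :
    ∃ a C : ℝ, 0 < a ∧ ∀ u ∈ S, ∫ y, Real.exp (-a * u y) ∂μ ≤ C := by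
  choose V hV1 hV2 hV3 using hV
  have key : ∀ T ⊆ S, ∀ p, (∃ c, ∀ u ∈ T, ∃ y ∈ V p, -c ≤ u y) →
      ∃ a C : ℝ, 0 < a ∧ ∀ u ∈ T, ∫ y in V p, Real.exp (-a * u y) ∂μ ≤ C := by
    rintro T hT p ⟨c, h1⟩
    obtain ⟨a, C, ha, h2⟩ := hV3 p c
    exact ⟨a, C, ha, fun u hu => h2 u (hT hu) (h1 u hu)⟩
  have h1 := isCompact_univ.induction_on (X := X) (p := fun s => ∃ a C : ℝ, 0 < a ∧
    ∀ u ∈ S, (∃ x ∈ s, u x = 0) → ∫ y, Real.exp (-a * u y) ∂μ ≤ C)
    ⟨1, 0, one_pos, fun u _ h => by simp at h⟩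
    (by
      rintro s t hst ⟨a, C, ha, h1⟩
      exact ⟨a, C, ha, fun u hu ⟨x, h2, h3⟩ => h1 u hu ⟨x, hst h2, h3⟩⟩)
    (by
      rintro s t ⟨a, C, ha, h1⟩ ⟨b, D, hb, h2⟩
      refine ⟨min a b, max C D, lt_min ha hb, ?_⟩
      rintro u hu ⟨x, h3 | h3, h4⟩
      · exact ((ppe3_mono (hc u hu) (h0 u hu) (min_le_left _ _)).trans
          (h1 u hu ⟨x, h3, h4⟩)).trans (le_max_left _ _)
      · exact ((ppe3_mono (hc u hu) (h0 u hu) (min_le_right _ _)).trans
          (h2 u hu ⟨x, h3, h4⟩)).trans (le_max_right _ _))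
    fun p _ => by
      refine ⟨V p, nhdsWithin_le_nhds ((hV1 p).mem_nhds (hV2 p)), ?_⟩
      have hT : {u ∈ S | ∃ x ∈ V p, u x = 0} ⊆ S := fun u hu => hu.1
      have h2 : ∀ q, (∃ c, ∀ u ∈ {u ∈ S | ∃ x ∈ V p, u x = 0}, ∃ y ∈ V q, -c ≤ u y) →
          ∀ q' ∈ V q, Gd {u ∈ S | ∃ x ∈ V p, u x = 0} q' := fun q hq q' hq' => by
        obtain ⟨a, C, ha, h3⟩ := key _ hT q hq
        exact ppe3_step (fun u hu => hc u hu.1) (hV1 q) ha h3 hq'
      have h3 : IsClopen {q | Gd {u ∈ S | ∃ x ∈ V p, u x = 0} q} := by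
        refine ⟨isClosed_of_closure_subset fun q hq N hN => ?_,
          isOpen_iff_mem_nhds.2 fun q hq => mem_of_superset ((hV1 q).mem_nhds (hV2 q))
            (h2 q (hq _ ((hV1 q).mem_nhds (hV2 q))))⟩
        obtain ⟨q', h4, h5⟩ := mem_closure_iff_nhds.1 hq _ (interior_mem_nhds.2 hN)
        exact h5 N (mem_interior_iff_mem_nhds.1 h4)
      have h4 := h3.eq_univ ⟨p, h2 p ⟨0, fun u ⟨_, x, h5, h6⟩ => ⟨x, h5, by simp [h6]⟩⟩ p (hV2 p)⟩
      obtain ⟨a, C, ha, h5⟩ := ppe3_all (μ := μ) (fun u hu => hc u (hT hu))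
        (fun u hu => h0 u (hT hu)) fun q => ⟨V q, (hV1 q).mem_nhds (hV2 q), key _ hT q
          ((eq_univ_iff_forall.1 h4 q) _ ((hV1 q).mem_nhds (hV2 q)))⟩
      exact ⟨a, C, ha, fun u hu h6 => h5 u ⟨hu, h6⟩⟩
  obtain ⟨a, C, ha, h2⟩ := h1
  refine ⟨a, C, ha, fun u hu => h2 u hu ?_⟩
  obtain ⟨x, h3⟩ := hx u hu
  exact ⟨x, mem_univ _, h3⟩

/-- Apply `exp_chain` (with `isOpenPos`, `exp_loc`) to `u - u x`. -/
theorem expint' [ConnectedSpace X] {β : Frm M.toAtl} (hβ : IsF M.toAtl β) :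
    ∃ a C : ℝ, 0 < a ∧ ∀ u, M.Sm u → NnF M.toAtl (β + ddc M.toAtl u) → ∀ x, (∀ y, u y ≤ u x) →
      ∫ y, Real.exp (a * (u x - u y)) ∂M.μ ≤ C := by
  have := isOpenPos M
  obtain ⟨a, C, ha, h⟩ := exp_chain (μ := M.μ) (S := {u | M.Sm u ∧
      NnF M.toAtl (β + ddc M.toAtl u) ∧ (∀ y, u y ≤ 0) ∧ ∃ x, u x = 0})
    (fun u hu => hu.1.continuous) (fun u hu => hu.2.2.1) (fun u hu => hu.2.2.2) fun p => by
      obtain ⟨V, h1, h2, h3⟩ := exp_loc hβ p
      refine ⟨V, h1, h2, fun c => ?_⟩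
      obtain ⟨a, C, ha, h4⟩ := h3 c
      exact ⟨a, C, ha, fun u hu => h4 u hu.1 hu.2.1 hu.2.2.1⟩
  refine ⟨a, C, ha, fun u hu h1 x hx => ?_⟩
  have hc : M.Sm fun _ : X => u x := fun _ => contDiffOn_const
  have hs : M.Sm (u - fun _ => u x) := fun j => (hu j).sub (hc j)
  have h2 := h (u - fun _ => u x) ⟨hs, ?_, fun y => sub_nonpos.2 (hx y),
    x, sub_self _⟩
  · simpa only [Pi.sub_apply, neg_mul_comm, neg_sub] using h2
  · have h3 := hβ.add (isF_ddc hu)
    rw [ddc_sub, ← add_sub_assoc, nnF_iff (h3.sub (isF_ddc hc))]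
    intro p
    rw [GM_sub h3 (isF_ddc hc), GM_ddc_const, sub_zero]
    exact (nnF_iff h3).1 h1 p

end Vale.Agent.P272
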