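import Vale.Agent.P272.PartA
import Vale.Agent.P271A.CovA

/-! P272: preparations for mass concentration. -/

open MeasureTheory Set Filter Topology Metric Matrix
open scoped ContDiff ComplexConjugate ComplexOrder

noncomputable section

namespace Vale.Agent.P272

open Vale.Agent.P271

variable {n : ℕ} {X : Type} [TopologicalSpace X] [T2Space X] [CompactSpace X]
  [MeasurableSpace X] [BorelSpace X] {M : Model n X}


/-- `X` is second countable (`P271A.secondCountable_of_atl`), hence metrizable; approximate by a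
continuous function (`Integrable.exists_boundedContinuous_integral_sub_le`), take the positive part
plus `2 ε'` and use `exists_sm_approx` with error `ε'`. -/
theorem exists_sm_pos (M : Model n X) {γ : X → ℝ} (hγ : Integrable γ M.μ) (h0 : ∀ p, 0 ≤ γ p)
    {ε : ℝ} (hε : 0 < ε) :
    ∃ γ' : X → ℝ, M.Sm γ' ∧ (∀ p, 0 < γ' p) ∧ ∫ p, |γ p - γ' p| ∂M.μ ≤ ε := by
  have := P271A.secondCountable_of_atl M.toAtl
  obtain ⟨g, hg, hgi⟩ := hγ.exists_boundedContinuous_integral_sub_le (half_pos hε)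
  have hV : 0 ≤ M.μ.real univ := measureReal_nonneg
  set e := ε / (6 * (M.μ.real univ + 1)) with he
  have he0 : 0 < e := by positivity
  have hc : Continuous fun p => max (g p) 0 + 2 * e :=
    (g.continuous.max continuous_const).add continuous_const
  obtain ⟨u, hu, hug⟩ := exists_sm_approx M hc he0
  refine ⟨u, hu, fun p => ?_, ?_⟩
  · linarith [(abs_le.1 (hug p)).1, le_max_right (g p) 0]
  have hi : Integrable (fun p => ‖γ p - g p‖) M.μ := (hγ.sub hgi).norm
  have h1 : ∫ p, |γ p - u p| ∂M.μ ≤ ∫ p, (‖γ p - g p‖ + 3 * e) ∂M.μ := by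
    refine integral_mono_of_nonneg (Eventually.of_forall fun p => abs_nonneg _)
      (hi.add (integrable_const _)) (Eventually.of_forall fun p => ?_)
    have h2 := abs_le.1 (hug p)
    have h3 := abs_max_sub_max_le_abs (γ p) (g p) 0
    rw [max_eq_left (h0 p)] at h3
    have h4 := abs_le.1 h3
    simp only [Real.norm_eq_abs]
    exact abs_le.2 ⟨by linarith [h4.1], by linarith [h4.2]⟩
  rw [integral_add hi (integrable_const _), integral_const, smul_eq_mul] at h1
  have h5 : (M.μ.real univ + 1) * (3 * e) = ε / 2 := by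
    rw [he]
    field_simp
    ring
  nlinarith

/-- `aubin_yau` for `b • κ` and `F = log γ + n log b`; then `u = U / b` and `dt_smul`. -/
theorem exists_sol_scaled (hn : 0 < n) {κ : Frm M.toAtl} (hκ : Kae M.toAtl κ) {γ : X → ℝ}
    (hγ : M.Sm γ) (h0 : ∀ p, 0 < γ p) {b : ℝ} (hb : 0 < b) :
    ∃ u, M.Sm u ∧ PosF M.toAtl (κ + ddc M.toAtl u) ∧
      ∀ p, dt M (κ + ddc M.toAtl u) p = Real.exp (b * u p) * γ p := by
  have hF : M.Sm fun p => Real.log (γ p) + n * Real.log b := fun a =>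
    (ContDiffOn.log (hγ a) fun z _ => (h0 _).ne').add contDiffOn_const
  obtain ⟨U, hU, hp, hd⟩ := aubin_yau hn (hκ.smul hb) hF
  have hη : Kae M.toAtl (b • κ + ddc M.toAtl U) := ⟨(hκ.1.smul b).add (isF_ddc hU), hp⟩
  have e : κ + ddc M.toAtl (b⁻¹ • U) = b⁻¹ • (b • κ + ddc M.toAtl U) := by
    rw [ddc_smul, smul_add, smul_smul, inv_mul_cancel₀ hb.ne', one_smul]
  refine ⟨b⁻¹ • U, fun a => ContDiffOn.const_smul b⁻¹ (hU a), ?_, fun p => ?_⟩
  · rw [e]
    exact (hη.smul (inv_pos.2 hb)).2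
  · rw [e, dt_smul hη.1, hd, Real.exp_add, Real.exp_add, Real.exp_log (h0 p), Real.exp_nat_mul,
      Real.exp_log hb, Pi.smul_apply, smul_eq_mul, mul_inv_cancel_left₀ hb.ne', inv_pow]
    field_simp

/-- The integral inequality. Let `Q = exp (b m / 2)`, so `V₀ ≤ 5 / 4 Q²`, and
`t = 2 V / Q` with `V = max V₁ 1`. Pointwise, with `μ = min γ γ'` and `E = exp (b u / 2)`,
`2 E μ ≤ t l γ + D / t` (the product of the two terms is `γ γ' E²`), and
`E μ ≥ Q (γ - |γ - γ'| - b / 2 (m - u) Γ)`. Integrate. -/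
theorem pop_core {μ : Measure X} [IsFiniteMeasure μ] {γ γ' u D : X → ℝ} {m b Γ V₀ V₁ : ℝ}
    (hγ : Integrable γ μ) (h0 : ∀ p, 0 ≤ γ p) (h1 : ∫ p, γ p ∂μ = 1) (hγ' : Continuous γ')
    (h0' : ∀ p, 0 < γ' p) (hΓ : ∀ p, γ' p ≤ Γ) (hd : ∫ p, |γ p - γ' p| ∂μ ≤ 1 / 4)
    (hu : Continuous u) (hm : ∀ p, u p ≤ m) (hb : 0 < b)
    (hL : b * Γ * ∫ p, (m - u p) ∂μ ≤ 1 / 2) (hD : Continuous D) (hD0 : ∀ p, 0 < D p)
    (hV : V₀ ≤ ∫ p, Real.exp (b * u p) * γ' p ∂μ) (hV' : ∫ p, D p ∂μ ≤ V₁) :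
    V₀ / (5 * max V₁ 1) ≤ ∫ p, γ p * (Real.exp (b * u p) * γ' p / D p) ∂μ := by
  have ci : ∀ {f : X → ℝ}, Continuous f → Integrable f μ := fun hf =>
    hf.integrable_of_hasCompactSupport (HasCompactSupport.of_compactSpace _)
  set V := max V₁ 1 with hVe
  have hV0 : 0 < V := one_pos.trans_le (le_max_right _ _)
  set Q := Real.exp (b * m / 2) with hQ
  have hQ0 : 0 < Q := Real.exp_pos _
  have hQ2 : Q ^ 2 = Real.exp (b * m) := by
    rw [hQ, sq, ← Real.exp_add, add_halves]
  have hcl : Continuous fun p => Real.exp (b * u p) * γ' p / D p :=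
    Continuous.div (by fun_prop) hD fun p => (hD0 p).ne'
  obtain ⟨B, hB⟩ := isCompact_univ.exists_bound_of_continuousOn hcl.continuousOn
  have i1 : Integrable (fun p => γ p * (Real.exp (b * u p) * γ' p / D p)) μ :=
    hγ.mul_bdd hcl.aestronglyMeasurable (Eventually.of_forall fun p => hB p (mem_univ p))
  have i2 : Integrable (fun p => |γ p - γ' p|) μ := (hγ.sub (ci hγ')).abs
  have i3 : Integrable (fun p => m - u p) μ := ci (continuous_const.sub hu)
  have a1 : V₀ ≤ Q ^ 2 * (5 / 4) := by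
    have h2 : ∫ p, Real.exp (b * u p) * γ' p ∂μ ≤ ∫ p, Q ^ 2 * (γ p + |γ p - γ' p|) ∂μ := by
      refine integral_mono (ci (by fun_prop)) ((hγ.add i2).const_mul _) fun p => ?_
      refine mul_le_mul ?_ (by linarith [neg_abs_le (γ p - γ' p)]) (h0' p).le (by positivity)
      rw [hQ2]
      exact Real.exp_le_exp.2 (mul_le_mul_of_nonneg_left (hm p) hb.le)
    rw [integral_const_mul, integral_add hγ i2, h1] at h2
    nlinarith [sq_nonneg Q]
  set t := 2 * V / Q with ht
  have ht0 : 0 < t := by positivity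
  have a2 : ∀ p, 2 * Q * (γ p - |γ p - γ' p| - b * Γ / 2 * (m - u p)) ≤
      t * (γ p * (Real.exp (b * u p) * γ' p / D p)) + t⁻¹ * D p := by
    intro p
    set E := Real.exp (b * u p / 2) with hE
    have hE0 : 0 < E := Real.exp_pos _
    have hE2 : E ^ 2 = Real.exp (b * u p) := by
      rw [hE, sq, ← Real.exp_add, add_halves]
    have hs : 0 ≤ b / 2 * (m - u p) := mul_nonneg (by positivity) (sub_nonneg.2 (hm p))
    have hEQ : Q * (1 - b / 2 * (m - u p)) ≤ E := by
      have h2 : E = Q * Real.exp (-(b / 2 * (m - u p))) := by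
        rw [hQ, hE, ← Real.exp_add]
        congr 1
        ring
      rw [h2]
      exact mul_le_mul_of_nonneg_left (Real.one_sub_le_exp_neg _) hQ0.le
    set k := min (γ p) (γ' p) with hk
    have k0 : 0 ≤ k := le_min (h0 p) (h0' p).le
    have k1 : k ≤ γ p := min_le_left _ _
    have k2 : k ≤ γ' p := min_le_right _ _
    have k3 : γ p - |γ p - γ' p| ≤ k :=
      le_min (by linarith [abs_nonneg (γ p - γ' p)]) (by linarith [le_abs_self (γ p - γ' p)])
    have b1 : Q * (γ p - |γ p - γ' p| - b * Γ / 2 * (m - u p)) ≤ E * k := by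
      refine le_trans ?_ (mul_le_mul_of_nonneg_right hEQ k0)
      rw [mul_assoc]
      refine mul_le_mul_of_nonneg_left ?_ hQ0.le
      nlinarith [mul_le_mul_of_nonneg_left (k2.trans (hΓ p)) hs]
    set x := t * (γ p * (Real.exp (b * u p) * γ' p / D p)) with hx
    set y := t⁻¹ * D p with hy
    have x0 : 0 ≤ x := mul_nonneg ht0.le (mul_nonneg (h0 p)
      (div_nonneg (mul_nonneg (Real.exp_pos _).le (h0' p).le) (hD0 p).le))
    have y0 : 0 ≤ y := mul_nonneg (inv_nonneg.2 ht0.le) (hD0 p).le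
    have b2 : x * y = E ^ 2 * (γ p * γ' p) := by
      have := hD0 p
      rw [hx, hy, hE2]
      field_simp
    have b3 : (E * k) ^ 2 ≤ x * y := by
      rw [b2, mul_pow, sq k]
      exact mul_le_mul_of_nonneg_left (mul_le_mul k1 k2 k0 (h0 p)) (sq_nonneg _)
    have b4 : 2 * (E * k) ≤ x + y :=
      le_of_sq_le_sq (by nlinarith [sq_nonneg (x - y)]) (add_nonneg x0 y0)
    linarith
  have i4 : Integrable (fun p => γ p - |γ p - γ' p|) μ := hγ.sub i2
  have i5 : Integrable (fun p => γ p - |γ p - γ' p| - b * Γ / 2 * (m - u p)) μ :=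
    i4.sub (i3.const_mul _)
  have i6 : Integrable (fun p => t * (γ p * (Real.exp (b * u p) * γ' p / D p)) + t⁻¹ * D p) μ :=
    (i1.const_mul t).add ((ci hD).const_mul _)
  have a3 := integral_mono (i5.const_mul (2 * Q)) i6 a2
  rw [integral_const_mul, integral_sub i4 (i3.const_mul _), integral_sub hγ i2, integral_const_mul,
    integral_add (i1.const_mul t) ((ci hD).const_mul _), integral_const_mul, integral_const_mul,
    h1] at a3
  have a4 : t⁻¹ * ∫ p, D p ∂μ ≤ Q / 2 := by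
    refine (mul_le_mul_of_nonneg_left (hV'.trans (le_max_left V₁ 1))
      (inv_nonneg.2 ht0.le)).trans_eq ?_
    rw [ht, ← hVe]
    field_simp
  set J := ∫ p, γ p * (Real.exp (b * u p) * γ' p / D p) ∂μ with hJ
  have a5 : Q / 2 ≤ t * J := by nlinarith
  rw [ht, div_mul_eq_mul_div, le_div_iff₀ hQ0] at a5
  rw [div_le_iff₀ (by positivity)]
  nlinarith

end Vale.Agent.P272
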