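import Vale.Agent.P272.Loc
import Vale.Agent.P271A.Part

/-! P272: the integral of a Monge-Ampere determinant with compact support. -/

open MeasureTheory Set Filter Topology Metric Matrix
open scoped ContDiff ComplexConjugate ComplexOrder

noncomputable section

namespace Vale.Agent.P272

open Vale.Agent.P271

open Vale.Agent.P271A

variable {n : ℕ}

theorem PPs1_prod {ι : Type} [DecidableEq ι] (s : Finset ι) (ζ : Cn n × Cn n) {g : ι → Cn n → ℂ}
    {z : Cn n} (hg : ∀ i, DifferentiableAt ℝ (g i) z) :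
    eX ζ (fun w => ∏ i ∈ s, g i w) z = ∑ i ∈ s, eX ζ (g i) z * ∏ j ∈ s.erase i, g j z := by
  unfold eX
  rw [fderiv_finsetProd fun i _ => hg i, _root_.sum_apply, _root_.sum_apply, Finset.mul_sum,
    ← Finset.sum_add_distrib]
  refine Finset.sum_congr rfl fun i _ => ?_
  simp only [_root_.smul_apply, smul_eq_mul]
  ring

theorem PPs1_supp (ζ : Cn n × Cn n) {F : Cn n → ℂ} (hc : HasCompactSupport F) :
    HasCompactSupport (eX ζ F) := by
  refine hc.mono' fun z hz => ?_
  by_contra h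
  exact hz ((eX_congr (notMem_tsupport_iff_eventuallyEq.1 h)).trans (eX_const ζ 0 z))

theorem PPs1_zero (ξ : Fin n → Cn n × Cn n) {f : Fin n → Cn n → ℂ} (hf : ∀ j, ContDiff ℝ ∞ (f j))
    {a i : Fin n} (z : Cn n) :
    ∑ σ : Equiv.Perm (Fin n), ((Equiv.Perm.sign σ : ℤ) : ℂ) * (eX (ξ (σ a)) (eX (ξ (σ i)) (f i)) z *
      ∏ j ∈ (Finset.univ.erase a).erase i, eX (ξ (σ j)) (f j) z) = 0 ∨ i = a := by
  rcases eq_or_ne i a with h | h
  · exact Or.inr h
  refine Or.inl (self_eq_neg.1 ?_)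
  conv_lhs => rw [← Equiv.sum_comp (Equiv.mulRight (Equiv.swap a i))]
  rw [← Finset.sum_neg_distrib]
  refine Finset.sum_congr rfl fun σ _ => ?_
  have h1 : ∏ j ∈ (Finset.univ.erase a).erase i, eX (ξ ((σ * Equiv.swap a i) j)) (f j) z =
      ∏ j ∈ (Finset.univ.erase a).erase i, eX (ξ (σ j)) (f j) z :=
    Finset.prod_congr rfl fun j hj => by
      rw [Finset.mem_erase, Finset.mem_erase] at hj
      rw [Equiv.Perm.mul_apply, Equiv.swap_apply_of_ne_of_ne hj.2.1 hj.1]
  rw [Equiv.coe_mulRight]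
  beta_reduce
  rw [h1, Equiv.Perm.mul_apply, Equiv.Perm.mul_apply, Equiv.swap_apply_left,
    Equiv.swap_apply_right, eX_comm (hf i).contDiffAt, Equiv.Perm.sign_mul,
    Equiv.Perm.sign_swap h.symm]
  simp

theorem PPs1_div (ξ : Fin n → Cn n × Cn n) {f : Fin n → Cn n → ℂ} (hf : ∀ j, ContDiff ℝ ∞ (f j))
    (a : Fin n) (z : Cn n) : (Matrix.of fun j k => eX (ξ k) (f j) z).det =
      ∑ σ : Equiv.Perm (Fin n), ((Equiv.Perm.sign σ : ℤ) : ℂ) * eX (ξ (σ a))
        (fun w => f a w * ∏ j ∈ Finset.univ.erase a, eX (ξ (σ j)) (f j) w) z := by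
  have hd : ∀ ζ j, DifferentiableAt ℝ (eX ζ (f j)) z := fun ζ j =>
    (contDiff_eX (hf j)).differentiable (by simp) z
  have h1 : ∀ σ : Equiv.Perm (Fin n), eX (ξ (σ a))
      (fun w => f a w * ∏ j ∈ Finset.univ.erase a, eX (ξ (σ j)) (f j) w) z =
      ∏ j, eX (ξ (σ j)) (f j) z + f a z * ∑ i ∈ Finset.univ.erase a,
        eX (ξ (σ a)) (eX (ξ (σ i)) (f i)) z *
          ∏ j ∈ (Finset.univ.erase a).erase i, eX (ξ (σ j)) (f j) z := fun σ => by
    rw [eX_mul ((hf a).differentiable (by simp) z)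
      (HasFDerivAt.finsetProd fun j _ => (hd _ j).hasFDerivAt).differentiableAt,
      PPs1_prod _ _ fun j => hd _ j,
      Finset.mul_prod_erase _ (fun j => eX (ξ (σ j)) (f j) z) (Finset.mem_univ a)]
  have h2 : ∑ σ : Equiv.Perm (Fin n), ((Equiv.Perm.sign σ : ℤ) : ℂ) *
      (f a z * ∑ i ∈ Finset.univ.erase a, eX (ξ (σ a)) (eX (ξ (σ i)) (f i)) z *
        ∏ j ∈ (Finset.univ.erase a).erase i, eX (ξ (σ j)) (f j) z) = 0 := by
    simp only [mul_left_comm _ (f a z), ← Finset.mul_sum]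
    refine mul_eq_zero_of_right _ ?_
    simp only [Finset.mul_sum]
    rw [Finset.sum_comm]
    exact Finset.sum_eq_zero fun i hi =>
      (PPs1_zero ξ hf z).resolve_right (Finset.ne_of_mem_erase hi)
  simp only [h1, mul_add]
  rw [Finset.sum_add_distrib, h2, add_zero, ← Matrix.det_transpose, Matrix.det_apply']
  rfl

/-- Piola. Expand the determinant over permutations, fix `i₀`; by `integral_eX` applied to
`f i₀ * ∏ j ≠ i₀, ∂_(σ j) f j` the integral of the term of `σ` is minus the integral of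
`f i₀ * ∑ i ≠ i₀, ∂_(σ i₀) ∂_(σ i) f i * ∏ j ≠ i₀, i, ∂_(σ j) f j`; for fixed `i` the involution
`σ ↦ σ * swap i₀ i` keeps this term (`eX_comm`) and changes the sign of `σ`. -/
theorem integral_det_eX (hn : 0 < n) (ξ : Fin n → Cn n × Cn n) {f : Fin n → Cn n → ℂ}
    (hf : ∀ j, ContDiff ℝ ∞ (f j)) (hc : ∀ j, HasCompactSupport (f j)) :
    ∫ z, (Matrix.of fun j k => eX (ξ k) (f j) z).det = 0 := by
  have h1 : ∀ σ : Equiv.Perm (Fin n), ContDiff ℝ ∞ fun w => f ⟨0, hn⟩ w *
      ∏ j ∈ Finset.univ.erase ⟨0, hn⟩, eX (ξ (σ j)) (f j) w := fun σ =>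
    (hf _).mul (contDiff_prod fun j _ => contDiff_eX (hf j))
  have h2 : ∀ σ : Equiv.Perm (Fin n), HasCompactSupport fun w => f ⟨0, hn⟩ w *
      ∏ j ∈ Finset.univ.erase ⟨0, hn⟩, eX (ξ (σ j)) (f j) w := fun σ => (hc _).mul_right
  simp only [PPs1_div ξ hf ⟨0, hn⟩]
  rw [integral_finsetSum _ fun σ _ => ((contDiff_eX (h1 σ)).continuous.integrable_of_hasCompactSupport
    (PPs1_supp _ (h2 σ))).const_mul _]
  refine Finset.sum_eq_zero fun σ _ => ?_
  rw [integral_const_mul, RD.integral_eX (h1 σ) (h2 σ), mul_zero]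

/-- Apply `integral_det_eX` to `ξ = zv` and `f j = dzb (Pi.single j 1) ψ` (`Brid_zv`). -/
theorem integral_det_LM (hn : 0 < n) {ψ : Cn n → ℝ} (hψ : ContDiff ℝ ∞ ψ)
    (hc : HasCompactSupport ψ) :
    Integrable (fun z => (LM ψ z).det.re) ∧ ∫ z, (LM ψ z).det.re = 0 := by
  have h0 : ContDiff ℝ ∞ fun w => (ψ w : ℂ) := contDiff_iff_contDiffAt.2 fun z =>
    Brid_ofReal hψ.contDiffAt
  have h1 : ∀ j : Fin n, eX (bv j) (fun w => (ψ w : ℂ)) = dzb (Pi.single j 1) fun w => (ψ w : ℂ) :=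
    fun j => funext fun z => Brid_bv j
  have h2 : ∀ z, LM ψ z = Matrix.of fun j k => eX (zv k) (eX (bv j) fun w => (ψ w : ℂ)) z :=
    fun z => by
      ext j k
      rw [Matrix.of_apply, h1, Brid_zv]
      rfl
  have h3 : HasCompactSupport fun w => (ψ w : ℂ) := hc.comp_left Complex.ofReal_zero
  have h4 : Continuous fun z => (LM ψ z).det :=
    Continuous.matrix_det (continuous_matrix fun j k => continuous_iff_continuousAt.2 fun z =>
      (contDiffAt_LM hψ.contDiffAt j k).continuousAt)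
  have h5 : HasCompactSupport fun z => (LM ψ z).det := by
    refine hc.mono' fun z hz => ?_
    by_contra h
    have : Nonempty (Fin n) := ⟨⟨0, hn⟩⟩
    refine hz ?_
    have h6 : LM ψ z = 0 := (LM_congr (notMem_tsupport_iff_eventuallyEq.1 h)).trans (LM_const 0)
    simp only [h6, Matrix.det_zero]
  have h6 : Integrable fun z => (LM ψ z).det := h4.integrable_of_hasCompactSupport h5
  refine ⟨h6.re, ?_⟩
  have h7 : ∫ z, (LM ψ z).det = 0 := by
    simp only [h2]
    exact integral_det_eX hn zv (fun j => contDiff_eX h0) fun j => PPs1_supp _ h3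
  have h8 := integral_re h6
  rw [h7] at h8
  exact h8

/-- For `n = 0` the integrand is zero. Otherwise take `χ` smooth with compact support in `U`,
equal to one near `tsupport v`; the integrand equals `det LM (χ φ + v) - det LM (χ φ)` on `U` (both
vanish outside `tsupport v`, `LM_congr`), and the latter vanishes outside `U`. -/
theorem stokes_loc {U : Set (Cn n)} (hU : IsOpen U) {φ v : Cn n → ℝ} (hφ : ContDiffOn ℝ ∞ φ U)
    (hv : ContDiff ℝ ∞ v) (hc : HasCompactSupport v) (hs : tsupport v ⊆ U) :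
    ∫ z in U, ((LM (φ + v) z).det.re - (LM φ z).det.re) = 0 := by
  rcases Nat.eq_zero_or_pos n with rfl | hn
  · simp
  obtain ⟨L, hL, h1, h2⟩ := exists_compact_between hc.isCompact hU hs
  obtain ⟨χ, h3, h4, -⟩ := exists_contMDiffMap_one_nhds_of_subset_interior (n := ⊤)
    (modelWithCornersSelf ℝ (Cn n)) (isClosed_tsupport v) h1
  have h5 : ContDiff ℝ ∞ χ := χ.contMDiff.contDiff
  have h6 : ContDiff ℝ ∞ fun z => χ z * φ z := contDiff_iff_contDiffAt.2 fun z => by
    by_cases hz : z ∈ U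
    · exact h5.contDiffAt.mul (hφ.contDiffAt (hU.mem_nhds hz))
    · refine (contDiffAt_const (c := (0 : ℝ))).congr_of_eventuallyEq ?_
      filter_upwards [hL.isClosed.isOpen_compl.mem_nhds fun h => hz (h2 h)] with w hw
      rw [h4 w hw, zero_mul]
  have h7 : HasCompactSupport fun z => χ z * φ z :=
    HasCompactSupport.intro hL fun w hw => by rw [h4 w hw, zero_mul]
  obtain ⟨i1, e1⟩ := integral_det_LM hn (h6.add hv) (h7.add hc)
  obtain ⟨i2, e2⟩ := integral_det_LM hn h6 h7
  have h8 : U.indicator (fun z => (LM (φ + v) z).det.re - (LM φ z).det.re) = fun z =>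
      (LM (fun z => χ z * φ z + v z) z).det.re - (LM (fun z => χ z * φ z) z).det.re := by
    funext z
    by_cases hz : z ∈ tsupport v
    · have h9 : ∀ᶠ w in 𝓝 z, χ w = 1 := h3.filter_mono (nhds_le_nhdsSet hz)
      have ha : LM (fun z => χ z * φ z + v z) z = LM (φ + v) z :=
        LM_congr (h9.mono fun w hw => by simp [hw])
      have hb : LM (fun z => χ z * φ z) z = LM φ z := LM_congr (h9.mono fun w hw => by simp [hw])
      rw [indicator_of_mem (hs hz), ha, hb]
    · have h9 := notMem_tsupport_iff_eventuallyEq.1 hz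
      have ha : LM (fun z => χ z * φ z + v z) z = LM (fun z => χ z * φ z) z :=
        LM_congr (h9.mono fun w hw => by simp [hw])
      have hb : LM (φ + v) z = LM φ z := LM_congr (h9.mono fun w hw => by simp [hw])
      rw [ha, sub_self]
      exact indicator_apply_eq_zero.2 fun _ => by rw [hb, sub_self]
  rw [← integral_indicator hU.measurableSet, h8]
  beta_reduce
  rw [integral_sub i1 i2, e1, e2, sub_self]

end Vale.Agent.P272
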