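import Vale.Agent.P272.Api
import Vale.Agent.P272.PPs1

/-! P272: the volume depends only on the class. -/

open MeasureTheory Set Filter Topology Metric Matrix
open scoped ContDiff ComplexConjugate ComplexOrder

noncomputable section

namespace Vale.Agent.P272

open Vale.Agent.P271

variable {n : ℕ} {X : Type} [TopologicalSpace X] [T2Space X] [CompactSpace X]
  [MeasurableSpace X] [BorelSpace X] {M : Model n X}


/-- Apply `integral_chart` to `dt (η + ddc u) - dt η` (zero outside the chart, `LM_congr`), `dt_eq`,
and `stokes_loc` with `v` the extension by zero of `M.loc a u`, whose support lies in the compact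
set `M.e a '' tsupport u`. -/
theorem stokes_one {η : Frm M.toAtl} (hη : IsF M.toAtl η) {u : X → ℝ} (hu : M.Sm u) {a : M.ι}
    (hs : tsupport u ⊆ (M.e a).source) :
    ∫ p, dt M (η + ddc M.toAtl u) p ∂M.μ = ∫ p, dt M η p ∂M.μ := by
  have hη' := hη.add (isF_ddc hu)
  have c1 := (sm_dt hη').continuous
  have c2 := (sm_dt hη).continuous
  rw [← sub_eq_zero, ← integral_sub
    (c1.integrable_of_hasCompactSupport (HasCompactSupport.of_compactSpace _))
    (c2.integrable_of_hasCompactSupport (HasCompactSupport.of_compactSpace _)),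
    integral_chart M a (g := fun p => dt M (η + ddc M.toAtl u) p - dt M η p)
      (c1.sub c2).aestronglyMeasurable]
  · have hK : IsCompact (M.e a '' tsupport u) :=
      (isClosed_tsupport u).isCompact.image_of_continuousOn ((M.e a).continuousOn.mono hs)
    have hKT : M.e a '' tsupport u ⊆ (M.e a).target := by
      rintro _ ⟨p, hp, rfl⟩
      exact (M.e a).map_source (hs hp)
    have h0 : ∀ z, z ∉ M.e a '' tsupport u → (M.e a).target.indicator (M.loc a u) z = 0 := by
      intro z hz
      exact indicator_apply_eq_zero.2 fun ht => image_eq_zero_of_notMem_tsupport (f := u)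
        (x := (M.e a).symm z) fun h => hz ⟨_, h, (M.e a).right_inv ht⟩
    have hts : tsupport ((M.e a).target.indicator (M.loc a u)) ⊆ M.e a '' tsupport u :=
      closure_minimal (fun z hz => by
        by_contra h
        exact hz (h0 z h)) hK.isClosed
    have hev : ∀ z ∈ (M.e a).target, (M.e a).target.indicator (M.loc a u) =ᶠ[𝓝 z] M.loc a u :=
      fun z hz => mem_of_superset ((M.e a).open_target.mem_nhds hz) fun w hw =>
        indicator_of_mem hw _
    have hv : ContDiff ℝ ∞ ((M.e a).target.indicator (M.loc a u)) := by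
      refine contDiff_iff_contDiffAt.2 fun z => ?_
      by_cases hz : z ∈ (M.e a).target
      · exact ((hu a).contDiffAt ((M.e a).open_target.mem_nhds hz)).congr_of_eventuallyEq
          (hev z hz)
      · exact contDiffAt_const.congr_of_eventuallyEq
          (notMem_tsupport_iff_eventuallyEq.1 fun h => hz (hKT (hts h)))
    rw [← stokes_loc (M.e a).open_target (hη.sm a) hv (HasCompactSupport.intro hK h0)
      (hts.trans hKT)]
    refine setIntegral_congr_fun (M.e a).open_target.measurableSet fun z hz => ?_
    have hp := (M.e a).map_target hz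
    have e1 : LM ((η + ddc M.toAtl u) a) z = LM (η a + (M.e a).target.indicator (M.loc a u)) z :=
      LM_congr ((EventuallyEq.refl _ (η a)).add (hev z hz).symm)
    have hk := (Api_k_pos M hp).ne'
    rw [dt_eq hη' hp, dt_eq hη hp, (M.e a).right_inv hz, e1, ← sub_div, div_mul_cancel₀ _ hk]
  · intro p hp
    have h1 : u =ᶠ[𝓝 p] 0 := notMem_tsupport_iff_eventuallyEq.1 fun h => hp (hs h)
    have h2 := ((M.e _).tendsto_symm (ch_mem M.toAtl p)).eventually h1
    have e1 : GM M.toAtl (η + ddc M.toAtl u) p = GM M.toAtl η p :=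
      LM_congr (h2.mono fun z hz => by
        have h3 : u ((M.e (ch M.toAtl p)).symm z) = 0 := hz
        simp only [Pi.add_apply, ddc, Atl.loc, h3, add_zero])
    rw [dt, dt, e1, sub_self]

/-- Write `u = ∑ a, ρ a * u` and add one term at a time. -/
theorem stokes' {η : Frm M.toAtl} (hη : IsF M.toAtl η) {u : X → ℝ} (hu : M.Sm u) :
    ∫ p, dt M (η + ddc M.toAtl u) p ∂M.μ = ∫ p, dt M η p ∂M.μ := by
  classical
  have h1 : ∀ a, M.Sm (M.ρ a * u) := fun a b => (M.ρ_sm a b).mul (hu b)
  have key : ∀ s : Finset M.ι, M.Sm (∑ a ∈ s, M.ρ a * u) ∧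
      ∫ p, dt M (η + ddc M.toAtl (∑ a ∈ s, M.ρ a * u)) p ∂M.μ = ∫ p, dt M η p ∂M.μ := by
    intro s
    induction s using Finset.induction_on with
    | empty =>
      rw [Finset.sum_empty]
      have e : η + ddc M.toAtl (0 : X → ℝ) = η := add_zero η
      exact ⟨fun b => contDiffOn_const, by rw [e]⟩
    | insert a s ha ih =>
      rw [Finset.sum_insert ha]
      refine ⟨fun b => (h1 a b).add (ih.1 b), ?_⟩
      rw [add_comm (M.ρ a * u), ddc_add, ← add_assoc, stokes_one (hη.add (isF_ddc ih.1)) (h1 a)
        (tsupport_mul_subset_left.trans (M.ρ_supp a)), ih.2]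
  have e : ∑ a, M.ρ a * u = u := by
    funext p
    rw [Finset.sum_apply]
    simp only [Pi.mul_apply]
    rw [← Finset.sum_mul, M.ρ_sum, one_mul]
  have := (key Finset.univ).2
  rwa [e] at this

end Vale.Agent.P272
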