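import Vale.Agent.P272.PPm1
import Vale.Agent.P272.PPs2
import Vale.Agent.P272.PPe3

/-! P272: mass concentration. -/

open MeasureTheory Set Filter Topology Metric Matrix
open scoped ContDiff ComplexConjugate ComplexOrder

noncomputable section

namespace Vale.Agent.P272

open Vale.Agent.P271

variable {n : ℕ} {X : Type} [TopologicalSpace X] [T2Space X] [CompactSpace X]
  [MeasurableSpace X] [BorelSpace X] {M : Model n X}


/-- Take `c = V₀ / (5 max V₁ 1)`. If `ν = 0` take `u = 0`. Otherwise let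
`γ = (ν.rnDeriv M.μ).toReal / ν.real univ`, `γ'` from `exists_sm_pos` with `ε = 1 / 4`, `Γ` a bound
for `γ'`, `a, C` from `expint'` for `κ` (so `∫ (max u - u) ≤ C / a` since `x ≤ exp x`), `b` small,
`u` from `exists_sol_scaled`, `D = dt (κ + ddc u + w)`; `stokes'` twice, `pop_core` and
`integral_rnDeriv_smul`. -/
theorem pop' [ConnectedSpace X] (hn : 0 < n) {w : Frm M.toAtl} (hw : Kae M.toAtl w)
    {V₀ V₁ : ℝ} (hV : 0 < V₀) :
    ∃ c : ℝ, 0 < c ∧ ∀ κ, Kae M.toAtl κ → V₀ ≤ ∫ p, dt M κ p ∂M.μ →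
      ∫ p, dt M (κ + w) p ∂M.μ ≤ V₁ → ∀ ν : Measure X, IsFiniteMeasure ν → ν ≪ M.μ →
      ∃ u, M.Sm u ∧ PosF M.toAtl (κ + ddc M.toAtl u) ∧
        c * ν.real univ ≤
          ∫ p, dt M (κ + ddc M.toAtl u) p / dt M (κ + ddc M.toAtl u + w) p ∂ν := by
  have hV₁ : 0 < max V₁ 1 := lt_max_of_lt_right one_pos
  refine ⟨V₀ / (5 * max V₁ 1), by positivity, fun κ hκ h0 h1 ν hν hac => ?_⟩
  have hi : ∀ {f : X → ℝ}, Continuous f → Integrable f M.μ := fun hf =>
    hf.integrable_of_hasCompactSupport (HasCompactSupport.of_compactSpace _)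
  rcases eq_or_lt_of_le (measureReal_nonneg : 0 ≤ ν.real univ) with hN | hN
  · obtain ⟨u, hu, hp, -⟩ := exists_sol_scaled hn hκ (γ := fun _ => 1)
      (fun _ => contDiffOn_const) (fun _ => one_pos) one_pos
    refine ⟨u, hu, hp, ?_⟩
    rw [← hN, mul_zero]
    have hk : Kae M.toAtl (κ + ddc M.toAtl u) := ⟨hκ.1.add (isF_ddc hu), hp⟩
    exact integral_nonneg fun p =>
      (div_pos (dt_pos hk p) (dt_pos (hk.add_nn hw.1 hw.2.nn) p)).le
  have hγ : Integrable (fun p => (ν.rnDeriv M.μ p).toReal / ν.real univ) M.μ :=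
    Measure.integrable_toReal_rnDeriv.div_const _
  have hγ0 : ∀ p, 0 ≤ (ν.rnDeriv M.μ p).toReal / ν.real univ := fun p => by positivity
  have hγ1 : ∫ p, (ν.rnDeriv M.μ p).toReal / ν.real univ ∂M.μ = 1 := by
    rw [integral_div, Measure.integral_toReal_rnDeriv hac, div_self hN.ne']
  obtain ⟨γ', hs, hpos, hd⟩ := exists_sm_pos M hγ hγ0 (ε := 1 / 4) (by norm_num)
  have hc := hs.continuous
  obtain ⟨x₀, -, hx₀⟩ := isCompact_univ.exists_isMaxOn univ_nonempty hc.continuousOn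
  have hΓ := hpos x₀
  obtain ⟨a, C, ha, hC⟩ := expint' hκ.1
  have hK : 0 ≤ γ' x₀ * (max C 0 / a) := by positivity
  have hb : 0 < 1 / (2 * (γ' x₀ * (max C 0 / a) + 1)) := by positivity
  obtain ⟨u, hu, hp, he⟩ := exists_sol_scaled hn hκ hs hpos hb
  refine ⟨u, hu, hp, ?_⟩
  have hk : Kae M.toAtl (κ + ddc M.toAtl u) := ⟨hκ.1.add (isF_ddc hu), hp⟩
  have hk' := hk.add_nn hw.1 hw.2.nn
  have huc := hu.continuous
  obtain ⟨x, -, hx⟩ := isCompact_univ.exists_isMaxOn univ_nonempty huc.continuousOn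
  have hx' : ∀ y, u y ≤ u x := fun y => hx (mem_univ y)
  have hL : ∫ p, (u x - u p) ∂M.μ ≤ max C 0 / a := by
    rw [le_div_iff₀' ha, ← integral_const_mul]
    refine le_trans (integral_mono (hi (by fun_prop)) (hi (by fun_prop)) fun p => ?_)
      ((hC u hu hp.nn x hx').trans (le_max_left _ _))
    linarith [Real.add_one_le_exp (a * (u x - u p))]
  have h := pop_core (D := dt M (κ + ddc M.toAtl u + w)) (V₀ := V₀) (V₁ := V₁) hγ hγ0 hγ1 hc hpos
    (fun p => hx₀ (mem_univ p)) hd huc hx' hb ?_ (sm_dt hk'.1).continuous (dt_pos hk') ?_ ?_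
  · rw [← le_div_iff₀ hN, ← integral_toReal_rnDeriv_mul hac, ← integral_div]
    refine h.trans_eq (integral_congr_ae (Eventually.of_forall fun p => ?_))
    simp only [he]
    ring
  · rw [mul_assoc, one_div_mul_eq_div, div_le_iff₀ (by positivity)]
    linarith [mul_le_mul_of_nonneg_left hL hΓ.le]
  · simp only [← he]
    rwa [stokes' hκ.1 hu]
  · rwa [add_right_comm, stokes' (hκ.1.add hw.1) hu]

end Vale.Agent.P272
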