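import Vale.Agent.P272.APMain
import Vale.Agent.P272.ALStep

/-! P272, part A: the Aubin-Yau theorem. -/

open MeasureTheory Set Filter Topology Metric Matrix
open scoped ContDiff ComplexConjugate ComplexOrder

noncomputable section

namespace Vale.Agent.P272

open Vale.Agent.P271

variable {n : ℕ} {X : Type} [TopologicalSpace X] [T2Space X] [CompactSpace X]
  [MeasurableSpace X] [BorelSpace X] {M : Model n X}

/-- The Aubin-Yau theorem. -/
theorem aubin_yau (hn : 0 < n) {κ : Frm M.toAtl} (hκ : Kae M.toAtl κ) {F : X → ℝ} (hF : M.Sm F) :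
    ∃ u, M.Sm u ∧ PosF M.toAtl (κ + ddc M.toAtl u) ∧
      ∀ p, dt M (κ + ddc M.toAtl u) p = Real.exp (u p + F p) := by
  obtain ⟨C⟩ := AL.exists_cut M
  have h₀ := sm_log_dt hκ
  have hKc : ∀ a, IsCompact (M.e a '' tsupport (C.ψ a)) := fun a =>
    (isClosed_tsupport _).isCompact.image_of_continuousOn ((M.e a).continuousOn.mono (C.bψ a).2)
  have hKt : ∀ a, M.e a '' tsupport (C.ψ a) ⊆ (M.e a).target := fun a => by
    rintro _ ⟨p, hp, rfl⟩
    exact (M.e a).map_source ((C.bψ a).2 hp)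
  obtain ⟨c, L, hc, hL, hap⟩ := apriori hn hκ h₀ hF hKc hKt
  obtain ⟨c', K', hc', hK', hext⟩ := AL.exists_ext C hc hL
  obtain ⟨δ, hδ, hst⟩ := AL.al_step hn C hc' hK'
  obtain ⟨N, hN0, hN⟩ := AL.nk_of_sm C 0 (AL.sm_sub hF h₀)
  obtain ⟨m, hm⟩ := exists_nat_gt (N / δ)
  have hm0 : (0 : ℝ) < m := (div_nonneg hN0 hδ.le).trans_lt hm
  have hg : AL.Nk C 0 (fun p => (m : ℝ)⁻¹ * (F p - Real.log (dt M κ p))) δ := by
    refine (hN.const_mul _).mono ?_
    rw [abs_of_pos (inv_pos.2 hm0), inv_mul_le_iff₀ hm0]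
    exact ((div_lt_iff₀ hδ).1 hm).le
  have key : ∀ j : ℕ, j ≤ m → ∃ u, M.Sm u ∧ PosF M.toAtl (κ + ddc M.toAtl u) ∧
      ∀ p, dt M (κ + ddc M.toAtl u) p =
        Real.exp (u p + ((1 - (j : ℝ) / m) * Real.log (dt M κ p) + (j : ℝ) / m * F p)) := by
    intro j
    induction j with
    | zero =>
      intro _
      have e : κ + ddc M.toAtl (fun _ => 0) = κ := add_zero κ
      refine ⟨fun _ => 0, AL.sm_const M 0, by rw [e]; exact hκ.2, fun p => ?_⟩
      rw [e]
      simp [Real.exp_log (dt_pos hκ p)]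
    | succ j ih =>
      intro hj
      obtain ⟨u, hu, hp, hd⟩ := ih (Nat.le_of_succ_le hj)
      have hτ : (j : ℝ) / m ∈ Icc (0 : ℝ) 1 := ⟨by positivity, by
        rw [div_le_one hm0]
        exact_mod_cast Nat.le_of_succ_le hj⟩
      have hη : Kae M.toAtl (κ + ddc M.toAtl u) := ⟨hκ.1.add (isF_ddc hu), hp⟩
      obtain ⟨G, hG⟩ := hext _ hη (hap _ hτ u hu hp hd).2
      obtain ⟨w, hw, hk, he⟩ := hst _ G hη hG _
        (AL.sm_mul (AL.sm_const M _) (AL.sm_sub hF h₀)) hg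
      have e : κ + ddc M.toAtl (fun p => u p + w p) = κ + ddc M.toAtl u + ddc M.toAtl w :=
        (add_assoc κ (ddc M.toAtl u) (ddc M.toAtl w)).symm
      refine ⟨fun p => u p + w p, AL.sm_add hu hw, by rw [e]; exact hk.2, fun p => ?_⟩
      rw [e, ← Real.exp_log (dt_pos hk p), he, hd, Real.log_exp]
      congr 1
      push_cast
      field_simp
      ring
  obtain ⟨u, hu, hp, hd⟩ := key m le_rfl
  refine ⟨u, hu, hp, fun p => ?_⟩
  rw [hd, div_self hm0.ne']
  congr 1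
  ring

end Vale.Agent.P272
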