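import Vale.Agent.P272.M4
import Vale.Agent.P272.M5

/-! P272, part M: the canonical bundle is positive. -/

open MeasureTheory Set Filter Topology Metric Matrix
open scoped ContDiff ComplexConjugate ComplexOrder

noncomputable section

namespace Vale.Agent.P272

open Vale.Agent.P271

variable {n : ℕ} {X : Type} [TopologicalSpace X] [T2Space X] [CompactSpace X]
  [MeasurableSpace X] [BorelSpace X] {M : Model n X}

theorem canonical_pos [ConnectedSpace X] (hn : 0 < n) {w : Frm M.toAtl} (hw : Kae M.toAtl w)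
    (h : Hyp M.toAtl) : ∃ ψ, M.Sm ψ ∧ PosF M.toAtl (th M + ddc M.toAtl ψ) := by
  by_contra h0
  obtain ⟨K, hK⟩ := brody hw h
  obtain ⟨C₀, -, h1⟩ := mb_kae hw
  have h2 : Kc M w C₀ := ⟨0, mb_sm_zero, by
    rw [mb_ddc_zero, add_zero]
    exact (h1 _ le_rfl).1.2⟩
  have h3 : ∀ s ∈ {s | Kc M w s}, 0 ≤ s := fun s hs => by
    by_contra h4
    obtain ⟨u, hu, h5⟩ := Kc.mono hw hs (not_le.1 h4).le
    rw [zero_smul, add_zero] at h5
    exact h0 ⟨u, hu, h5⟩
  have h4 : ∀ s, sInf {s | Kc M w s} < s → Kc M w s := fun s hs => by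
    obtain ⟨t, ht, hts⟩ := exists_lt_of_csInf_lt ⟨C₀, h2⟩ hs
    exact Kc.mono hw ht hts.le
  have h5 := le_csInf ⟨C₀, h2⟩ h3
  obtain ⟨ε, C, hε, h6⟩ := m4 hn hw hK h5 h4
  obtain ⟨c, hc, h7⟩ := m5 hn hw hK h5 hε h6
  have h8 : 0 < min 1 (c / 2) := by positivity
  have h9 := csInf_le ⟨0, h3⟩ (h7 (sInf {s | Kc M w s} + min 1 (c / 2)) (by linarith)
    (by linarith [min_le_left 1 (c / 2)]) (h4 _ (by linarith)))
  linarith [min_le_right 1 (c / 2)]

end Vale.Agent.P272
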