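import Vale.Agent.P272.PartA
import Vale.Agent.P272.Green
import Vale.Agent.P272.PPa3
import Vale.Agent.P272.PPm2

/-! P272, part P: integral estimates. -/

open MeasureTheory Set Filter Topology Metric Matrix
open scoped ContDiff ComplexConjugate ComplexOrder

noncomputable section

namespace Vale.Agent.P272

open Vale.Agent.P271

variable {n : ℕ} {X : Type} [TopologicalSpace X] [T2Space X] [CompactSpace X]
  [MeasurableSpace X] [BorelSpace X] {M : Model n X}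

/-- The volume depends only on the class. -/
theorem stokes {η : Frm M.toAtl} (hη : IsF M.toAtl η) {u : X → ℝ} (hu : M.Sm u) :
    ∫ p, dt M (η + ddc M.toAtl u) p ∂M.μ = ∫ p, dt M η p ∂M.μ :=
  stokes' hη hu

/-- Uniform exponential integrability of quasi-plurisubharmonic functions. -/
theorem expint [ConnectedSpace X] (hn : 0 < n) {β : Frm M.toAtl} (hβ : IsF M.toAtl β) :
    ∃ a C : ℝ, 0 < a ∧ ∀ u, M.Sm u → NnF M.toAtl (β + ddc M.toAtl u) → ∀ x, (∀ y, u y ≤ u x) →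
      ∫ y, Real.exp (a * (u x - u y)) ∂M.μ ≤ C :=
  expint' hβ

/-- The Alexandrov-Bakelman-Pucci estimate. -/
theorem abp (hn : 0 < n) {w : Frm M.toAtl} (hw : Kae M.toAtl w) (B : ℝ) :
    ∃ C : ℝ, ∀ (v g : X → ℝ), M.Sm v → Continuous g → PosF M.toAtl (w + ddc M.toAtl v) →
      (∀ p, dt M (w + ddc M.toAtl v) p ≤ Real.exp (v p) * g p) → ∫ p, g p ^ 2 ∂M.μ ≤ B →
      ∀ p, -C ≤ v p :=
  abp' hw B

/-- Mass concentration. -/
theorem pop [ConnectedSpace X] (hn : 0 < n) {w : Frm M.toAtl} (hw : Kae M.toAtl w)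
    {V₀ V₁ : ℝ} (hV : 0 < V₀) :
    ∃ c : ℝ, 0 < c ∧ ∀ κ, Kae M.toAtl κ → V₀ ≤ ∫ p, dt M κ p ∂M.μ →
      ∫ p, dt M (κ + w) p ∂M.μ ≤ V₁ → ∀ ν : Measure X, IsFiniteMeasure ν → ν ≪ M.μ →
      ∃ u, M.Sm u ∧ PosF M.toAtl (κ + ddc M.toAtl u) ∧
        c * ν.real univ ≤
          ∫ p, dt M (κ + ddc M.toAtl u) p / dt M (κ + ddc M.toAtl u + w) p ∂ν :=
  pop' hn hw hV

end Vale.Agent.P272
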